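import Crest.Agent.R226.Calc

/-! Row 226: elementary properties of `cst`, `K`, `I`; first variation. -/

set_option autoImplicit false

open Set Filter Metric
open scoped ContDiff Topology InnerProductSpace

namespace Crest.Agent.R226

variable {n : ℕ} {M : Type*} [MetricSpace M]

theorem cst_nonneg (x y : M) : 0 ≤ cst x y := by
  unfold cst; positivity

theorem cst_comm (x y : M) : cst x y = cst y x := by
  unfold cst; rw [dist_comm]

@[simp] theorem cst_self (x : M) : cst x x = 0 := by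
  simp [cst]

theorem continuous_cst : Continuous fun z : M × M => cst z.1 z.2 := by
  unfold cst; fun_prop

theorem basic_key {A B s : ℝ} (h1 : s < 1) :
    A ^ 2 / 2 + s / (1 - s) * (B ^ 2 / 2) - s * ((A + B) ^ 2 / 2) =
      ((1 - s) * A - s * B) ^ 2 / (2 * (1 - s)) := by
  have := (sub_pos.2 h1).ne'
  field_simp
  ring

theorem basic_deriv {φ : ℝ → ℝ} {d : ℝ} (h : HasDerivAt φ d 0) (hφ : ∀ t, 0 < t → φ 0 ≤ φ t) :
    0 ≤ d := by
  refine ge_of_tendsto h.tendsto_slope_zero_right (eventually_nhdsWithin_of_forall fun t ht => ?_)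
  rw [zero_add]
  exact smul_nonneg (inv_pos.2 ht).le (sub_nonneg.2 (hφ t ht))

theorem cst_interp (x m y : M) {s : ℝ} (h0 : 0 ≤ s) (h1 : s < 1) :
    s * cst x y ≤ cst x m + s / (1 - s) * cst m y := by
  have h2 := basic_key (A := dist x m) (B := dist m y) h1
  have h3 : 0 ≤ ((1 - s) * dist x m - s * dist m y) ^ 2 / (2 * (1 - s)) :=
    div_nonneg (sq_nonneg _) (by linarith only [h1])
  have h4 : s * (dist x y ^ 2 / 2) ≤ s * ((dist x m + dist m y) ^ 2 / 2) := by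
    gcongr
    exact dist_triangle _ _ _
  unfold cst
  linarith only [h2, h3, h4]

theorem cst_le_two (x m y : M) : cst x y ≤ 2 * cst x m + 2 * cst m y := by
  have := cst_interp x m y (s := 1 / 2) (by norm_num) (by norm_num)
  norm_num at this
  linarith only [this]

theorem dist_eq_of_cst_interp {x m y : M} {s : ℝ} (h0 : 0 < s) (h1 : s < 1)
    (h : cst x m + s / (1 - s) * cst m y ≤ s * cst x y) :
    dist x m = s * dist x y ∧ dist m y = (1 - s) * dist x y := by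
  have h2 := basic_key (A := dist x m) (B := dist m y) h1
  have h3 : 0 ≤ ((1 - s) * dist x m - s * dist m y) ^ 2 / (2 * (1 - s)) :=
    div_nonneg (sq_nonneg _) (by linarith only [h1])
  have h4 : s * (dist x y ^ 2 / 2) ≤ s * ((dist x m + dist m y) ^ 2 / 2) := by
    gcongr
    exact dist_triangle _ _ _
  unfold cst at h
  have h5 : ((1 - s) * dist x m - s * dist m y) ^ 2 / (2 * (1 - s)) = 0 := by
    linarith only [h, h2, h3, h4]
  have h6 : (1 - s) * dist x m - s * dist m y = 0 := by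
    rcases div_eq_zero_iff.1 h5 with h7 | h7
    · exact pow_eq_zero_iff two_ne_zero |>.1 h7
    · linarith only [h7, h1]
  have h7 : s * ((dist x m + dist m y) ^ 2 / 2) ≤ s * (dist x y ^ 2 / 2) := by
    linarith only [h, h2, h3]
  have h8 : (dist x m + dist m y) ^ 2 ≤ dist x y ^ 2 := by
    linarith only [le_of_mul_le_mul_left h7 h0]
  have h9 : dist x y = dist x m + dist m y :=
    le_antisymm (dist_triangle _ _ _) (le_of_pow_le_pow_left₀ two_ne_zero dist_nonneg h8)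
  rw [h9]
  constructor <;> linarith only [h6]

theorem dist_eq_of_cst_two {x m y : M} (h : 2 * cst x m + 2 * cst m y ≤ cst x y) :
    dist x m = 1 / 2 * dist x y ∧ dist m y = (1 - 1 / 2) * dist x y := by
  refine dist_eq_of_cst_interp (by norm_num) (by norm_num) ?_
  norm_num
  linarith only [h]

theorem abs_cst_sub_le {D : ℝ} (hD : ∀ x y : M, dist x y ≤ D) (x x' y : M) :
    |cst x y - cst x' y| ≤ D * dist x x' := by
  have e : cst x y - cst x' y = (dist x y + dist x' y) / 2 * (dist x y - dist x' y) := by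
    unfold cst
    ring
  rw [e, abs_mul, abs_of_nonneg (by positivity)]
  refine mul_le_mul (by linarith only [hD x y, hD x' y]) (abs_dist_sub_le _ _ _) (abs_nonneg _)
    (dist_nonneg.trans (hD x y))

theorem exists_diam (M : Type*) [MetricSpace M] [CompactSpace M] :
    ∃ D : ℝ, 1 ≤ D ∧ ∀ x y : M, dist x y ≤ D := by
  obtain ⟨C, hC⟩ := Metric.isBounded_iff.1 (isCompact_univ (X := M)).isBounded
  exact ⟨max 1 C, le_max_left _ _, fun x y => (hC (mem_univ x) (mem_univ y)).trans (le_max_right _ _)⟩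

namespace LocGeo

variable (G : LocGeo n M) {a b : P n} {p q : E n}

theorem exists_frame (x : M) : ∃ a ∈ G.F, G.pt a = x := G.surj x

theorem exists_iso_F (ha : a ∈ G.U) :
    ∃ b ∈ G.F, ∃ A : E n ≃ₗᵢ[ℝ] E n, ∀ p, G.ex b (A p) = G.ex a p := by
  obtain ⟨b, hb, e⟩ := G.surj (G.ex a 0)
  exact ⟨b, hb, G.iso a ha b (G.F_sub hb) e.symm⟩

theorem continuousAt_ex (ha : a ∈ G.U) (p : E n) :
    ContinuousAt (fun z : P n × E n => G.ex z.1 z.2) (a, p) :=
  G.cont.continuousAt ((G.U_open.prod isOpen_univ).mem_nhds ⟨ha, mem_univ _⟩)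

theorem continuous_ex (ha : a ∈ G.U) : Continuous (G.ex a) :=
  continuous_iff_continuousAt.2 fun p =>
    ContinuousAt.comp (f := fun p : E n => (a, p)) (G.continuousAt_ex ha p) (by fun_prop)

theorem continuousOn_pt : ContinuousOn G.pt G.U :=
  fun a ha =>
  (ContinuousAt.comp (f := fun a : P n => (a, (0 : E n))) (G.continuousAt_ex ha 0)
    (by fun_prop)).continuousWithinAt

theorem dist_ex_le (ha : a ∈ G.U) (p : E n) (s t : ℝ) :
    dist (G.ex a (s • p)) (G.ex a (t • p)) ≤ |s - t| * ‖p‖ := by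
  obtain ⟨b, hb, e⟩ := G.surj (G.ex a (s • p))
  obtain ⟨q, hq, h⟩ := G.flow a ha b (G.F_sub hb) p s e
  have h1 := G.dist_le b (G.F_sub hb) ((t - s) • q)
  rwa [h, e, add_sub_cancel, norm_smul, hq, Real.norm_eq_abs, abs_sub_comm] at h1

theorem K_dist (ha : a ∈ G.U) (hp : p ∈ G.K a) {s t : ℝ} (hs : s ∈ Icc (0 : ℝ) 1)
    (ht : t ∈ Icc (0 : ℝ) 1) : dist (G.ex a (s • p)) (G.ex a (t • p)) = |s - t| * ‖p‖ := by
  wlog hst : s ≤ t generalizing s t
  · rw [dist_comm, abs_sub_comm]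
    exact this ht hs (le_of_not_ge hst)
  refine le_antisymm (G.dist_ex_le ha p s t) ?_
  have h0 : dist (G.ex a 0) (G.ex a p) = ‖p‖ := hp
  have h1 := G.dist_ex_le ha p 0 s
  have h2 := G.dist_ex_le ha p t 1
  rw [zero_smul, zero_sub, abs_neg, abs_of_nonneg hs.1] at h1
  rw [one_smul, abs_of_nonpos (sub_nonpos.2 ht.2)] at h2
  have h3 := dist_triangle4 (G.ex a 0) (G.ex a (s • p)) (G.ex a (t • p)) (G.ex a p)
  rw [abs_of_nonpos (sub_nonpos.2 hst)]
  linarith only [h0, h1, h2, h3]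

theorem K_smul (ha : a ∈ G.U) (hp : p ∈ G.K a) {t : ℝ} (ht : t ∈ Icc (0 : ℝ) 1) :
    t • p ∈ G.K a := by
  have := G.K_dist ha hp (left_mem_Icc.2 zero_le_one) ht
  rw [zero_smul, zero_sub, abs_neg, ← Real.norm_eq_abs, ← norm_smul] at this
  exact this

theorem cst_K (hp : p ∈ G.K a) : cst (G.pt a) (G.ex a p) = ‖p‖ ^ 2 / 2 := by
  unfold cst; rw [hp]

theorem mem_K_of_le (ha : a ∈ G.U) (h : ‖p‖ ^ 2 / 2 ≤ cst (G.pt a) (G.ex a p)) : p ∈ G.K a := by
  refine le_antisymm (G.dist_le a ha p) (le_of_pow_le_pow_left₀ two_ne_zero dist_nonneg ?_)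
  unfold cst at h
  linarith only [h]

theorem smul_mem_I (ha : a ∈ G.U) (hp : p ∈ G.K a) {t : ℝ} (h0 : 0 ≤ t) (h1 : t < 1) :
    t • p ∈ G.I a := by
  have h2 : 0 < 1 + t := by positivity
  refine ⟨2 / (1 + t), (one_lt_div h2).2 (by linarith only [h1]), ?_⟩
  rw [smul_smul]
  refine G.K_smul ha hp ⟨by positivity, ?_⟩
  rw [div_mul_eq_mul_div, div_le_one h2]
  linarith only [h1]

theorem I_sub_K (ha : a ∈ G.U) : G.I a ⊆ G.K a := by
  rintro p ⟨s, hs, hp⟩
  have h0 : 0 < s := one_pos.trans hs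
  have := G.K_smul ha hp (t := s⁻¹) ⟨by positivity, inv_le_one_of_one_le₀ hs.le⟩
  rwa [inv_smul_smul₀ h0.ne'] at this

theorem mem_K_of_norm_le (ha : a ∈ G.U) (hp : ‖p‖ ≤ G.ρ) : p ∈ G.K a := G.loc_dist a ha p hp

theorem mem_I_of_norm_lt (ha : a ∈ G.U) (hp : ‖p‖ < G.ρ) : p ∈ G.I a := by
  have hρ := G.ρ_pos
  have h2 : 0 < G.ρ + ‖p‖ := by positivity
  refine ⟨2 * G.ρ / (G.ρ + ‖p‖), (one_lt_div h2).2 (by linarith only [hp]),
    G.mem_K_of_norm_le ha ?_⟩
  rw [norm_smul, Real.norm_of_nonneg (by positivity), div_mul_eq_mul_div, div_le_iff₀ h2]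
  nlinarith only [hp, hρ]

theorem K_iso {A : E n ≃ₗᵢ[ℝ] E n} (h : ∀ p, G.ex b (A p) = G.ex a p) (p : E n) :
    A p ∈ G.K b ↔ p ∈ G.K a := by
  have h0 := h 0
  rw [map_zero] at h0
  simp only [K, pt, mem_ofPred_eq, h0, h p, LinearIsometryEquiv.norm_map]

theorem I_iso {A : E n ≃ₗᵢ[ℝ] E n} (h : ∀ p, G.ex b (A p) = G.ex a p) (p : E n) :
    A p ∈ G.I b ↔ p ∈ G.I a := by
  simp only [I, mem_ofPred_eq, ← map_smul A, G.K_iso h]

theorem isClosed_K (ha : a ∈ G.U) : IsClosed (G.K a) :=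
  isClosed_eq (continuous_const.dist (G.continuous_ex ha)) continuous_norm

theorem isCompact_KF [CompactSpace M] : IsCompact G.KF := by
  obtain ⟨D, -, hD⟩ := exists_diam M
  refine (G.F_compact.prod (isCompact_closedBall (0 : E n) D)).of_isClosed_subset ?_
    fun z hz => ⟨hz.1, mem_closedBall_zero_iff.2 (hz.2.symm.trans_le (hD _ _))⟩
  have hc : IsClosed (G.F ×ˢ (univ : Set (E n))) := G.F_compact.isClosed.prod isClosed_univ
  have h1 : ContinuousOn (fun z : P n × E n => G.ex z.1 z.2) (G.F ×ˢ univ) :=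
    G.cont.mono (prod_mono G.F_sub Subset.rfl)
  have h2 : ContinuousOn (fun z : P n × E n => G.pt z.1) (G.F ×ˢ univ) :=
    G.continuousOn_pt.comp continuousOn_fst fun z hz => G.F_sub hz.1
  have h3 : ContinuousOn (fun z : P n × E n => dist (G.pt z.1) (G.ex z.1 z.2)) (G.F ×ˢ univ) :=
    continuous_dist.comp_continuousOn (h2.prodMk h1)
  have h4 := hc.isClosed_eq h3 (g := fun z => ‖z.2‖) (by fun_prop)
  convert h4 using 1
  ext z
  simp [KF, K]

theorem isCompact_K [CompactSpace M] (ha : a ∈ G.U) : IsCompact (G.K a) := by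
  obtain ⟨D, -, hD⟩ := exists_diam M
  exact (isCompact_closedBall (0 : E n) D).of_isClosed_subset (G.isClosed_K ha)
    fun p hp => mem_closedBall_zero_iff.2 (Eq.trans_le (Eq.symm hp) (hD _ _))

/-- the geodesic seen from the point at time `s`. -/
theorem exists_cont (ha : a ∈ G.U) (hb : b ∈ G.U) {s : ℝ} (h : G.pt b = G.ex a (s • p)) :
    ∃ q : E n, ‖q‖ = ‖p‖ ∧ ∀ t : ℝ, G.ex b (t • q) = G.ex a ((s + t) • p) :=
  G.flow a ha b hb p s h

/-- first variation: `f ξ ≥ (‖p‖ - ‖ξ‖)² / 2` for `‖ξ‖ ≤ ‖p‖` with equality along `ξ = t p`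
(for `p = 0` use `0 ≤ f ξ ≤ ‖ξ‖² / 2`). -/
theorem lg_eq_of_differentiableAt (ha : a ∈ G.U) (hp : p ∈ G.K a)
    (hd : DifferentiableAt ℝ (fun ξ : E n => cst (G.ex a ξ) (G.ex a p)) 0) :
    G.lg a (G.ex a p) = p := by
  set f : E n → ℝ := fun ξ => cst (G.ex a ξ) (G.ex a p) with hf
  have hp0 : dist (G.ex a 0) (G.ex a p) = ‖p‖ := hp
  have f0 : f 0 = ‖p‖ ^ 2 / 2 := G.cst_K hp
  have hline : ∀ v : E n, HasDerivAt (fun t : ℝ => f (t • v)) ⟪gradient f 0, v⟫_ℝ 0 := fun v => by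
    rw [inner_gradient]
    have h1 : HasDerivAt (fun t : ℝ => t • v) v 0 := by simpa using (hasDerivAt_id (0 : ℝ)).smul_const v
    exact HasFDerivAt.comp_hasDerivAt_of_eq 0 hd.hasFDerivAt h1 (by simp)
  have h1 : ∀ v : E n, 0 ≤ ⟪gradient f 0, v⟫_ℝ + ‖p‖ * ‖v‖ := fun v => by
    have := (hline v).add ((hasDerivAt_id (0 : ℝ)).mul_const (‖p‖ * ‖v‖))
    rw [one_mul] at this
    refine basic_deriv this fun t ht => ?_
    have a1 := G.dist_le a ha (t • v)
    rw [norm_smul, Real.norm_of_nonneg ht.le] at a1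
    have a2 := dist_triangle (G.ex a 0) (G.ex a (t • v)) (G.ex a p)
    have a3 : ‖p‖ * ‖p‖ ≤ ‖p‖ * (t * ‖v‖ + dist (G.ex a (t • v)) (G.ex a p)) :=
      mul_le_mul_of_nonneg_left (by linarith only [a1, a2, hp0]) (norm_nonneg _)
    simp only [Pi.add_apply, zero_smul, f0, id, zero_mul, add_zero]
    simp only [hf, cst]
    nlinarith only [a3, sq_nonneg (dist (G.ex a (t • v)) (G.ex a p) - ‖p‖)]
  have h2 : 0 ≤ -‖p‖ ^ 2 - ⟪gradient f 0, p⟫_ℝ := by
    have a0 : HasDerivAt (fun t : ℝ => ((t - 1) * ‖p‖) ^ 2 / 2) (-‖p‖ ^ 2) 0 := by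
      refine (((((hasDerivAt_id (0 : ℝ)).sub_const 1).mul_const ‖p‖).pow 2).div_const 2).congr_deriv ?_
      simp
      ring
    refine basic_deriv (a0.sub (hline p)) fun t _ => ?_
    have a1 := G.dist_ex_le ha p t 1
    rw [one_smul] at a1
    have a2 : dist (G.ex a (t • p)) (G.ex a p) ^ 2 ≤ (|t - 1| * ‖p‖) ^ 2 := by gcongr
    rw [mul_pow, sq_abs] at a2
    simp only [Pi.sub_apply, zero_smul, f0]
    simp only [hf, cst]
    linarith only [a2]
  have h3 := h1 (-gradient f 0)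
  rw [inner_neg_right, real_inner_self_eq_norm_sq, norm_neg] at h3
  have h4 := norm_add_sq_real (gradient f 0) p
  have h5 : ‖gradient f 0 + p‖ ^ 2 ≤ 0 := by
    nlinarith only [h2, h3, h4, sq_nonneg (‖gradient f 0‖ - ‖p‖)]
  have h6 : gradient f 0 + p = 0 :=
    norm_eq_zero.1 (pow_eq_zero_iff two_ne_zero |>.1 (le_antisymm h5 (sq_nonneg _)))
  exact (eq_neg_of_add_eq_zero_right h6).symm

theorem contDiffAt_cc_of_lt (ha : a ∈ G.U) (hb : b ∈ G.U)
    (h : dist (G.ex a p) (G.ex b q) < G.ρ) : ContDiffAt ℝ ∞ G.cc ((a, p), (b, q)) :=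
  G.loc_smooth a ha b hb p q h

theorem lg_ex_of_lt (ha : a ∈ G.U) (hp : ‖p‖ < G.ρ) : G.lg a (G.ex a p) = p := by
  have hK := G.mem_K_of_norm_le ha hp.le
  refine G.lg_eq_of_differentiableAt ha hK ?_
  have h1 := G.contDiffAt_cc_of_lt (p := 0) (q := p) ha ha (Eq.trans_lt hK hp)
  exact DifferentiableAt.comp (f := fun ξ : E n => (((a, ξ), (a, p)) : (P n × E n) × (P n × E n))) 0
    (h1.differentiableAt (by simp)) (by fun_prop)

/-- a geodesic determines its velocity. -/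
theorem eq_of_ex_smul (ha : a ∈ G.U) {ε : ℝ} (hε : 0 < ε)
    (h : ∀ t ∈ Ioo (0 : ℝ) ε, G.ex a (t • p) = G.ex a (t • q)) : p = q := by
  have h1 : ∀ v : E n, ∀ᶠ t : ℝ in 𝓝[>] 0, ‖t • v‖ < G.ρ := fun v => by
    refine nhdsWithin_le_nhds ?_
    have : ContinuousAt (fun t : ℝ => ‖t • v‖) 0 := by fun_prop
    exact this.eventually (gt_mem_nhds (by simpa using G.ρ_pos))
  obtain ⟨t, h2, h3, h4⟩ := ((h1 p).and ((h1 q).and (Ioo_mem_nhdsGT hε))).exists
  have h5 := G.lg_ex_of_lt ha h2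
  rw [h t h4, G.lg_ex_of_lt ha h3] at h5
  exact (smul_right_injective _ h4.1.ne' h5).symm

end LocGeo

end Crest.Agent.R226
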