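import Crest.Agent.R226.Calc

/-! Row 226: calculus for the local quasi-convexity of the branch. -/

set_option autoImplicit false

open Set Filter Metric
open scoped ContDiff Topology InnerProductSpace

namespace Crest.Agent.R226

theorem qc_line {X : Type*} [NormedAddCommGroup X] [NormedSpace ℝ X] {Φ : X → ℝ} {k : ℕ}
    {w x : X} {s : ℝ} (h : ContDiffAt ℝ 5 Φ (w + s • x)) (hk : k < 5) (m : Fin k → X) :
    HasDerivAt (fun s : ℝ => iteratedFDeriv ℝ k Φ (w + s • x) m)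
      (iteratedFDeriv ℝ (k + 1) Φ (w + s • x) (Fin.cons x m)) s := by
  have h1 : DifferentiableAt ℝ (iteratedFDeriv ℝ k Φ) (w + s • x) :=
    h.differentiableAt_iteratedFDeriv (by exact_mod_cast hk)
  have h2 : HasDerivAt (fun s : ℝ => w + s • x) x s := by
    simpa using ((hasDerivAt_id s).smul_const x).const_add w
  have h3 := h1.hasFDerivAt.comp_hasDerivAt s h2
  have h4 := (ContinuousMultilinearMap.apply ℝ (fun _ : Fin k => X) ℝ m).hasFDerivAt.comp_hasDerivAt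
    s h3
  rw [iteratedFDeriv_succ_apply_left]
  exact h4

theorem qc_t0 {φ φ' : ℝ → ℝ} {B : ℝ} (h : ∀ s ∈ Icc (0 : ℝ) 1, HasDerivAt φ (φ' s) s)
    (hB : ∀ s ∈ Icc (0 : ℝ) 1, |φ' s| ≤ B) : ∀ s ∈ Icc (0 : ℝ) 1, |φ s - φ 0| ≤ B := by
  intro s hs
  have h0 : 0 ≤ B := (abs_nonneg _).trans (hB 0 ⟨le_rfl, zero_le_one⟩)
  have h1 := (convex_Icc (0 : ℝ) 1).norm_image_sub_le_of_norm_hasDerivWithin_le
    (fun s hs => (h s hs).hasDerivWithinAt) hB ⟨le_rfl, zero_le_one⟩ hs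
  refine h1.trans ?_
  rw [sub_zero, Real.norm_eq_abs, abs_of_nonneg hs.1]
  exact mul_le_of_le_one_right h0 hs.2

theorem qc_t1 {φ φ₁ φ₂ : ℝ → ℝ} {B : ℝ} (h : ∀ s ∈ Icc (0 : ℝ) 1, HasDerivAt φ (φ₁ s) s)
    (h₁ : ∀ s ∈ Icc (0 : ℝ) 1, HasDerivAt φ₁ (φ₂ s) s)
    (hB : ∀ s ∈ Icc (0 : ℝ) 1, |φ₂ s| ≤ B) :
    ∀ s ∈ Icc (0 : ℝ) 1, |φ s - φ 0 - s * φ₁ 0| ≤ B := by
  intro s hs
  have h2 := qc_t0 (φ := fun s => φ s - s * φ₁ 0) (φ' := fun s => φ₁ s - φ₁ 0)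
    (fun s hs => ((h s hs).sub ((hasDerivAt_id s).mul_const (φ₁ 0))).congr_deriv (by ring))
    (qc_t0 h₁ hB) s hs
  convert h2 using 2
  ring

theorem qc_t2 {φ φ₁ φ₂ φ₃ : ℝ → ℝ} {B : ℝ} (h : ∀ s ∈ Icc (0 : ℝ) 1, HasDerivAt φ (φ₁ s) s)
    (h₁ : ∀ s ∈ Icc (0 : ℝ) 1, HasDerivAt φ₁ (φ₂ s) s)
    (h₂ : ∀ s ∈ Icc (0 : ℝ) 1, HasDerivAt φ₂ (φ₃ s) s)
    (hB : ∀ s ∈ Icc (0 : ℝ) 1, |φ₃ s| ≤ B) : |φ 1 - φ 0 - φ₁ 0 - φ₂ 0 / 2| ≤ B := by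
  have h2 := qc_t0 (φ := fun s => φ s - s * φ₁ 0 - s * s * (φ₂ 0 / 2))
    (φ' := fun s => φ₁ s - φ₁ 0 - s * φ₂ 0)
    (fun s hs => (((h s hs).sub ((hasDerivAt_id s).mul_const (φ₁ 0))).sub
        (((hasDerivAt_id s).mul (hasDerivAt_id s)).mul_const (φ₂ 0 / 2))).congr_deriv
          (by simp only [id]; ring))
    (qc_t1 h₁ h₂ hB) 1 ⟨zero_le_one, le_rfl⟩
  convert h2 using 2
  ring

variable {n : ℕ}

/-- the direction of the velocity variable. -/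
def qcE (η : E n) : (P n × E n) × E n := ((0, η), 0)

/-- the direction of the base variable. -/
def qcX (ξ : E n) : (P n × E n) × E n := (0, ξ)

theorem qc_normE (η : E n) : ‖qcE η‖ = ‖η‖ := by
  simp [qcE, Prod.norm_def]

theorem qc_normX (ξ : E n) : ‖qcX ξ‖ = ‖ξ‖ := by
  simp [qcX, Prod.norm_def]

theorem qc_addE (a : P n) (p ξ η : E n) (s : ℝ) :
    ((a, p), ξ) + s • qcE η = ((a, p + s • η), ξ) := by
  simp [qcE]

theorem qc_addX (z : P n × E n) (ξ : E n) (s : ℝ) :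
    (z, (0 : E n)) + s • qcX ξ = (z, s • ξ) := by
  simp [qcX]

theorem qc_step {c : (P n × E n) × E n → ℝ} {O : Set (P n × E n)} (hO : IsOpen O)
    (hc : ∀ z ∈ O, ContDiffAt ℝ 5 c (z, 0)) {k : ℕ} (hk : k < 5)
    {m : Fin k → (P n × E n) × E n} {u : E n → ℝ}
    (hu : ∀ z ∈ O, iteratedFDeriv ℝ k c (z, 0) m = u z.2) {z : P n × E n} (hz : z ∈ O)
    (η : E n) {d : ℝ} (hd : HasDerivAt (fun s : ℝ => u (z.2 + s • η)) d 0) :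
    iteratedFDeriv ℝ (k + 1) c (z, 0) (Fin.cons (qcE η) m) = d := by
  obtain ⟨a, p⟩ := z
  have h1 := qc_line (Φ := c) (w := ((a, p), 0)) (x := qcE η) (s := 0)
    (by simpa using hc _ hz) hk m
  rw [zero_smul, add_zero] at h1
  refine h1.unique (hd.congr_of_eventuallyEq ?_)
  have h2 : ContinuousAt (fun s : ℝ => (a, p + s • η)) 0 := by fun_prop
  have h3 : O ∈ 𝓝 ((fun s : ℝ => (a, p + s • η)) 0) := by simpa using hO.mem_nhds hz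
  filter_upwards [h2.preimage_mem_nhds h3] with s hs
  rw [qc_addE]
  exact hu _ hs

theorem qc_inner_line (p η ξ : E n) :
    HasDerivAt (fun s : ℝ => ⟪p + s • η, ξ⟫_ℝ) ⟪η, ξ⟫_ℝ 0 := by
  simp only [inner_add_left, real_inner_smul_left]
  simpa using ((hasDerivAt_id (0 : ℝ)).mul_const ⟪η, ξ⟫_ℝ).const_add ⟪p, ξ⟫_ℝ

theorem qc_normsq_line (p η : E n) (t : ℝ) :
    HasDerivAt (fun s : ℝ => ‖p + s • η‖ ^ 2) (2 * ⟪p + t • η, η⟫_ℝ) t := by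
  have h2 : HasDerivAt (fun s : ℝ => p + s • η) η t := by
    simpa using ((hasDerivAt_id t).smul_const η).const_add p
  exact h2.norm_sq

/-- the values of the derivatives at `ξ = 0`. -/
theorem qc_values {c : (P n × E n) × E n → ℝ} {O : Set (P n × E n)} (hO : IsOpen O)
    (hc : ∀ z ∈ O, ContDiffAt ℝ 5 c (z, 0)) (hval : ∀ z ∈ O, c (z, 0) = ‖z.2‖ ^ 2 / 2)
    (hgrad : ∀ z ∈ O, ∀ v, fderiv ℝ c (z, 0) (0, v) = -⟪z.2, v⟫_ℝ) (ξ η : E n)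
    {z : P n × E n} (hz : z ∈ O) :
    iteratedFDeriv ℝ 1 c (z, 0) ![qcE η] = ⟪z.2, η⟫_ℝ ∧
    iteratedFDeriv ℝ 2 c (z, 0) ![qcE η, qcE η] = ‖η‖ ^ 2 ∧
    iteratedFDeriv ℝ 2 c (z, 0) ![qcX ξ, qcE η] = -⟪η, ξ⟫_ℝ ∧
    iteratedFDeriv ℝ 3 c (z, 0) ![qcX ξ, qcE η, qcE η] = 0 ∧
    iteratedFDeriv ℝ 4 c (z, 0) ![qcX ξ, qcX ξ, qcE η, qcE η] =
      iteratedFDeriv ℝ 4 c (z, 0) ![qcE η, qcE η, qcX ξ, qcX ξ] := by
  have a1 : ∀ z ∈ O, iteratedFDeriv ℝ 1 c (z, 0) ![qcE η] = ⟪z.2, η⟫_ℝ := fun z hz =>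
    qc_step hO hc (k := 0) (by norm_num) (m := ![]) (u := fun p => ‖p‖ ^ 2 / 2)
      (fun z hz => hval z hz) hz η
      (((qc_normsq_line z.2 η 0).div_const 2).congr_deriv (by simp))
  have a2 : iteratedFDeriv ℝ 2 c (z, 0) ![qcE η, qcE η] = ‖η‖ ^ 2 :=
    qc_step hO hc (k := 1) (by norm_num) (m := ![qcE η]) (u := fun p => ⟪p, η⟫_ℝ) a1 hz η
      (real_inner_self_eq_norm_sq η ▸ qc_inner_line z.2 η η)
  have b1 : ∀ z ∈ O, iteratedFDeriv ℝ 1 c (z, 0) ![qcX ξ] = -⟪z.2, ξ⟫_ℝ := fun z hz => by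
    rw [iteratedFDeriv_one_apply]
    exact hgrad z hz ξ
  have b2 : ∀ z ∈ O, iteratedFDeriv ℝ 2 c (z, 0) ![qcE η, qcX ξ] = -⟪η, ξ⟫_ℝ := fun z hz =>
    qc_step hO hc (k := 1) (by norm_num) (m := ![qcX ξ]) (u := fun p => -⟪p, ξ⟫_ℝ) b1 hz η
      (qc_inner_line z.2 η ξ).neg
  have b3 : iteratedFDeriv ℝ 3 c (z, 0) ![qcE η, qcE η, qcX ξ] = 0 :=
    qc_step hO hc (k := 2) (by norm_num) (m := ![qcE η, qcX ξ]) (u := fun _ => -⟪η, ξ⟫_ℝ) b2 hz η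
      (hasDerivAt_const _ _)
  refine ⟨a1 z hz, a2, ?_, ?_, ?_⟩
  · rw [← b2 z hz, ← iteratedFDeriv_perm ((hc z hz).of_le (by norm_num)) ![qcE η, qcX ξ]
      (Equiv.swap 0 1)]
    congr 1
    funext i
    fin_cases i <;> rfl
  · rw [← b3, ← iteratedFDeriv_perm ((hc z hz).of_le (by norm_num)) ![qcE η, qcE η, qcX ξ]
      (Equiv.swap 0 2)]
    congr 1
    funext i
    fin_cases i <;> rfl
  · rw [← iteratedFDeriv_perm ((hc z hz).of_le (by norm_num)) ![qcE η, qcE η, qcX ξ, qcX ξ]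
      (Equiv.swap 0 2 * Equiv.swap 1 3)]
    congr 1
    funext i
    fin_cases i <;> rfl

/-- Taylor expansions in `ξ` of the first two derivatives in the direction `η`. -/
theorem qc_taylor {c : (P n × E n) × E n → ℝ} {O : Set (P n × E n)} (hO : IsOpen O)
    (hc : ∀ z ∈ O, ContDiffAt ℝ 5 c (z, 0)) (hval : ∀ z ∈ O, c (z, 0) = ‖z.2‖ ^ 2 / 2)
    (hgrad : ∀ z ∈ O, ∀ v, fderiv ℝ c (z, 0) (0, v) = -⟪z.2, v⟫_ℝ) (ξ η : E n)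
    {z : P n × E n} (hz : z ∈ O) {C : ℝ}
    (hb : ∀ s ∈ Icc (0 : ℝ) 1, ContDiffAt ℝ 5 c (z, s • ξ) ∧
      ∀ i ≤ 5, ‖iteratedFDeriv ℝ i c (z, s • ξ)‖ ≤ C) :
    |iteratedFDeriv ℝ 1 c (z, ξ) ![qcE η] - ⟪z.2, η⟫_ℝ + ⟪η, ξ⟫_ℝ| ≤ C * (‖ξ‖ ^ 2 * ‖η‖) ∧
    |iteratedFDeriv ℝ 2 c (z, ξ) ![qcE η, qcE η] - ‖η‖ ^ 2 -
      iteratedFDeriv ℝ 4 c (z, 0) ![qcE η, qcE η, qcX ξ, qcX ξ] / 2| ≤
        C * (‖ξ‖ ^ 3 * ‖η‖ ^ 2) := by
  obtain ⟨v1, v2, v3, v4, v5⟩ := qc_values hO hc hval hgrad ξ η hz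
  have hl : ∀ (k : ℕ) (_ : k < 5) (m : Fin k → (P n × E n) × E n), ∀ s ∈ Icc (0 : ℝ) 1,
      HasDerivAt (fun s : ℝ => iteratedFDeriv ℝ k c (z, s • ξ) m)
        (iteratedFDeriv ℝ (k + 1) c (z, s • ξ) (Fin.cons (qcX ξ) m)) s := by
    intro k hk m s hs
    have := qc_line (Φ := c) (w := (z, 0)) (x := qcX ξ) (s := s)
      (by rw [qc_addX]; exact (hb s hs).1) hk m
    simpa only [qc_addX] using this
  have hbd : ∀ (k : ℕ) (_ : k ≤ 5) (m : Fin k → (P n × E n) × E n), ∀ s ∈ Icc (0 : ℝ) 1,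
      |iteratedFDeriv ℝ k c (z, s • ξ) m| ≤ C * ∏ i, ‖m i‖ := fun k hk m s hs =>
    ((iteratedFDeriv ℝ k c (z, s • ξ)).le_opNorm m).trans
      (mul_le_mul_of_nonneg_right ((hb s hs).2 k hk) (by positivity))
  constructor
  · have h := qc_t1 (hl 1 (by norm_num) ![qcE η]) (hl 2 (by norm_num) ![qcX ξ, qcE η])
      (hbd 3 (by norm_num) ![qcX ξ, qcX ξ, qcE η]) 1 ⟨zero_le_one, le_rfl⟩
    have v3' : iteratedFDeriv ℝ (1 + 1) c (z, 0) (Fin.cons (qcX ξ) ![qcE η]) = -⟪η, ξ⟫_ℝ := v3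
    simp only [one_smul, zero_smul, one_mul, v1, v3', sub_neg_eq_add] at h
    refine h.trans_eq ?_
    simp only [Fin.prod_univ_succ, Matrix.cons_val_zero, Matrix.cons_val_succ, qc_normE, qc_normX,
      Fin.prod_univ_zero]
    ring
  · have h := qc_t2 (hl 2 (by norm_num) ![qcE η, qcE η])
      (hl 3 (by norm_num) ![qcX ξ, qcE η, qcE η])
      (hl 4 (by norm_num) ![qcX ξ, qcX ξ, qcE η, qcE η])
      (hbd 5 (by norm_num) ![qcX ξ, qcX ξ, qcX ξ, qcE η, qcE η])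
    have v4' : iteratedFDeriv ℝ (2 + 1) c (z, 0) (Fin.cons (qcX ξ) ![qcE η, qcE η]) = 0 := v4
    have v5' : iteratedFDeriv ℝ (3 + 1) c (z, 0) (Fin.cons (qcX ξ) ![qcX ξ, qcE η, qcE η]) =
      iteratedFDeriv ℝ 4 c (z, 0) ![qcE η, qcE η, qcX ξ, qcX ξ] := v5
    simp only [one_smul, zero_smul, v2, v4', v5', sub_zero] at h
    refine h.trans_eq ?_
    simp only [Fin.prod_univ_succ, Matrix.cons_val_zero, Matrix.cons_val_succ, qc_normE, qc_normX,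
      Fin.prod_univ_zero]
    ring

/-- the algebraic inequality. -/
theorem qc_alg {x y i ip g₁ g₂ d C C' D κ : ℝ} (hx : 0 < x) (hy : 0 < y) (hκ : 0 < κ)
    (hC' : 0 ≤ C') (hip : |ip| ≤ D * y)
    (h1 : |g₁ - ip + i| ≤ C * (x ^ 2 * y)) (h2 : |g₂ - y ^ 2 - d / 2| ≤ C * (x ^ 3 * y ^ 2))
    (hd : d ≤ κ * x ^ 2 * y ^ 2 + C' * x * y * |i|)
    (hs : (C' * (C + 2 * κ * D) + C) * x ≤ κ)
    (h0 : ip - g₁ + κ * x ^ 2 * (2 * ip) = 0) : 0 < y ^ 2 - g₂ + κ * x ^ 2 * (2 * y ^ 2) := by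
  have hi : |i| ≤ (C + 2 * κ * D) * (x ^ 2 * y) := by
    have e : i = (g₁ - ip + i) - κ * x ^ 2 * 2 * ip := by linarith
    have h3 : |κ * x ^ 2 * 2 * ip| ≤ κ * x ^ 2 * 2 * (D * y) := by
      rw [abs_mul, abs_of_pos (by positivity)]
      exact mul_le_mul_of_nonneg_left hip (by positivity)
    calc |i| = |(g₁ - ip + i) - κ * x ^ 2 * 2 * ip| := by rw [← e]
      _ ≤ |g₁ - ip + i| + |κ * x ^ 2 * 2 * ip| := abs_sub _ _
      _ ≤ _ := by nlinarith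
  have h4 : C' * x * y * |i| ≤ C' * x * y * ((C + 2 * κ * D) * (x ^ 2 * y)) :=
    mul_le_mul_of_nonneg_left hi (by positivity)
  have h5 := (abs_le.1 h2).2
  have h6 : (C' * (C + 2 * κ * D) + C) * x * (x ^ 2 * y ^ 2) ≤ κ * (x ^ 2 * y ^ 2) :=
    mul_le_mul_of_nonneg_right hs (by positivity)
  have h7 : 0 < κ * (x ^ 2 * y ^ 2) := by positivity
  have h8 : 0 ≤ C' * x * y * |i| := by positivity
  nlinarith

end Crest.Agent.R226
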