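import Crest.Agent.R226.Hess
import Crest.Agent.R226.BranchAuxQ

/-! Row 226, Step 2: the branch cost near non-focal points and local quasi-convexity. -/

set_option autoImplicit false

open Set Filter Metric
open scoped ContDiff Topology InnerProductSpace

namespace Crest.Agent.R226

namespace LocGeo

variable {n : ℕ} {M : Type*} [MetricSpace M] [CompactSpace M] (G : LocGeo n M)

/-- the smooth branch `ĉ` of the cost near a compact non-focal set `Z`. -/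
structure IsBranch (Z : Set (P n × E n)) (ε r θ C : ℝ) (ĉ : (P n × E n) × E n → ℝ)
    (μ : (P n × E n) × E n → E n) : Prop where
  smooth : ∀ z ∈ cthickening ε Z, ∀ ξ : E n, ‖ξ‖ ≤ ε → ContDiffAt ℝ 5 ĉ (z, ξ)
  val : ∀ z ∈ cthickening ε Z, ĉ (z, 0) = ‖z.2‖ ^ 2 / 2
  grad : ∀ z ∈ cthickening ε Z, ∀ v, fderiv ℝ ĉ (z, 0) (0, v) = -⟪z.2, v⟫_ℝ
  ge : ∀ z ∈ cthickening ε Z, ∀ ξ : E n, ‖ξ‖ ≤ ε → cst (G.ex z.1 ξ) (G.ex z.1 z.2) ≤ ĉ (z, ξ)
  growth : ∀ z ∈ cthickening ε Z, ∀ ξ : E n, ‖ξ‖ ≤ ε → ∀ u : E n, ‖u‖ ≤ r →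
    ĉ (z, ξ) + θ * ‖u - μ (z, ξ)‖ ^ 2 ≤ G.En z.1 ξ ((1 / 2 : ℝ) • z.2 + u) z.2
  μ_le : ∀ z ∈ cthickening ε Z, ∀ ξ : E n, ‖ξ‖ ≤ ε → ‖μ (z, ξ)‖ ≤ C * ‖ξ‖
  eq : ∀ z ∈ thickening ε Z, z ∈ G.IU →
    ĉ =ᶠ[𝓝 (z, 0)] fun w => cst (G.ex w.1.1 w.2) (G.ex w.1.1 w.1.2)

theorem br_gradient_add (f : E n → ℝ) (c : E n) :
    gradient (fun u => f (c + u)) = fun x => gradient f (c + x) := by
  funext x
  unfold gradient
  rw [fderiv_comp_add_left]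

theorem br_hess_add (f : E n → ℝ) (c : E n) : hess (fun u => f (c + u)) 0 = hess f c := by
  unfold hess
  rw [br_gradient_add, fderiv_comp_add_left, add_zero]

theorem br_mem {X : Type*} [MetricSpace X] {Z : Set X} (hZ : IsCompact Z) {ε : ℝ} (hε : 0 ≤ ε)
    {z : X} (hz : z ∈ cthickening ε Z) {ξ : E n} (hξ : ‖ξ‖ ≤ ε) :
    (z, ξ) ∈ cthickening ε (Z ×ˢ ({0} : Set (E n))) := by
  rw [hZ.cthickening_eq_biUnion_closedBall hε] at hz
  obtain ⟨z', hz', h⟩ := mem_iUnion₂.1 hz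
  refine mem_cthickening_of_dist_le _ (z', 0) _ _ ⟨hz', rfl⟩ ?_
  rw [Prod.dist_eq, dist_zero_right]
  exact max_le h hξ

theorem br_lg {a : P n} {q : E n} (ha : a ∈ G.U) (hq : q ∈ G.I a) {r : ℝ} (hr : 0 < r) :
    ∀ᶠ w : P n × M in 𝓝 (a, G.ex a q), ∃ q', dist q' q < r ∧ G.ex w.1 q' = w.2 := by
  have hR := G.reg_of_mem_I ha hq
  have hS := G.sm_of_reg hR
  obtain ⟨c1, c2⟩ := hS.eventually_lg' ha
  have t1 : Tendsto (fun w : P n × M => (w.1, (a, G.lg a w.2))) (𝓝 (a, G.ex a q))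
      (𝓝 (a, (a, q))) := by
    refine continuousAt_fst.tendsto.prodMk_nhds (tendsto_const_nhds.prodMk_nhds ?_)
    have := c1.tendsto.comp (continuousAt_snd (p := (a, G.ex a q))).tendsto
    rwa [G.lg_ex ha hq] at this
  have t2 := (G.contDiffAt_lg ha ha hR).continuousAt.tendsto.comp t1
  simp only [G.lg_ex ha hq] at t2
  filter_upwards [t1.eventually (hS.eventually_lg ha ha), t2.eventually (ball_mem_nhds q hr),
    (continuousAt_snd (p := (a, G.ex a q))).tendsto.eventually c2] with w h1 h2 h3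
  exact ⟨_, h2, h1.2.1.trans h3.2⟩

/-- Proof: `unif_locmin` (`k = 5`) for `Φ ((z, ξ), u) = En z.1 ξ (z.2/2 + u) z.2` on `Z × {0}`,
`ĉ l = Φ (l, μ l)`; `eventually_crit` + compactness give `μ (z, 0) = 0`, `val`, `grad` (envelope
theorem and `lg_ex`); `unif_bound` + `taylor0` give `μ_le`; `cst_le_two` gives `ge`;
`eventually_midpoint` + `Sm.eventually_lg'`/`contDiffAt_lg` give `eq`. -/
theorem exists_branch {Z : Set (P n × E n)} (hZ : IsCompact Z) (hZK : Z ⊆ G.KF)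
    (hW : ∀ z ∈ Z, ∀ u, u ≠ 0 → 0 < ⟪G.W z u, u⟫_ℝ) :
    ∃ ε > 0, ∃ r > 0, ∃ θ > 0, ∃ C ≥ 0, ∃ ĉ μ, G.IsBranch Z ε r θ C ĉ μ := by
  have hU : ∀ z ∈ Z, z.1 ∈ G.U := fun z hz => G.F_sub (hZK hz).1
  set Φ : ((P n × E n) × E n) × E n → ℝ :=
    fun w => G.En w.1.1.1 w.1.2 ((1 / 2 : ℝ) • w.1.1.2 + w.2) w.1.1.2 with hΦ
  have hZ' : IsCompact (Z ×ˢ ({0} : Set (E n))) := hZ.prod isCompact_singleton
  have hcr : ∀ z : P n × E n, gradient (fun m => G.En z.1 0 m z.2) ((1 / 2 : ℝ) • z.2) = 0 →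
      gradient (fun u => Φ ((z, 0), u)) 0 = 0 := by
    intro z h
    have := congrFun (br_gradient_add (fun m => G.En z.1 0 m z.2) ((1 / 2 : ℝ) • z.2)) 0
    rw [add_zero, h] at this
    exact this
  obtain ⟨θ, hθ, r, hr, ε₀, hε₀, μ, hμ⟩ := unif_locmin (Φ := Φ) hZ' 5
    (by
      rintro ⟨z, _⟩ ⟨hz, rfl⟩
      have h1 := G.contDiffAt_En (hU z hz) (hZK hz).2
      have h2 : ContDiff ℝ ∞ fun w : ((P n × E n) × E n) × E n =>
          ((w.1.1, (w.1.2, (1 / 2 : ℝ) • w.1.1.2 + w.2)) : (P n × E n) × (E n × E n)) := by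
        fun_prop
      exact ContDiffAt.comp (g := fun w : (P n × E n) × (E n × E n) =>
        G.En w.1.1 w.2.1 w.2.2 w.1.2) _ (by simpa using h1) h2.contDiffAt)
    (by
      rintro ⟨z, _⟩ ⟨hz, rfl⟩
      exact hcr z (G.eventually_crit (hU z hz) (hZK hz).2).self_of_nhds.2.1)
    (by
      rintro ⟨z, _⟩ ⟨hz, rfl⟩ u hu
      have := br_hess_add (fun m => G.En z.1 0 m z.2) ((1 / 2 : ℝ) • z.2)
      exact (hW z hz u hu).trans_eq (congrArg (fun L : E n →L[ℝ] E n => ⟪L u, u⟫_ℝ) this.symm))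
  obtain ⟨ε₁, hε₁, C, hC, hb⟩ := unif_bound (Φ := μ) hZ' 1 fun l hl =>
    (hμ l (self_subset_cthickening _ hl)).1.of_le (by norm_num)
  obtain ⟨ε₂, hε₂, hQ⟩ := (hasBasis_nhdsSet_cthickening hZ).eventually_iff.1
    (eventually_nhdsSet_iff_forall.2 fun z hz =>
      ((continuousAt_fst (p := z)).eventually (G.U_open.mem_nhds (hU z hz))).and
        (G.eventually_crit (hU z hz) (hZK hz).2))
  set ε := min ε₀ (min ε₁ ε₂) with hε
  have hε0 : 0 < ε := lt_min hε₀ (lt_min hε₁ hε₂)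
  have m0 : ∀ z ∈ cthickening ε Z, ∀ ξ : E n, ‖ξ‖ ≤ ε →
      (z, ξ) ∈ cthickening ε₀ (Z ×ˢ ({0} : Set (E n))) := fun z hz ξ hξ =>
    cthickening_mono (min_le_left _ _) _ (br_mem hZ hε0.le hz hξ)
  have m1 : ∀ z ∈ cthickening ε Z, ∀ ξ : E n, ‖ξ‖ ≤ ε →
      (z, ξ) ∈ cthickening ε₁ (Z ×ˢ ({0} : Set (E n))) := fun z hz ξ hξ =>
    cthickening_mono ((min_le_right _ _).trans (min_le_left _ _)) _ (br_mem hZ hε0.le hz hξ)
  have m2 : cthickening ε Z ⊆ cthickening ε₂ Z :=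
    cthickening_mono ((min_le_right _ _).trans (min_le_right _ _)) _
  have n0 : ‖(0 : E n)‖ ≤ ε := by simpa using hε0.le
  have hμ0 : ∀ z ∈ cthickening ε Z, μ (z, 0) = 0 := fun z hz =>
    ((hμ _ (m0 z hz 0 n0)).2.2.2.2.1 0 (by simpa using hr) (hcr z (hQ (m2 hz)).2.2.1)).symm
  have hsm : ∀ z ∈ cthickening ε Z, ∀ ξ : E n, ‖ξ‖ ≤ ε →
      ContDiffAt ℝ 5 (fun l => Φ (l, μ l)) (z, ξ) := by
    intro z hz ξ hξ
    obtain ⟨a1, a2, -⟩ := hμ _ (m0 z hz ξ hξ)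
    exact ContDiffAt.comp (g := Φ) _ a2 (contDiffAt_id.prodMk a1)
  have hle : ∀ z ∈ cthickening ε Z, ∀ ξ : E n, ‖ξ‖ ≤ ε → ∀ u : E n, ‖u‖ ≤ r →
      Φ ((z, ξ), μ (z, ξ)) ≤ Φ ((z, ξ), u) := fun z hz ξ hξ u hu =>
    le_trans (le_add_of_nonneg_right (by positivity)) ((hμ _ (m0 z hz ξ hξ)).2.2.2.2.2 u hu)
  refine ⟨ε, hε0, r, hr, θ, hθ, C, hC, fun l => Φ (l, μ l), μ, hsm, fun z hz => ?_,
    fun z hz v => ?_, fun z _ ξ _ => cst_le_two _ _ _,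
    fun z hz ξ hξ u hu => (hμ _ (m0 z hz ξ hξ)).2.2.2.2.2 u hu, fun z hz ξ hξ => ?_,
    fun z hz hI => ?_⟩
  · simp only [hΦ, hμ0 z hz, add_zero]
    exact (hQ (m2 hz)).2.1
  · obtain ⟨a1, -, -, a2⟩ := hQ (m2 hz)
    have d1 := ((hsm z hz 0 n0).differentiableAt (by norm_num)).hasFDerivAt.comp (0 : E n)
      (f := fun ξ : E n => (z, ξ)) (hasFDerivAt_prodMk_right z 0)
    have d2 : DifferentiableAt ℝ
        (fun ξ : E n => cst (G.ex z.1 ξ) (G.ex z.1 ((1 / 2 : ℝ) • z.2))) 0 :=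
      DifferentiableAt.comp (g := G.cc) (f := fun ξ : E n => ((z.1, ξ), (z.1, (1 / 2 : ℝ) • z.2))) 0
        ((G.contDiffAt_cc a1 a1 (G.reg_of_mem_I a1 a2)).differentiableAt (by simp)) (by fun_prop)
    have d3 := ((d2.hasFDerivAt.const_mul 2).add_const
      (2 * cst (G.ex z.1 ((1 / 2 : ℝ) • z.2)) (G.ex z.1 z.2))).sub d1
    have d4 := IsLocalMin.hasFDerivAt_eq_zero (by
      filter_upwards [closedBall_mem_nhds (0 : E n) hε0] with ξ hξ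
      have := hle z hz ξ (mem_closedBall_zero_iff.1 hξ) 0 (by simpa using hr.le)
      simp only [hΦ, En, add_zero] at this
      simp only [Pi.sub_apply, Function.comp, hΦ, En, hμ0 z hz, add_zero]
      linarith) d3
    have d5 := congrArg (fun L : E n →L[ℝ] ℝ => L v) d4
    have d6 := G.lg_ex a1 a2
    rw [lg, neg_eq_iff_eq_neg] at d6
    simp only [sub_apply, smul_apply, smul_eq_mul, zero_apply, ContinuousLinearMap.comp_apply,
      ContinuousLinearMap.inr_apply, ← inner_gradient, d6, inner_neg_left,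
      real_inner_smul_left] at d5
    linarith
  · have h1 := taylor0 (Φ := μ) (z := (z, 0)) (v := (0, ξ)) (C := C) fun t ht => by
      have h2 := hb _ (m1 z hz (t • ξ) (by
        rw [norm_smul, Real.norm_eq_abs, abs_of_nonneg ht.1]
        exact (mul_le_of_le_one_left (norm_nonneg _) ht.2).trans hξ))
      have e : ((z, 0) : (P n × E n) × E n) + t • (0, ξ) = (z, t • ξ) := by simp
      rw [e]
      exact ⟨h2.1, h2.2 1 le_rfl⟩
    simpa [hμ0 z hz] using h1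
  · obtain ⟨a, p⟩ := z
    obtain ⟨a1, -, -, a2⟩ := hQ (m2 (thickening_subset_cthickening _ _ hz))
    obtain ⟨δ, hδ, h1⟩ := Metric.eventually_nhds_iff.1 (G.br_lg a1 a2 (half_pos hr))
    have t1 : Tendsto (fun w : (P n × E n) × E n => (G.ex w.1.1 w.2, G.ex w.1.1 w.1.2))
        (𝓝 ((a, p), 0)) (𝓝 (G.pt a, G.ex a p)) :=
      ((G.continuousAt_ex a1 0).tendsto.comp
        (f := fun w : (P n × E n) × E n => (w.1.1, w.2))
        (by fun_prop : ContinuousAt _ ((a, p), (0 : E n))).tendsto).prodMk_nhds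
      ((G.continuousAt_ex a1 p).tendsto.comp (f := fun w : (P n × E n) × E n => w.1)
        (continuousAt_fst (p := ((a, p), (0 : E n)))).tendsto)
    have t2 : ContinuousAt (fun w : (P n × E n) × E n => w.1.1) ((a, p), 0) := by fun_prop
    have t3 : ContinuousAt (fun w : (P n × E n) × E n => (1 / 2 : ℝ) • w.1.2) ((a, p), 0) := by
      fun_prop
    filter_upwards [t1.eventually (G.eventually_midpoint hI.1 hI.2 hδ),
      t2.eventually (ball_mem_nhds _ hδ), t3.eventually (ball_mem_nhds _ (half_pos hr)),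
      (continuousAt_fst (p := ((a, p), (0 : E n)))).eventually (isOpen_thickening.mem_nhds hz),
      (continuousAt_snd (p := ((a, p), (0 : E n)))).eventually (closedBall_mem_nhds _ hε0)]
      with w ⟨m, b1, b2⟩ b3 b4 b5 b6
    obtain ⟨q, c1, c2⟩ := h1 (y := (w.1.1, m)) (by rw [Prod.dist_eq]; exact max_lt b3 b1)
    refine le_antisymm ?_ (cst_le_two _ _ _)
    refine (hle w.1 (thickening_subset_cthickening _ _ b5) w.2 (mem_closedBall_zero_iff.1 b6)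
      (q - (1 / 2 : ℝ) • w.1.2) ?_).trans (le_of_eq ?_)
    · rw [← dist_eq_norm]
      linarith [dist_triangle_right q ((1 / 2 : ℝ) • w.1.2) ((1 / 2 : ℝ) • p), mem_ball.1 b4]
    · simp only [hΦ, En, add_sub_cancel]
      simp only at c2
      rw [c2]
      exact b2

/-- the fourth derivative of the branch in the directions `(η, η, ξ, ξ)`. -/
noncomputable def d4 (ĉ : (P n × E n) × E n → ℝ) (z : P n × E n) (ξ η : E n) : ℝ :=
  iteratedFDeriv ℝ 4 ĉ (z, 0) ![((0, η), 0), ((0, η), 0), (0, ξ), (0, ξ)]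

omit [CompactSpace M] in
theorem h28_affine {X Y : Type*} [NormedAddCommGroup X] [NormedSpace ℝ X] [NormedAddCommGroup Y]
    [NormedSpace ℝ Y] {f : X → ℝ} {b : X} (hf : ContDiffAt ℝ 4 f b) (L : Y →L[ℝ] X)
    (m : Fin 4 → Y) :
    iteratedFDeriv ℝ 4 (fun w => f (b + L w)) 0 m = iteratedFDeriv ℝ 4 f b (fun i => L (m i)) := by
  set g : X → ℝ := fun x => f (b + x) with hg
  have hg0 : ContDiffAt ℝ 4 g 0 := by
    have h1 : ContDiffAt ℝ 4 f (b + 0) := by simpa using hf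
    exact h1.comp 0 (contDiffAt_const.add contDiffAt_id)
  obtain ⟨s, hs, hso, hs0⟩ := _root_.eventually_nhds_iff.1 (hg0.eventually (by simp))
  have hon : ContDiffOn ℝ 4 g s := fun x hx => (hs x hx).contDiffWithinAt
  have hpo : IsOpen (L ⁻¹' s) := hso.preimage L.continuous
  have h0 : L 0 ∈ s := by simpa using hs0
  have h1 := L.iteratedFDerivWithin_comp_right hon hso.uniqueDiffOn hpo.uniqueDiffOn h0
    (i := 4) le_rfl
  rw [iteratedFDerivWithin_of_isOpen 4 hpo h0, iteratedFDerivWithin_of_isOpen 4 hso h0] at h1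
  have h2 : (fun w => f (b + L w)) = g ∘ L := rfl
  rw [h2, h1, hg, iteratedFDeriv_comp_add_left]
  simp

theorem h28_exp {X : Type*} [NormedAddCommGroup X] [NormedSpace ℝ X]
    (T : ContinuousMultilinearMap ℝ (fun _ : Fin 4 => X) ℝ) (a u v : X) (c : ℝ) :
    T ![a, a, u + c • v, u + c • v] =
      T ![a, a, u, u] + c * T ![a, a, u, v] + c * T ![a, a, v, u + c • v] := by
  have e2 : ∀ x w : X, (![a, a, x, w] : Fin 4 → X) = Function.update ![a, a, 0, w] 2 x := by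
    intro x w; ext i; fin_cases i <;> simp
  have e3 : ∀ x w : X, (![a, a, w, x] : Fin 4 → X) = Function.update ![a, a, w, 0] 3 x := by
    intro x w; ext i; fin_cases i <;> simp
  have h2 : T ![a, a, u + c • v, u + c • v] =
      T ![a, a, u, u + c • v] + c * T ![a, a, v, u + c • v] := by
    rw [e2 (u + c • v), T.map_update_add, T.map_update_smul, ← e2, ← e2, smul_eq_mul]
  have h3 : T ![a, a, u, u + c • v] = T ![a, a, u, u] + c * T ![a, a, u, v] := by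
    rw [e3 (u + c • v), T.map_update_add, T.map_update_smul, ← e3, ← e3, smul_eq_mul]
  rw [h2, h3]

theorem h28_bd (T : ContinuousMultilinearMap ℝ (fun _ : Fin 4 => (P n × E n) × E n) ℝ)
    (η x y : E n) :
    |T ![((0, η), 0), ((0, η), 0), (0, x), (0, y)]| ≤ ‖T‖ * (‖η‖ ^ 2 * ‖x‖ * ‖y‖) := by
  have h := T.le_opNorm ![((0, η), 0), ((0, η), 0), (0, x), (0, y)]
  rw [Real.norm_eq_abs, Fin.prod_univ_four] at h
  refine h.trans (le_of_eq ?_)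
  have e1 : ‖((((0 : P n), η), (0 : E n)) : (P n × E n) × E n)‖ = ‖η‖ := by
    simp [Prod.norm_def]
  have e2 : ∀ x : E n, ‖(((0 : P n × E n), x) : (P n × E n) × E n)‖ = ‖x‖ := by
    intro x; simp [Prod.norm_def]
  simp only [Matrix.cons_val_zero, Matrix.cons_val_one, Matrix.cons_val, e1, e2]
  ring

theorem h28_split (T : ContinuousMultilinearMap ℝ (fun _ : Fin 4 => (P n × E n) × E n) ℝ)
    (hT : ∀ ξ η : E n, ⟪ξ, η⟫_ℝ = 0 → T ![((0, η), 0), ((0, η), 0), (0, ξ), (0, ξ)] ≤ 0)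
    (ξ η : E n) :
    T ![((0, η), 0), ((0, η), 0), (0, ξ), (0, ξ)] ≤ 2 * ‖T‖ * ‖ξ‖ * ‖η‖ * |⟪ξ, η⟫_ℝ| := by
  rcases eq_or_ne η 0 with rfl | hη
  · have := hT ξ 0 (by simp)
    simpa using this
  have hn : 0 < ‖η‖ := norm_pos_iff.2 hη
  set c : ℝ := ⟪ξ, η⟫_ℝ / ‖η‖ ^ 2 with hc
  set u : E n := ξ - c • η with hu
  have hξ : ξ = u + c • η := by rw [hu]; abel
  have hc2 : c * ‖η‖ ^ 2 = ⟪ξ, η⟫_ℝ := by rw [hc]; field_simp
  have hort : ⟪u, η⟫_ℝ = 0 := by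
    rw [hu, inner_sub_left, real_inner_smul_left, real_inner_self_eq_norm_sq, hc2, sub_self]
  have hun : ‖u‖ ≤ ‖ξ‖ := by
    have h1 : ‖ξ‖ ^ 2 = ‖u‖ ^ 2 + ‖c • η‖ ^ 2 := by
      conv_lhs => rw [hξ]
      rw [norm_add_sq_real, real_inner_smul_right, hort]; ring
    exact (sq_le_sq₀ (norm_nonneg _) (norm_nonneg _)).1 (by nlinarith [sq_nonneg ‖c • η‖])
  have e : (((0 : P n × E n), ξ) : (P n × E n) × E n) = (0, u) + c • (0, η) := by
    ext1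
    · simp
    · simpa using hξ
  have hexp := h28_exp T ((0, η), 0) (0, u) (0, η) c
  rw [← e] at hexp
  have b1 := h28_bd T η u η
  have b2 := h28_bd T η η ξ
  have b0 := hT u η hort
  have hT0 := norm_nonneg T
  have habs : |c| * ‖η‖ ^ 2 = |⟪ξ, η⟫_ℝ| := by
    rw [← hc2, abs_mul, abs_of_nonneg (sq_nonneg ‖η‖)]
  have c1 : c * T ![((0, η), 0), ((0, η), 0), (0, u), (0, η)] ≤ ‖T‖ * ‖ξ‖ * ‖η‖ * |⟪ξ, η⟫_ℝ| := by
    refine (le_abs_self _).trans ?_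
    rw [abs_mul, ← habs]
    calc _ ≤ |c| * (‖T‖ * (‖η‖ ^ 2 * ‖u‖ * ‖η‖)) := by gcongr
      _ ≤ |c| * (‖T‖ * (‖η‖ ^ 2 * ‖ξ‖ * ‖η‖)) := by gcongr
      _ = _ := by ring
  have c2 : c * T ![((0, η), 0), ((0, η), 0), (0, η), (0, ξ)] ≤ ‖T‖ * ‖ξ‖ * ‖η‖ * |⟪ξ, η⟫_ℝ| := by
    refine (le_abs_self _).trans ?_
    rw [abs_mul, ← habs]
    calc _ ≤ |c| * (‖T‖ * (‖η‖ ^ 2 * ‖η‖ * ‖ξ‖)) := by gcongr
      _ = _ := by ring
  rw [hexp]
  linarith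

omit [CompactSpace M] in
theorem h28_d4_IU {G : LocGeo n M} (hM : G.MTW) {Z : Set (P n × E n)} {ε r θ C : ℝ}
    (hε : 0 < ε) {ĉ : (P n × E n) × E n → ℝ} {μ : (P n × E n) × E n → E n}
    (h : G.IsBranch Z ε r θ C ĉ μ) {z : P n × E n} (hz : z ∈ thickening ε Z) (hI : z ∈ G.IU)
    {ξ η : E n} (ho : ⟪ξ, η⟫_ℝ = 0) : d4 ĉ z ξ η ≤ 0 := by
  have hs : ContDiffAt ℝ 4 ĉ (z, 0) :=
    (h.smooth z (thickening_subset_cthickening _ _ hz) 0 (by simpa using hε.le)).of_le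
      (by norm_num)
  let L : ℝ × ℝ →L[ℝ] (P n × E n) × E n :=
    (ContinuousLinearMap.fst ℝ ℝ ℝ).smulRight ((0, η), 0) +
      (ContinuousLinearMap.snd ℝ ℝ ℝ).smulRight (0, ξ)
  have hL : ∀ w : ℝ × ℝ, L w = ((0, w.1 • η), w.2 • ξ) := by
    intro w; simp [L]
  have h1 := h28_affine hs L ![((1 : ℝ), (0 : ℝ)), (1, 0), (0, 1), (0, 1)]
  have h2 : (fun i => L ((![((1 : ℝ), (0 : ℝ)), (1, 0), (0, 1), (0, 1)] : Fin 4 → ℝ × ℝ) i)) =
      ![((0, η), 0), ((0, η), 0), (0, ξ), (0, ξ)] := by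
    funext i
    fin_cases i <;> simp [hL, Prod.ext_iff]
  have ht : Tendsto (fun w : ℝ × ℝ => (z, (0 : E n)) + L w) (𝓝 0) (𝓝 (z, 0)) := by
    have : Continuous (fun w : ℝ × ℝ => (z, (0 : E n)) + L w) := by fun_prop
    simpa using this.tendsto 0
  have h3 : (fun w : ℝ × ℝ => ĉ ((z, 0) + L w)) =ᶠ[𝓝 0]
      fun w : ℝ × ℝ => cst (G.ex z.1 (w.2 • ξ)) (G.ex z.1 (z.2 + w.1 • η)) := by
    filter_upwards [ht.eventually (h.eq z hz hI)] with w hw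
    rw [hw, hL]
    simp
  have h4 := (Filter.EventuallyEq.iteratedFDeriv ℝ h3 4).eq_of_nhds
  have h5 := hM z.1 hI.1 z.2 hI.2 ξ η ho
  rw [d4, ← h2, ← h1, h4]
  exact h5

omit [CompactSpace M] in
theorem h28_d4_Z {G : LocGeo n M} (hM : G.MTW) {Z : Set (P n × E n)} (hZK : Z ⊆ G.KF)
    {ε r θ C : ℝ} (hε : 0 < ε) {ĉ : (P n × E n) × E n → ℝ} {μ : (P n × E n) × E n → E n}
    (h : G.IsBranch Z ε r θ C ĉ μ) {z : P n × E n} (hz : z ∈ Z)
    {ξ η : E n} (ho : ⟪ξ, η⟫_ℝ = 0) : d4 ĉ z ξ η ≤ 0 := by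
  have hs : ContDiffAt ℝ 5 ĉ (z, 0) :=
    h.smooth z (self_subset_cthickening _ hz) 0 (by simpa using hε.le)
  have hc : ContinuousAt (iteratedFDeriv ℝ 4 ĉ) (z, 0) :=
    hs.continuousAt_iteratedFDeriv (by norm_num)
  have hp : Tendsto (fun t : ℝ => ((z.1, t • z.2) : P n × E n)) (𝓝[<] 1) (𝓝 z) := by
    have : Continuous (fun t : ℝ => ((z.1, t • z.2) : P n × E n)) := by fun_prop
    have h1 := this.tendsto 1
    simp only [one_smul] at h1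
    exact h1.mono_left nhdsWithin_le_nhds
  have hp0 : Tendsto (fun t : ℝ => (((z.1, t • z.2), 0) : (P n × E n) × E n)) (𝓝[<] 1)
      (𝓝 (z, 0)) := hp.prodMk_nhds tendsto_const_nhds
  have hev : Continuous (fun T : ContinuousMultilinearMap ℝ (fun _ : Fin 4 => (P n × E n) × E n) ℝ
      => T ![((0, η), 0), ((0, η), 0), (0, ξ), (0, ξ)]) := continuous_eval_const _
  have hd : Tendsto (fun t : ℝ => d4 ĉ (z.1, t • z.2) ξ η) (𝓝[<] 1) (𝓝 (d4 ĉ z ξ η)) :=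
    (hev.tendsto _).comp (hc.tendsto.comp hp0)
  refine le_of_tendsto hd ?_
  have e1 : ∀ᶠ t in 𝓝[<] (1 : ℝ), ((z.1, t • z.2) : P n × E n) ∈ thickening ε Z :=
    hp.eventually (isOpen_thickening.mem_nhds (self_subset_thickening hε _ hz))
  have e2 : ∀ᶠ t in 𝓝[<] (1 : ℝ), t ∈ Ioo (0 : ℝ) 1 := Ioo_mem_nhdsLT one_pos
  filter_upwards [e1, e2] with t h1 h2
  have ha := G.F_sub (hZK hz).1
  exact h28_d4_IU hM hε h h1 ⟨ha, G.smul_mem_I ha (hZK hz).2 h2.1.le h2.2⟩ ho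

/-- approximate MTW for the branch.  Proof: at `z ∈ Z`, `ξ ⊥ η`: limit of `MTW` at `σ p ∈ I`
(`eq`, `ContinuousLinearMap.iteratedFDeriv_comp_right`-type chain rule for the affine map
`(s, t) ↦ ((a, p + s η), t ξ)`); uniform continuity of the fourth derivative near `Z`;
for general `ξ` split off the component along `η` (multilinearity and the `C⁴` bound). -/
theorem IsBranch.d4_le {G : LocGeo n M} (hM : G.MTW) {Z : Set (P n × E n)} (hZ : IsCompact Z)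
    (hZK : Z ⊆ G.KF) {ε r θ C : ℝ} (hε : 0 < ε) {ĉ : (P n × E n) × E n → ℝ}
    {μ : (P n × E n) × E n → E n} (h : G.IsBranch Z ε r θ C ĉ μ) :
    ∃ C' ≥ 0, ∀ κ > 0, ∃ ε' > 0, ∀ z ∈ cthickening ε' Z, ∀ ξ η : E n,
      d4 ĉ z ξ η ≤ κ * ‖ξ‖ ^ 2 * ‖η‖ ^ 2 + C' * ‖ξ‖ * ‖η‖ * |⟪ξ, η⟫_ℝ| := by
  set T : P n × E n → ContinuousMultilinearMap ℝ (fun _ : Fin 4 => (P n × E n) × E n) ℝ :=
    fun z => iteratedFDeriv ℝ 4 ĉ (z, 0) with hT
  have hc : ∀ z ∈ Z, ContinuousAt T z := by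
    intro z hz
    have hs : ContDiffAt ℝ 5 ĉ (z, 0) :=
      h.smooth z (self_subset_cthickening _ hz) 0 (by simpa using hε.le)
    have hc : ContinuousAt (iteratedFDeriv ℝ 4 ĉ) (z, 0) :=
      hs.continuousAt_iteratedFDeriv (by norm_num)
    exact ContinuousAt.comp (f := fun z : P n × E n => (z, (0 : E n))) hc (by fun_prop)
  obtain ⟨B, hB⟩ := hZ.exists_bound_of_continuousOn
    (fun z hz => (hc z hz).continuousWithinAt : ContinuousOn T Z)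
  refine ⟨2 * max B 0, by positivity, fun κ hκ => ?_⟩
  have hsub : Z ⊆ interior {z | ∃ z₀ ∈ Z, ‖T z - T z₀‖ ≤ κ} := by
    intro z₀ hz₀
    rw [mem_interior_iff_mem_nhds]
    have := (hc z₀ hz₀).eventually (closedBall_mem_nhds (T z₀) hκ)
    filter_upwards [this] with z hz
    exact ⟨z₀, hz₀, by simpa [dist_eq_norm] using hz⟩
  obtain ⟨δ, hδ, hδs⟩ := hZ.exists_cthickening_subset_open isOpen_interior hsub
  refine ⟨δ, hδ, fun z hz ξ η => ?_⟩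
  obtain ⟨z₀, hz₀, hd⟩ := interior_subset (hδs hz)
  have h1 := h28_split (T z₀) (fun ξ η ho => h28_d4_Z hM hZK hε h hz₀ ho) ξ η
  have h2 := h28_bd (T z - T z₀) η ξ ξ
  have h3 : d4 ĉ z ξ η = (T z - T z₀) ![((0, η), 0), ((0, η), 0), (0, ξ), (0, ξ)] +
      T z₀ ![((0, η), 0), ((0, η), 0), (0, ξ), (0, ξ)] := by
    simp [d4, hT]
  have h4 : ‖T z - T z₀‖ * (‖η‖ ^ 2 * ‖ξ‖ * ‖ξ‖) ≤ κ * ‖ξ‖ ^ 2 * ‖η‖ ^ 2 := by
    calc _ ≤ κ * (‖η‖ ^ 2 * ‖ξ‖ * ‖ξ‖) := by gcongr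
      _ = _ := by ring
  have h5 : 2 * ‖T z₀‖ * ‖ξ‖ * ‖η‖ * |⟪ξ, η⟫_ℝ| ≤ 2 * max B 0 * ‖ξ‖ * ‖η‖ * |⟪ξ, η⟫_ℝ| := by
    have : ‖T z₀‖ ≤ max B 0 := (hB z₀ hz₀).trans (le_max_left _ _)
    gcongr
  rw [h3]
  linarith [le_abs_self ((T z - T z₀) ![((0, η), 0), ((0, η), 0), (0, ξ), (0, ξ)])]

/-- local quasi-convexity of the branch.  Proof: for `p_t = p₀ + t η` in the convex hull put
`f t = ‖p_t‖²/2 - ĉ ((a, p_t), ξ) + κ' ‖ξ‖² ‖p_t‖²`.  The function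
`(p, ξ) ↦ ‖p‖²/2 - ĉ ((a, p), ξ)` and all its `p`-derivatives have the Taylor expansion
`⟪p, ξ⟫ - ½ D²_ξ ĉ (ξ, ξ) + O(‖ξ‖³)` (`val`, `grad`, `taylor1`, `taylor2` applied to the first and
second `p`-derivatives), so `f' = ⟪η, ξ⟫ + O(‖ξ‖²‖η‖)` and, by `d4_le`, `f'' > 0` where `f' = 0`
(`η ≠ 0`, `ξ ≠ 0` small); `le_max_of_deriv2` and `convexHull_min`. -/
theorem IsBranch.qc {G : LocGeo n M} (hM : G.MTW) {Z : Set (P n × E n)} (hZ : IsCompact Z)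
    (hZK : Z ⊆ G.KF) {ε r θ C : ℝ} (hε : 0 < ε) {ĉ : (P n × E n) × E n → ℝ}
    {μ : (P n × E n) × E n → E n} (h : G.IsBranch Z ε r θ C ĉ μ) {κ : ℝ} (hκ : 0 < κ) :
    ∃ ε' > 0, ε' ≤ ε ∧ ∀ (a : P n) (S : Set (E n)),
      (∀ p ∈ convexHull ℝ S, (a, p) ∈ cthickening ε' Z) → ∀ ξ : E n, ‖ξ‖ ≤ ε' → ∀ B : ℝ,
      (∀ p ∈ S, ‖p‖ ^ 2 / 2 - ĉ ((a, p), ξ) ≤ B) →
      ∀ p ∈ convexHull ℝ S, ‖p‖ ^ 2 / 2 - ĉ ((a, p), ξ) ≤ B + κ * ‖ξ‖ ^ 2 := by
  obtain ⟨C', hC', hd4⟩ := h.d4_le hM hZ hZK hε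
  obtain ⟨r₀, hr₀, C₀, hC₀, hb⟩ := unif_bound (hZ.prod (isCompact_singleton (x := (0 : E n))))
    (Φ := ĉ) 5 (by
      rintro ⟨z, ξ⟩ ⟨hz, hξ⟩
      obtain rfl : ξ = 0 := hξ
      exact h.smooth z (self_subset_cthickening _ hz) 0 (by simpa using hε.le))
  obtain ⟨D, hD, hDb⟩ := (hZ.isBounded.cthickening (δ := ε)).exists_pos_norm_le
  set κ' := κ / D ^ 2 with hκ'
  have hκ'0 : 0 < κ' := by positivity
  obtain ⟨ε₁, hε₁, hd⟩ := hd4 κ' hκ'0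
  set K := C' * (C₀ + 2 * κ' * D) + C₀ with hK
  have hK0 : 0 ≤ K := by positivity
  set ε' := min (min (ε / 2) r₀) (min ε₁ (κ' / (K + 1))) with hε'
  have e0 : 0 < ε' := by positivity
  have e1 : ε' ≤ ε / 2 := (min_le_left _ _).trans (min_le_left _ _)
  have e2 : ε' ≤ r₀ := (min_le_left _ _).trans (min_le_right _ _)
  have e3 : ε' ≤ ε₁ := (min_le_right _ _).trans (min_le_left _ _)
  have e4 : ε' ≤ κ' / (K + 1) := (min_le_right _ _).trans (min_le_right _ _)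
  refine ⟨ε', e0, by linarith, fun a S hS ξ hξ B hB => ?_⟩
  have hO : ∀ p ∈ convexHull ℝ S, (a, p) ∈ thickening ε Z := fun p hp =>
    cthickening_subset_thickening' hε (by linarith) Z (hS p hp)
  have hO' : ∀ z ∈ thickening ε Z, z ∈ cthickening ε Z := fun z hz =>
    thickening_subset_cthickening _ _ hz
  have hnorm : ∀ p ∈ convexHull ℝ S, ‖p‖ ≤ D := fun p hp =>
    (norm_snd_le (a, p)).trans (hDb _ (hO' _ (hO p hp)))
  have hbd : ∀ p ∈ convexHull ℝ S, ∀ s ∈ Icc (0 : ℝ) 1, ContDiffAt ℝ 5 ĉ ((a, p), s • ξ) ∧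
      ∀ i ≤ 5, ‖iteratedFDeriv ℝ i ĉ ((a, p), s • ξ)‖ ≤ C₀ := by
    intro p hp s hs
    have h1 := hS p hp
    rw [hZ.cthickening_eq_biUnion_closedBall e0.le] at h1
    obtain ⟨z₀, hz₀, hz⟩ := mem_iUnion₂.1 h1
    refine hb _ (mem_cthickening_of_dist_le _ (z₀, 0) _ _ ⟨hz₀, rfl⟩ ?_)
    rw [Prod.dist_eq]
    refine max_le ((mem_closedBall.1 hz).trans e2) ?_
    rw [dist_zero_right, norm_smul, Real.norm_eq_abs, abs_of_nonneg hs.1]
    exact (mul_le_of_le_one_left (norm_nonneg _) hs.2).trans (hξ.trans e2)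
  by_cases hξ0 : ξ = 0
  · subst hξ0
    intro p hp
    obtain ⟨q, hq⟩ := convexHull_nonempty_iff.1 ⟨p, hp⟩
    have h1 := hB q hq
    rw [h.val _ (hO' _ (hO q (subset_convexHull ℝ S hq)))] at h1
    rw [h.val _ (hO' _ (hO p hp))]
    simp only [norm_zero] at *
    linarith
  have hx : 0 < ‖ξ‖ := norm_pos_iff.2 hξ0
  have hs : K * ‖ξ‖ ≤ κ' := by
    have h1 := hξ.trans e4
    rw [le_div_iff₀ (by positivity)] at h1
    nlinarith
  set F : E n → ℝ := fun p => ‖p‖ ^ 2 / 2 - ĉ ((a, p), ξ) + κ' * ‖ξ‖ ^ 2 * ‖p‖ ^ 2 with hF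
  have key : convexHull ℝ S ⊆ {p | p ∈ convexHull ℝ S ∧ F p ≤ B + κ * ‖ξ‖ ^ 2} := by
    refine convexHull_min (fun p hp => ⟨subset_convexHull ℝ S hp, ?_⟩) ?_
    · have h1 := hB p hp
      have h2 : ‖p‖ ^ 2 ≤ D ^ 2 :=
        pow_le_pow_left₀ (norm_nonneg _) (hnorm p (subset_convexHull ℝ S hp)) 2
      have h3 : κ' * ‖ξ‖ ^ 2 * ‖p‖ ^ 2 ≤ κ' * ‖ξ‖ ^ 2 * D ^ 2 :=
        mul_le_mul_of_nonneg_left h2 (by positivity)
      have h4 : κ' * ‖ξ‖ ^ 2 * D ^ 2 = κ * ‖ξ‖ ^ 2 := by rw [hκ']; field_simp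
      simp only [hF]
      linarith
    · rw [convex_iff_add_mem]
      rintro p₀ ⟨h₀, h₀'⟩ p₁ ⟨h₁, h₁'⟩ s t hs0 ht0 hst
      refine ⟨convex_convexHull ℝ S h₀ h₁ hs0 ht0 hst, ?_⟩
      obtain ⟨η, rfl⟩ : ∃ η, p₁ = p₀ + η := ⟨p₁ - p₀, by abel⟩
      have hst' : s • p₀ + t • (p₀ + η) = p₀ + t • η := by
        rw [smul_add, ← add_assoc, ← add_smul, hst, one_smul]
      rw [hst']
      by_cases hη : η = 0
      · subst hη
        simpa using h₀'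
      have hy : 0 < ‖η‖ := norm_pos_iff.2 hη
      have hmem : ∀ u ∈ Icc (0 : ℝ) 1, p₀ + u • η ∈ convexHull ℝ S := fun u hu =>
        (convex_convexHull ℝ S).add_smul_mem h₀ h₁ hu
      have hl : ∀ (k : ℕ) (_ : k < 5) (m : Fin k → (P n × E n) × E n), ∀ u ∈ Icc (0 : ℝ) 1,
          HasDerivAt (fun u : ℝ => iteratedFDeriv ℝ k ĉ ((a, p₀ + u • η), ξ) m)
            (iteratedFDeriv ℝ (k + 1) ĉ ((a, p₀ + u • η), ξ) (Fin.cons (qcE η) m)) u := by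
        intro k hk m u hu
        have := qc_line (Φ := ĉ) (w := ((a, p₀), ξ)) (x := qcE η) (s := u)
          (by rw [qc_addE]; simpa using (hbd _ (hmem u hu) 1 ⟨zero_le_one, le_rfl⟩).1) hk m
        simpa only [qc_addE] using this
      have hin : ∀ u : ℝ, HasDerivAt (fun u : ℝ => ⟪p₀ + u • η, η⟫_ℝ) (‖η‖ ^ 2) u := by
        intro u
        simp only [inner_add_left, real_inner_smul_left, real_inner_self_eq_norm_sq]
        exact (((hasDerivAt_id u).mul_const (‖η‖ ^ 2)).const_add ⟪p₀, η⟫_ℝ).congr_deriv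
          (one_mul _)
      have hmax := le_max_of_deriv2 (f := fun u => F (p₀ + u • η))
        (f' := fun u => ⟪p₀ + u • η, η⟫_ℝ - iteratedFDeriv ℝ 1 ĉ ((a, p₀ + u • η), ξ) ![qcE η] +
          κ' * ‖ξ‖ ^ 2 * (2 * ⟪p₀ + u • η, η⟫_ℝ))
        (f'' := fun u => ‖η‖ ^ 2 - iteratedFDeriv ℝ 2 ĉ ((a, p₀ + u • η), ξ) ![qcE η, qcE η] +
          κ' * ‖ξ‖ ^ 2 * (2 * ‖η‖ ^ 2))
        (fun u hu => ((((qc_normsq_line p₀ η u).div_const 2).sub (hl 0 (by norm_num) ![] u hu)).add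
          ((qc_normsq_line p₀ η u).const_mul (κ' * ‖ξ‖ ^ 2))).congr_deriv (by
            rw [mul_div_cancel_left₀ _ two_ne_zero]; rfl))
        (fun u hu => ((hin u).sub (hl 1 (by norm_num) ![qcE η] u hu)).add
          (((hin u).const_mul 2).const_mul (κ' * ‖ξ‖ ^ 2)))
        (fun u hu h0 => by
          have hu' := hmem u (Ioo_subset_Icc_self hu)
          obtain ⟨t1, t2⟩ := qc_taylor isOpen_thickening
            (fun z hz => h.smooth z (hO' z hz) 0 (by simpa using hε.le))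
            (fun z hz => h.val z (hO' z hz)) (fun z hz => h.grad z (hO' z hz)) ξ η
            (hO _ hu') (hbd _ hu')
          have hd' := hd _ (cthickening_mono e3 Z (hS _ hu')) ξ η
          rw [real_inner_comm] at hd'
          exact qc_alg hx hy hκ'0 hC' ((abs_real_inner_le_norm _ _).trans
            (mul_le_mul_of_nonneg_right (hnorm _ hu') hy.le)) t1 t2 hd' hs h0)
        t ⟨ht0, by linarith⟩
      simp only [zero_smul, add_zero, one_smul] at hmax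
      exact hmax.trans (max_le h₀' h₁')
  intro p hp
  have h1 := (key hp).2
  have h2 : 0 ≤ κ' * ‖ξ‖ ^ 2 * ‖p‖ ^ 2 := by positivity
  simp only [hF] at h1
  linarith

/-- Step 2 (`exists_branch`, `IsBranch.qc` with `κ/2`, `θ ‖u - μ‖² ≥ θ' ‖u‖² - 2 θ' C² ‖ξ‖²`). -/
theorem loc_qc (hM : G.MTW) {Z : Set (P n × E n)} (hZ : IsCompact Z) (hZK : Z ⊆ G.KF)
    (hW : ∀ z ∈ Z, ∀ u, u ≠ 0 → 0 < ⟪G.W z u, u⟫_ℝ) {κ : ℝ} (hκ : 0 < κ) :
    ∃ θ > 0, ∃ ε > 0, ∀ (a : P n) (S : Set (E n)),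
      (∀ p ∈ convexHull ℝ S, (a, p) ∈ cthickening ε Z) → ∀ ξ : E n, ‖ξ‖ ≤ ε → ∀ B : ℝ,
      (∀ p ∈ S, ‖p‖ ^ 2 / 2 - cst (G.ex a ξ) (G.ex a p) ≤ B) →
      ∀ p ∈ convexHull ℝ S, ∀ u : E n, ‖u‖ ≤ ε →
        ‖p‖ ^ 2 / 2 - G.En a ξ ((1 / 2 : ℝ) • p + u) p ≤ B + κ * ‖ξ‖ ^ 2 - θ * ‖u‖ ^ 2 := by
  obtain ⟨ε, hε, r, hr, θ, hθ, C, -, ĉ, μ, h⟩ := G.exists_branch hZ hZK hW
  obtain ⟨ε', hε', hle, hq⟩ := h.qc hM hZ hZK hε (half_pos hκ)
  refine ⟨min (θ / 2) (κ / (4 * (C ^ 2 + 1))), lt_min (half_pos hθ) (by positivity), min ε' r,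
    lt_min hε' hr, fun a S hS ξ hξ B hB p hp u hu => ?_⟩
  have hξ' : ‖ξ‖ ≤ ε := (hξ.trans (min_le_left _ _)).trans hle
  have hS' : ∀ p ∈ convexHull ℝ S, (a, p) ∈ cthickening ε Z := fun p hp =>
    cthickening_mono ((min_le_left _ _).trans hle) _ (hS p hp)
  have h1 := hq a S (fun p hp => cthickening_mono (min_le_left _ _) _ (hS p hp)) ξ
    (hξ.trans (min_le_left _ _)) B (fun p hp => by
      linarith [hB p hp, h.ge _ (hS' p (subset_convexHull ℝ S hp)) ξ hξ']) p hp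
  have h2 := h.growth _ (hS' p hp) ξ hξ' u (hu.trans (min_le_right _ _))
  have h3 := h.μ_le _ (hS' p hp) ξ hξ'
  set θ' := min (θ / 2) (κ / (4 * (C ^ 2 + 1))) with hθ'
  have h0 : 0 < θ' := lt_min (half_pos hθ) (by positivity)
  have h4 : ‖u‖ ≤ ‖u - μ ((a, p), ξ)‖ + C * ‖ξ‖ := by
    linarith [norm_le_norm_sub_add u (μ ((a, p), ξ))]
  have h5 : ‖u‖ ^ 2 ≤ 2 * ‖u - μ ((a, p), ξ)‖ ^ 2 + 2 * (C ^ 2 * ‖ξ‖ ^ 2) := by
    have := pow_le_pow_left₀ (norm_nonneg _) h4 2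
    nlinarith [sq_nonneg (‖u - μ ((a, p), ξ)‖ - C * ‖ξ‖)]
  have h6 : θ' * (4 * (C ^ 2 + 1)) ≤ κ := (le_div_iff₀ (by positivity)).1 (min_le_right _ _)
  have h7 := mul_le_mul_of_nonneg_left h5 h0.le
  have h8 := mul_le_mul_of_nonneg_right (min_le_left (θ / 2) (κ / (4 * (C ^ 2 + 1))))
    (sq_nonneg ‖u - μ ((a, p), ξ)‖)
  have h9 := mul_le_mul_of_nonneg_right h6 (sq_nonneg ‖ξ‖)
  have h10 := mul_nonneg h0.le (sq_nonneg ‖ξ‖)
  simp only at h2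
  rw [← hθ'] at h8
  linarith

end LocGeo

end Crest.Agent.R226
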