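import Crest.Agent.R226.Defs

/-! Row 226: uniform bounds and Taylor estimates. -/

set_option autoImplicit false

open Set Filter Metric
open scoped ContDiff Topology

namespace Crest.Agent.R226

section Gen
variable {X Y : Type*} [NormedAddCommGroup X] [NormedSpace ℝ X] [NormedAddCommGroup Y]
  [NormedSpace ℝ Y]

theorem ct_unif_bound [FiniteDimensional ℝ X] {Z : Set X} (hZ : IsCompact Z) {Φ : X → Y} (k : ℕ)
    (h : ∀ z ∈ Z, ContDiffAt ℝ k Φ z) :
    ∃ r > 0, ∃ C : ℝ, 0 ≤ C ∧ ∀ z ∈ cthickening r Z,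
      ContDiffAt ℝ k Φ z ∧ ∀ i ≤ k, ‖iteratedFDeriv ℝ i Φ z‖ ≤ C := by
  have : ProperSpace X := FiniteDimensional.proper_real X
  have hO : IsOpen {z | ContDiffAt ℝ k Φ z} :=
    isOpen_iff_mem_nhds.2 fun z hz => ContDiffAt.eventually hz (by simp)
  obtain ⟨r, hr, hs⟩ := hZ.exists_cthickening_subset_open hO h
  have hc : ContinuousOn (fun z => ∑ i ∈ Finset.range (k + 1), ‖iteratedFDeriv ℝ i Φ z‖)
      (cthickening r Z) := continuousOn_finsetSum _ fun i hi z hz =>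
    (ContDiffAt.continuousAt_iteratedFDeriv (show ContDiffAt ℝ k Φ z from hs hz)
      (by exact_mod_cast Nat.lt_succ_iff.1 (Finset.mem_range.1 hi))).norm.continuousWithinAt
  obtain ⟨C, hC⟩ := (hZ.cthickening (r := r)).exists_bound_of_continuousOn hc
  refine ⟨r, hr, max C 0, le_max_right _ _, fun z hz => ⟨hs hz, fun i hi => ?_⟩⟩
  refine le_trans ?_ ((le_abs_self _).trans ((hC z hz).trans (le_max_left _ _)))
  exact Finset.single_le_sum (f := fun i => ‖iteratedFDeriv ℝ i Φ z‖) (fun _ _ => norm_nonneg _)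
    (Finset.mem_range.2 (Nat.lt_succ_iff.2 hi))

theorem ct_line {Φ : X → Y} {z v : X} {t : ℝ} (h : DifferentiableAt ℝ Φ (z + t • v)) :
    HasDerivAt (fun s : ℝ => Φ (z + s • v)) (fderiv ℝ Φ (z + t • v) v) t := by
  have h1 : HasDerivAt (fun s : ℝ => z + s • v) v t := by
    simpa using ((hasDerivAt_id t).smul_const v).const_add z
  exact h.hasFDerivAt.comp_hasDerivAt t h1

theorem ct_mvt {g g' : ℝ → Y} {C : ℝ} (h : ∀ t ∈ Icc (0 : ℝ) 1, HasDerivAt g (g' t) t)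
    (hb : ∀ t ∈ Icc (0 : ℝ) 1, ‖g' t‖ ≤ C) : ‖g 1 - g 0‖ ≤ C :=
  norm_image_sub_le_of_norm_deriv_le_segment_01' (fun t ht => (h t ht).hasDerivWithinAt)
    fun t ht => hb t (Ico_subset_Icc_self ht)

theorem ct_mul_mem {s t : ℝ} (hs : s ∈ Icc (0 : ℝ) 1) (ht : t ∈ Icc (0 : ℝ) 1) :
    s * t ∈ Icc (0 : ℝ) 1 := ⟨mul_nonneg hs.1 ht.1, mul_le_one₀ hs.2 ht.1 ht.2⟩

theorem ct_norm_smul {t : ℝ} (ht : t ∈ Icc (0 : ℝ) 1) (v : X) : ‖t • v‖ ≤ ‖v‖ := by
  rw [norm_smul, Real.norm_of_nonneg ht.1]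
  exact mul_le_of_le_one_left (norm_nonneg _) ht.2

theorem ct_taylor0 {Φ : X → Y} {z v : X} {C : ℝ}
    (h : ∀ t ∈ Icc (0 : ℝ) 1, ContDiffAt ℝ 1 Φ (z + t • v) ∧
      ‖iteratedFDeriv ℝ 1 Φ (z + t • v)‖ ≤ C) :
    ‖Φ (z + v) - Φ z‖ ≤ C * ‖v‖ := by
  have := ct_mvt (fun t ht => ct_line ((h t ht).1.differentiableAt one_ne_zero)) (C := C * ‖v‖)
    fun t ht => (ContinuousLinearMap.le_opNorm _ _).trans (mul_le_mul_of_nonneg_right (by
      have h1 := (h t ht).2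
      rwa [← norm_iteratedFDeriv_fderiv, norm_iteratedFDeriv_zero] at h1) (norm_nonneg _))
  simpa using this

theorem ct_taylor1 {Φ : X → Y} {z v : X} {C : ℝ}
    (h : ∀ t ∈ Icc (0 : ℝ) 1, ContDiffAt ℝ 2 Φ (z + t • v) ∧
      ‖iteratedFDeriv ℝ 2 Φ (z + t • v)‖ ≤ C) :
    ‖Φ (z + v) - Φ z - fderiv ℝ Φ z v‖ ≤ C * ‖v‖ ^ 2 := by
  have hC : 0 ≤ C := (norm_nonneg _).trans (h 0 (by simp)).2
  have := ct_mvt (g := fun t : ℝ => Φ (z + t • v) - t • fderiv ℝ Φ z v)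
    (g' := fun t => (fderiv ℝ Φ (z + t • v) - fderiv ℝ Φ z) v) (C := C * ‖v‖ ^ 2)
    (fun t ht => by
      simpa using (ct_line ((h t ht).1.differentiableAt two_ne_zero)).fun_sub
        ((hasDerivAt_id t).smul_const (fderiv ℝ Φ z v)))
    fun t ht => by
      have h1 := ct_taylor0 (Φ := fderiv ℝ Φ) (z := z) (v := t • v) (C := C) fun s hs => by
        rw [smul_smul, norm_iteratedFDeriv_fderiv]
        exact ⟨(h _ (ct_mul_mem hs ht)).1.fderiv_right (by norm_num), (h _ (ct_mul_mem hs ht)).2⟩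
      refine (ContinuousLinearMap.le_opNorm _ _).trans ?_
      rw [sq, ← mul_assoc]
      exact mul_le_mul_of_nonneg_right
        (h1.trans (mul_le_mul_of_nonneg_left (ct_norm_smul ht v) hC)) (norm_nonneg _)
  simpa [sub_right_comm] using this

theorem ct_taylor2 {Φ : X → Y} {z v : X} {C : ℝ}
    (h : ∀ t ∈ Icc (0 : ℝ) 1, ContDiffAt ℝ 3 Φ (z + t • v) ∧
      ‖iteratedFDeriv ℝ 3 Φ (z + t • v)‖ ≤ C) :
    ‖Φ (z + v) - Φ z - fderiv ℝ Φ z v - (1 / 2 : ℝ) • fderiv ℝ (fderiv ℝ Φ) z v v‖ ≤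
      C * ‖v‖ ^ 3 := by
  have hC : 0 ≤ C := (norm_nonneg _).trans (h 0 (by simp)).2
  have := ct_mvt (g := fun t : ℝ => Φ (z + t • v) - t • fderiv ℝ Φ z v -
      (t ^ 2 / 2) • fderiv ℝ (fderiv ℝ Φ) z v v)
    (g' := fun t => (fderiv ℝ Φ (z + t • v) - fderiv ℝ Φ z - fderiv ℝ (fderiv ℝ Φ) z (t • v)) v)
    (C := C * ‖v‖ ^ 3)
    (fun t ht => by
      have h2 : HasDerivAt (fun t : ℝ => t ^ 2 / 2) t t := by
        simpa using (hasDerivAt_pow 2 t).div_const 2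
      simpa using ((ct_line ((h t ht).1.differentiableAt three_ne_zero)).fun_sub
        ((hasDerivAt_id t).smul_const (fderiv ℝ Φ z v))).fun_sub
        (h2.smul_const (fderiv ℝ (fderiv ℝ Φ) z v v)))
    fun t ht => by
      have h1 := ct_taylor1 (Φ := fderiv ℝ Φ) (z := z) (v := t • v) (C := C) fun s hs => by
        rw [smul_smul, norm_iteratedFDeriv_fderiv]
        exact ⟨(h _ (ct_mul_mem hs ht)).1.fderiv_right (by norm_num), (h _ (ct_mul_mem hs ht)).2⟩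
      refine (ContinuousLinearMap.le_opNorm _ _).trans ?_
      rw [pow_succ, ← mul_assoc]
      exact mul_le_mul_of_nonneg_right (h1.trans (mul_le_mul_of_nonneg_left
        (pow_le_pow_left₀ (norm_nonneg _) (ct_norm_smul ht v) 2) hC)) (norm_nonneg _)
  convert this using 2
  simp only [one_smul, one_pow, zero_smul, add_zero, sub_zero, ne_eq, OfNat.ofNat_ne_zero,
    not_false_eq_true, zero_pow, zero_div]
  abel

theorem ct_taylor_cross {Φ : X → Y} {z u v : X} {C : ℝ}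
    (h : ∀ s ∈ Icc (0 : ℝ) 1, ∀ t ∈ Icc (0 : ℝ) 1, ContDiffAt ℝ 2 Φ (z + s • u + t • v) ∧
      ‖iteratedFDeriv ℝ 2 Φ (z + s • u + t • v)‖ ≤ C) :
    ‖Φ (z + u + v) - Φ (z + u) - Φ (z + v) + Φ z‖ ≤ C * ‖u‖ * ‖v‖ := by
  have := ct_mvt (g := fun s : ℝ => Φ (z + v + s • u) - Φ (z + s • u))
    (g' := fun s => (fderiv ℝ Φ (z + s • u + v) - fderiv ℝ Φ (z + s • u)) u) (C := C * ‖u‖ * ‖v‖)
    (fun s hs => by
      have h0 := (h s hs 0 (by simp)).1.differentiableAt two_ne_zero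
      have h1 := (h s hs 1 (by simp)).1.differentiableAt two_ne_zero
      rw [zero_smul, add_zero] at h0
      rw [one_smul, add_right_comm] at h1
      rw [add_right_comm z (s • u) v]
      exact (ct_line h1).fun_sub (ct_line h0))
    fun s hs => by
      have h1 := ct_taylor0 (Φ := fderiv ℝ Φ) (z := z + s • u) (v := v) (C := C) fun t ht => by
        rw [norm_iteratedFDeriv_fderiv]
        exact ⟨(h s hs t ht).1.fderiv_right (by norm_num), (h s hs t ht).2⟩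
      refine (ContinuousLinearMap.le_opNorm _ _).trans ?_
      rw [mul_right_comm]
      exact mul_le_mul_of_nonneg_right h1 (norm_nonneg _)
  convert this using 2
  simp only [one_smul, zero_smul, add_zero, add_right_comm z u v]
  abel

end Gen

theorem ct_le_max_of_deriv2 {f f' f'' : ℝ → ℝ} (h1 : ∀ t ∈ Icc (0 : ℝ) 1, HasDerivAt f (f' t) t)
    (h2 : ∀ t ∈ Icc (0 : ℝ) 1, HasDerivAt f' (f'' t) t)
    (h : ∀ t ∈ Ioo (0 : ℝ) 1, f' t = 0 → 0 < f'' t) :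
    ∀ t ∈ Icc (0 : ℝ) 1, f t ≤ max (f 0) (f 1) := by
  have hc : ContinuousOn f (Icc 0 1) := fun t ht => (h1 t ht).continuousAt.continuousWithinAt
  obtain ⟨a, ha, hmax⟩ := isCompact_Icc.exists_isMaxOn (nonempty_Icc.2 zero_le_one) hc
  intro t ht
  refine (hmax ht).trans ?_
  rcases eq_or_lt_of_le ha.1 with h0 | h0
  · rw [← h0]; exact le_max_left _ _
  rcases eq_or_lt_of_le ha.2 with h0' | h0'
  · rw [h0']; exact le_max_right _ _
  exfalso
  have hz : f' a = 0 := (hmax.isLocalMax (Icc_mem_nhds h0 h0')).hasDerivAt_eq_zero (h1 a ha)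
  have hp : ∀ᶠ x in 𝓝[>] a, 0 < f' x := by
    have h3 := (hasDerivAt_iff_tendsto_slope.1 (h2 a ha)).eventually
      (lt_mem_nhds (h a ⟨h0, h0'⟩ hz))
    filter_upwards [nhdsWithin_mono a (fun x (hx : x ∈ Ioi a) => ne_of_gt hx) h3,
      self_mem_nhdsWithin] with x hx hx'
    rw [slope_def_field, hz, sub_zero] at hx
    exact (div_pos_iff_of_pos_right (sub_pos.2 hx')).1 hx
  obtain ⟨b, hb, hs⟩ := mem_nhdsGT_iff_exists_Ioo_subset.1 hp
  have hab : a < min b 1 := lt_min hb h0'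
  have hsub : Icc a (min b 1) ⊆ Icc 0 1 := Icc_subset_Icc h0.le (min_le_right _ _)
  obtain ⟨c, hc1, hc2⟩ := exists_hasDerivAt_eq_slope f f' hab (hc.mono hsub)
    fun x hx => h1 x (hsub (Ioo_subset_Icc_self hx))
  have h4 : 0 < f' c := hs ⟨hc1.1, hc1.2.trans_le (min_le_left _ _)⟩
  rw [hc2, div_pos_iff_of_pos_right (sub_pos.2 hab), sub_pos] at h4
  exact h4.not_ge (hmax (hsub (right_mem_Icc.2 hab.le)))

end Crest.Agent.R226
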