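import Crest.Agent.R226.Defs
import Crest.Agent.R226.CalcAuxT

/-! Row 226: calculus lemmas (uniform bounds on compact sets, Taylor, Hessians, local minima). -/

set_option autoImplicit false

open Set Filter Metric
open scoped ContDiff Topology InnerProductSpace

namespace Crest.Agent.R226

noncomputable section

section Gen
variable {X Y : Type*} [NormedAddCommGroup X] [NormedSpace ℝ X] [NormedAddCommGroup Y]
  [NormedSpace ℝ Y]

/-- `C^k` bounds on a uniform neighbourhood of a compact set. -/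
theorem unif_bound [FiniteDimensional ℝ X] {Z : Set X} (hZ : IsCompact Z) {Φ : X → Y} (k : ℕ)
    (h : ∀ z ∈ Z, ContDiffAt ℝ k Φ z) :
    ∃ r > 0, ∃ C : ℝ, 0 ≤ C ∧ ∀ z ∈ cthickening r Z,
      ContDiffAt ℝ k Φ z ∧ ∀ i ≤ k, ‖iteratedFDeriv ℝ i Φ z‖ ≤ C := by
  exact ct_unif_bound hZ k h

theorem taylor0 {Φ : X → Y} {z v : X} {C : ℝ}
    (h : ∀ t ∈ Icc (0 : ℝ) 1, ContDiffAt ℝ 1 Φ (z + t • v) ∧
      ‖iteratedFDeriv ℝ 1 Φ (z + t • v)‖ ≤ C) :
    ‖Φ (z + v) - Φ z‖ ≤ C * ‖v‖ := by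
  exact ct_taylor0 h

theorem taylor1 {Φ : X → Y} {z v : X} {C : ℝ}
    (h : ∀ t ∈ Icc (0 : ℝ) 1, ContDiffAt ℝ 2 Φ (z + t • v) ∧
      ‖iteratedFDeriv ℝ 2 Φ (z + t • v)‖ ≤ C) :
    ‖Φ (z + v) - Φ z - fderiv ℝ Φ z v‖ ≤ C * ‖v‖ ^ 2 := by
  exact ct_taylor1 h

theorem taylor2 {Φ : X → Y} {z v : X} {C : ℝ}
    (h : ∀ t ∈ Icc (0 : ℝ) 1, ContDiffAt ℝ 3 Φ (z + t • v) ∧
      ‖iteratedFDeriv ℝ 3 Φ (z + t • v)‖ ≤ C) :
    ‖Φ (z + v) - Φ z - fderiv ℝ Φ z v - (1 / 2 : ℝ) • fderiv ℝ (fderiv ℝ Φ) z v v‖ ≤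
      C * ‖v‖ ^ 3 := by
  exact ct_taylor2 h

/-- mixed second differences. -/
theorem taylor_cross {Φ : X → Y} {z u v : X} {C : ℝ}
    (h : ∀ s ∈ Icc (0 : ℝ) 1, ∀ t ∈ Icc (0 : ℝ) 1, ContDiffAt ℝ 2 Φ (z + s • u + t • v) ∧
      ‖iteratedFDeriv ℝ 2 Φ (z + s • u + t • v)‖ ≤ C) :
    ‖Φ (z + u + v) - Φ (z + u) - Φ (z + v) + Φ z‖ ≤ C * ‖u‖ * ‖v‖ := by
  exact ct_taylor_cross h

theorem h92_perm_tail {Φ : X → Y} {z : X} {k : ℕ} (h : ContDiffAt ℝ (k + 1 : ℕ) Φ z)
    {m m' : Fin (k + 1) → X} (h0 : m 0 = m' 0)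
    (ht : ∀ᶠ y in 𝓝 z, iteratedFDeriv ℝ k Φ y (Fin.tail m) = iteratedFDeriv ℝ k Φ y (Fin.tail m')) :
    iteratedFDeriv ℝ (k + 1) Φ z m = iteratedFDeriv ℝ (k + 1) Φ z m' := by
  have hd : DifferentiableAt ℝ (iteratedFDeriv ℝ k Φ) z :=
    h.differentiableAt_iteratedFDeriv (by exact_mod_cast Nat.lt_succ_self k)
  rw [hd.iteratedFDeriv_succ_apply_left', hd.iteratedFDeriv_succ_apply_left', h0,
    Filter.EventuallyEq.fderiv_eq ht]

theorem h92_perm_two {Φ : X → Y} {z : X} {k : ℕ} (h : ContDiffAt ℝ (k + 1 + 1 : ℕ) Φ z)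
    (m : Fin (k + 1 + 1) → X) :
    iteratedFDeriv ℝ (k + 1 + 1) Φ z m =
      fderiv ℝ (fderiv ℝ fun y => iteratedFDeriv ℝ k Φ y (Fin.tail (Fin.tail m))) z (m 0) (m 1) ∧
    ContDiffAt ℝ 2 (fun y => iteratedFDeriv ℝ k Φ y (Fin.tail (Fin.tail m))) z := by
  have hd : DifferentiableAt ℝ (iteratedFDeriv ℝ (k + 1) Φ) z :=
    h.differentiableAt_iteratedFDeriv (by exact_mod_cast Nat.lt_succ_self (k + 1))
  have h2 : ContDiffAt ℝ 2 (iteratedFDeriv ℝ k Φ) z :=
    h.iteratedFDeriv_right (by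
      rw [show k + 1 + 1 = 2 + k by ring]
      push_cast
      exact le_rfl)
  have h3 : ContDiffAt ℝ 2 (fun y => iteratedFDeriv ℝ k Φ y (Fin.tail (Fin.tail m))) z :=
    (ContinuousMultilinearMap.apply ℝ (fun _ : Fin k => X) Y
      (Fin.tail (Fin.tail m))).contDiff.contDiffAt.comp z h2
  refine ⟨?_, h3⟩
  have ev : (fun y => iteratedFDeriv ℝ (k + 1) Φ y (Fin.tail m)) =ᶠ[𝓝 z]
      fun y => fderiv ℝ (fun y => iteratedFDeriv ℝ k Φ y (Fin.tail (Fin.tail m))) y (m 1) := by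
    filter_upwards [h2.eventually (by simp)] with y hy
    exact (hy.differentiableAt (by simp)).iteratedFDeriv_succ_apply_left'
  have h4 : DifferentiableAt ℝ
      (fderiv ℝ fun y => iteratedFDeriv ℝ k Φ y (Fin.tail (Fin.tail m))) z :=
    (h3.fderiv_right (m := 1) (by norm_num)).differentiableAt (by simp)
  rw [hd.iteratedFDeriv_succ_apply_left', ev.fderiv_eq,
    fderiv_clm_apply h4 (differentiableAt_const _)]
  simp

/-- symmetry of higher derivatives (from `ContDiffAt.isSymmSndFDerivAt` by induction; adjacent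
transpositions generate the symmetric group). -/
theorem iteratedFDeriv_perm [CompleteSpace Y] {Φ : X → Y} {z : X} {k : ℕ} (h : ContDiffAt ℝ k Φ z)
    (m : Fin k → X) (σ : Equiv.Perm (Fin k)) :
    iteratedFDeriv ℝ k Φ z (m ∘ σ) = iteratedFDeriv ℝ k Φ z m := by
  induction k generalizing z with
  | zero => rw [Subsingleton.elim (m ∘ σ) m]
  | succ k ih =>
    have hσ : σ ∈ Submonoid.closure
        (Set.range fun i : Fin k => Equiv.swap i.castSucc i.succ) := by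
      rw [Equiv.Perm.mclosure_swap_castSucc_succ]; trivial
    induction hσ using Submonoid.closure_induction generalizing m with
    | one => rfl
    | mul a b _ _ ha hb => rw [Equiv.Perm.coe_mul, ← Function.comp_assoc, hb, ha]
    | mem τ hτ =>
      obtain ⟨i, rfl⟩ := hτ
      cases k with
      | zero => exact i.elim0
      | succ k =>
        refine Fin.cases ?_ (fun j => ?_) i
        · have e : Fin.tail (Fin.tail (m ∘ Equiv.swap (Fin.castSucc 0) (Fin.succ 0))) =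
              Fin.tail (Fin.tail m) := by
            funext l
            simp only [Fin.tail, Function.comp_apply, Fin.castSucc_zero]
            rw [Equiv.swap_apply_of_ne_of_ne (Fin.succ_ne_zero _)
              (fun h => Fin.succ_ne_zero _ (Fin.succ_injective _ h))]
          obtain ⟨a1, -⟩ := h92_perm_two h (m ∘ Equiv.swap (Fin.castSucc 0) (Fin.succ 0))
          obtain ⟨a2, a3⟩ := h92_perm_two h m
          rw [a1, a2, e, (a3.isSymmSndFDerivAt (by simp)).eq]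
          simp
        · refine h92_perm_tail h ?_ ?_
          · simp only [Function.comp_apply]
            rw [Equiv.swap_apply_of_ne_of_ne (Fin.castSucc_ne_zero_iff.2 (Fin.succ_ne_zero _)).symm
              (Fin.succ_ne_zero _).symm]
          · have e : Fin.tail (m ∘ Equiv.swap (Fin.castSucc j.succ) j.succ.succ) =
                Fin.tail m ∘ Equiv.swap j.castSucc j.succ := by
              funext l
              simp only [Fin.tail, Function.comp_apply]
              rw [(Fin.succ_injective _).map_swap, Fin.succ_castSucc]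
            rw [e]
            filter_upwards [h.eventually (by simp)] with y hy
            exact ih (hy.of_le (by exact_mod_cast Nat.le_succ _)) _ _

end Gen

/-- no interior maximum. -/
theorem le_max_of_deriv2 {f f' f'' : ℝ → ℝ} (h1 : ∀ t ∈ Icc (0 : ℝ) 1, HasDerivAt f (f' t) t)
    (h2 : ∀ t ∈ Icc (0 : ℝ) 1, HasDerivAt f' (f'' t) t)
    (h : ∀ t ∈ Ioo (0 : ℝ) 1, f' t = 0 → 0 < f'' t) :
    ∀ t ∈ Icc (0 : ℝ) 1, f t ≤ max (f 0) (f 1) := by
  exact ct_le_max_of_deriv2 h1 h2 h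

/-- the graph of the fibrewise convex hulls of a compact set is compact (Carathéodory). -/
theorem isCompact_convexHull_graph {X : Type*} [MetricSpace X] {n : ℕ} {Z : Set (X × E n)}
    (hZ : IsCompact Z) : IsCompact {z : X × E n | z.2 ∈ convexHull ℝ {q | (z.1, q) ∈ Z}} := by
  classical
  set N := Module.finrank ℝ (E n) + 1 with hN
  have : NeZero N := ⟨Nat.succ_ne_zero _⟩
  have hc0 : IsCompact ((Set.pi univ fun _ : Fin N => Z) ∩ {y | ∀ i, (y i).1 = (y 0).1}) := by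
    refine (isCompact_univ_pi fun _ => hZ).inter_right ?_
    rw [ofPred_forall]
    exact isClosed_iInter fun i => isClosed_eq (by fun_prop) (by fun_prop)
  have hc := (isCompact_stdSimplex ℝ (Fin N)).prod hc0
  have hcont : Continuous (fun z : (Fin N → ℝ) × (Fin N → X × E n) =>
      (((z.2 0).1, ∑ i, z.1 i • (z.2 i).2) : X × E n)) := by
    fun_prop
  convert hc.image hcont using 1
  ext ⟨a, x⟩
  constructor
  · intro hx
    have hx : x ∈ convexHull ℝ {q | (a, q) ∈ Z} := hx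
    obtain ⟨x₀, hx₀⟩ := convexHull_nonempty_iff.1 ⟨x, hx⟩
    obtain ⟨ι, _, z, w, hz, hai, hw0, hw1, rfl⟩ := eq_pos_convex_span_of_mem_convexHull hx
    have hcard : Fintype.card ι ≤ Fintype.card (Fin N) := by
      rw [Fintype.card_fin]
      exact hai.card_le_finrank_succ.trans (Nat.succ_le_succ (Submodule.finrank_le _))
    obtain ⟨e⟩ := Function.Embedding.nonempty_of_card_le hcard
    have key : ∀ {M : Type} [AddCommMonoid M] (F : Fin N → M) (G : ι → M),
        (∀ i, F (e i) = G i) → (∀ j, (¬ ∃ i, e i = j) → F j = 0) → ∑ j, F j = ∑ i, G i := by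
      intro M _ F G h1 h2
      rw [← Finset.sum_subset (Finset.subset_univ (Finset.univ.map e))
        (fun j _ hj => h2 j (by simpa using hj)), Finset.sum_map]
      exact Finset.sum_congr rfl fun i _ => h1 i
    refine ⟨(Function.extend e w 0, fun j => (a, Function.extend e z (fun _ => x₀) j)),
      ⟨⟨fun j => ?_, ?_⟩, fun j _ => ?_, fun _ => rfl⟩, Prod.ext rfl ?_⟩
    · by_cases hj : ∃ i, e i = j
      · obtain ⟨i, rfl⟩ := hj
        simp only [e.injective.extend_apply]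
        exact (hw0 i).le
      · simp only [Function.extend_apply' _ _ _ hj, Pi.zero_apply, le_refl]
    · rw [← hw1]
      exact key _ _ (fun i => e.injective.extend_apply _ _ i)
        (fun j hj => by simp only [Function.extend_apply' _ _ _ hj, Pi.zero_apply])
    · by_cases hj : ∃ i, e i = j
      · obtain ⟨i, rfl⟩ := hj
        simp only [e.injective.extend_apply]
        exact hz ⟨i, rfl⟩
      · simp only [Function.extend_apply' _ _ _ hj]
        exact hx₀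
    · exact key _ _ (fun i => by simp only [e.injective.extend_apply])
        (fun j hj => by simp only [Function.extend_apply' _ _ _ hj, Pi.zero_apply, zero_smul])
  · rintro ⟨⟨α, y⟩, ⟨⟨h0, h1⟩, hy, hy'⟩, he⟩
    obtain ⟨rfl, rfl⟩ := Prod.ext_iff.1 he
    refine (convex_convexHull ℝ _).sum_mem (fun i _ => h0 i) h1
      (fun i _ => subset_convexHull ℝ _ ?_)
    have := hy i (mem_univ i)
    change ((y 0).1, (y i).2) ∈ Z
    rw [← hy' i]
    exact this

variable {n : ℕ}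

/-- the Hessian as an operator. -/
def hess (f : E n → ℝ) (x : E n) : E n →L[ℝ] E n := fderiv ℝ (gradient f) x

theorem inner_gradient (f : E n → ℝ) (x v : E n) : ⟪gradient f x, v⟫_ℝ = fderiv ℝ f x v :=
  InnerProductSpace.toDual_symm_apply

/-- the Riesz map as a real linear map. -/
def h33_riesz (n : ℕ) : (E n →L[ℝ] ℝ) →L[ℝ] E n :=
  LinearMap.toContinuousLinearMap
    { toFun := fun φ => (InnerProductSpace.toDual ℝ (E n)).symm φ
      map_add' := fun φ ψ => map_add _ φ ψ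
      map_smul' := fun c φ => by simp }

theorem h33_grad (f : E n → ℝ) : gradient f = fun x => h33_riesz n (fderiv ℝ f x) := rfl

theorem h33_inner (φ : E n →L[ℝ] ℝ) (v : E n) : ⟪h33_riesz n φ, v⟫_ℝ = φ v :=
  InnerProductSpace.toDual_symm_apply

theorem h33_fderiv {f : E n → ℝ} {x : E n} (hf : ContDiffAt ℝ 2 f x) :
    HasFDerivAt (fderiv ℝ f) (fderiv ℝ (fderiv ℝ f) x) x :=
  ((hf.fderiv_right (m := 1) le_rfl).differentiableAt one_ne_zero).hasFDerivAt

theorem h33_has {f : E n → ℝ} {x : E n} (hf : ContDiffAt ℝ 2 f x) :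
    HasFDerivAt (gradient f) ((h33_riesz n).comp (fderiv ℝ (fderiv ℝ f) x)) x :=
  (h33_riesz n).hasFDerivAt.comp x (h33_fderiv hf)

theorem inner_hess {f : E n → ℝ} {x : E n} (hf : ContDiffAt ℝ 2 f x) (u v : E n) :
    ⟪hess f x u, v⟫_ℝ = fderiv ℝ (fderiv ℝ f) x u v := by
  rw [hess, (h33_has hf).fderiv]
  exact h33_inner _ v

theorem hess_symm {f : E n → ℝ} {x : E n} (hf : ContDiffAt ℝ 2 f x) (u v : E n) :
    ⟪hess f x u, v⟫_ℝ = ⟪u, hess f x v⟫_ℝ := by
  rw [real_inner_comm (hess f x v) u, inner_hess hf, inner_hess hf]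
  exact hf.isSymmSndFDerivAt (by simp) u v

theorem hess_congr {f g : E n → ℝ} {x : E n} (h : f =ᶠ[𝓝 x] g) : hess f x = hess g x := by
  refine EventuallyEq.fderiv_eq ?_
  filter_upwards [h.fderiv (𝕜 := ℝ)] with y hy
  rw [h33_grad, h33_grad]
  simp only [hy]

theorem hasFDerivAt_gradient {f : E n → ℝ} {x : E n} (hf : ContDiffAt ℝ 2 f x) :
    HasFDerivAt (gradient f) (hess f x) x :=
  (h33_has hf).differentiableAt.hasFDerivAt

theorem h33_line (x u : E n) (t : ℝ) : HasDerivAt (fun t : ℝ => x + t • u) u t := by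
  simpa using ((hasDerivAt_id t).smul_const u).const_add x

/-- the Hessian is the second derivative along lines. -/
theorem hess_line {f : E n → ℝ} {x : E n} (hf : ContDiffAt ℝ 2 f x) (u : E n) :
    HasDerivAt (fun t : ℝ => fderiv ℝ f (x + t • u) u) ⟪hess f x u, u⟫_ℝ 0 := by
  rw [inner_hess hf]
  have h1 := (h33_fderiv hf).comp_hasDerivAt_of_eq (0 : ℝ) (h33_line x u 0) (by simp)
  simpa using h1.clm_apply (hasDerivAt_const (0 : ℝ) u)

theorem h33_min {ψ ψ' : ℝ → ℝ} {a : ℝ} (h1 : ∀ᶠ t in 𝓝 (0 : ℝ), HasDerivAt ψ (ψ' t) t)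
    (h2 : HasDerivAt ψ' a 0) (hm : IsLocalMin ψ 0) : ψ' 0 = 0 ∧ 0 ≤ a := by
  have h0 := hm.hasDerivAt_eq_zero h1.self_of_nhds
  refine ⟨h0, not_lt.1 fun ha => ?_⟩
  have e1 : deriv ψ =ᶠ[𝓝 0] ψ' := h1.mono fun t ht => ht.deriv
  have e2 : deriv (deriv ψ) 0 = a := by rw [e1.deriv_eq, h2.deriv]
  have hM : IsLocalMax ψ 0 := isLocalMax_of_deriv_deriv_neg (by rw [e2]; exact ha)
    (by rw [e1.self_of_nhds, h0]) h1.self_of_nhds.continuousAt
  have e3 : ψ =ᶠ[𝓝 0] fun _ => ψ 0 := by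
    filter_upwards [hm, hM] with t a1 a2 using le_antisymm a2 a1
  have e4 : deriv ψ =ᶠ[𝓝 0] fun _ => 0 := by
    filter_upwards [e3.deriv] with t ht
    rw [ht, deriv_const]
  rw [e4.deriv_eq, deriv_const] at e2
  exact ha.ne e2.symm

theorem h33_key {f : E n → ℝ} {x g : E n} {θ : ℝ} (s : ℝ) (hf : ContDiffAt ℝ 2 f x)
    (h : ∀ᶠ y in 𝓝 x, 0 ≤ s * (f y - (f x + ⟪g, y - x⟫_ℝ + θ * ‖y - x‖ ^ 2))) (u : E n) :
    s * (fderiv ℝ f x u - ⟪g, u⟫_ℝ) = 0 ∧ 0 ≤ s * (⟪hess f x u, u⟫_ℝ - 2 * θ * ‖u‖ ^ 2) := by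
  have ht : Tendsto (fun t : ℝ => x + t • u) (𝓝 0) (𝓝 x) := by
    simpa using (h33_line x u 0).continuousAt.tendsto
  have hd : ∀ᶠ y in 𝓝 x, DifferentiableAt ℝ f y :=
    (hf.eventually (by simp)).mono fun y hy => hy.differentiableAt (by simp)
  have key := h33_min
    (ψ := fun t => s * (f (x + t • u) - (f x + t * ⟪g, u⟫_ℝ + θ * (t ^ 2 * ‖u‖ ^ 2))))
    (ψ' := fun t => s * (fderiv ℝ f (x + t • u) u - (⟪g, u⟫_ℝ + θ * (2 * t * ‖u‖ ^ 2))))
    (a := s * (⟪hess f x u, u⟫_ℝ - 2 * θ * ‖u‖ ^ 2)) ?_ ?_ ?_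
  · simpa using key
  · filter_upwards [ht.eventually hd] with t h1
    have a1 := h1.hasFDerivAt.comp_hasDerivAt t (h33_line x u t)
    have a2 := ((hasDerivAt_id t).mul_const ⟪g, u⟫_ℝ).const_add (f x)
    have a3 := ((hasDerivAt_pow 2 t).mul_const (‖u‖ ^ 2)).const_mul θ
    exact ((a1.sub (a2.add a3)).const_mul s).congr_deriv (by simp)
  · have a3 := ((((hasDerivAt_id (0 : ℝ)).const_mul 2).mul_const (‖u‖ ^ 2)).const_mul θ).const_add
      ⟪g, u⟫_ℝ
    exact (((hess_line hf u).sub a3).const_mul s).congr_deriv (by ring)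
  · filter_upwards [ht.eventually h] with t h1
    simp only [add_sub_cancel_left, real_inner_smul_right, norm_smul, mul_pow, Real.norm_eq_abs,
      sq_abs] at h1
    simpa using h1

/-- quadratic lower bound at a point gives a lower bound of the Hessian. -/
theorem le_hess_of_le {f : E n → ℝ} {x g : E n} {θ : ℝ} (hf : ContDiffAt ℝ 2 f x)
    (h : ∀ᶠ y in 𝓝 x, f x + ⟪g, y - x⟫_ℝ + θ * ‖y - x‖ ^ 2 ≤ f y) :
    gradient f x = g ∧ ∀ u, 2 * θ * ‖u‖ ^ 2 ≤ ⟪hess f x u, u⟫_ℝ := by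
  have key := h33_key (g := g) (θ := θ) 1 hf (h.mono fun y hy => by linarith)
  refine ⟨ext_inner_right ℝ fun u => ?_, fun u => by linarith [(key u).2]⟩
  rw [inner_gradient]
  linarith [(key u).1]

/-- quadratic upper bound at a point gives an upper bound of the Hessian. -/
theorem hess_le_of_le {f : E n → ℝ} {x g : E n} {θ : ℝ} (hf : ContDiffAt ℝ 2 f x)
    (h : ∀ᶠ y in 𝓝 x, f y ≤ f x + ⟪g, y - x⟫_ℝ + θ * ‖y - x‖ ^ 2) :
    gradient f x = g ∧ ∀ u, ⟪hess f x u, u⟫_ℝ ≤ 2 * θ * ‖u‖ ^ 2 := by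
  have key := h33_key (g := g) (θ := θ) (-1) hf (h.mono fun y hy => by linarith)
  refine ⟨ext_inner_right ℝ fun u => ?_, fun u => by linarith [(key u).2]⟩
  rw [inner_gradient]
  linarith [(key u).1]

section Param
variable {X : Type*} [NormedAddCommGroup X] [NormedSpace ℝ X]

theorem h33_param {Y : Type*} [NormedAddCommGroup Y] [NormedSpace ℝ Y] {Φ : X × E n → Y}
    {z₀ : X × E n} {k m : WithTop ℕ∞} (h : ContDiffAt ℝ m Φ z₀) (hk : k + 1 ≤ m) :
    ContDiffAt ℝ k (fun z : X × E n => fderiv ℝ (fun ξ => Φ (z.1, ξ)) z.2) z₀ := by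
  refine ContDiffAt.fderiv (f := fun (z : X × E n) (ξ : E n) => Φ (z.1, ξ)) (g := Prod.snd)
    (n := m) ?_ contDiffAt_snd hk
  exact ContDiffAt.comp (g := Φ) (f := fun p : (X × E n) × E n => (p.1.1, p.2)) _ h
    (contDiffAt_fst.fst.prodMk contDiffAt_snd)

theorem contDiffAt_gradient_param {Φ : X × E n → ℝ} {z₀ : X × E n} {k m : WithTop ℕ∞}
    (h : ContDiffAt ℝ m Φ z₀) (hk : k + 1 ≤ m) :
    ContDiffAt ℝ k (fun z : X × E n => gradient (fun ξ => Φ (z.1, ξ)) z.2) z₀ :=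
  (h33_riesz n).contDiff.contDiffAt.comp z₀ (h33_param h hk)

theorem contDiffAt_hess_param {Φ : X × E n → ℝ} {z₀ : X × E n} {k m : WithTop ℕ∞}
    (h : ContDiffAt ℝ m Φ z₀) (hk : k + 2 ≤ m) :
    ContDiffAt ℝ k (fun z : X × E n => hess (fun ξ => Φ (z.1, ξ)) z.2) z₀ :=
  h33_param (contDiffAt_gradient_param (k := k + 1) h
    (by rw [add_assoc, one_add_one_eq_two]; exact hk)) le_rfl

end Param

end

end Crest.Agent.R226
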