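import Crest.Agent.R226.Cut

/-! Row 226: `c`-convex functions and their subdifferentials. -/

set_option autoImplicit false

open Set Filter Metric
open scoped ContDiff Topology InnerProductSpace Pointwise

namespace Crest.Agent.R226

variable {n : ℕ} {M : Type*} [MetricSpace M]

/-- `φ x = max_{y ∈ Y} (-ψ y - cst x y)`. -/
structure IsCT (Y : Set M) (φ ψ : M → ℝ) : Prop where
  closed : IsClosed Y
  cont : Continuous ψ
  nonneg : ∀ x, ∀ y ∈ Y, 0 ≤ φ x + ψ y + cst x y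
  attained : ∀ x, ∃ y ∈ Y, φ x + ψ y + cst x y = 0

theorem IsCT.lip {Y : Set M} {φ ψ : M → ℝ} (h : IsCT Y φ ψ) {D : ℝ}
    (hD : ∀ x y : M, dist x y ≤ D) (x x' : M) : |φ x - φ x'| ≤ D * dist x x' := by
  obtain ⟨y, hy, e⟩ := h.attained x
  obtain ⟨y', hy', e'⟩ := h.attained x'
  have h1 := h.nonneg x y' hy'
  have h2 := h.nonneg x' y hy
  have h3 := abs_le.1 (abs_cst_sub_le hD x x' y)
  have h4 := abs_le.1 (abs_cst_sub_le hD x x' y')
  rw [abs_le]
  constructor <;> linarith [h3.1, h4.2]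

theorem IsCT.continuous [CompactSpace M] {Y : Set M} {φ ψ : M → ℝ} (h : IsCT Y φ ψ) :
    Continuous φ := by
  obtain ⟨D, -, hD⟩ := exists_diam M
  exact (LipschitzWith.of_dist_le' (K := D) fun x y => h.lip hD x y).continuous

namespace LocGeo

variable (G : LocGeo n M)

/-- active minimising velocities. -/
def Act (Y : Set M) (φ ψ : M → ℝ) (a : P n) : Set (E n) :=
  {p | p ∈ G.K a ∧ G.ex a p ∈ Y ∧ φ (G.pt a) + ψ (G.ex a p) + cst (G.pt a) (G.ex a p) = 0}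

/-- the graph of the subdifferential over `F`. -/
def Sub (Y : Set M) (φ ψ : M → ℝ) : Set (P n × E n) :=
  {z | z.1 ∈ G.F ∧ z.2 ∈ convexHull ℝ (G.Act Y φ ψ z.1)}

variable [CompactSpace M] {Y : Set M} {φ ψ : M → ℝ}

theorem h29_isClosed (h : IsCT Y φ ψ) :
    IsClosed {w : M × M | w.2 ∈ Y ∧ φ w.1 + ψ w.2 + cst w.1 w.2 = 0} :=
  (h.closed.preimage continuous_snd).inter (isClosed_eq
    (((h.continuous.comp continuous_fst).add (h.cont.comp continuous_snd)).add continuous_cst)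
    continuous_const)

omit [CompactSpace M] in
theorem h29_continuousAt {a : P n} (ha : a ∈ G.U) (p : E n) :
    ContinuousAt (fun z : P n × E n => (G.pt z.1, G.ex z.1 z.2)) (a, p) :=
  (ContinuousAt.comp (f := fun z : P n × E n => z.1)
    (G.continuousOn_pt.continuousAt (G.U_open.mem_nhds ha)) continuousAt_fst).prodMk
    (G.continuousAt_ex ha p)

theorem isCompact_Sub (h : IsCT Y φ ψ) : IsCompact (G.Sub Y φ ψ) := by
  have hc : ContinuousOn (fun z : P n × E n => (G.pt z.1, G.ex z.1 z.2)) G.KF := fun z hz =>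
    (G.h29_continuousAt (G.F_sub hz.1) z.2).continuousWithinAt
  have hZ := G.isCompact_KF.of_isClosed_subset
    (hc.preimage_isClosed_of_isClosed G.isCompact_KF.isClosed (h29_isClosed h)) inter_subset_left
  have h2 := isCompact_convexHull_graph hZ
  refine (Set.ext fun z => ?_ : _ = G.Sub Y φ ψ) ▸ h2
  constructor
  · intro hz
    obtain ⟨q, hq⟩ := convexHull_nonempty_iff.1 ⟨_, hz⟩
    exact ⟨hq.1.1, convexHull_mono (fun p hp => by exact ⟨hp.1.2, hp.2⟩) hz⟩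
  · intro hz
    exact convexHull_mono (fun p hp => by exact ⟨⟨hz.1, hp.1⟩, hp.2⟩) hz.2

theorem h29_isCompact_Act (h : IsCT Y φ ψ) {a : P n} (ha : a ∈ G.U) :
    IsCompact (convexHull ℝ (G.Act Y φ ψ a)) := by
  have hc : Continuous fun p : E n => (G.pt a, G.ex a p) :=
    continuous_const.prodMk (G.continuous_ex ha)
  have h1 : IsCompact (G.Act Y φ ψ a) :=
    (G.isCompact_K ha).inter_right ((h29_isClosed h).preimage hc)
  have h2 := (isCompact_convexHull_graph ((isCompact_singleton (x := a)).prod h1)).image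
    continuous_snd
  refine (Set.ext fun p => ?_ : _ = convexHull ℝ (G.Act Y φ ψ a)) ▸ h2
  constructor
  · rintro ⟨z, hz, rfl⟩
    exact convexHull_mono (fun p hp => hp.2) hz
  · intro hp
    exact ⟨(a, p), convexHull_mono (fun p hp => by exact ⟨rfl, hp⟩) hp, rfl⟩

theorem Act_nonempty (h : IsCT Y φ ψ) {a : P n} (ha : a ∈ G.U) : (G.Act Y φ ψ a).Nonempty := by
  obtain ⟨y, hy, e⟩ := h.attained (G.pt a)
  obtain ⟨p, hp, rfl⟩ := G.exists_min ha y
  exact ⟨p, hp, hy, e⟩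

/-- Danskin: upper bound of the directional derivative.  Proof: `x_k = ex a (t_k ξ)`, `y_k` active
at `x_k`, frames `a_k ∈ F` at `x_k`, `q_k ∈ K a_k` pointing to `y_k`, `ξ_k` from `exists_cont`
(`ex a_k (-t_k ξ_k) = pt a`), `semiconcave` at `a_k`; pass to a subsequence, identify the limit
`ξ'` with `A ξ` by `eq_of_ex_smul`. -/
theorem danskin_dir (h : IsCT Y φ ψ) {a : P n} (ha : a ∈ G.U) (ξ : E n) {β : ℝ}
    (hβ : ∀ᶠ t in 𝓝[>] (0 : ℝ), t * β ≤ φ (G.ex a (t • ξ)) - φ (G.pt a)) :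
    ∃ p ∈ G.Act Y φ ψ a, β ≤ ⟪p, ξ⟫_ℝ := by
  obtain ⟨C, -, hC⟩ := G.semiconcave
  choose b hbF hb using fun t : ℝ => G.exists_frame (G.ex a (t • ξ))
  have hbU := fun t => G.F_sub (hbF t)
  choose q hq using fun t : ℝ => G.Act_nonempty h (hbU t)
  choose η hη hη' using fun t : ℝ => G.exists_cont ha (hbU t) (hb t)
  have key : ∀ t : ℝ, 0 < t → t * β ≤ φ (G.ex a (t • ξ)) - φ (G.pt a) →
      β ≤ ⟪q t, η t⟫_ℝ + C * t * ‖ξ‖ ^ 2 := by
    intro t ht h1
    have h2 := hC (b t) (hbU t) (q t) (hq t).1 ((-t) • η t)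
    have h3 := (hq t).2.2
    have h4 := h.nonneg (G.pt a) _ (hq t).2.1
    rw [G.cst_K (hq t).1, hb t] at h3
    rw [hη', add_neg_cancel, zero_smul, inner_smul_right, norm_smul, hη, mul_pow, Real.norm_eq_abs,
      sq_abs] at h2
    refine le_of_mul_le_mul_left ?_ ht
    change cst (G.pt a) _ ≤ _ at h2
    nlinarith
  obtain ⟨u, hu⟩ := Ultrafilter.exists_le (𝓝[>] (0 : ℝ))
  have hu0 : Tendsto (fun t : ℝ => t) u (𝓝 0) := hu.trans nhdsWithin_le_nhds
  obtain ⟨⟨⟨b', q'⟩, η'⟩, ⟨⟨hb'F, hq'⟩, -⟩, hlim⟩ := isCompact_iff_ultrafilter_le_nhds.1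
    (G.isCompact_KF.prod (isCompact_closedBall (0 : E n) ‖ξ‖))
    (u.map fun t => ((b t, q t), η t)) (le_principal_iff.2 (mem_map.2 (univ_mem' fun t =>
      ⟨⟨hbF t, (hq t).1⟩, mem_closedBall_zero_iff.2 (hη t).le⟩)))
  have hb'U := G.F_sub hb'F
  have hlim' : Tendsto (fun t => ((b t, q t), η t)) u (𝓝 ((b', q'), η')) := hlim
  have l1 : Tendsto (fun t => (b t, q t)) u (𝓝 (b', q')) := hlim'.fst_nhds
  have l2 : Tendsto η u (𝓝 η') := hlim'.snd_nhds
  have l3 := (G.h29_continuousAt hb'U q').tendsto.comp l1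
  have hact := (h29_isClosed h).mem_of_tendsto l3 (Eventually.of_forall fun t => (hq t).2)
  have hline : ∀ s : ℝ, G.ex b' (s • η') = G.ex a (s • ξ) := by
    intro s
    have m1 := (G.continuousAt_ex hb'U (s • η')).tendsto.comp
      (l1.fst_nhds.prodMk_nhds (l2.const_smul s))
    have m2 := ((G.continuous_ex ha).tendsto _).comp ((hu0.add_const s).smul_const ξ)
    rw [zero_add] at m2
    exact tendsto_nhds_unique m1 (m2.congr fun t => (hη' t s).symm)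
  have h0 := hline 0
  rw [zero_smul, zero_smul] at h0
  obtain ⟨A, hA⟩ := G.iso a ha b' hb'U h0.symm
  have hη0 : η' = A ξ := G.eq_of_ex_smul hb'U one_pos fun s _ => by
    rw [hline, ← map_smul, hA]
  have hex : G.ex a (A.symm q') = G.ex b' q' := by rw [← hA, A.apply_symm_apply]
  have hpt : G.pt a = G.pt b' := h0.symm
  refine ⟨A.symm q', ⟨(G.K_iso hA _).1 (by rw [A.apply_symm_apply]; exact hq'), ?_⟩, ?_⟩
  · rw [hex, hpt]
    exact hact
  · have l4 := (l1.snd_nhds.inner (𝕜 := ℝ) l2).add ((hu0.const_mul C).mul_const (‖ξ‖ ^ 2))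
    rw [mul_zero, zero_mul, add_zero] at l4
    rw [← A.inner_map_map, A.apply_symm_apply, ← hη0]
    refine ge_of_tendsto l4 (hu ?_)
    filter_upwards [hβ, self_mem_nhdsWithin] with t h1 h2
    exact key t h2 h1

/-- subgradients of `s φ` lie in `s • convexHull (Act a)` (`danskin_dir`, Hahn–Banach,
compactness of the convex hull via `isCompact_convexHull_graph`). -/
theorem danskin (h : IsCT Y φ ψ) {a : P n} (ha : a ∈ G.U) {s C : ℝ} (hs : 0 ≤ s) {q : E n}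
    (hq : ∀ᶠ ξ in 𝓝 (0 : E n), ⟪q, ξ⟫_ℝ - C * ‖ξ‖ ^ 2 ≤ s * φ (G.ex a ξ) - s * φ (G.pt a)) :
    ∃ p ∈ convexHull ℝ (G.Act Y φ ψ a), q = s • p := by
  by_contra hne
  have hq' : q ∉ s • convexHull ℝ (G.Act Y φ ψ a) := fun ⟨p, hp, e⟩ => hne ⟨p, hp, e.symm⟩
  obtain ⟨f, u, h1, h2⟩ := geometric_hahn_banach_closed_point
    ((convex_convexHull ℝ _).smul s) ((G.h29_isCompact_Act h ha).smul s).isClosed hq'
  obtain ⟨ξ, hξ⟩ : ∃ ξ : E n, ∀ v, f v = ⟪v, ξ⟫_ℝ :=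
    ⟨(InnerProductSpace.toDual ℝ (E n)).symm f, fun v => by
      rw [real_inner_comm, InnerProductSpace.toDual_symm_apply]⟩
  have h3 : ∀ p ∈ G.Act Y φ ψ a, s * ⟪p, ξ⟫_ℝ < u := fun p hp => by
    have := h1 _ ⟨p, subset_convexHull ℝ _ hp, rfl⟩
    rwa [hξ, inner_smul_left] at this
  rw [hξ] at h2
  have t0 : Tendsto (fun t : ℝ => t) (𝓝[>] 0) (𝓝 0) := nhdsWithin_le_nhds
  have t1 : Tendsto (fun t : ℝ => t • ξ) (𝓝[>] 0) (𝓝 0) := by
    simpa using t0.smul_const ξ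
  have t2 : Tendsto (fun t : ℝ => ⟪q, ξ⟫_ℝ - C * t * ‖ξ‖ ^ 2) (𝓝[>] 0) (𝓝 ⟪q, ξ⟫_ℝ) := by
    simpa using ((t0.const_mul C).mul_const (‖ξ‖ ^ 2)).const_sub ⟪q, ξ⟫_ℝ
  have h4 : ∀ᶠ t in 𝓝[>] (0 : ℝ), t * u ≤ s * (φ (G.ex a (t • ξ)) - φ (G.pt a)) := by
    filter_upwards [t1.eventually hq, t2.eventually (lt_mem_nhds h2), self_mem_nhdsWithin]
      with t a1 a2 a3
    rw [inner_smul_right, norm_smul, mul_pow, Real.norm_eq_abs, sq_abs] at a1
    have := mul_le_mul_of_nonneg_left a2.le (le_of_lt a3)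
    nlinarith
  rcases hs.eq_or_lt with rfl | hs
  · obtain ⟨p, hp⟩ := G.Act_nonempty h ha
    obtain ⟨t, a1, a2⟩ := (h4.and self_mem_nhdsWithin).exists
    have a3 := h3 p hp
    rw [zero_mul] at a1 a3
    exact absurd a1 (not_le.2 (mul_pos a2 a3))
  · obtain ⟨p, hp, a1⟩ := G.danskin_dir h ha ξ (β := u / s) (h4.mono fun t ht => by
      rw [← mul_div_assoc, div_le_iff₀' hs]
      exact ht)
    rw [div_le_iff₀' hs] at a1
    exact absurd a1 (not_le.2 (h3 p hp))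

/-- structure of the minimisers of `z ↦ s φ z + cst z w`. -/
theorem min_struct (h : IsCT Y φ ψ) {a : P n} (ha : a ∈ G.U) {s : ℝ} (hs : 0 ≤ s) {q : E n}
    (hq : q ∈ G.K a)
    (hmin : ∀ z, s * φ (G.pt a) + cst (G.pt a) (G.ex a q) ≤ s * φ z + cst z (G.ex a q)) :
    ∃ p ∈ convexHull ℝ (G.Act Y φ ψ a), q = s • p := by
  obtain ⟨C, -, hC⟩ := G.semiconcave
  refine G.danskin h ha (C := C) hs (Eventually.of_forall fun ξ => ?_)
  have h1 := hmin (G.ex a ξ)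
  have h2 := hC a ha q hq ξ
  rw [G.cst_K hq] at h1
  linarith

theorem exists_min_sub (h : IsCT Y φ ψ) {s : ℝ} (hs : 0 ≤ s) (w : M) :
    ∃ z ∈ G.Sub Y φ ψ, s • z.2 ∈ G.K z.1 ∧ G.ex z.1 (s • z.2) = w ∧
      ∀ x, s * φ (G.pt z.1) + s ^ 2 * ‖z.2‖ ^ 2 / 2 ≤ s * φ x + cst x w := by
  have hc : Continuous fun x => s * φ x + cst x w :=
    (continuous_const.mul h.continuous).add
      (continuous_cst.comp (continuous_id.prodMk continuous_const))
  obtain ⟨x, -, hx⟩ := isCompact_univ.exists_isMinOn ⟨w, mem_univ w⟩ hc.continuousOn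
  obtain ⟨a, ha, rfl⟩ := G.exists_frame x
  obtain ⟨q, hq, rfl⟩ := G.exists_min (G.F_sub ha) w
  obtain ⟨p, hp, rfl⟩ := G.min_struct h (G.F_sub ha) hs hq fun z => hx (mem_univ z)
  refine ⟨(a, p), ⟨ha, hp⟩, hq, rfl, fun x => ?_⟩
  have h1 : s * φ (G.pt a) + cst (G.pt a) (G.ex a (s • p)) ≤ s * φ x + cst x (G.ex a (s • p)) :=
    hx (mem_univ x)
  rwa [G.cst_K hq, norm_smul, mul_pow, Real.norm_eq_abs, sq_abs] at h1

end LocGeo

end Crest.Agent.R226
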