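import Crest.Agent.R226.Focal
import Crest.Agent.R226.Branch
import Crest.Agent.R226.Danskin

/-! Row 226, Step 3: the continuity method. -/

set_option autoImplicit false

open Set Filter Metric
open scoped ContDiff Topology InnerProductSpace

namespace Crest.Agent.R226

namespace LocGeo

variable {n : ℕ} {M : Type*} [MetricSpace M] [CompactSpace M] (G : LocGeo n M)
  {Y : Set M} {φ ψ : M → ℝ}

/-- the property `P(s)`. -/
def PS (Y : Set M) (φ ψ : M → ℝ) (s : ℝ) : Prop :=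
  ∀ z ∈ G.Sub Y φ ψ, ∀ x,
    s * φ (G.pt z.1) + s ^ 2 * ‖z.2‖ ^ 2 / 2 ≤ s * φ x + cst x (G.ex z.1 (s • z.2))

variable {G}

omit [CompactSpace M] in
theorem PS_zero : G.PS Y φ ψ 0 := by
  intro z _ x
  have := cst_nonneg x (G.ex z.1 ((0 : ℝ) • z.2))
  simpa using this

omit [CompactSpace M] in
theorem PS.mem_K {s : ℝ} (h : G.PS Y φ ψ s) (hs : 0 ≤ s) {z : P n × E n} (hz : z ∈ G.Sub Y φ ψ) :
    s • z.2 ∈ G.K z.1 := by
  have h1 := h z hz (G.pt z.1)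
  refine G.mem_K_of_le (G.F_sub hz.1) ?_
  rw [norm_smul, Real.norm_of_nonneg hs, mul_pow]
  linarith

omit [CompactSpace M] in
/-- `cst_interp` with `σ = s' / s`. -/
theorem PS.mono {s s' : ℝ} (h : G.PS Y φ ψ s) (h0 : 0 ≤ s') (h1 : s' ≤ s) : G.PS Y φ ψ s' := by
  rcases h1.eq_or_lt with rfl | h1
  · exact h
  intro z hz x
  have hs : 0 < s := h0.trans_lt h1
  have hσ0 : 0 ≤ s' / s := div_nonneg h0 hs.le
  have hσ1 : s' / s < 1 := (div_lt_one hs).2 h1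
  have h2 := cst_interp x (G.ex z.1 (s' • z.2)) (G.ex z.1 (s • z.2)) hσ0 hσ1
  have h3 := G.dist_ex_le (G.F_sub hz.1) z.2 s' s
  have h4 : cst (G.ex z.1 (s' • z.2)) (G.ex z.1 (s • z.2)) ≤ (s - s') ^ 2 * ‖z.2‖ ^ 2 / 2 := by
    have h5 : dist (G.ex z.1 (s' • z.2)) (G.ex z.1 (s • z.2)) ^ 2 ≤ (|s' - s| * ‖z.2‖) ^ 2 :=
      pow_le_pow_left₀ dist_nonneg h3 2
    rw [mul_pow, sq_abs] at h5
    unfold cst
    nlinarith
  have h6 : s' / s / (1 - s' / s) = s' / (s - s') := by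
    have : s - s' ≠ 0 := by linarith
    field_simp
  have h7 : s' / (s - s') * cst (G.ex z.1 (s' • z.2)) (G.ex z.1 (s • z.2)) ≤
      s' * (s - s') * ‖z.2‖ ^ 2 / 2 := by
    have h8 : 0 < s - s' := by linarith
    calc s' / (s - s') * cst (G.ex z.1 (s' • z.2)) (G.ex z.1 (s • z.2))
        ≤ s' / (s - s') * ((s - s') ^ 2 * ‖z.2‖ ^ 2 / 2) :=
          mul_le_mul_of_nonneg_left h4 (div_nonneg h0 h8.le)
      _ = s' * (s - s') * ‖z.2‖ ^ 2 / 2 := by field_simp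
  have h9 := mul_le_mul_of_nonneg_left (h z hz x) hσ0
  have h10 : s' / s * (s * φ (G.pt z.1) + s ^ 2 * ‖z.2‖ ^ 2 / 2) =
      s' * φ (G.pt z.1) + s' * s * ‖z.2‖ ^ 2 / 2 := by field_simp
  have h11 : s' / s * (s * φ x + cst x (G.ex z.1 (s • z.2))) =
      s' * φ x + s' / s * cst x (G.ex z.1 (s • z.2)) := by field_simp
  rw [h6] at h2
  rw [h10, h11] at h9
  nlinarith

omit [CompactSpace M] in
theorem PS_closed {s : ℝ} (hs : 0 < s) (h : ∀ s', 0 ≤ s' → s' < s → G.PS Y φ ψ s') :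
    G.PS Y φ ψ s := by
  intro z hz x
  have hc1 : Continuous fun t : ℝ => t * φ (G.pt z.1) + t ^ 2 * ‖z.2‖ ^ 2 / 2 := by fun_prop
  have hc2 : Continuous fun t : ℝ => t * φ x + cst x (G.ex z.1 (t • z.2)) := by
    have h1 : Continuous fun t : ℝ => G.ex z.1 (t • z.2) :=
      (G.continuous_ex (G.F_sub hz.1)).comp (continuous_id.smul continuous_const)
    have h2 : Continuous fun t : ℝ => cst x (G.ex z.1 (t • z.2)) :=
      continuous_cst.comp (continuous_const.prodMk h1)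
    exact (continuous_id.mul continuous_const).add h2
  have hcl : s ∈ closure (Ico (0 : ℝ) s) := by
    rw [closure_Ico hs.ne]
    exact right_mem_Icc.2 hs.le
  exact ContinuousWithinAt.closure_le hcl hc1.continuousWithinAt hc2.continuousWithinAt
    fun t ht => h t ht.1 ht.2 z hz x

omit [CompactSpace M] in
theorem jm_hull {a : P n} (ha : a ∈ G.F) (s : ℝ) {q : E n}
    (hq : q ∈ convexHull ℝ ((fun p => s • p) '' G.Act Y φ ψ a)) :
    ∃ p, (a, p) ∈ G.Sub Y φ ψ ∧ q = s • p := by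
  have : (fun p => s • p) '' G.Act Y φ ψ a =
      (s • (LinearMap.id : E n →ₗ[ℝ] E n)) '' G.Act Y φ ψ a := rfl
  rw [this, ← LinearMap.image_convexHull] at hq
  obtain ⟨p, hp, rfl⟩ := hq
  exact ⟨p, ⟨ha, hp⟩, rfl⟩

omit [CompactSpace M] in
theorem jm_hull' {z : P n × E n} (hz : z ∈ G.Sub Y φ ψ) (s : ℝ) :
    s • z.2 ∈ convexHull ℝ ((fun p => s • p) '' G.Act Y φ ψ z.1) := by
  have : (fun p => s • p) '' G.Act Y φ ψ z.1 =
      (s • (LinearMap.id : E n →ₗ[ℝ] E n)) '' G.Act Y φ ψ z.1 := rfl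
  rw [this, ← LinearMap.image_convexHull]
  exact ⟨z.2, hz.2, rfl⟩

theorem jm_compact (h : IsCT Y φ ψ) (t : ℝ) : IsCompact
    ((fun w : (P n × E n) × ℝ => (w.1.1, w.2 • w.1.2)) '' (G.Sub Y φ ψ ×ˢ Icc (0 : ℝ) t)) :=
  ((G.isCompact_Sub h).prod isCompact_Icc).image (by fun_prop)

/-- joint margin.  Proof: `Z = {(a, s p) | (a, p) ∈ Sub, s ∈ [0, s₀]}` is compact, in `KF`,
non-focal (`nonfocal_convexHull` with `S = s • Act a`); `margin` with `s₁ = (1 + s₀)/2`, `loc_qc`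
with `κ = δ/2`, `S = s • Act a`, `B = s (φ x - φ (pt a)) - δ ‖ξ‖²`; `loc_surj`, `lg_lip` on
`{(a, t p) | t ∈ [0, (s₀ + r)/2]} ⊆ IU` and `ex_lip` convert to distances. -/
theorem PS.joint_margin (hM : G.MTW) (h : IsCT Y φ ψ) {s₀ : ℝ} (h0 : 0 ≤ s₀) (h1 : s₀ < 1)
    (hP : G.PS Y φ ψ s₀) : ∃ δ > 0, ∃ r > 0, ∀ s ∈ Icc (0 : ℝ) (s₀ + r), ∀ z ∈ G.Sub Y φ ψ,
      ∀ x m : M, dist x (G.pt z.1) ≤ r → dist m (G.ex z.1 ((s / 2) • z.2)) ≤ r →
        s * φ (G.pt z.1) + s ^ 2 * ‖z.2‖ ^ 2 / 2 +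
          δ * (dist x (G.pt z.1) ^ 2 + dist m (G.ex z.1 ((s / 2) • z.2)) ^ 2) ≤
        s * φ x + 2 * cst x m + 2 * cst m (G.ex z.1 (s • z.2)) := by
  have hρ := G.ρ_pos
  -- a bound for the velocities
  obtain ⟨R, hR1, hR⟩ : ∃ R : ℝ, 1 ≤ R ∧ ∀ z ∈ G.Sub Y φ ψ, ‖z.2‖ ≤ R := by
    obtain ⟨C, hC⟩ := (G.isCompact_Sub h).exists_bound_of_continuousOn
      (f := fun z : P n × E n => z.2) continuous_snd.continuousOn
    exact ⟨max C 1, le_max_right _ _, fun z hz => (hC z hz).trans (le_max_left _ _)⟩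
  have hR0 : 0 < R := by linarith
  have hK : ∀ s ∈ Icc (0 : ℝ) s₀, ∀ z ∈ G.Sub Y φ ψ, s • z.2 ∈ G.K z.1 :=
    fun s hs z hz => (hP.mono hs.1 hs.2).mem_K hs.1 hz
  set Z := (fun w : (P n × E n) × ℝ => (w.1.1, w.2 • w.1.2)) '' (G.Sub Y φ ψ ×ˢ Icc (0 : ℝ) s₀)
    with hZ
  have hZK : Z ⊆ G.KF := by
    rintro _ ⟨⟨z, s⟩, ⟨hz, hs⟩, rfl⟩
    exact ⟨hz.1, hK s hs z hz⟩
  have hZW : ∀ z ∈ Z, ∀ u, u ≠ 0 → 0 < ⟪G.W z u, u⟫_ℝ := by
    rintro _ ⟨⟨z, s⟩, ⟨hz, hs⟩, rfl⟩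
    refine NData.nonfocal_convexHull hM hz.1 (S := (fun p => s • p) '' G.Act Y φ ψ z.1) ?_ ?_ _
      (jm_hull' hz s)
    · intro q hq
      obtain ⟨p, hp, rfl⟩ := jm_hull hz.1 s hq
      exact hK s hs _ hp
    · rintro _ ⟨q, hq, rfl⟩
      exact G.smul_mem_I (G.F_sub hz.1) hq.1 hs.1 (lt_of_le_of_lt hs.2 h1)
  obtain ⟨δ₁, hδ₁, r₁, hr₁, hmar⟩ := G.margin (s₁ := (1 + s₀) / 2) (by linarith)
  obtain ⟨θ, hθ, ε, hε, hqc⟩ := G.loc_qc hM (jm_compact h s₀) hZK hZW (half_pos hδ₁)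
  set r' := G.ρ / (2 * R) with hr'
  have hr'0 : 0 < r' := by positivity
  have hI : ∀ t ∈ Icc (0 : ℝ) ((s₀ + r') / 2), ∀ z ∈ G.Sub Y φ ψ, t • z.2 ∈ G.I z.1 := by
    intro t ht z hz
    have ha := G.F_sub hz.1
    by_cases hts : t < s₀
    · have hs0 : 0 < s₀ := lt_of_le_of_lt ht.1 hts
      have := G.smul_mem_I ha (hK s₀ ⟨h0, le_rfl⟩ z hz) (t := t / s₀) (div_nonneg ht.1 h0)
        ((div_lt_one hs0).2 hts)
      rwa [smul_smul, div_mul_cancel₀ _ hs0.ne'] at this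
    · refine G.mem_I_of_norm_lt ha ?_
      have h2 : t ≤ r' := by linarith [ht.2]
      rw [norm_smul, Real.norm_of_nonneg ht.1]
      calc t * ‖z.2‖ ≤ r' * R := mul_le_mul h2 (hR z hz) (norm_nonneg _) hr'0.le
        _ = G.ρ / 2 := by rw [hr']; field_simp
        _ < G.ρ := half_lt_self hρ
  obtain ⟨L, hL1, r₂, hr₂, hlg⟩ := G.lg_lip (jm_compact h ((s₀ + r') / 2)) (by
    rintro _ ⟨⟨z, s⟩, ⟨hz, hs⟩, rfl⟩
    exact ⟨G.F_sub hz.1, hI s hs z hz⟩)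
  obtain ⟨L', hL', hex⟩ := G.ex_lip (R + ε)
  have hL0 : 0 < L := by linarith
  have hL'0 : 0 < L' := by linarith
  obtain ⟨r, hr0, hr1, hr2, hr3, hr4, hr5, hr6, hr7, hr8⟩ : ∃ r > 0, r ≤ r' ∧ r ≤ G.ρ ∧ r ≤ r₁ ∧
      r ≤ ε ∧ r ≤ ε / R ∧ r ≤ (1 - s₀) / 2 ∧ r ≤ r₂ ∧ r ≤ ε / L := by
    refine ⟨min r' (min G.ρ (min r₁ (min ε (min (ε / R) (min ((1 - s₀) / 2) (min r₂ (ε / L))))))),
      ?_, ?_⟩
    · have : 0 < (1 - s₀) / 2 := by linarith
      positivity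
    · simp only [← le_min_iff, le_refl]
  refine ⟨min (δ₁ / 2) (θ / L' ^ 2), by positivity, r, hr0, ?_⟩
  rintro s hs ⟨a, p⟩ hz x m hx hm
  simp only at hx hm ⊢
  have haF : a ∈ G.F := hz.1
  have ha : a ∈ G.U := G.F_sub haF
  obtain ⟨ξ, hξ1, rfl⟩ := G.loc_surj a ha x (by rw [dist_comm]; exact hx.trans hr2)
  have hξ : dist (G.ex a ξ) (G.pt a) = ‖ξ‖ := by rw [dist_comm]; exact G.loc_dist a ha ξ hξ1
  rw [hξ] at hx ⊢
  have hs2 : s / 2 ∈ Icc (0 : ℝ) ((s₀ + r') / 2) := ⟨by linarith [hs.1], by linarith [hs.2]⟩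
  obtain ⟨hreg, hu⟩ := hlg (a, (s / 2) • p) ⟨((a, p), s / 2), ⟨hz, hs2⟩, rfl⟩ m
    (G.ex a ((s / 2) • p)) (hm.trans hr7) (by simpa using hr₂.le)
  simp only at hreg hu
  rw [G.lg_ex ha (hI _ hs2 _ hz)] at hu
  set u := G.lg a m - (s / 2) • p with hudef
  have hm' : G.ex a (G.lg a m) = m := G.ex_lg ha hreg
  have huε : ‖u‖ ≤ ε := by
    refine hu.trans ?_
    rw [le_div_iff₀ hL0] at hr8
    nlinarith
  have hs1 : s ≤ (1 + s₀) / 2 := by linarith [hs.2]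
  have hp2 : ‖(s / 2) • p‖ ≤ R := by
    rw [norm_smul, Real.norm_of_nonneg hs2.1]
    have := hR _ hz
    simp only at this
    nlinarith [norm_nonneg p, hs.1]
  have hdist : dist m (G.ex a ((s / 2) • p)) ≤ L' * ‖u‖ := by
    have := hex a ha (G.lg a m) ((s / 2) • p) (by
      have e : G.lg a m = (s / 2) • p + u := by rw [hudef]; abel
      rw [e]
      exact (norm_add_le _ _).trans (add_le_add hp2 huε)) (by linarith)
    rwa [hm'] at this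
  have key := hqc a ((fun p => s • p) '' G.Act Y φ ψ a) (by
      intro q hq
      obtain ⟨p', hp', rfl⟩ := jm_hull haF s hq
      refine mem_cthickening_of_dist_le _ (a, min s s₀ • p') _ _
        ⟨((a, p'), min s s₀), ⟨hp', le_min hs.1 h0, min_le_right _ _⟩, rfl⟩ ?_
      rw [Prod.dist_eq, dist_self, dist_eq_norm, ← sub_smul, norm_smul]
      refine max_le hε.le ?_
      have e1 : ‖s - min s s₀‖ ≤ r := by
        rw [Real.norm_of_nonneg (sub_nonneg.2 (min_le_left _ _))]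
        rcases le_total s s₀ with h' | h'
        · rw [min_eq_left h']; linarith
        · rw [min_eq_right h']; linarith [hs.2]
      rw [le_div_iff₀ hR0] at hr5
      exact (mul_le_mul e1 (hR _ hp') (norm_nonneg _) hr0.le).trans hr5)
    ξ (hx.trans hr4) (s * (φ (G.ex a ξ) - φ (G.pt a)) - δ₁ * ‖ξ‖ ^ 2) (by
      rintro _ ⟨q, hq, rfl⟩
      have e1 := hmar a haF q hq.1 s ⟨hs.1, hs1⟩ ξ (hx.trans hr3)
      have e2 := h.nonneg (G.ex a ξ) _ hq.2.1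
      have e3 := hq.2.2
      rw [G.cst_K hq.1] at e3
      have e4 : s * (‖q‖ ^ 2 / 2 - cst (G.ex a ξ) (G.ex a q)) ≤ s * (φ (G.ex a ξ) - φ (G.pt a)) :=
        mul_le_mul_of_nonneg_left (by linarith) hs.1
      simp only
      rw [norm_smul, Real.norm_of_nonneg hs.1]
      nlinarith)
    (s • p) (jm_hull' hz s) u huε
  have e5 : (1 / 2 : ℝ) • s • p + u = G.lg a m := by
    rw [hudef, smul_smul, show (1 / 2 : ℝ) * s = s / 2 by ring]; abel
  rw [e5, En, hm', norm_smul, Real.norm_of_nonneg hs.1] at key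
  have e6 : θ / L' ^ 2 * dist m (G.ex a ((s / 2) • p)) ^ 2 ≤ θ * ‖u‖ ^ 2 := by
    have : dist m (G.ex a ((s / 2) • p)) ^ 2 ≤ (L' * ‖u‖) ^ 2 := by gcongr
    calc _ ≤ θ / L' ^ 2 * (L' * ‖u‖) ^ 2 := by gcongr
      _ = _ := by field_simp
  have e7 : min (δ₁ / 2) (θ / L' ^ 2) * ‖ξ‖ ^ 2 ≤ δ₁ / 2 * ‖ξ‖ ^ 2 :=
    mul_le_mul_of_nonneg_right (min_le_left _ _) (sq_nonneg _)
  have e8 : min (δ₁ / 2) (θ / L' ^ 2) * dist m (G.ex a ((s / 2) • p)) ^ 2 ≤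
      θ / L' ^ 2 * dist m (G.ex a ((s / 2) • p)) ^ 2 :=
    mul_le_mul_of_nonneg_right (min_le_right _ _) (sq_nonneg _)
  nlinarith

/-- uniqueness below `s₀` (equality in `cst_interp`, `eq_of_between`, `eq_of_mem_I`). -/
theorem PS.uniq {s₀ s : ℝ} (hP : G.PS Y φ ψ s₀) (h0 : 0 ≤ s) (h1 : s < s₀)
    {z z' : P n × E n} (hz : z ∈ G.Sub Y φ ψ) (hz' : z' ∈ G.Sub Y φ ψ)
    (h : G.ex z.1 (s • z.2) = G.ex z'.1 (s • z'.2)) :
    G.pt z.1 = G.pt z'.1 ∧ G.ex z.1 ((s / 2) • z.2) = G.ex z'.1 ((s / 2) • z'.2) := by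
  have ha := G.F_sub hz.1
  have ha' := G.F_sub hz'.1
  have hs₀ : 0 < s₀ := h0.trans_lt h1
  have hPs : G.PS Y φ ψ s := hP.mono h0 h1.le
  have hK₀ := hP.mem_K hs₀.le hz
  have hK := hPs.mem_K h0 hz
  have hK' := hPs.mem_K h0 hz'
  have hσ1 : s / s₀ < 1 := (div_lt_one hs₀).2 h1
  have hσ0 : 0 ≤ s / s₀ := div_nonneg h0 hs₀.le
  have hsm : (s / s₀) • s₀ • z.2 = s • z.2 := by
    rw [smul_smul, div_mul_cancel₀ _ hs₀.ne']
  have hpt : G.pt z.1 = G.pt z'.1 := by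
    rcases h0.eq_or_lt with rfl | hs
    · simpa only [zero_smul, pt] using h
    set x := G.pt z.1 with hx
    set x' := G.pt z'.1 with hx'
    set w := G.ex z.1 (s • z.2) with hw
    set y := G.ex z.1 (s₀ • z.2) with hy
    have hxw : dist x w = s * ‖z.2‖ := by
      have h2 : dist x w = ‖s • z.2‖ := hK
      rw [h2, norm_smul, Real.norm_of_nonneg h0]
    have hxy : dist x y = s₀ * ‖z.2‖ := by
      have h2 : dist x y = ‖s₀ • z.2‖ := hK₀
      rw [h2, norm_smul, Real.norm_of_nonneg hs₀.le]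
    have hwy : dist w y = (s₀ - s) * ‖z.2‖ := by
      have h2 := G.dist_ex_le ha z.2 s s₀
      rw [abs_sub_comm, abs_of_pos (sub_pos.2 h1)] at h2
      have h3 := dist_triangle x w y
      linarith
    have hx'w : cst x' w = s ^ 2 * ‖z'.2‖ ^ 2 / 2 := by
      rw [h, hx', G.cst_K hK', norm_smul, Real.norm_of_nonneg h0, mul_pow]
    have h2 := hPs z' hz' x
    rw [← h] at h2
    have h3 := mul_le_mul_of_nonneg_left (hP z hz x') hσ0
    have h10 : s / s₀ * (s₀ * φ x + s₀ ^ 2 * ‖z.2‖ ^ 2 / 2) =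
        s * φ x + s * s₀ * ‖z.2‖ ^ 2 / 2 := by field_simp
    have h11 : s / s₀ * (s₀ * φ x' + cst x' y) = s * φ x' + s / s₀ * cst x' y := by field_simp
    rw [h10, h11] at h3
    have h12 : s / s₀ / (1 - s / s₀) * cst w y = s * (s₀ - s) * ‖z.2‖ ^ 2 / 2 := by
      have : s₀ - s ≠ 0 := by linarith
      unfold cst
      rw [hwy]
      field_simp
    have h13 : cst x w = s ^ 2 * ‖z.2‖ ^ 2 / 2 := by
      unfold cst
      rw [hxw, mul_pow]
    have h14 : cst x' w + s / s₀ / (1 - s / s₀) * cst w y ≤ s / s₀ * cst x' y := by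
      rw [h12, hx'w]
      rw [h13] at h2
      linarith
    obtain ⟨h15, h16⟩ := dist_eq_of_cst_interp (div_pos hs hs₀) hσ1 h14
    have h17 : dist x' y = s₀ * ‖z.2‖ := by
      have h18 : (1 - s / s₀) * dist x' y = (1 - s / s₀) * (s₀ * ‖z.2‖) := by
        rw [← h16, hwy]
        field_simp
      exact mul_left_cancel₀ (sub_pos.2 hσ1).ne' h18
    have h19 : dist x' w = s * ‖z.2‖ := by
      rw [h15, h17]
      field_simp
    by_cases hne : w = y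
    · have h20 : ‖z.2‖ = 0 := by
        have h21 : (s₀ - s) * ‖z.2‖ = 0 := by rw [← hwy, hne, dist_self]
        exact (mul_eq_zero.1 h21).resolve_left (sub_pos.2 h1).ne'
      rw [h20, mul_zero, dist_eq_zero] at hxw h19
      exact hxw.trans h19.symm
    · refine G.eq_of_between (w := w) (y := y) ?_ ?_ (hxw.trans h19.symm) hne
      · rw [hxw, hwy, hxy]; ring
      · rw [h19, hwy, h17]; ring
  refine ⟨hpt, ?_⟩
  obtain ⟨A, hA⟩ := G.iso _ ha _ ha' hpt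
  have hI : s • z.2 ∈ G.I z.1 := hsm ▸ G.smul_mem_I ha hK₀ hσ0 hσ1
  have hI' : A (s • z.2) ∈ G.I z'.1 := (G.I_iso hA _).2 hI
  have hAe : A (s • z.2) = s • z'.2 := G.eq_of_mem_I ha' hI' hK' ((hA _).trans h)
  have e1 : ∀ v : E n, (s / 2) • v = (1 / 2 : ℝ) • s • v := fun v => by
    rw [smul_smul]; congr 1; ring
  rw [← hA, e1, e1, map_smul, hAe]

omit [CompactSpace M] in
theorem h93_cont {X : Type*} [TopologicalSpace X] {f : X → P n} {g : X → E n} {x : X}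
    (hf : ContinuousAt f x) (hg : ContinuousAt g x) (h : f x ∈ G.U) :
    ContinuousAt (fun y => G.ex (f y) (g y)) x :=
  ContinuousAt.comp (g := fun z : P n × E n => G.ex z.1 z.2) (f := fun y => (f y, g y))
    (G.continuousAt_ex h (g x)) (hf.prodMk hg)

omit [CompactSpace M] in
theorem h93_dist {X : Type*} [TopologicalSpace X] {f f' : X → P n} {g g' : X → E n} {x : X}
    (hf : ContinuousAt f x) (hg : ContinuousAt g x) (hf' : ContinuousAt f' x)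
    (hg' : ContinuousAt g' x) (h : f x ∈ G.U) (h' : f' x ∈ G.U) :
    ContinuousAt (fun y => dist (G.ex (f y) (g y)) (G.ex (f' y) (g' y))) x :=
  (h93_cont hf hg h).dist (h93_cont hf' hg' h')

omit [CompactSpace M] in
theorem h93_half {a : P n} (ha : a ∈ G.U) {p : E n} {s : ℝ} (hK : s • p ∈ G.K a) :
    cst (G.pt a) (G.ex a ((s / 2) • p)) = s ^ 2 * ‖p‖ ^ 2 / 8 ∧
      cst (G.ex a ((s / 2) • p)) (G.ex a (s • p)) = s ^ 2 * ‖p‖ ^ 2 / 8 := by
  have h1 := G.K_dist ha hK (s := 0) (t := 1 / 2) ⟨le_rfl, zero_le_one⟩ ⟨by norm_num, by norm_num⟩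
  have h2 := G.K_dist ha hK (s := 1 / 2) (t := 1) ⟨by norm_num, by norm_num⟩ ⟨zero_le_one, le_rfl⟩
  rw [zero_smul, smul_smul, one_div_mul_eq_div] at h1
  rw [one_smul, smul_smul, one_div_mul_eq_div] at h2
  unfold cst pt
  rw [h1, h2, norm_smul, Real.norm_eq_abs]
  simp only [mul_pow, sq_abs]
  constructor <;> ring

/-- local Lipschitz dichotomy (`joint_margin`, `PS.mono`, `cst_le_two`, `cross_le` on the compact
set of pairs `(ex a (s p/2), ex a (s p))`). -/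
theorem PS.lip_step (hM : G.MTW) (h : IsCT Y φ ψ) {s₀ : ℝ} (h0 : 0 ≤ s₀) (h1 : s₀ < 1)
    (hP : G.PS Y φ ψ s₀) : ∃ L > 0, ∃ r > 0, ∀ s ∈ Icc (0 : ℝ) s₀, ∀ z ∈ G.Sub Y φ ψ,
      ∀ z' ∈ G.Sub Y φ ψ, dist (G.ex z.1 (s • z.2)) (G.ex z'.1 (s • z'.2)) ≤ r →
        max (dist (G.pt z.1) (G.pt z'.1))
          (dist (G.ex z.1 ((s / 2) • z.2)) (G.ex z'.1 ((s / 2) • z'.2))) ≤ r →
        max (dist (G.pt z.1) (G.pt z'.1))
          (dist (G.ex z.1 ((s / 2) • z.2)) (G.ex z'.1 ((s / 2) • z'.2))) ≤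
        L * dist (G.ex z.1 (s • z.2)) (G.ex z'.1 (s • z'.2)) := by
  obtain ⟨δ, hδ, r₁, hr₁, hJ⟩ := hP.joint_margin hM h h0 h1
  have hZ : IsCompact ((fun y : ℝ × (P n × E n) =>
      (G.ex y.2.1 ((y.1 / 2) • y.2.2), G.ex y.2.1 (y.1 • y.2.2))) ''
        (Icc (0 : ℝ) s₀ ×ˢ G.Sub Y φ ψ)) := by
    refine (isCompact_Icc.prod (G.isCompact_Sub h)).image_of_continuousOn fun y hy => ?_
    have hU := G.F_sub hy.2.1
    refine (ContinuousAt.prodMk (h93_cont ?_ ?_ ?_) (h93_cont ?_ ?_ ?_)).continuousWithinAt <;>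
      first | exact hU | fun_prop
  obtain ⟨C, hC, r₂, hr₂, hX⟩ := G.cross_le hZ (by
    rintro _ ⟨⟨s, z⟩, ⟨hs, hz⟩, rfl⟩
    have hK := (hP.mono hs.1 hs.2).mem_K hs.1 hz
    have := G.reg_of_K (G.F_sub hz.1) hK (s := 1 / 2) (t := 1) ⟨by norm_num, by norm_num⟩
      ⟨by norm_num, le_rfl⟩ (by rw [abs_lt]; constructor <;> norm_num)
    rwa [one_smul, smul_smul, one_div_mul_eq_div] at this)
  refine ⟨2 * C / δ, by positivity, min r₁ r₂, lt_min hr₁ hr₂, fun s hs z hz z' hz' hw hm => ?_⟩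
  have hPs := hP.mono hs.1 hs.2
  obtain ⟨e1, e2⟩ := h93_half (G.F_sub hz.1) (hPs.mem_K hs.1 hz)
  obtain ⟨e1', e2'⟩ := h93_half (G.F_sub hz'.1) (hPs.mem_K hs.1 hz')
  have hx := (le_max_left _ _).trans hm
  have hm' := (le_max_right _ _).trans hm
  have A := hJ s ⟨hs.1, by linarith [hs.2]⟩ z hz (G.pt z'.1) (G.ex z'.1 ((s / 2) • z'.2))
    (by rw [dist_comm]; exact hx.trans (min_le_left _ _))
    (by rw [dist_comm]; exact hm'.trans (min_le_left _ _))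
  have B := hPs z' hz' (G.pt z.1)
  have B' := cst_le_two (G.pt z.1) (G.ex z.1 ((s / 2) • z.2)) (G.ex z'.1 (s • z'.2))
  have X := hX _ ⟨(s, z), ⟨hs, hz⟩, rfl⟩ (G.ex z'.1 ((s / 2) • z'.2)) (G.ex z'.1 (s • z'.2))
    (hm'.trans (min_le_right _ _)) (hw.trans (min_le_right _ _))
  simp only at X
  rw [dist_comm (G.pt z'.1), dist_comm (G.ex z'.1 ((s / 2) • z'.2))] at A
  have X' := (abs_le.1 X).1
  have hdw := dist_nonneg (x := G.ex z.1 (s • z.2)) (y := G.ex z'.1 (s • z'.2))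
  have hdx := dist_nonneg (x := G.pt z.1) (y := G.pt z'.1)
  have hdm := dist_nonneg (x := G.ex z.1 ((s / 2) • z.2)) (y := G.ex z'.1 ((s / 2) • z'.2))
  generalize dist (G.ex z.1 (s • z.2)) (G.ex z'.1 (s • z'.2)) = dw at *
  generalize dist (G.pt z.1) (G.pt z'.1) = dx at *
  generalize dist (G.ex z.1 ((s / 2) • z.2)) (G.ex z'.1 ((s / 2) • z'.2)) = dm at *
  have key : δ * (dx ^ 2 + dm ^ 2) ≤ 2 * (C * dm * dw) := by linarith
  have hμ : 0 ≤ max dx dm := le_max_of_le_left hdx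
  have h2 : max dx dm ^ 2 ≤ dx ^ 2 + dm ^ 2 := by
    rcases max_choice dx dm with e | e <;> rw [e] <;> nlinarith
  have h3 : C * dm * dw ≤ C * max dx dm * dw := by
    have := le_max_right dx dm
    gcongr
  rcases hμ.eq_or_lt with e | hpos
  · rw [← e]
    positivity
  · rw [div_mul_eq_mul_div, le_div_iff₀ hδ]
    refine le_of_mul_le_mul_left ?_ hpos
    nlinarith [mul_le_mul_of_nonneg_left h2 hδ.le]

/-- for `s < s₀` the minimiser and the midpoint depend continuously on `w`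
(`exists_min_sub`, `PS.uniq`, compactness of `Sub`). -/
theorem PS.exists_cont (h : IsCT Y φ ψ) {s₀ s : ℝ} (hP : G.PS Y φ ψ s₀) (h0 : 0 ≤ s)
    (h1 : s < s₀) : ∃ X : M → M × M, Continuous X ∧ (∀ w, ∃ z ∈ G.Sub Y φ ψ,
      G.ex z.1 (s • z.2) = w) ∧ ∀ z ∈ G.Sub Y φ ψ,
        X (G.ex z.1 (s • z.2)) = (G.pt z.1, G.ex z.1 ((s / 2) • z.2)) := by
  have hsurj : ∀ w, ∃ z ∈ G.Sub Y φ ψ, G.ex z.1 (s • z.2) = w := fun w => by
    obtain ⟨z, hz, -, hw, -⟩ := G.exists_min_sub h h0 w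
    exact ⟨z, hz, hw⟩
  choose Z hZ hZw using hsurj
  have hX : ∀ z ∈ G.Sub Y φ ψ,
      (G.pt (Z (G.ex z.1 (s • z.2))).1,
        G.ex (Z (G.ex z.1 (s • z.2))).1 ((s / 2) • (Z (G.ex z.1 (s • z.2))).2)) =
      (G.pt z.1, G.ex z.1 ((s / 2) • z.2)) := fun z hz => by
    obtain ⟨e1, e2⟩ := hP.uniq h0 h1 (hZ _) hz (hZw _)
    rw [e1, e2]
  refine ⟨fun w => (G.pt (Z w).1, G.ex (Z w).1 ((s / 2) • (Z w).2)), ?_,
    fun w => ⟨Z w, hZ w, hZw w⟩, hX⟩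
  have : CompactSpace (G.Sub Y φ ψ) := isCompact_iff_compactSpace.1 (G.isCompact_Sub h)
  have hc : ∀ t : ℝ, Continuous fun z : G.Sub Y φ ψ => G.ex z.1.1 (t • z.1.2) := fun t => by
    refine continuous_iff_continuousAt.2 fun z => ?_
    have h2 : ContinuousAt (fun z : G.Sub Y φ ψ => ((z.1.1, t • z.1.2) : P n × E n)) z := by
      fun_prop
    exact ContinuousAt.comp (f := fun z : G.Sub Y φ ψ => ((z.1.1, t • z.1.2) : P n × E n))
      (G.continuousAt_ex (G.F_sub z.2.1) (t • z.1.2)) h2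
  have hq : Topology.IsQuotientMap fun z : G.Sub Y φ ψ => G.ex z.1.1 (s • z.1.2) :=
    (hc s).isClosedMap.isQuotientMap (hc s) fun w => ⟨⟨Z w, hZ w⟩, hZw w⟩
  rw [hq.continuous_iff]
  have h3 : Continuous fun z : G.Sub Y φ ψ => (G.pt z.1.1, G.ex z.1.1 ((s / 2) • z.1.2)) := by
    refine Continuous.prodMk ?_ (hc _)
    have := hc 0
    simpa only [zero_smul, pt] using this
  exact h3.congr fun z => (hX z.1 z.2).symm

/-- injectivity at `s₀`: connect `ex a (s p)` and `ex a' (s p')` (`s ↑ s₀`) by a short geodesic,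
`lip_step` and `exists_cont` forbid a jump. -/
theorem PS.inj (hM : G.MTW) (h : IsCT Y φ ψ) {s₀ : ℝ} (h0 : 0 ≤ s₀) (h1 : s₀ < 1)
    (hP : G.PS Y φ ψ s₀) {z z' : P n × E n} (hz : z ∈ G.Sub Y φ ψ) (hz' : z' ∈ G.Sub Y φ ψ)
    (he : G.ex z.1 (s₀ • z.2) = G.ex z'.1 (s₀ • z'.2)) :
    G.pt z.1 = G.pt z'.1 ∧ G.ex z.1 ((s₀ / 2) • z.2) = G.ex z'.1 ((s₀ / 2) • z'.2) := by
  rcases h0.eq_or_lt with rfl | hpos
  · simp only [zero_smul, zero_div] at he ⊢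
    exact ⟨he, he⟩
  obtain ⟨L, hL, r, hr, hlip⟩ := hP.lip_step hM h h0 h1
  have hU := G.F_sub hz.1
  have hU' := G.F_sub hz'.1
  have cd : ContinuousAt (fun s : ℝ => dist (G.ex z.1 (s • z.2)) (G.ex z'.1 (s • z'.2))) s₀ := by
    refine h93_dist ?_ ?_ ?_ ?_ ?_ ?_ <;> first | exact hU | exact hU' | fun_prop
  have cg : ContinuousAt (fun s : ℝ => max (dist (G.pt z.1) (G.pt z'.1))
      (dist (G.ex z.1 ((s / 2) • z.2)) (G.ex z'.1 ((s / 2) • z'.2)))) s₀ := by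
    refine continuousAt_const.max (h93_dist ?_ ?_ ?_ ?_ ?_ ?_) <;>
      first | exact hU | exact hU' | fun_prop
  have cL : ContinuousAt (fun s : ℝ => L * dist (G.ex z.1 (s • z.2)) (G.ex z'.1 (s • z'.2))) s₀ :=
    continuousAt_const.mul cd
  have d0 : dist (G.ex z.1 (s₀ • z.2)) (G.ex z'.1 (s₀ • z'.2)) = 0 := by rw [he, dist_self]
  have ev1 : ∀ᶠ s : ℝ in 𝓝 s₀, dist (G.ex z.1 (s • z.2)) (G.ex z'.1 (s • z'.2)) < r :=
    cd.eventually_lt continuousAt_const (by rw [d0]; exact hr)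
  have ev2 : ∀ᶠ s : ℝ in 𝓝 s₀, L * dist (G.ex z.1 (s • z.2)) (G.ex z'.1 (s • z'.2)) < r :=
    cL.eventually_lt continuousAt_const (by rw [d0, mul_zero]; exact hr)
  have ev : ∀ᶠ s : ℝ in 𝓝[<] s₀, max (dist (G.pt z.1) (G.pt z'.1))
      (dist (G.ex z.1 ((s / 2) • z.2)) (G.ex z'.1 ((s / 2) • z'.2))) ≤
      L * dist (G.ex z.1 (s • z.2)) (G.ex z'.1 (s • z'.2)) := by
    filter_upwards [ev1.filter_mono nhdsWithin_le_nhds, ev2.filter_mono nhdsWithin_le_nhds,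
      (lt_mem_nhds hpos).filter_mono nhdsWithin_le_nhds, self_mem_nhdsWithin] with s a1 a2 a3 a4
    obtain ⟨X, hXc, hXs, hX⟩ := hP.exists_cont h a3.le a4
    obtain ⟨b, hb, hbw⟩ := G.exists_frame (G.ex z.1 (s • z.2))
    obtain ⟨q, hq, hqw⟩ := G.exists_min (G.F_sub hb) (G.ex z'.1 (s • z'.2))
    have hqn : ‖q‖ = dist (G.ex z.1 (s • z.2)) (G.ex z'.1 (s • z'.2)) := by
      rw [← hbw, ← hqw]
      exact hq.symm
    have cf : Continuous fun t : ℝ => dist (X (G.ex z.1 (s • z.2))) (X (G.ex b (t • q))) :=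
      continuous_const.dist (hXc.comp ((G.continuous_ex (G.F_sub hb)).comp (by fun_prop)))
    have hf : ∀ t ∈ Icc (0 : ℝ) 1, dist (X (G.ex z.1 (s • z.2))) (X (G.ex b (t • q))) ≤ r →
        dist (X (G.ex z.1 (s • z.2))) (X (G.ex b (t • q))) ≤
          L * dist (G.ex z.1 (s • z.2)) (G.ex z'.1 (s • z'.2)) := by
      intro t ht hle
      obtain ⟨y, hy, hyw⟩ := hXs (G.ex b (t • q))
      have hd : dist (G.ex z.1 (s • z.2)) (G.ex y.1 (s • y.2)) ≤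
          dist (G.ex z.1 (s • z.2)) (G.ex z'.1 (s • z'.2)) := by
        rw [← hqn, hyw, ← hbw]
        refine (G.dist_le b (G.F_sub hb) _).trans ?_
        rw [norm_smul, Real.norm_of_nonneg ht.1]
        exact mul_le_of_le_one_left (norm_nonneg _) ht.2
      rw [← hyw, hX z hz, hX y hy, Prod.dist_eq] at hle ⊢
      exact (hlip s ⟨a3.le, le_of_lt a4⟩ z hz y hy (hd.trans a1.le) hle).trans
        (mul_le_mul_of_nonneg_left hd hL.le)
    have e1 : dist (X (G.ex z.1 (s • z.2))) (X (G.ex b ((1 : ℝ) • q))) =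
        max (dist (G.pt z.1) (G.pt z'.1))
          (dist (G.ex z.1 ((s / 2) • z.2)) (G.ex z'.1 ((s / 2) • z'.2))) := by
      rw [one_smul, hqw, hX z hz, hX z' hz', Prod.dist_eq]
    have e0 : dist (X (G.ex z.1 (s • z.2))) (X (G.ex b ((0 : ℝ) • q))) = 0 := by
      rw [zero_smul, ← hbw]
      exact dist_self _
    rw [← e1]
    by_contra hlt
    rw [not_le] at hlt
    obtain ⟨t, ht, hft⟩ := intermediate_value_Icc zero_le_one cf.continuousOn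
      (show min (dist (X (G.ex z.1 (s • z.2))) (X (G.ex b ((1 : ℝ) • q)))) r ∈ Icc _ _ from
        ⟨by rw [e0]; exact le_min dist_nonneg hr.le, min_le_left _ _⟩)
    simp only at hft
    have := hf t ht (hft ▸ min_le_right _ _)
    rw [hft] at this
    exact absurd this (not_le.2 (lt_min hlt a2))
  have lim := le_of_tendsto_of_tendsto (cg.tendsto.mono_left nhdsWithin_le_nhds)
    (cL.tendsto.mono_left nhdsWithin_le_nhds) ev
  simp only [d0, mul_zero] at lim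
  exact ⟨dist_le_zero.1 ((le_max_left _ _).trans lim), dist_le_zero.1 ((le_max_right _ _).trans lim)⟩

/-- openness: otherwise `z_k ∈ Sub`, `s_k ↓ s₀` violate `P`; the global minimisers `z'_k`
(`exists_min_sub`) have the same limit base point and midpoint (`PS.inj`); `joint_margin`. -/
theorem PS.open (hM : G.MTW) (h : IsCT Y φ ψ) {s₀ : ℝ} (h0 : 0 ≤ s₀) (h1 : s₀ < 1)
    (hP : G.PS Y φ ψ s₀) : ∃ s > s₀, G.PS Y φ ψ s := by
  obtain ⟨δ, hδ, r, hr, hJ⟩ := hP.joint_margin hM h h0 h1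
  have ev : ∀ᶠ s : ℝ in 𝓝 s₀, ∀ y ∈ G.Sub Y φ ψ ×ˢ G.Sub Y φ ψ,
      G.ex y.1.1 (s • y.1.2) = G.ex y.2.1 (s • y.2.2) → dist (G.pt y.2.1) (G.pt y.1.1) < r ∧
        dist (G.ex y.2.1 ((s / 2) • y.2.2)) (G.ex y.1.1 ((s / 2) • y.1.2)) < r := by
    refine ((G.isCompact_Sub h).prod (G.isCompact_Sub h)).eventually_forall_of_forall_eventually
      fun y hy => ?_
    have hU := G.F_sub hy.1.1
    have hU' := G.F_sub hy.2.1
    by_cases he : G.ex y.1.1 (s₀ • y.1.2) = G.ex y.2.1 (s₀ • y.2.2)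
    · obtain ⟨e1, e2⟩ := hP.inj hM h h0 h1 hy.1 hy.2 he
      have c1 : ContinuousAt (fun w : ℝ × (P n × E n) × (P n × E n) =>
          dist (G.pt w.2.2.1) (G.pt w.2.1.1)) (s₀, y) := by
        unfold pt
        refine h93_dist ?_ ?_ ?_ ?_ ?_ ?_ <;> first | exact hU | exact hU' | fun_prop
      have c2 : ContinuousAt (fun w : ℝ × (P n × E n) × (P n × E n) =>
          dist (G.ex w.2.2.1 ((w.1 / 2) • w.2.2.2)) (G.ex w.2.1.1 ((w.1 / 2) • w.2.1.2))) (s₀, y) := by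
        refine h93_dist ?_ ?_ ?_ ?_ ?_ ?_ <;> first | exact hU | exact hU' | fun_prop
      filter_upwards [c1.eventually_lt continuousAt_const (by simpa only [e1, dist_self] using hr),
        c2.eventually_lt continuousAt_const (by simpa only [e2, dist_self] using hr)] with w a1 a2 _
      exact ⟨a1, a2⟩
    · have c1 : ContinuousAt (fun w : ℝ × (P n × E n) × (P n × E n) =>
          dist (G.ex w.2.1.1 (w.1 • w.2.1.2)) (G.ex w.2.2.1 (w.1 • w.2.2.2))) (s₀, y) := by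
        refine h93_dist ?_ ?_ ?_ ?_ ?_ ?_ <;> first | exact hU | exact hU' | fun_prop
      filter_upwards [continuousAt_const.eventually_lt c1 (dist_pos.2 he)] with w a1 a2
      exact absurd a2 (dist_pos.1 a1)
  obtain ⟨s, ⟨a1, a2⟩, a3⟩ := (((ev.and (gt_mem_nhds (lt_add_of_pos_right s₀ hr))).filter_mono
    nhdsWithin_le_nhds).and (self_mem_nhdsWithin (a := s₀) (s := Ioi s₀))).exists
  have hs : 0 ≤ s := h0.trans (le_of_lt a3)
  refine ⟨s, a3, fun z hz x => ?_⟩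
  obtain ⟨z', hz', hK, hw, hmin⟩ := G.exists_min_sub h hs (G.ex z.1 (s • z.2))
  obtain ⟨b1, b2⟩ := a1 (z, z') ⟨hz, hz'⟩ hw.symm
  have A := hJ s ⟨hs, a2.le⟩ z hz _ _ b1.le b2.le
  obtain ⟨e1, e2⟩ := h93_half (G.F_sub hz'.1) hK
  rw [hw] at e2
  have B := hmin x
  have : 0 ≤ δ * (dist (G.pt z'.1) (G.pt z.1) ^ 2 +
    dist (G.ex z'.1 ((s / 2) • z'.2)) (G.ex z.1 ((s / 2) • z.2)) ^ 2) := by positivity
  linarith

theorem PS_one (hM : G.MTW) (h : IsCT Y φ ψ) : G.PS Y φ ψ 1 := by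
  set S : Set ℝ := {s | s ∈ Icc (0 : ℝ) 1 ∧ G.PS Y φ ψ s} with hS
  have h0 : (0 : ℝ) ∈ S := ⟨⟨le_rfl, zero_le_one⟩, PS_zero⟩
  have hbd : BddAbove S := ⟨1, fun s hs => hs.1.2⟩
  have hl : 0 ≤ sSup S := le_csSup hbd h0
  have hu : sSup S ≤ 1 := csSup_le ⟨0, h0⟩ fun s hs => hs.1.2
  have hP : G.PS Y φ ψ (sSup S) := by
    rcases hl.eq_or_lt with h1 | h1
    · rw [← h1]; exact PS_zero
    refine PS_closed h1 fun s' hs0 hs' => ?_
    obtain ⟨s, hs, hlt⟩ := exists_lt_of_lt_csSup ⟨0, h0⟩ hs'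
    exact hs.2.mono hs0 hlt.le
  rcases hu.eq_or_lt with h1 | h1
  · rwa [h1] at hP
  obtain ⟨s, hs, hPs⟩ := PS.open hM h hl h1 hP
  have h2 : min s 1 ∈ S :=
    ⟨⟨le_min (hl.trans hs.le) zero_le_one, min_le_right _ _⟩,
      hPs.mono (le_min (hl.trans hs.le) zero_le_one) (min_le_left _ _)⟩
  have h3 := le_csSup hbd h2
  exact absurd h3 (not_le.2 (lt_min hs h1))

end LocGeo

end Crest.Agent.R226
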