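import Crest.Agent.R226.TCount

/-! Row 226: the analytic core of the regularity theorem. -/

set_option autoImplicit false

open Set Filter Metric MeasureTheory
open scoped ContDiff Topology InnerProductSpace ENNReal

namespace Crest.Agent.R226

theorem core {n : ℕ} {M : Type*} [MetricSpace M] [CompactSpace M] [MeasurableSpace M]
    [BorelSpace M] (G : LocGeo n M) (_hn : 2 ≤ n) (hM : G.MTW) {κ : ℝ} (hκ : 1 ≤ κ) :
    Growth (M := M) n κ := by
  obtain ⟨β, hβ, C, hC, H⟩ := LocGeo.sec_bound hM hκ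
  refine ⟨((2 * β : ℕ) : ℝ), by exact_mod_cast (by omega : 1 ≤ 2 * β), C⁻¹, inv_pos.2 hC,
    fun φ ψ hp x₀ y₀ h0 x => ?_⟩
  rw [Real.rpow_natCast, inv_mul_le_iff₀ hC]
  have hD := hp.left.Dd_nonneg x y₀
  refine le_of_forall_pos_le_add fun η hη => ?_
  have := H φ ψ hp y₀ x x₀ (Dd φ ψ x y₀ + η / C) (by positivity)
    (le_add_of_nonneg_right (by positivity)) (by rw [h0]; positivity)
  calc dist x x₀ ^ (2 * β) ≤ C * (Dd φ ψ x y₀ + η / C) := this
    _ = C * Dd φ ψ x y₀ + η := by field_simp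

end Crest.Agent.R226
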