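import Crest.Agent.R226.Danskin

/-! Row 226: the contact relation of a pair of potentials. -/

set_option autoImplicit false

open Set Filter Metric MeasureTheory
open scoped ContDiff Topology InnerProductSpace ENNReal

namespace Crest.Agent.R226

variable {M : Type*} [MetricSpace M]

/-- the defect `D = φ + ψ + c ≥ 0`. -/
noncomputable def Dd (φ ψ : M → ℝ) (x y : M) : ℝ := φ x + ψ y + cst x y

/-- image of a set under the contact relation `{D = 0}`. -/
def Gam (φ ψ : M → ℝ) (A : Set M) : Set M := {y | ∃ x ∈ A, Dd φ ψ x y = 0}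

/-- a pair of `c`-conjugate potentials whose contact relation does not shrink volume by more than
the factor `κ`, in both directions. -/
structure Pair [MeasurableSpace M] [BorelSpace M] (n : ℕ) (κ : ℝ) (φ ψ : M → ℝ) : Prop where
  left : IsCT univ φ ψ
  right : IsCT univ ψ φ
  volL : ∀ A : Set M, IsClosed A → μH[n] A ≤ ENNReal.ofReal κ * μH[n] (Gam φ ψ A)
  volR : ∀ B : Set M, IsClosed B → μH[n] B ≤ ENNReal.ofReal κ * μH[n] (Gam ψ φ B)

theorem Pair.symm [MeasurableSpace M] [BorelSpace M] {n : ℕ} {κ : ℝ} {φ ψ : M → ℝ} (h : Pair n κ φ ψ) :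
    Pair n κ ψ φ := ⟨h.right, h.left, h.volR, h.volL⟩

theorem Dd_comm (φ ψ : M → ℝ) (x y : M) : Dd φ ψ x y = Dd ψ φ y x := by
  unfold Dd; rw [cst_comm]; ring

/-- the conclusion of the analytic core: polynomial growth of the defect away from contact
points, uniformly over all pairs. -/
def Growth [MeasurableSpace M] [BorelSpace M] (n : ℕ) (κ : ℝ) : Prop :=
  ∃ β : ℝ, 1 ≤ β ∧ ∃ c : ℝ, 0 < c ∧ ∀ φ ψ : M → ℝ, Pair n κ φ ψ → ∀ x₀ y₀, Dd φ ψ x₀ y₀ = 0 →
    ∀ x, c * dist x x₀ ^ β ≤ Dd φ ψ x y₀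

end Crest.Agent.R226
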