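import Crest.Agent.R226.Basic

/-! Row 226: semiconcavity, non-branching, Hopf–Rinow, uniqueness of minimisers. -/

set_option autoImplicit false

open Set Filter Metric
open scoped ContDiff Topology InnerProductSpace

namespace Crest.Agent.R226

namespace LocGeo

variable {n : ℕ} {M : Type*} [MetricSpace M] [CompactSpace M] (G : LocGeo n M) {a b : P n}
  {p q : E n}

omit [CompactSpace M] in
/-- local semiconcavity, uniformly over the compact set of frames. -/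
theorem h38_semi_loc : ∃ r > 0, ∃ C : ℝ, 0 ≤ C ∧ ∀ a ∈ G.F, ∀ q : E n, ‖q‖ ≤ G.ρ / 2 →
    ∀ ξ : E n, ‖ξ‖ ≤ r →
      cst (G.ex a ξ) (G.ex a q) ≤ ‖q‖ ^ 2 / 2 - ⟪q, ξ⟫_ℝ + C * ‖ξ‖ ^ 2 := by
  have hρ := G.ρ_pos
  set Z : Set ((P n × E n) × (P n × E n)) :=
    (fun w : P n × E n => ((w.1, (0 : E n)), (w.1, w.2))) '' (G.F ×ˢ closedBall 0 (G.ρ / 2))
    with hZ
  have hZc : IsCompact Z :=
    (G.F_compact.prod (isCompact_closedBall _ _)).image (by fun_prop)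
  have hsm : ∀ a ∈ G.F, ∀ q : E n, ‖q‖ ≤ G.ρ / 2 →
      ContDiffAt ℝ ∞ G.cc ((a, (0 : E n)), (a, q)) := fun a ha q hq =>
    G.contDiffAt_cc_of_lt (G.F_sub ha) (G.F_sub ha)
      ((G.dist_le a (G.F_sub ha) q).trans_lt (by linarith))
  obtain ⟨r, hr, C, hC, h⟩ := unif_bound hZc (Φ := G.cc) 2 (by
    rintro _ ⟨w, ⟨h1, h2⟩, rfl⟩
    exact (hsm w.1 h1 w.2 (mem_closedBall_zero_iff.1 h2)).of_le
      (WithTop.coe_le_coe.2 (le_top : ((2 : ℕ) : ℕ∞) ≤ ⊤)))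
  refine ⟨r, hr, C, hC, fun a ha q hq ξ hξ => ?_⟩
  have haU := G.F_sub ha
  set z : (P n × E n) × (P n × E n) := ((a, (0 : E n)), (a, q)) with hz
  set L : E n →L[ℝ] (P n × E n) × (P n × E n) :=
    (ContinuousLinearMap.inl ℝ (P n × E n) (P n × E n)).comp
      (ContinuousLinearMap.inr ℝ (P n) (E n)) with hL
  have hLn : ∀ η : E n, ‖L η‖ = ‖η‖ := fun η => by simp [hL]
  have hzL : ∀ η : E n, G.cc (z + L η) = cst (G.ex a η) (G.ex a q) := fun η => by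
    simp [hL, hz, cc]
  have hzZ : z ∈ Z := ⟨(a, q), ⟨ha, mem_closedBall_zero_iff.2 hq⟩, rfl⟩
  have ht := taylor1 (Φ := G.cc) (z := z) (v := L ξ) (C := C) (fun t ht => by
    have hm : z + t • L ξ ∈ cthickening r Z := by
      refine mem_cthickening_of_dist_le _ z r Z hzZ ?_
      rw [dist_eq_norm, add_sub_cancel_left, norm_smul, hLn, Real.norm_of_nonneg ht.1]
      exact (mul_le_of_le_one_left (norm_nonneg _) ht.2).trans hξ
    exact ⟨(h _ hm).1, (h _ hm).2 2 le_rfl⟩)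
  have hd : HasFDerivAt (fun η : E n => cst (G.ex a η) (G.ex a q))
      ((fderiv ℝ G.cc z).comp L) 0 := by
    have h1 : HasFDerivAt G.cc (fderiv ℝ G.cc z) (z + L 0) := by
      rw [map_zero, add_zero]
      exact ((hsm a ha q hq).differentiableAt (by simp)).hasFDerivAt
    have h2 := h1.comp (0 : E n) (L.hasFDerivAt.const_add z)
    exact h2.congr_of_eventuallyEq (Eventually.of_forall fun η => (hzL η).symm)
  have hg : fderiv ℝ G.cc z (L ξ) = -⟪q, ξ⟫_ℝ := by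
    have h1 := G.lg_ex_of_lt haU (p := q) (by linarith)
    have h2 := inner_gradient (fun η : E n => cst (G.ex a η) (G.ex a q)) 0 ξ
    rw [hd.fderiv] at h2
    rw [lg, neg_eq_iff_eq_neg] at h1
    rw [h1, inner_neg_left] at h2
    exact h2.symm
  have h0 : G.cc z = ‖q‖ ^ 2 / 2 := G.cst_K (G.mem_K_of_norm_le haU (by linarith))
  rw [hzL, h0, hg, hLn, Real.norm_eq_abs] at ht
  linarith [(abs_le.1 ht).2]

/-- semiconcavity of the cost.  Proof: reduce to `a ∈ F` (`exists_iso_F`); with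
`τ = min (1/2) (ρ / (4 D))`, `m = ex a (τ p)`: `cst_interp` and Taylor (`unif_bound`, `taylor1`,
`lg_ex_of_lt`) for `ξ ↦ cst (ex a ξ) m`; large `ξ` is trivial. -/
theorem semiconcave : ∃ C : ℝ, 1 ≤ C ∧ ∀ a ∈ G.U, ∀ p ∈ G.K a, ∀ ξ : E n,
    cst (G.ex a ξ) (G.ex a p) ≤ ‖p‖ ^ 2 / 2 - ⟪p, ξ⟫_ℝ + C * ‖ξ‖ ^ 2 := by
  obtain ⟨r, hr, C, hC, h⟩ := G.h38_semi_loc
  obtain ⟨D, hD1, hD⟩ := exists_diam M
  have hρ := G.ρ_pos
  set τ : ℝ := min (1 / 2) (G.ρ / (2 * D)) with hτ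
  have hτ0 : 0 < τ := lt_min (by norm_num) (by positivity)
  have hτ1 : τ ≤ 1 / 2 := min_le_left _ _
  have hτ2 : τ * D ≤ G.ρ / 2 := by
    have h1 : τ ≤ G.ρ / (2 * D) := min_le_right _ _
    rw [le_div_iff₀ (by positivity)] at h1
    linarith
  have hC1 : 0 ≤ C / τ := by positivity
  have hC2 : 0 ≤ 2 * D / r := by positivity
  have key : ∀ a ∈ G.F, ∀ p ∈ G.K a, ∀ ξ : E n, cst (G.ex a ξ) (G.ex a p) ≤
      ‖p‖ ^ 2 / 2 - ⟪p, ξ⟫_ℝ + (C / τ + 2 * D / r + 1) * ‖ξ‖ ^ 2 := by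
    intro a ha p hp ξ
    have haU := G.F_sub ha
    have hpK : dist (G.pt a) (G.ex a p) = ‖p‖ := hp
    have hpD : ‖p‖ ≤ D := hpK ▸ hD _ _
    have hξ2 := sq_nonneg ‖ξ‖
    rcases le_total ‖ξ‖ r with hξ | hξ
    · have h1 := h a ha (τ • p) (by
        rw [norm_smul, Real.norm_of_nonneg hτ0.le]
        exact (mul_le_mul_of_nonneg_left hpD hτ0.le).trans hτ2) ξ hξ
      have h2 := cst_interp (G.ex a ξ) (G.ex a (τ • p)) (G.ex a p) hτ0.le (by linarith)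
      have h3 := G.K_dist haU hp (s := τ) (t := 1) ⟨hτ0.le, by linarith⟩ ⟨zero_le_one, le_rfl⟩
      rw [one_smul, abs_sub_comm, abs_of_nonneg (by linarith)] at h3
      have h4 : τ / (1 - τ) * cst (G.ex a (τ • p)) (G.ex a p) = τ * (1 - τ) * ‖p‖ ^ 2 / 2 := by
        have : 1 - τ ≠ 0 := by linarith
        rw [cst, h3]
        field_simp
      rw [norm_smul, Real.norm_of_nonneg hτ0.le, real_inner_smul_left] at h1
      have h5 : cst (G.ex a ξ) (G.ex a p) ≤ ‖p‖ ^ 2 / 2 - ⟪p, ξ⟫_ℝ + C / τ * ‖ξ‖ ^ 2 := by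
        refine le_of_mul_le_mul_left ?_ hτ0
        have h6 : τ * (‖p‖ ^ 2 / 2 - ⟪p, ξ⟫_ℝ + C / τ * ‖ξ‖ ^ 2) =
            (τ * ‖p‖) ^ 2 / 2 - τ * ⟪p, ξ⟫_ℝ + C * ‖ξ‖ ^ 2 + τ * (1 - τ) * ‖p‖ ^ 2 / 2 := by
          field_simp
          ring
        rw [h6]
        linarith
      nlinarith [mul_nonneg hC2 hξ2]
    · have h1 : dist (G.ex a ξ) (G.ex a p) ≤ ‖ξ‖ + ‖p‖ := by
        have h2 := dist_triangle_left (G.ex a ξ) (G.ex a p) (G.ex a 0)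
        linarith [G.dist_le a haU ξ, G.dist_le a haU p]
      have h2 : cst (G.ex a ξ) (G.ex a p) ≤ (‖ξ‖ + ‖p‖) ^ 2 / 2 := by
        unfold cst
        gcongr
      have h3 : ⟪p, ξ⟫_ℝ ≤ ‖p‖ * ‖ξ‖ := real_inner_le_norm _ _
      have h4 : 2 * (‖p‖ * ‖ξ‖) ≤ 2 * D / r * ‖ξ‖ ^ 2 := by
        rw [div_mul_eq_mul_div, le_div_iff₀ hr]
        have h5 : ‖p‖ * r ≤ D * ‖ξ‖ := mul_le_mul hpD hξ hr.le (by linarith)
        nlinarith [mul_le_mul_of_nonneg_right h5 (norm_nonneg ξ)]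
      nlinarith [mul_nonneg hC1 hξ2]
  refine ⟨C / τ + 2 * D / r + 1, by linarith, fun a ha p hp ξ => ?_⟩
  obtain ⟨b, hb, A, hA⟩ := G.exists_iso_F ha
  have h1 := key b hb (A p) ((G.K_iso hA p).2 hp) (A ξ)
  rwa [hA, hA, A.norm_map, A.norm_map, A.inner_map_map] at h1

/-- non-branching (apply `cst_interp` with `m = ex b ξ` and `semiconcave` twice). -/
theorem nobranch (hb : b ∈ G.U) (hp : p ∈ G.K b) (hq : q ∈ G.K b)
    (h : dist (G.ex b p) (G.ex b q) = ‖p‖ + ‖q‖) : ‖q‖ • p + ‖p‖ • q = 0 := by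
  obtain ⟨C, hC, hs⟩ := G.semiconcave
  set w : E n := ‖q‖ • p + ‖p‖ • q with hw
  have hp0 := norm_nonneg p
  have hq0 := norm_nonneg q
  have key : ∀ ξ : E n, ⟪w, ξ⟫_ℝ ≤ C * (‖p‖ + ‖q‖) * ‖ξ‖ ^ 2 := by
    intro ξ
    have h1 := mul_le_mul_of_nonneg_left (hs b hb p hp ξ) hq0
    have h2 := mul_le_mul_of_nonneg_left (hs b hb q hq ξ) hp0
    have h3 := dist_triangle_left (G.ex b p) (G.ex b q) (G.ex b ξ)
    rw [h] at h3
    have h4 := mul_le_mul_of_nonneg_left h3 (mul_nonneg hp0 hq0)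
    unfold cst at h1 h2
    rw [hw, inner_add_left, real_inner_smul_left, real_inner_smul_left]
    nlinarith [mul_nonneg hq0 (sq_nonneg (dist (G.ex b ξ) (G.ex b p) - ‖p‖)),
      mul_nonneg hp0 (sq_nonneg (dist (G.ex b ξ) (G.ex b q) - ‖q‖))]
  set T : ℝ := C * (‖p‖ + ‖q‖) with hT
  have hT0 : 0 ≤ T := by positivity
  have h1 := key ((T + 1)⁻¹ • w)
  rw [real_inner_smul_right, real_inner_self_eq_norm_sq, norm_smul,
    Real.norm_of_nonneg (by positivity), mul_pow] at h1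
  have h2 : (T + 1) ^ 2 * ((T + 1)⁻¹ * ‖w‖ ^ 2) ≤ (T + 1) ^ 2 * (T * ((T + 1)⁻¹ ^ 2 * ‖w‖ ^ 2)) :=
    mul_le_mul_of_nonneg_left h1 (by positivity)
  have h3 : (T + 1) ^ 2 * ((T + 1)⁻¹ * ‖w‖ ^ 2) = (T + 1) * ‖w‖ ^ 2 := by field_simp
  have h4 : (T + 1) ^ 2 * (T * ((T + 1)⁻¹ ^ 2 * ‖w‖ ^ 2)) = T * ‖w‖ ^ 2 := by field_simp
  rw [h3, h4] at h2
  have h5 : ‖w‖ ^ 2 = 0 := le_antisymm (by linarith) (sq_nonneg _)
  exact norm_eq_zero.1 (pow_eq_zero_iff two_ne_zero |>.1 h5)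

/-- a minimising vector which continues a minimising geodesic points in its direction. -/
theorem h80_dir {v : E n} (hp : p ∈ G.K a) (hp0 : p ≠ 0) (hb : b ∈ G.U) (hv : ‖v‖ = ‖p‖)
    (hv' : ∀ t : ℝ, G.ex b (t • v) = G.ex a ((1 + t) • p)) (hq : q ∈ G.K b)
    (h : dist (G.pt a) (G.ex b q) = ‖p‖ + ‖q‖) : q = (‖q‖ / ‖p‖) • v := by
  have h0 : G.pt b = G.ex a p := by simpa [pt] using hv' 0
  have h1 : G.ex b (-v) = G.pt a := by simpa [pt] using hv' (-1)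
  have h2 : -v ∈ G.K b := by
    show dist (G.pt b) (G.ex b (-v)) = ‖-v‖
    rw [h0, h1, dist_comm, norm_neg, hv]
    exact hp
  have h3 := G.nobranch hb h2 hq (by rw [h1, norm_neg, hv]; exact h)
  have hn : ‖p‖ ≠ 0 := norm_ne_zero_iff.mpr hp0
  rw [norm_neg, hv, smul_neg, neg_add_eq_zero] at h3
  rw [div_eq_inv_mul, mul_smul, h3, smul_smul, inv_mul_cancel₀ hn, one_smul]

theorem h80_ext (ha : a ∈ G.U) (hp : p ∈ G.K a) (hp0 : p ≠ 0) (hb : b ∈ G.U)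
    (hw : G.pt b = G.ex a p) (hq : q ∈ G.K b) (h : dist (G.pt a) (G.ex b q) = ‖p‖ + ‖q‖) :
    G.ex b q = G.ex a ((1 + ‖q‖ / ‖p‖) • p) := by
  obtain ⟨v, hv, hv'⟩ := G.exists_cont ha hb (s := 1) (p := p) (by rw [one_smul]; exact hw)
  rw [← hv', ← G.h80_dir hp hp0 hb hv hv' hq h]

/-- Hopf–Rinow. -/
theorem exists_min (ha : a ∈ G.U) (y : M) : ∃ p ∈ G.K a, G.ex a p = y := by
  by_cases hl : dist (G.pt a) y ≤ G.ρ
  · obtain ⟨p, hp, h⟩ := G.loc_surj a ha y hl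
    exact ⟨p, G.mem_K_of_norm_le ha hp, h⟩
  push Not at hl
  have hρ := G.ρ_pos
  obtain ⟨l, hld⟩ : ∃ l, l = dist (G.pt a) y := ⟨_, rfl⟩
  rw [← hld] at hl
  have hl0 : 0 < l := hρ.trans hl
  have ht0 : G.ρ / l ∈ Icc (0 : ℝ) 1 := ⟨by positivity, (div_le_one hl0).mpr hl.le⟩
  obtain ⟨z, hz1, hz2⟩ := G.inter (G.pt a) y _ ht0
  rw [← hld] at hz1 hz2
  rw [div_mul_cancel₀ _ hl0.ne'] at hz1
  obtain ⟨u, hu, huz⟩ := G.loc_surj a ha z hz1.le
  have hun : ‖u‖ = G.ρ := by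
    rw [← G.loc_dist a ha u hu, huz]; exact hz1
  obtain ⟨p, hpd⟩ : ∃ p : E n, p = (l / G.ρ) • u := ⟨_, rfl⟩
  have hpn : ‖p‖ = l := by
    rw [hpd, norm_smul, hun, Real.norm_of_nonneg (by positivity), div_mul_cancel₀ _ hρ.ne']
  have hTc : IsCompact (Icc (0 : ℝ) 1 ∩ {t : ℝ | dist (G.ex a (t • p)) y = (1 - t) * l}) := by
    refine isCompact_Icc.inter_right (isClosed_eq ?_ (by fun_prop))
    exact (((G.continuous_ex ha).comp (continuous_id.smul continuous_const)).dist continuous_const)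
  have hT0 : G.ρ / l ∈ Icc (0 : ℝ) 1 ∩ {t : ℝ | dist (G.ex a (t • p)) y = (1 - t) * l} := by
    refine ⟨ht0, ?_⟩
    show dist (G.ex a ((G.ρ / l) • p)) y = _
    rw [hpd, smul_smul, div_mul_div_cancel₀ hl0.ne', div_self hρ.ne', one_smul, huz, hz2]
  obtain ⟨t, ⟨⟨t0, t1⟩, ht⟩, hmax⟩ := hTc.exists_isGreatest ⟨_, hT0⟩
  have ht' : dist (G.ex a (t • p)) y = (1 - t) * l := ht
  have tpos : 0 < t := lt_of_lt_of_le (by positivity) (hmax hT0)
  have htn : ‖t • p‖ = t * l := by rw [norm_smul, hpn, Real.norm_of_nonneg t0]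
  have htK : t • p ∈ G.K a := by
    refine le_antisymm (G.dist_le a ha _) ?_
    have := dist_triangle (G.pt a) (G.ex a (t • p)) y
    rw [htn]
    linarith
  rcases eq_or_lt_of_le t1 with h1 | h1
  · rw [h1, one_smul] at htK ht'
    rw [sub_self, zero_mul, dist_eq_zero] at ht'
    exact ⟨p, htK, ht'⟩
  exfalso
  have hd : 0 < (1 - t) * l := mul_pos (by linarith) hl0
  obtain ⟨ε, hε⟩ : ∃ ε, ε = min G.ρ ((1 - t) * l) := ⟨_, rfl⟩
  have ε0 : 0 < ε := by rw [hε]; exact lt_min hρ hd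
  have ε1 : ε ≤ G.ρ := by rw [hε]; exact min_le_left _ _
  have ε2 : ε ≤ (1 - t) * l := by rw [hε]; exact min_le_right _ _
  obtain ⟨z', hz1', hz2'⟩ := G.inter (G.ex a (t • p)) y (ε / ((1 - t) * l))
    ⟨by positivity, (div_le_one hd).mpr ε2⟩
  rw [ht', div_mul_cancel₀ _ hd.ne'] at hz1'
  rw [ht', sub_mul, div_mul_cancel₀ _ hd.ne', one_mul] at hz2'
  obtain ⟨b, hbF, hb⟩ := G.exists_frame (G.ex a (t • p))
  have hbU := G.F_sub hbF
  obtain ⟨q, hq, hqz⟩ := G.loc_surj b hbU z' (by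
    show dist (G.pt b) z' ≤ _
    rw [hb, hz1']; exact ε1)
  have hqK := G.mem_K_of_norm_le hbU hq
  have hqn : ‖q‖ = ε := by
    have : dist (G.pt b) (G.ex b q) = ‖q‖ := hqK
    rw [← this, hb, hqz, hz1']
  have htK' : dist (G.pt a) (G.ex a (t • p)) = ‖t • p‖ := htK
  have hx := G.h80_ext ha htK (by
    rw [← norm_ne_zero_iff, htn]; positivity) hbU hb hqK (by
    rw [hqz, hqn, htn]
    have e1 := dist_triangle (G.pt a) (G.ex a (t • p)) z'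
    have e2 := dist_triangle (G.pt a) z' y
    rw [htn] at htK'
    linarith)
  rw [hqz, hqn, htn, smul_smul] at hx
  have e : (1 + ε / (t * l)) * t = t + ε / l := by field_simp
  rw [e] at hx
  have hpos : 0 < ε / l := by positivity
  have hm : t + ε / l ∈ Icc (0 : ℝ) 1 ∩ {t : ℝ | dist (G.ex a (t • p)) y = (1 - t) * l} := by
    refine ⟨⟨by linarith, ?_⟩, ?_⟩
    · have := (div_le_iff₀ hl0).mpr ε2
      linarith
    · show dist (G.ex a ((t + ε / l) • p)) y = _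
      rw [← hx, hz2']
      field_simp
      ring
  have := hmax hm
  linarith

/-- a point behind the end of a minimising geodesic lies on its continuation. -/
theorem h80_ext2 (ha : a ∈ G.U) (hp : p ∈ G.K a) (hp0 : p ≠ 0) {y : M}
    (h : dist (G.pt a) y = ‖p‖ + dist (G.ex a p) y) :
    y = G.ex a ((1 + dist (G.ex a p) y / ‖p‖) • p) := by
  obtain ⟨b, hbF, hb⟩ := G.exists_frame (G.ex a p)
  obtain ⟨q, hq, rfl⟩ := G.exists_min (G.F_sub hbF) y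
  have hq' : dist (G.pt b) (G.ex b q) = ‖q‖ := hq
  rw [hb] at hq'
  rw [hq'] at h ⊢
  exact G.h80_ext ha hp hp0 (G.F_sub hbF) hb hq h

/-- a point between `pt a` and `y` lies on a minimising geodesic. -/
theorem exists_min_through (ha : a ∈ G.U) {z y : M} {t : ℝ} (ht : t ∈ Icc (0 : ℝ) 1)
    (h1 : dist (G.pt a) z = t * dist (G.pt a) y) (h2 : dist z y = (1 - t) * dist (G.pt a) y) :
    ∃ p ∈ G.K a, G.ex a p = y ∧ G.ex a (t • p) = z := by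
  obtain ⟨u, hu, rfl⟩ := G.exists_min ha z
  have hu' : dist (G.pt a) (G.ex a u) = ‖u‖ := hu
  by_cases hu0 : u = 0
  · obtain ⟨p, hp, rfl⟩ := G.exists_min ha y
    have hp' : dist (G.pt a) (G.ex a p) = ‖p‖ := hp
    refine ⟨p, hp, rfl, ?_⟩
    rw [hu', hp', hu0, norm_zero] at h1
    have : t • p = 0 := by
      rw [← norm_eq_zero, norm_smul, Real.norm_of_nonneg ht.1, h1]
    rw [this, hu0]
  · have hun : 0 < ‖u‖ := norm_pos_iff.mpr hu0
    rw [hu'] at h1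
    have t0 : t ≠ 0 := fun e => by rw [e, zero_mul] at h1; exact hun.ne' h1
    have l0 : dist (G.pt a) y ≠ 0 := fun e => by rw [e, mul_zero] at h1; exact hun.ne' h1
    have hy := G.h80_ext2 ha hu hu0 (y := y) (by rw [h1, h2]; ring)
    have e : 1 + dist (G.ex a u) y / ‖u‖ = t⁻¹ := by
      rw [h1, h2]
      field_simp
      ring
    rw [e] at hy
    refine ⟨t⁻¹ • u, ?_, hy.symm, by rw [smul_smul, mul_inv_cancel₀ t0, one_smul]⟩
    show dist (G.pt a) (G.ex a (t⁻¹ • u)) = ‖t⁻¹ • u‖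
    rw [← hy, norm_smul, Real.norm_of_nonneg (inv_nonneg.mpr ht.1), h1, ← mul_assoc,
      inv_mul_cancel₀ t0, one_mul]

/-- uniqueness of the minimiser inside the injectivity domain. -/
theorem eq_of_mem_I (ha : a ∈ G.U) (hp : p ∈ G.I a) (hq : q ∈ G.K a)
    (h : G.ex a p = G.ex a q) : p = q := by
  have hpK := G.I_sub_K ha hp
  have hp' : dist (G.pt a) (G.ex a p) = ‖p‖ := hpK
  have hq' : dist (G.pt a) (G.ex a q) = ‖q‖ := hq
  have hn : ‖p‖ = ‖q‖ := by rw [← hp', ← hq', h]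
  by_cases hq0 : q = 0
  · rw [hq0, norm_zero, norm_eq_zero] at hn
    rw [hn, hq0]
  have hqn : 0 < ‖q‖ := norm_pos_iff.mpr hq0
  obtain ⟨s, hs, hsK⟩ := hp
  obtain ⟨b, hbF, hb⟩ := G.exists_frame (G.ex a p)
  have hbU := G.F_sub hbF
  obtain ⟨v, hv, hv'⟩ := G.exists_cont ha hbU (s := 1) (p := p) (by rw [one_smul]; exact hb)
  obtain ⟨w, hw, hw'⟩ := G.exists_cont ha hbU (s := 1) (p := q) (by rw [one_smul, ← h]; exact hb)
  have s0 : 0 < s := by linarith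
  have e1 : G.ex b ((s - 1) • v) = G.ex a (s • p) := by rw [hv']; congr 2; ring
  have e2 : ‖(s - 1) • v‖ = (s - 1) * ‖q‖ := by
    rw [norm_smul, Real.norm_of_nonneg (by linarith), hv, hn]
  have e3 : ‖s • p‖ = s * ‖q‖ := by rw [norm_smul, Real.norm_of_nonneg s0.le, hn]
  have hK : (s - 1) • v ∈ G.K b := by
    show dist (G.pt b) (G.ex b ((s - 1) • v)) = _
    have := G.K_dist ha hsK (s := s⁻¹) (t := 1)
      ⟨by positivity, inv_le_one_of_one_le₀ hs.le⟩ ⟨zero_le_one, le_rfl⟩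
    rw [smul_smul, inv_mul_cancel₀ s0.ne', one_smul, one_smul,
      abs_of_nonpos (sub_nonpos.mpr (inv_le_one_of_one_le₀ hs.le)), e3] at this
    rw [hb, e1, e2, this]
    field_simp
    ring
  have hd := G.h80_dir hq hq0 hbU hw hw' hK (by
    have : dist (G.pt a) (G.ex a (s • p)) = ‖s • p‖ := hsK
    rw [e1, this, e2, e3]
    ring)
  rw [e2, mul_div_assoc, div_self hqn.ne', mul_one] at hd
  have hvw : v = w := smul_right_injective _ (sub_pos.mpr hs).ne' hd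
  refine G.eq_of_ex_smul ha one_pos fun t _ => ?_
  have a1 := hv' (t - 1)
  have a2 := hw' (t - 1)
  rw [add_sub_cancel] at a1 a2
  rw [← a1, ← a2, hvw]

include G in
/-- metric form of non-branching. -/
theorem eq_of_between {x z w y : M} (hx : dist x w + dist w y = dist x y)
    (hz : dist z w + dist w y = dist z y) (h : dist x w = dist z w) (hwy : w ≠ y) : x = z := by
  obtain ⟨a, haF, rfl⟩ := G.exists_frame y
  have ha := G.F_sub haF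
  obtain ⟨p, hp, rfl⟩ := G.exists_min ha w
  have hp' : dist (G.pt a) (G.ex a p) = ‖p‖ := hp
  have hp0 : p ≠ 0 := fun e => hwy (by rw [e]; rfl)
  have h1 := G.h80_ext2 ha hp hp0 (y := x) (by
    rw [dist_comm _ x, ← hx, dist_comm (G.ex a p) (G.pt a), hp', dist_comm _ x, add_comm])
  have h2 := G.h80_ext2 ha hp hp0 (y := z) (by
    rw [dist_comm _ z, ← hz, dist_comm (G.ex a p) (G.pt a), hp', dist_comm _ z, add_comm])
  rw [dist_comm _ x, h] at h1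
  rw [dist_comm _ z] at h2
  rw [h1, ← h2]

/-- metric geodesics are geodesics. -/
theorem geodesic_eq (ha : a ∈ G.U) {γ : ℝ → M} {l : ℝ} (h0 : γ 0 = G.pt a)
    (h : ∀ s ∈ Icc (0 : ℝ) 1, ∀ t ∈ Icc (0 : ℝ) 1, dist (γ s) (γ t) = |s - t| * l) :
    ∃ p ∈ G.K a, ∀ t ∈ Icc (0 : ℝ) 1, γ t = G.ex a (t • p) := by
  have m0 : (0 : ℝ) ∈ Icc (0 : ℝ) 1 := ⟨le_rfl, zero_le_one⟩
  have m1 : (1 : ℝ) ∈ Icc (0 : ℝ) 1 := ⟨zero_le_one, le_rfl⟩
  have mh : (1 / 2 : ℝ) ∈ Icc (0 : ℝ) 1 := ⟨by norm_num, by norm_num⟩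
  have d0 : ∀ t ∈ Icc (0 : ℝ) 1, dist (G.pt a) (γ t) = t * l := fun t ht => by
    rw [← h0, h 0 m0 t ht, zero_sub, abs_neg, abs_of_nonneg ht.1]
  have d1 : ∀ s ∈ Icc (0 : ℝ) 1, ∀ t ∈ Icc (0 : ℝ) 1, s ≤ t → dist (γ s) (γ t) = (t - s) * l :=
    fun s hs t ht hst => by rw [h s hs t ht, abs_sub_comm, abs_of_nonneg (sub_nonneg.mpr hst)]
  obtain ⟨p, hp, hp1, hp2⟩ := G.exists_min_through ha (z := γ (1 / 2)) (y := γ 1) mh
    (by rw [d0 _ mh, d0 _ m1, one_mul]) (by rw [d1 _ mh _ m1 mh.2, d0 _ m1, one_mul])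
  have hpn : ‖p‖ = l := by
    have : dist (G.pt a) (G.ex a p) = ‖p‖ := hp
    rw [← this, hp1, d0 _ m1, one_mul]
  refine ⟨p, hp, fun t ht => ?_⟩
  by_cases hp0 : p = 0
  · have := d0 t ht
    rw [← hpn, hp0, norm_zero, mul_zero, dist_eq_zero] at this
    rw [hp0, smul_zero, ← this]
    rfl
  have l0 : 0 < l := by rw [← hpn]; exact norm_pos_iff.mpr hp0
  rcases le_total t (1 / 2) with hth | hth
  · have k1 := G.K_dist ha hp ht mh
    have k2 := G.K_dist ha hp ht m1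
    rw [hp2, hpn, abs_sub_comm, abs_of_nonneg (sub_nonneg.mpr hth)] at k1
    rw [one_smul, hp1, hpn, abs_sub_comm, abs_of_nonneg (sub_nonneg.mpr ht.2)] at k2
    refine G.eq_of_between (w := γ (1 / 2)) (y := γ 1) ?_ ?_ ?_ ?_
    · rw [d1 _ ht _ mh hth, d1 _ mh _ m1 mh.2, d1 _ ht _ m1 ht.2]; ring
    · rw [k1, k2, d1 _ mh _ m1 mh.2]; ring
    · rw [k1, d1 _ ht _ mh hth]
    · rw [← dist_pos, d1 _ mh _ m1 mh.2]; positivity
  · have hn : ‖(1 / 2 : ℝ) • p‖ = 1 / 2 * l := by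
      rw [norm_smul, hpn, Real.norm_of_nonneg mh.1]
    have := G.h80_ext2 ha (G.K_smul ha hp mh) (by rw [← norm_ne_zero_iff, hn]; positivity)
      (y := γ t) (by rw [hp2, hn, d0 _ ht, d1 _ mh _ ht hth]; ring)
    rw [hp2, hn, d1 _ mh _ ht hth, smul_smul] at this
    rw [this]
    congr 2
    field_simp
    ring

/-- sub-segments which can be extended forward are regular pairs. -/
theorem reg_of_lt (ha : a ∈ G.U) (hp : p ∈ G.K a) {s t : ℝ} (h0 : 0 ≤ s) (hst : s ≤ t)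
    (h1 : t < 1) : (G.ex a (s • p), G.ex a (t • p)) ∈ G.Reg := by
  obtain ⟨b, hbF, hb⟩ := G.exists_frame (G.ex a (s • p))
  have hbU := G.F_sub hbF
  obtain ⟨v, hv, hv'⟩ := G.exists_cont ha hbU hb
  have s1 : 0 < 1 - s := by linarith
  have hK : (1 - s) • v ∈ G.K b := by
    show dist (G.pt b) (G.ex b ((1 - s) • v)) = _
    rw [hb, hv', add_sub_cancel, G.K_dist ha hp ⟨h0, by linarith⟩ ⟨zero_le_one, le_rfl⟩,
      norm_smul, hv, abs_sub_comm, Real.norm_eq_abs]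
  have hI := G.smul_mem_I hbU hK (t := (t - s) / (1 - s))
    (div_nonneg (sub_nonneg.mpr hst) s1.le) ((div_lt_one s1).mpr (by linarith))
  rw [smul_smul, div_mul_cancel₀ _ s1.ne'] at hI
  exact ⟨b, hbU, _, hI, by rw [hb, hv', add_sub_cancel]⟩

theorem mem_I_of_reg (ha : a ∈ G.U) (hp : p ∈ G.K a) (h : (G.pt a, G.ex a p) ∈ G.Reg) :
    p ∈ G.I a := by
  obtain ⟨b, hb, q, hq, e⟩ := h
  obtain ⟨e1, e2⟩ := Prod.mk.inj e
  obtain ⟨A, hA⟩ := G.iso b hb a ha e1.symm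
  have hI := (G.I_iso hA q).mpr hq
  rw [← G.eq_of_mem_I ha hI hp (by rw [hA, e2])]
  exact hI

theorem reg_of_dist_lt {x y : M} (h : dist x y < G.ρ) : (x, y) ∈ G.Reg := by
  obtain ⟨a, haF, rfl⟩ := G.exists_frame x
  have ha := G.F_sub haF
  obtain ⟨p, hp, rfl⟩ := G.loc_surj a ha y h.le
  have : dist (G.pt a) (G.ex a p) = ‖p‖ := G.loc_dist a ha p hp
  exact ⟨a, ha, p, G.mem_I_of_norm_lt ha (by rw [← this]; exact h), rfl⟩

/-- quadratic growth of the midpoint energy when the geodesic from `ex b q` to `pt b` can be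
extended by the fraction `δ`.  Proof: `(d₁+d₂+d₃)² ≤ (1+δ)(2d₁²+2d₂²+d₃²/δ)` through
`ex b μ` and `ex b ξ`, `semiconcave` for `μ` and `-δ q`, `ξ = (δ/(3C)) (μ - q/2)`. -/
theorem quad_growth : ∃ c : ℝ, 0 < c ∧ ∀ b ∈ G.U, ∀ q ∈ G.K b, ∀ δ : ℝ, 0 < δ → δ ≤ 1 →
    dist (G.ex b q) (G.ex b (-(δ • q))) = (1 + δ) * ‖q‖ → ∀ μ ∈ G.K b,
      cst (G.ex b q) (G.pt b) + c * δ * ‖μ - (1 / 2 : ℝ) • q‖ ^ 2 ≤
        2 * cst (G.ex b q) (G.ex b μ) + 2 * cst (G.ex b μ) (G.pt b) := by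
  obtain ⟨C, hC, hs⟩ := G.semiconcave
  refine ⟨1 / (3 * C), by positivity, fun b hb q hq δ hδ0 hδ1 h μ hμ => ?_⟩
  have hq0 := norm_nonneg q
  have hqK : dist (G.pt b) (G.ex b q) = ‖q‖ := hq
  have hn : ‖-(δ • q)‖ = δ * ‖q‖ := by rw [norm_neg, norm_smul, Real.norm_of_nonneg hδ0.le]
  have hK : -(δ • q) ∈ G.K b := by
    refine le_antisymm (G.dist_le b hb _) ?_
    have h1 := dist_triangle_left (G.ex b q) (G.ex b (-(δ • q))) (G.pt b)
    rw [h, hqK] at h1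
    rw [hn]
    linarith
  set v : E n := μ - (1 / 2 : ℝ) • q with hv
  set ε : ℝ := 1 / (3 * C) * δ with hε
  have hε0 : 0 < ε := by positivity
  have hεC : 3 * C * ε = δ := by
    rw [hε]
    field_simp
  have h1 := hs b hb μ hμ (ε • v)
  have h2 := hs b hb _ hK (ε • v)
  have h3 := dist_triangle4 (G.ex b q) (G.ex b μ) (G.ex b (ε • v)) (G.ex b (-(δ • q)))
  rw [h] at h3
  have h4 : 2 * ⟪μ, ε • v⟫_ℝ - ⟪q, ε • v⟫_ℝ = 2 * (ε * ‖v‖ ^ 2) := by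
    have h5 : ‖v‖ ^ 2 = ⟪μ, v⟫_ℝ - 1 / 2 * ⟪q, v⟫_ℝ := by
      rw [← real_inner_smul_left, ← inner_sub_left, ← hv, real_inner_self_eq_norm_sq]
    rw [h5, real_inner_smul_right, real_inner_smul_right]
    ring
  rw [hn, inner_neg_left, real_inner_smul_left] at h2
  rw [norm_smul, Real.norm_of_nonneg hε0.le] at h1 h2
  rw [cst_comm (G.ex b q) (G.pt b), cst_comm (G.ex b μ) (G.pt b), G.cst_K hq, G.cst_K hμ]
  rw [cst, dist_comm] at h1
  rw [cst] at h2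
  rw [cst]
  set d₁ := dist (G.ex b q) (G.ex b μ)
  set d₂ := dist (G.ex b μ) (G.ex b (ε • v))
  set d₃ := dist (G.ex b (ε • v)) (G.ex b (-(δ • q)))
  set A := ⟪μ, ε • v⟫_ℝ
  set B := ⟪q, ε • v⟫_ℝ
  have h5 : δ * ((1 + δ) * ‖q‖ ^ 2) ≤ δ * (2 * d₁ ^ 2) + δ * (2 * d₂ ^ 2) + d₃ ^ 2 := by
    nlinarith [mul_nonneg hδ0.le (sq_nonneg (2 * d₁ - ‖q‖)),
      mul_nonneg hδ0.le (sq_nonneg (2 * d₂ - ‖q‖)), sq_nonneg (d₃ - δ * ‖q‖),
      mul_le_mul_of_nonneg_left h3 (mul_nonneg hδ0.le hq0)]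
  have h6 : 3 * (C * (ε * ‖v‖) ^ 2) = δ * (ε * ‖v‖ ^ 2) := by
    rw [← hεC]
    ring
  have h7 : 0 ≤ C * (ε * ‖v‖) ^ 2 := by positivity
  refine le_of_mul_le_mul_left ?_ hδ0
  have h8 := mul_le_mul_of_nonneg_left h1 hδ0.le
  have h9 := mul_le_of_le_one_left h7 hδ1
  have h10 : δ * (2 * A - B) = δ * (2 * (ε * ‖v‖ ^ 2)) := by rw [h4]
  nlinarith

end LocGeo

end Crest.Agent.R226
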