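import Crest.Agent.R226.Vol0

/-! Row 226: volumes of images under the exponential map. -/

set_option autoImplicit false

open Set Filter Metric MeasureTheory
open scoped ContDiff Topology InnerProductSpace ENNReal

namespace Crest.Agent.R226

variable {n : ℕ} {M : Type*} [MetricSpace M] [CompactSpace M] [MeasurableSpace M] [BorelSpace M]
  {G : LocGeo n M}

/-- the lifted measure `m(A) = ∫_A det N`. -/
noncomputable def NData.m (D : NData G) (a : P n) (A : Set (E n)) : ℝ≥0∞ :=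
  ∫⁻ p in A, ENNReal.ofReal (D.N (a, p)).det

namespace LocGeo

omit [MeasurableSpace M] [BorelSpace M] in
theorem vol_lg_spec (G : LocGeo n M) {b : P n} (hb : b ∈ G.U) {y : M}
    (h : dist (G.pt b) y < G.ρ) :
    G.ex b (G.lg b y) = y ∧ ‖G.lg b y‖ = dist (G.pt b) y := by
  obtain ⟨q, hq, rfl⟩ := G.loc_surj b hb y h.le
  have h1 : dist (G.pt b) (G.ex b q) = ‖q‖ := G.loc_dist b hb q hq
  have h2 : ‖q‖ < G.ρ := h1 ▸ h
  rw [G.lg_ex_of_lt hb h2]
  exact ⟨rfl, h1.symm⟩

omit [BorelSpace M] in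
/-- a countable measurable partition of `M` into pieces close to base points of frames. -/
theorem vol_partition [OpensMeasurableSpace M] (G : LocGeo n M) {r : ℝ} (hr : 0 < r) :
    ∃ (b : ℕ → P n) (Q : ℕ → Set M), (∀ i, b i ∈ G.F) ∧ (∀ i, MeasurableSet (Q i)) ∧
      Pairwise (Function.onFun Disjoint Q) ∧ (⋃ i, Q i) = univ ∧
      ∀ i, ∀ y ∈ Q i, dist (G.pt (b i)) y < r := by
  haveI : Nonempty M := ⟨G.ex 0 0⟩
  obtain ⟨x, hx⟩ := TopologicalSpace.exists_dense_seq M
  choose b hbF hb using fun i => G.exists_frame (x i)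
  refine ⟨b, disjointed fun i => ball (x i) r, hbF,
    MeasurableSet.disjointed fun i => measurableSet_ball, disjoint_disjointed _, ?_, ?_⟩
  · rw [iUnion_disjointed]
    refine eq_univ_of_forall fun y => ?_
    obtain ⟨i, hi⟩ := hx.exists_dist_lt y hr
    exact mem_iUnion.2 ⟨i, mem_ball.2 hi⟩
  · intro i y hy
    have := disjointed_subset (fun i => ball (x i) r) i hy
    rw [hb i, dist_comm]
    exact mem_ball.1 this

omit [MeasurableSpace M] [BorelSpace M] in
theorem vol_differentiableAt (G : LocGeo n M) {a b : P n} (ha : a ∈ G.U) (hb : b ∈ G.U)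
    {p : E n} (h : dist (G.pt b) (G.ex a p) < G.ρ) :
    DifferentiableAt ℝ (fun p' => G.lg b (G.ex a p')) p := by
  have h1 := G.contDiffAt_lg hb ha (G.reg_of_dist_lt h)
  have h2 : ContDiffAt ℝ ∞ (fun p' : E n => ((b, (a, p')) : P n × (P n × E n))) p := by
    fun_prop
  exact (h1.comp p h2).differentiableAt (by simp)

omit [MeasurableSpace M] [BorelSpace M] in
theorem vol_image_eq (G : LocGeo n M) {a b : P n} (hb : b ∈ G.U) {A : Set (E n)}
    (h : ∀ p ∈ A, dist (G.pt b) (G.ex a p) < G.ρ) :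
    G.ex b '' ((fun p' => G.lg b (G.ex a p')) '' A) = G.ex a '' A := by
  rw [image_image]
  exact image_congr fun p hp => (G.vol_lg_spec hb (h p hp)).1

end LocGeo

/-- both comparisons on a piece. -/
theorem NData.vol_piece (D : NData G) : ∃ C : ℝ, 1 ≤ C ∧ ∃ r > 0, ∀ a ∈ G.F, ∀ b ∈ G.F,
    ∀ A ⊆ G.K a, MeasurableSet A → (∀ p ∈ A, dist (G.pt b) (G.ex a p) < r) →
      μH[n] (G.ex a '' A) ≤ ENNReal.ofReal C * D.m a A ∧
      (InjOn (G.ex a) A → D.m a A ≤ ENNReal.ofReal C * μH[n] (G.ex a '' A)) := by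
  obtain ⟨C₁, hC₁, r, hr, hrρ, h₁⟩ := G.vol_loc
  obtain ⟨C₂, hC₂, h₂⟩ := G.jac_cmp
  obtain ⟨c, hc, h₃⟩ := D.det_cmp
  have hρ := G.ρ_pos
  have hC₃ : 0 ≤ C₂ / c := by positivity
  refine ⟨C₁ * (C₂ / c) + 1, by nlinarith [mul_nonneg (zero_le_one.trans hC₁) hC₃],
    min r (G.ρ / 2), lt_min hr (by positivity), fun a ha b hb A hA hAm hd => ?_⟩
  have haU := G.F_sub ha
  have hbU := G.F_sub hb
  have hdρ : ∀ p ∈ A, dist (G.pt b) (G.ex a p) < G.ρ := fun p hp =>
    (hd p hp).trans_le ((min_le_left _ _).trans hrρ.le)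
  have hd2 : ∀ p ∈ A, dist (G.pt b) (G.ex a p) ≤ G.ρ / 2 := fun p hp =>
    (hd p hp).le.trans (min_le_right _ _)
  set T : E n → E n := fun p' => G.lg b (G.ex a p') with hT
  have hTd : ∀ p ∈ A, HasFDerivWithinAt T (fderiv ℝ T p) A p := fun p hp =>
    (G.vol_differentiableAt haU hbU (hdρ p hp)).hasFDerivAt.hasFDerivWithinAt
  have hS : T '' A ⊆ closedBall (0 : E n) r := by
    rintro _ ⟨p, hp, rfl⟩
    rw [mem_closedBall_zero_iff, hT]
    dsimp only
    rw [(G.vol_lg_spec hbU (hdρ p hp)).2]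
    exact (hd p hp).le.trans (min_le_left _ _)
  have him : G.ex b '' (T '' A) = G.ex a '' A := G.vol_image_eq hbU hdρ
  obtain ⟨h4, h5⟩ := h₁ b hb _ hS
  rw [him] at h4 h5
  have hCC : ENNReal.ofReal C₁ * ENNReal.ofReal (C₂ / c) ≤ ENNReal.ofReal (C₁ * (C₂ / c) + 1) := by
    rw [← ENNReal.ofReal_mul (zero_le_one.trans hC₁)]
    exact ENNReal.ofReal_le_ofReal (by linarith)
  constructor
  · have h6 := addHaar_image_le_lintegral_abs_det_fderiv volume hAm hTd
    have h7 : ∫⁻ p in A, ENNReal.ofReal |(fderiv ℝ T p).det| ≤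
        ENNReal.ofReal (C₂ / c) * D.m a A := by
      unfold NData.m
      rw [← lintegral_const_mul' _ _ ENNReal.ofReal_ne_top]
      refine setLIntegral_mono' hAm fun p hp => ?_
      rw [← ENNReal.ofReal_mul hC₃]
      refine ENNReal.ofReal_le_ofReal ?_
      have e1 := (h₂ a ha p (hA hp) b hb (hd2 p hp)).1
      have e2 := (h₃ (a, p) ⟨ha, hA hp⟩).1
      have e3 : (G.W (a, p)).det ≤ (D.N (a, p)).det / c := by
        rw [le_div_iff₀ hc]; linarith
      calc |(fderiv ℝ T p).det| ≤ C₂ * (G.W (a, p)).det := e1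
        _ ≤ C₂ * ((D.N (a, p)).det / c) := by gcongr
        _ = C₂ / c * (D.N (a, p)).det := by ring
    calc μH[n] (G.ex a '' A) ≤ ENNReal.ofReal C₁ * volume (T '' A) := h4
      _ ≤ ENNReal.ofReal C₁ * (ENNReal.ofReal (C₂ / c) * D.m a A) := by
          gcongr; exact h6.trans h7
      _ = ENNReal.ofReal C₁ * ENNReal.ofReal (C₂ / c) * D.m a A := by rw [mul_assoc]
      _ ≤ _ := by gcongr
  · intro hinj
    have hTi : InjOn T A := fun p hp q hq hpq => hinj hp hq (by
      rw [← (G.vol_lg_spec hbU (hdρ p hp)).1, ← (G.vol_lg_spec hbU (hdρ q hq)).1]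
      exact congrArg (G.ex b) hpq)
    have h6 := lintegral_abs_det_fderiv_eq_addHaar_image volume hAm hTd hTi
    have h7 : D.m a A ≤
        ENNReal.ofReal (C₂ / c) * ∫⁻ p in A, ENNReal.ofReal |(fderiv ℝ T p).det| := by
      unfold NData.m
      rw [← lintegral_const_mul' _ _ ENNReal.ofReal_ne_top]
      refine setLIntegral_mono' hAm fun p hp => ?_
      rw [← ENNReal.ofReal_mul hC₃]
      refine ENNReal.ofReal_le_ofReal ?_
      have e1 := (h₂ a ha p (hA hp) b hb (hd2 p hp)).2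
      have e2 := (h₃ (a, p) ⟨ha, hA hp⟩).2
      have e3 : (D.N (a, p)).det ≤ (G.W (a, p)).det / c := by
        rw [le_div_iff₀ hc]; linarith
      calc (D.N (a, p)).det ≤ (G.W (a, p)).det / c := e3
        _ ≤ (C₂ * |(fderiv ℝ T p).det|) / c := by gcongr
        _ = C₂ / c * |(fderiv ℝ T p).det| := by ring
    calc D.m a A ≤ ENNReal.ofReal (C₂ / c) * volume (T '' A) := by rw [← h6]; exact h7
      _ ≤ ENNReal.ofReal (C₂ / c) * (ENNReal.ofReal C₁ * μH[n] (G.ex a '' A)) := by gcongr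
      _ = ENNReal.ofReal C₁ * ENNReal.ofReal (C₂ / c) * μH[n] (G.ex a '' A) := by ring
      _ ≤ _ := by gcongr

theorem NData.vol_m_split (D : NData G) {a : P n} (ha : a ∈ G.U) {A : Set (E n)}
    (hA : MeasurableSet A) {Q : ℕ → Set M} (hQ : ∀ i, MeasurableSet (Q i))
    (hd : Pairwise (Function.onFun Disjoint Q)) (hU : (⋃ i, Q i) = univ) :
    D.m a A = ∑' i, D.m a (A ∩ G.ex a ⁻¹' Q i) := by
  have hm : Measurable (G.ex a) := (G.continuous_ex ha).measurable
  have h1 : A = ⋃ i, A ∩ G.ex a ⁻¹' Q i := by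
    rw [← inter_iUnion, ← preimage_iUnion, hU, preimage_univ, inter_univ]
  unfold NData.m
  rw [← lintegral_iUnion (fun i => hA.inter (hm (hQ i)))
    (fun i j hij => ((hd hij).preimage (G.ex a)).mono inter_subset_right inter_subset_right), ← h1]

/-- Proof: cut `A` into the finitely many measurable pieces `A ∩ ex a ⁻¹' (piece of a finite
partition of M into sets of small diameter)`; on a piece `ex a = ex b ∘ (lg b ∘ ex a)`; `vol_loc`,
`addHaar_image_le_lintegral_abs_det_fderiv`, `jac_cmp`, `det_cmp`. -/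
theorem NData.vol_le (D : NData G) : ∃ C : ℝ, 1 ≤ C ∧ ∀ a ∈ G.F, ∀ A ⊆ G.K a, MeasurableSet A →
    μH[n] (G.ex a '' A) ≤ ENNReal.ofReal C * D.m a A := by
  obtain ⟨C, hC, r, hr, h⟩ := D.vol_piece
  obtain ⟨b, Q, hb, hQ, hd, hU, hr'⟩ := G.vol_partition hr
  refine ⟨C, hC, fun a ha A hA hAm => ?_⟩
  have haU := G.F_sub ha
  have hm : Measurable (G.ex a) := (G.continuous_ex haU).measurable
  have h1 : G.ex a '' A = ⋃ i, G.ex a '' (A ∩ G.ex a ⁻¹' Q i) := by
    rw [← image_iUnion, ← inter_iUnion, ← preimage_iUnion, hU, preimage_univ, inter_univ]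
  rw [D.vol_m_split haU hAm hQ hd hU, ← ENNReal.tsum_mul_left, h1]
  refine (measure_iUnion_le _).trans (ENNReal.tsum_le_tsum fun i => ?_)
  exact (h a ha (b i) (hb i) _ (inter_subset_left.trans hA) (hAm.inter (hm (hQ i)))
    (fun p hp => hr' i _ hp.2)).1

/-- Proof: as `vol_le` with `lintegral_abs_det_fderiv_eq_addHaar_image` and `injOn_ex_I`
(the pieces of `ex a '' A` are its intersections with measurable sets). -/
theorem NData.vol_ge (D : NData G) : ∃ C : ℝ, 1 ≤ C ∧ ∀ a ∈ G.F, ∀ A ⊆ G.I a, MeasurableSet A →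
    D.m a A ≤ ENNReal.ofReal C * μH[n] (G.ex a '' A) := by
  obtain ⟨C, hC, r, hr, h⟩ := D.vol_piece
  obtain ⟨b, Q, hb, hQ, hd, hU, hr'⟩ := G.vol_partition hr
  refine ⟨C, hC, fun a ha A hA hAm => ?_⟩
  have haU := G.F_sub ha
  have hm : Measurable (G.ex a) := (G.continuous_ex haU).measurable
  have h1 : μH[n] (G.ex a '' A) = ∑' i, μH[n] (G.ex a '' (A ∩ G.ex a ⁻¹' Q i)) := by
    rw [← Measure.restrict_apply_univ, ← hU, measure_iUnion hd hQ]
    refine tsum_congr fun i => ?_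
    rw [Measure.restrict_apply (hQ i), image_inter_preimage, inter_comm]
  rw [D.vol_m_split haU hAm hQ hd hU, h1, ← ENNReal.tsum_mul_left]
  refine ENNReal.tsum_le_tsum fun i => ?_
  exact (h a ha (b i) (hb i) _ (inter_subset_left.trans (hA.trans (G.I_sub_K haU)))
    (hAm.inter (hm (hQ i))) (fun p hp => hr' i _ hp.2)).2
    ((G.injOn_ex_I haU).mono (inter_subset_left.trans hA))

/-- volume of small balls. -/
theorem LocGeo.vol_ball (G : LocGeo n M) : ∃ c : ℝ, 0 < c ∧ ∀ x : M, ∀ r, 0 < r → r ≤ 1 →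
    ENNReal.ofReal (c * r ^ n) ≤ μH[n] (closedBall x r) := by
  obtain ⟨C, hC, r₀, hr₀, -, h⟩ := G.vol_loc
  have hv0 : volume (ball (0 : E n) 1) ≠ 0 := (measure_ball_pos _ _ one_pos).ne'
  have hv1 : volume (ball (0 : E n) 1) ≠ ⊤ := measure_ball_lt_top.ne
  have hv : 0 < (volume (ball (0 : E n) 1)).toReal := ENNReal.toReal_pos hv0 hv1
  have hC0 : 0 < C := one_pos.trans_le hC
  have hr₁ : 0 < min r₀ 1 := lt_min hr₀ one_pos
  refine ⟨(min r₀ 1) ^ n * (volume (ball (0 : E n) 1)).toReal / C, by positivity,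
    fun x r hr hr1 => ?_⟩
  obtain ⟨b, hb, rfl⟩ := G.exists_frame x
  have hs0 : 0 ≤ min r₀ 1 * r := by positivity
  have hs1 : min r₀ 1 * r ≤ r₀ :=
    (mul_le_of_le_one_right hr₁.le hr1).trans (min_le_left _ _)
  have hs2 : min r₀ 1 * r ≤ r := mul_le_of_le_one_left hr.le (min_le_right _ _)
  have h1 := (h b hb _ (closedBall_subset_closedBall hs1)).2
  have h2 : G.ex b '' closedBall (0 : E n) (min r₀ 1 * r) ⊆ closedBall (G.pt b) r := by
    rintro _ ⟨p, hp, rfl⟩
    rw [mem_closedBall, dist_comm]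
    exact (G.dist_le b (G.F_sub hb) p).trans ((mem_closedBall_zero_iff.1 hp).trans hs2)
  rw [Measure.addHaar_closedBall _ _ hs0, finrank_euclideanSpace_fin,
    ← ENNReal.ofReal_toReal hv1, ← ENNReal.ofReal_mul (by positivity)] at h1
  have h3 : ENNReal.ofReal C *
      ENNReal.ofReal ((min r₀ 1) ^ n * (volume (ball (0 : E n) 1)).toReal / C * r ^ n) ≤
      ENNReal.ofReal C * μH[n] (closedBall (G.pt b) r) := by
    rw [← ENNReal.ofReal_mul hC0.le]
    refine le_trans (le_of_eq ?_) (h1.trans (by gcongr))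
    congr 1
    rw [mul_pow]; field_simp
  exact (ENNReal.mul_le_mul_iff_right (by simpa using hC0) ENNReal.ofReal_ne_top).1 h3

theorem LocGeo.vol_univ_lt_top (G : LocGeo n M) : μH[n] (univ : Set M) < ⊤ := by
  obtain ⟨C, -, r, hr, hrρ, h⟩ := G.vol_loc
  obtain ⟨t, -, ht, hc⟩ := finite_cover_balls_of_compact (isCompact_univ (X := M)) hr
  refine (measure_mono hc).trans_lt (measure_biUnion_lt_top ht fun x _ => ?_)
  obtain ⟨b, hb, rfl⟩ := G.exists_frame x
  have h2 : ball (G.pt b) r ⊆ G.ex b '' closedBall (0 : E n) r := by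
    intro y hy
    have hy' : dist (G.pt b) y < r := by rw [dist_comm]; exact hy
    obtain ⟨e1, e2⟩ := G.vol_lg_spec (G.F_sub hb) (hy'.trans hrρ)
    exact ⟨_, mem_closedBall_zero_iff.2 (e2 ▸ hy'.le), e1⟩
  exact (measure_mono h2).trans_lt ((h b hb _ subset_rfl).1.trans_lt
    (ENNReal.mul_lt_top ENNReal.ofReal_lt_top measure_closedBall_lt_top))

end Crest.Agent.R226
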