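import Crest.Agent.R226.Cont
import Crest.Agent.R226.Vol

/-! Row 226: Loeper's maximum principle up to the cut locus, convexity of `K` and `I`. -/

set_option autoImplicit false

open Set Filter Metric MeasureTheory
open scoped ContDiff Topology InnerProductSpace ENNReal

namespace Crest.Agent.R226

namespace LocGeo

variable {n : ℕ} {M : Type*} [MetricSpace M] [CompactSpace M] {G : LocGeo n M} {a : P n}

theorem dasm_F (hM : G.MTW) (ha : a ∈ G.F) {p₀ p₁ : E n} (h₀ : p₀ ∈ G.K a) (h₁ : p₁ ∈ G.K a)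
    {p : E n} (hp : p ∈ segment ℝ p₀ p₁) (x : M) :
    ‖p‖ ^ 2 / 2 - cst x (G.ex a p) ≤
      max (‖p₀‖ ^ 2 / 2 - cst x (G.ex a p₀)) (‖p₁‖ ^ 2 / 2 - cst x (G.ex a p₁)) := by
  have hC : IsCT {G.ex a p₀, G.ex a p₁} (fun x => max (cst (G.pt a) (G.ex a p₀) - cst x (G.ex a p₀))
      (cst (G.pt a) (G.ex a p₁) - cst x (G.ex a p₁))) fun y => -cst (G.pt a) y := by
    refine ⟨(toFinite _).isClosed, (continuous_cst.comp (Continuous.prodMk_right _)).neg,
      fun x y hy => ?_, fun x => ?_⟩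
    · rcases hy with rfl | rfl
      · linarith [le_max_left (cst (G.pt a) (G.ex a p₀) - cst x (G.ex a p₀))
          (cst (G.pt a) (G.ex a p₁) - cst x (G.ex a p₁))]
      · linarith [le_max_right (cst (G.pt a) (G.ex a p₀) - cst x (G.ex a p₀))
          (cst (G.pt a) (G.ex a p₁) - cst x (G.ex a p₁))]
    · rcases max_choice (cst (G.pt a) (G.ex a p₀) - cst x (G.ex a p₀))
        (cst (G.pt a) (G.ex a p₁) - cst x (G.ex a p₁)) with h | h
      · exact ⟨_, Or.inl rfl, by rw [h]; ring⟩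
      · exact ⟨_, Or.inr rfl, by rw [h]; ring⟩
  have := PS_one hM hC (a, p) ⟨ha, segment_subset_convexHull (s := G.Act _ _ _ a)
    ⟨h₀, Or.inl rfl, by simp⟩ ⟨h₁, Or.inr rfl, by simp⟩ hp⟩ x
  simp only [sub_self, max_self, one_smul, one_mul, one_pow, zero_add, G.cst_K h₀,
    G.cst_K h₁] at this
  linarith

/-- `PS_one` for `Y = {ex a p₀, ex a p₁}`, `ψ = -cst (pt a) ·`-type potentials shifted so that
both points are active at `pt a` (reduce to `a ∈ F` by `exists_iso_F`). -/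
theorem dasm (hM : G.MTW) (ha : a ∈ G.U) {p₀ p₁ : E n} (h₀ : p₀ ∈ G.K a) (h₁ : p₁ ∈ G.K a)
    {p : E n} (hp : p ∈ segment ℝ p₀ p₁) (x : M) :
    ‖p‖ ^ 2 / 2 - cst x (G.ex a p) ≤
      max (‖p₀‖ ^ 2 / 2 - cst x (G.ex a p₀)) (‖p₁‖ ^ 2 / 2 - cst x (G.ex a p₁)) := by
  obtain ⟨b, hb, A, hA⟩ := G.exists_iso_F ha
  have := dasm_F hM hb ((G.K_iso hA p₀).2 h₀) ((G.K_iso hA p₁).2 h₁) (p := A p) (by
    obtain ⟨s, t, hs, ht, hst, rfl⟩ := hp
    exact ⟨s, t, hs, ht, hst, by simp⟩) x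
  simpa only [hA, A.norm_map] using this

theorem convex_K (hM : G.MTW) (ha : a ∈ G.U) : Convex ℝ (G.K a) := by
  refine convex_iff_segment_subset.2 fun p₀ h₀ p₁ h₁ p hp => G.mem_K_of_le ha ?_
  have := dasm hM ha h₀ h₁ hp (G.pt a)
  rw [G.cst_K h₀, G.cst_K h₁, sub_self, sub_self, max_self] at this
  linarith

theorem convex_I (hM : G.MTW) (ha : a ∈ G.U) : Convex ℝ (G.I a) := by
  rw [← G.interior_K ha]
  exact (convex_K hM ha).interior

/-- DASM with the extra convex term: `-s cst (·, x)` is a maximum of functions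
`-cst (·, w) + const` (`cst_interp`, `inter`), `s = 1/(1+κ)`. -/
theorem dasm_kappa (hM : G.MTW) (ha : a ∈ G.U) {κ : ℝ} (hκ : 0 ≤ κ) (x : M) :
    QuasiconvexOn ℝ (G.K a) fun p => (1 + κ) * (‖p‖ ^ 2 / 2) - cst x (G.ex a p) := by
  refine quasiconvexOn_iff_le_max.2 ⟨convex_K hM ha, fun p₀ h₀ p₁ h₁ s t hs ht hst => ?_⟩
  have hp : s • p₀ + t • p₁ ∈ segment ℝ p₀ p₁ := ⟨s, t, hs, ht, hst, rfl⟩
  generalize s • p₀ + t • p₁ = p at hp
  rcases hκ.eq_or_lt with rfl | hκ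
  · simpa only [add_zero, one_mul] using dasm hM ha h₀ h₁ hp x
  have h1 : 0 < 1 + κ := by linarith
  have h2 : (1 + κ)⁻¹ < 1 := inv_lt_one_of_one_lt₀ (by linarith)
  have h3 : 0 ≤ (1 + κ)⁻¹ := by positivity
  obtain ⟨m, m1, m2⟩ := G.inter (G.ex a p) x (1 + κ)⁻¹ ⟨h3, h2.le⟩
  have h4 : ∀ y, cst x y ≤ (1 + κ) * cst m y + (1 + κ) / κ * cst m x := fun y => by
    have := mul_le_mul_of_nonneg_left (cst_interp y m x h3 h2) h1.le
    have e : (1 + κ)⁻¹ / (1 - (1 + κ)⁻¹) = κ⁻¹ := by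
      rw [div_eq_iff (by linarith)]
      field_simp
      ring
    rw [cst_comm y x, cst_comm y m, mul_inv_cancel_left₀ h1.ne', e] at this
    exact this.trans_eq (by ring)
  have h5 : cst x (G.ex a p) = (1 + κ) * cst m (G.ex a p) + (1 + κ) / κ * cst m x := by
    unfold cst
    rw [dist_comm m (G.ex a p), m1, m2, dist_comm x]
    field_simp
    ring
  rcases le_max_iff.1 (dasm hM ha h₀ h₁ hp m) with h | h
  · refine le_max_of_le_left ?_
    nlinarith [h4 (G.ex a p₀), mul_le_mul_of_nonneg_left h h1.le]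
  · refine le_max_of_le_right ?_
    nlinarith [h4 (G.ex a p₁), mul_le_mul_of_nonneg_left h h1.le]

/-- the boundary of `K` is negligible. -/
theorem vol_ge_K [MeasurableSpace M] [BorelSpace M] (hM : G.MTW) (D : NData G) :
    ∃ C : ℝ, 1 ≤ C ∧ ∀ a ∈ G.F, ∀ A ⊆ G.K a, MeasurableSet A →
      D.m a A ≤ ENNReal.ofReal C * μH[n] (G.ex a '' A) := by
  obtain ⟨C, hC, h⟩ := D.vol_ge
  refine ⟨C, hC, fun a ha A hA hm => ?_⟩
  have hU := G.F_sub ha
  have e : A =ᵐ[volume] (A ∩ G.I a : Set (E n)) := by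
    filter_upwards [measure_eq_zero_iff_ae_notMem.1
      ((convex_K hM hU).addHaar_frontier volume)] with p hp
    refine propext ⟨fun hpA => ⟨hpA, ?_⟩, fun hpA => hpA.1⟩
    rw [← G.interior_K hU]
    by_contra hc
    exact hp ⟨subset_closure (hA hpA), hc⟩
  have := h a ha (A ∩ G.I a) inter_subset_right (hm.inter (G.isOpen_I hU).measurableSet)
  rw [NData.m, ← setLIntegral_congr e] at this
  refine this.trans ?_
  gcongr
  exact inter_subset_left

end LocGeo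

end Crest.Agent.R226
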