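import Crest.Prelude.Def_RiemannianMTW

/-! Row 226 (weak MTW): the abstract local geometry `LocGeo`.

A compact Riemannian manifold is only used through the structure `LocGeo`: a family of
exponential maps `ex a : E n → M` read in orthonormal frames `a`; the frames are parametrised by
the points of an open subset `U` of the normed space `P n = ℝ × E n` (chart number `i` occupies
the slab `|a.1 - i| < 1/2`, `a.2` is the chart coordinate of the base point), a compact subset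
`F ⊆ U` already contains a frame over each point. -/

set_option autoImplicit false

open Set Filter Metric
open scoped ContDiff Topology InnerProductSpace

namespace Crest.Agent.R226

noncomputable section

/-- the model space. -/
abbrev E (n : ℕ) : Type := EuclideanSpace ℝ (Fin n)

/-- the parameter space of frames. -/
abbrev P (n : ℕ) : Type := ℝ × E n

/-- the cost `d² / 2`. -/
def cst {M : Type*} [MetricSpace M] (x y : M) : ℝ := dist x y ^ 2 / 2

theorem cst_eq {M : Type*} [MetricSpace M] (x y : M) :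
    cst x y = Crest.GeometryTopology.MTW.halfDistSq x y := rfl

/-- exponential maps in orthonormal frames. -/
structure LocGeo (n : ℕ) (M : Type*) [MetricSpace M] where
  U : Set (P n)
  F : Set (P n)
  ex : P n → E n → M
  ρ : ℝ
  U_open : IsOpen U
  F_compact : IsCompact F
  F_sub : F ⊆ U
  surj : ∀ x, ∃ a ∈ F, ex a 0 = x
  cont : ContinuousOn (fun z : P n × E n => ex z.1 z.2) (U ×ˢ univ)
  iso : ∀ a ∈ U, ∀ b ∈ U, ex a 0 = ex b 0 → ∃ A : E n ≃ₗᵢ[ℝ] E n, ∀ p, ex b (A p) = ex a p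
  flow : ∀ a ∈ U, ∀ b ∈ U, ∀ (p : E n) (s : ℝ), ex b 0 = ex a (s • p) →
    ∃ q : E n, ‖q‖ = ‖p‖ ∧ ∀ t : ℝ, ex b (t • q) = ex a ((s + t) • p)
  dist_le : ∀ a ∈ U, ∀ p, dist (ex a 0) (ex a p) ≤ ‖p‖
  ρ_pos : 0 < ρ
  loc_dist : ∀ a ∈ U, ∀ p, ‖p‖ ≤ ρ → dist (ex a 0) (ex a p) = ‖p‖
  loc_surj : ∀ a ∈ U, ∀ y, dist (ex a 0) y ≤ ρ → ∃ p, ‖p‖ ≤ ρ ∧ ex a p = y
  loc_smooth : ∀ a ∈ U, ∀ b ∈ U, ∀ p q, dist (ex a p) (ex b q) < ρ →
    ContDiffAt ℝ ∞ (fun z : (P n × E n) × (P n × E n) => cst (ex z.1.1 z.1.2) (ex z.2.1 z.2.2))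
      ((a, p), (b, q))
  inter : ∀ x y : M, ∀ t ∈ Icc (0 : ℝ) 1,
    ∃ z, dist x z = t * dist x y ∧ dist z y = (1 - t) * dist x y

namespace LocGeo

variable {n : ℕ} {M : Type*} [MetricSpace M] (G : LocGeo n M)

/-- base point of a frame. -/
def pt (a : P n) : M := G.ex a 0

/-- minimising velocities (closure of the injectivity domain). -/
def K (a : P n) : Set (E n) := {p | dist (G.pt a) (G.ex a p) = ‖p‖}

/-- the injectivity domain. -/
def I (a : P n) : Set (E n) := {p | ∃ s : ℝ, 1 < s ∧ s • p ∈ G.K a}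

/-- pairs of points which are not cut points of each other. -/
def Reg : Set (M × M) := {z | ∃ a ∈ G.U, ∃ p ∈ G.I a, z = (G.pt a, G.ex a p)}

/-- the cost read in two frames. -/
def cc (z : (P n × E n) × (P n × E n)) : ℝ := cst (G.ex z.1.1 z.1.2) (G.ex z.2.1 z.2.2)

/-- the logarithm (meaningful when `(pt a, y) ∈ Reg`). -/
def lg (a : P n) (y : M) : E n := -gradient (fun ξ : E n => cst (G.ex a ξ) y) 0

/-- the weak MTW condition. -/
def MTW : Prop :=
  ∀ a ∈ G.U, ∀ p ∈ G.I a, ∀ ξ η : E n, ⟪ξ, η⟫_ℝ = 0 →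
    iteratedFDeriv ℝ 4 (fun z : ℝ × ℝ => cst (G.ex a (z.2 • ξ)) (G.ex a (p + z.1 • η))) (0, 0)
      ![((1 : ℝ), (0 : ℝ)), (1, 0), (0, 1), (0, 1)] ≤ 0

/-- the compact set of minimising velocities over `F`. -/
def KF : Set (P n × E n) := {z | z.1 ∈ G.F ∧ z.2 ∈ G.K z.1}

/-- the open set of velocities in the injectivity domains over `U`. -/
def IU : Set (P n × E n) := {z | z.1 ∈ G.U ∧ z.2 ∈ G.I z.1}

end LocGeo

end

end Crest.Agent.R226
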