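import Crest.Agent.R226.NData

/-! Row 226, Step 1: no focal point in the convex hull of non-focal points. -/

set_option autoImplicit false

open Set Filter Metric
open scoped ContDiff Topology InnerProductSpace

namespace Crest.Agent.R226

namespace NData

variable {n : ℕ} {M : Type*} [MetricSpace M] [CompactSpace M] {G : LocGeo n M} (D : NData G)
  {a : P n}

omit [CompactSpace M] in
theorem Gm_apply (z : P n × E n) (u : E n) : D.Gm z u = D.C • u - G.H z u := by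
  simp [Gm]

omit [CompactSpace M] in
theorem Focal_cs {z : P n × E n} (hz : z ∈ G.KF) (w ν : E n) :
    ⟪D.N z w, ν⟫_ℝ ^ 2 ≤ ⟪D.N z w, w⟫_ℝ * ⟪D.N z ν, ν⟫_ℝ := by
  have h := discrim_le_zero (a := ⟪D.N z ν, ν⟫_ℝ) (b := 2 * ⟪D.N z w, ν⟫_ℝ) (c := ⟪D.N z w, w⟫_ℝ)
    fun t => by
      have h1 := D.nonneg z hz (w + t • ν)
      have h2 : ⟪D.N z ν, w⟫_ℝ = ⟪D.N z w, ν⟫_ℝ := by rw [D.symm z hz, real_inner_comm]
      simp only [map_add, map_smul, inner_add_left, inner_add_right, real_inner_smul_left,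
        real_inner_smul_right, h2] at h1
      linarith
  unfold discrim at h
  linarith

omit [CompactSpace M] in
theorem Focal_KF (ha : a ∈ G.F) {p : E n} (hp : p ∈ G.I a) : (a, p) ∈ G.KF :=
  ⟨ha, G.I_sub_K (G.F_sub ha) hp⟩

omit [CompactSpace M] in
theorem Focal_N_Gm (ha : a ∈ G.F) {p : E n} (hp : p ∈ G.I a) (ξ : E n) :
    D.N (a, p) (D.Gm (a, p) ξ) = ξ := by
  rw [Gm_apply]
  exact D.left_inv a ha p hp ξ

omit [CompactSpace M] in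
theorem Focal_pos {z : P n × E n} (hz : z ∈ G.KF) (h : ∀ u, D.N z u = 0 → u = 0) :
    ∃ θ : ℝ, 0 < θ ∧ ∀ u, θ * ‖u‖ ^ 2 ≤ ⟪D.N z u, u⟫_ℝ := by
  obtain ⟨K, hK, hA⟩ := LinearMap.exists_antilipschitzWith (D.N z : E n →ₗ[ℝ] E n)
    (LinearMap.ker_eq_bot'.2 h)
  have hK' : (0 : ℝ) < K := hK
  refine ⟨((K : ℝ) ^ 2)⁻¹, by positivity, fun u => ?_⟩
  have h1 : ‖u‖ ≤ K * ‖D.N z u‖ := ZeroHomClass.bound_of_antilipschitz _ hA u
  have h2 : ‖D.N z u‖ ^ 2 ≤ ⟪D.N z u, u⟫_ℝ := by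
    have h3 := D.Focal_cs hz u (D.N z u)
    have h4 := mul_le_mul_of_nonneg_left (D.le_one z hz (D.N z u)) (D.nonneg z hz u)
    rw [real_inner_self_eq_norm_sq] at h3
    rcases (sq_nonneg ‖D.N z u‖).eq_or_lt with h5 | h5
    · rw [← h5]
      exact D.nonneg z hz u
    · exact le_of_mul_le_mul_right (by nlinarith) h5
  rw [inv_mul_le_iff₀ (by positivity)]
  calc ‖u‖ ^ 2 ≤ (K * ‖D.N z u‖) ^ 2 := pow_le_pow_left₀ (norm_nonneg _) h1 2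
    _ ≤ _ := by rw [mul_pow]; exact mul_le_mul_of_nonneg_left h2 (by positivity)

/-- Cauchy–Schwarz: `⟪ξ, ν⟫² ≤ G(ξ, ξ) N(ν, ν)` on `I`. -/
theorem inner_sq_le (ha : a ∈ G.F) {p : E n} (hp : p ∈ G.I a) (ξ ν : E n) :
    ⟪ξ, ν⟫_ℝ ^ 2 ≤ ⟪D.Gm (a, p) ξ, ξ⟫_ℝ * ⟪D.N (a, p) ν, ν⟫_ℝ := by
  have h := D.Focal_cs (Focal_KF ha hp) (D.Gm (a, p) ξ) ν
  rwa [D.Focal_N_Gm ha hp, real_inner_comm (D.Gm (a, p) ξ)] at h

theorem le_Gm (ha : a ∈ G.F) {p : E n} (hp : p ∈ G.I a) (ξ : E n) :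
    ‖ξ‖ ^ 2 ≤ ⟪D.Gm (a, p) ξ, ξ⟫_ℝ := by
  have h1 := D.inner_sq_le ha hp ξ ξ
  have h2 := D.nonneg _ (Focal_KF ha hp) (D.Gm (a, p) ξ)
  rw [D.Focal_N_Gm ha hp, real_inner_comm] at h2
  have h3 := mul_le_mul_of_nonneg_left (D.le_one _ (Focal_KF ha hp) ξ) h2
  rw [real_inner_self_eq_norm_sq] at h1
  rcases (sq_nonneg ‖ξ‖).eq_or_lt with h5 | h5
  · rwa [← h5]
  · exact le_of_mul_le_mul_right (by nlinarith) h5

theorem Gm_radial (ha : a ∈ G.F) {p : E n} (hp : p ∈ G.I a) :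
    D.Gm (a, p) p = (D.C - 1) • p := by
  rw [Gm_apply, G.H_radial (z := (a, p)) ⟨G.F_sub ha, hp⟩, sub_smul, one_smul]

theorem Gm_symm (ha : a ∈ G.F) {p : E n} (hp : p ∈ G.I a) (u v : E n) :
    ⟪D.Gm (a, p) u, v⟫_ℝ = ⟪u, D.Gm (a, p) v⟫_ℝ := by
  rw [Gm_apply, Gm_apply, inner_sub_left, inner_sub_right,
    G.H_symm (z := (a, p)) ⟨G.F_sub ha, hp⟩, real_inner_smul_left, real_inner_smul_right]

theorem Gm_convex (hM : G.MTW) (ha : a ∈ G.F) {p ξ η : E n} (h : ⟪ξ, η⟫_ℝ = 0) {t₀ t₁ : ℝ}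
    (hI : ∀ t ∈ Icc t₀ t₁, p + t • η ∈ G.I a) :
    ConvexOn ℝ (Icc t₀ t₁) fun t => ⟪D.Gm (a, p + t • η) ξ, ξ⟫_ℝ := by
  simp only [Gm_apply, inner_sub_left]
  exact (convexOn_const _ (convex_Icc _ _)).sub (G.mtw_concave hM (G.F_sub ha) h hI)

/-- if `N ≥ θ > 0` then `G ≤ 1/θ`. -/
theorem Gm_le_of_le_N (ha : a ∈ G.F) {p : E n} (hp : p ∈ G.I a) {θ : ℝ} (hθ : 0 < θ)
    (h : ∀ u, θ * ‖u‖ ^ 2 ≤ ⟪D.N (a, p) u, u⟫_ℝ) (ξ : E n) :
    ⟪D.Gm (a, p) ξ, ξ⟫_ℝ ≤ θ⁻¹ * ‖ξ‖ ^ 2 := by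
  have h1 := h (D.Gm (a, p) ξ)
  rw [D.Focal_N_Gm ha hp, real_inner_comm] at h1
  have h2 := real_inner_le_norm (D.Gm (a, p) ξ) ξ
  rw [le_inv_mul_iff₀ hθ]
  nlinarith [sq_nonneg (θ * ‖D.Gm (a, p) ξ‖ - ‖ξ‖), mul_le_mul_of_nonneg_left h1 hθ.le,
    mul_le_mul_of_nonneg_left h2 hθ.le]

theorem N_inj_of_mem_I (ha : a ∈ G.F) {p : E n} (hp : p ∈ G.I a) (u : E n)
    (h : D.N (a, p) u = 0) : u = 0 := by
  have h1 := D.right_inv a ha p hp u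
  rw [h, smul_zero, map_zero, sub_zero] at h1
  exact h1.symm

/-- at a non-focal point of `K`, `G (σ p)` stays bounded as `σ ↑ 1`. -/
theorem Gm_bdd (ha : a ∈ G.F) {p : E n} (hp : p ∈ G.K a) (h : ∀ u, D.N (a, p) u = 0 → u = 0) :
    ∃ B : ℝ, ∀ᶠ σ in 𝓝[<] (1 : ℝ), ∀ ξ, ⟪D.Gm (a, σ • p) ξ, ξ⟫_ℝ ≤ B * ‖ξ‖ ^ 2 := by
  have hz : (a, p) ∈ G.KF := ⟨ha, hp⟩
  obtain ⟨θ, hθ, hN⟩ := D.Focal_pos hz h
  have h1 : Tendsto (fun σ : ℝ => D.N (a, σ • p)) (𝓝 1) (𝓝 (D.N (a, p))) :=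
    (D.smooth _ hz).continuousAt.tendsto.comp
      ((by fun_prop : Continuous fun σ : ℝ => (a, σ • p)).tendsto' 1 _ (by rw [one_smul]))
  have h2 := (Metric.tendsto_nhds.1 h1 _ (half_pos hθ)).filter_mono
    (nhdsWithin_le_nhds (s := Iio 1))
  refine ⟨(θ / 2)⁻¹, ?_⟩
  filter_upwards [h2, Ioo_mem_nhdsLT (zero_lt_one' ℝ)] with σ h3 h4 ξ
  refine D.Gm_le_of_le_N ha (G.smul_mem_I (G.F_sub ha) hp h4.1.le h4.2) (half_pos hθ)
    (fun u => ?_) ξ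
  rw [dist_comm, dist_eq_norm] at h3
  have h5 := real_inner_le_norm ((D.N (a, p) - D.N (a, σ • p)) u) u
  have h6 := ((D.N (a, p) - D.N (a, σ • p)).le_opNorm u).trans
    (mul_le_mul_of_nonneg_right h3.le (norm_nonneg _))
  have h7 := mul_le_mul_of_nonneg_right h6 (norm_nonneg u)
  rw [sub_apply, inner_sub_left] at h5
  rw [sub_apply] at h7
  nlinarith [hN u]

/-- Step 1.  Let `q = α + τ η`, `η = β - α`, `0 < τ < 1`, `N q ν = 0`, `ν ≠ 0`.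
For `ξ ⊥ η`, `Gm_convex` along `σ • segment ⊆ I`, `Gm_bdd` and `inner_sq_le` give `⟪ξ, ν⟫ = 0`,
so `η ≠ 0` and `ν ∥ η`; `radial` gives `q ⊥ η`.  Then `g t = G (σ (q + t η)) (q, q)` is convex,
bounded at the end points uniformly in `σ`, `g 0 = (C-1)‖q‖²`, while (`Gm_radial`)
`g t = (C-1)(‖q‖² - t²‖η‖²) + t² G (η, η)` and `G (η,η) ≥ ‖η‖⁴ / N (η,η)` with
`κ t = N (q + t η) (η, η) ≥ 0`, `κ 0 = 0`, hence `κ t ≤ C' t²`: a jump at `t = 0`. -/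
theorem nonfocal_segment (hM : G.MTW) (ha : a ∈ G.F) {α β : E n}
    (hK : segment ℝ α β ⊆ G.K a) (hα : ∀ u, D.N (a, α) u = 0 → u = 0)
    (hβ : ∀ u, D.N (a, β) u = 0 → u = 0) :
    ∀ q ∈ segment ℝ α β, ∀ u, D.N (a, q) u = 0 → u = 0 := by
  intro q hq ν hν
  rw [segment_eq_image'] at hq hK
  obtain ⟨τ, hτ, hq⟩ := hq
  obtain ⟨η, hη⟩ : ∃ η, η = β - α := ⟨_, rfl⟩
  simp only [← hη] at hq hK
  rcases hτ.1.eq_or_lt with h0 | h0
  · subst h0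
    rw [zero_smul, add_zero] at hq
    exact hα ν (hq ▸ hν)
  rcases hτ.2.eq_or_lt with h1 | h1
  · subst h1
    rw [one_smul, hη, add_sub_cancel] at hq
    exact hβ ν (hq ▸ hν)
  have hU := G.F_sub ha
  have hseg : ∀ t ∈ Icc (-τ) (1 - τ), q + t • η ∈ G.K a := fun t ht =>
    hK ⟨τ + t, ⟨by linarith [ht.1], by linarith [ht.2]⟩, by rw [← hq]; module⟩
  have eα : q + (-τ) • η = α := by rw [← hq]; module
  have eβ : q + (1 - τ) • η = β := by rw [← hq, hη]; module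
  have m0 : (0 : ℝ) ∈ Icc (-τ) (1 - τ) := ⟨by linarith, by linarith⟩
  have ml : -τ ∈ Icc (-τ) (1 - τ) := ⟨le_rfl, by linarith⟩
  have mr : 1 - τ ∈ Icc (-τ) (1 - τ) := ⟨by linarith, le_rfl⟩
  have hqK : q ∈ G.K a := by simpa using hseg 0 m0
  obtain ⟨B₁, hB₁⟩ := D.Gm_bdd ha (eα ▸ hseg _ ml) hα
  obtain ⟨B₂, hB₂⟩ := D.Gm_bdd ha (eβ ▸ hseg _ mr) hβ
  have hσ : ∀ᶠ σ in 𝓝[<] (1 : ℝ), σ ∈ Ioo (0 : ℝ) 1 := Ioo_mem_nhdsLT one_pos
  have hcv : ∀ σ ∈ Ioo (0 : ℝ) 1, ∀ ξ, ⟪ξ, η⟫_ℝ = 0 →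
      ConvexOn ℝ (Icc (-τ) (1 - τ)) fun t => ⟪D.Gm (a, σ • (q + t • η)) ξ, ξ⟫_ℝ := by
    intro σ hσ ξ hξ
    have e : ∀ t : ℝ, σ • q + t • σ • η = σ • (q + t • η) := fun t => by module
    have := D.Gm_convex hM ha (p := σ • q) (ξ := ξ) (η := σ • η) (t₀ := -τ) (t₁ := 1 - τ)
      (by rw [inner_smul_right, hξ, mul_zero])
      (fun t ht => by rw [e]; exact G.smul_mem_I hU (hseg t ht) hσ.1.le hσ.2)
    simpa only [e] using this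
  have hlim : ∀ p ∈ G.K a, ∀ u, Tendsto (fun σ : ℝ => ⟪D.N (a, σ • p) u, u⟫_ℝ) (𝓝[<] 1)
      (𝓝 ⟪D.N (a, p) u, u⟫_ℝ) := by
    intro p hp u
    have h2 : ContinuousAt D.N (a, (1 : ℝ) • p) := by
      rw [one_smul]; exact (D.smooth (a, p) ⟨ha, hp⟩).continuousAt
    have h3 : ContinuousAt (fun σ : ℝ => D.N (a, σ • p)) 1 :=
      ContinuousAt.comp (f := fun σ : ℝ => (a, σ • p)) h2 (by fun_prop)
    have h4 : ContinuousAt (fun σ : ℝ => ⟪D.N (a, σ • p) u, u⟫_ℝ) 1 :=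
      (h3.clm_apply continuousAt_const).inner continuousAt_const
    have := h4.tendsto.mono_left (nhdsWithin_le_nhds (s := Iio 1))
    simpa using this
  have hperp : ∀ ξ, ⟪ξ, η⟫_ℝ = 0 → ⟪ξ, ν⟫_ℝ = 0 := by
    intro ξ hξ
    have h2 := (hlim q hqK ν).const_mul (max (B₁ * ‖ξ‖ ^ 2) (B₂ * ‖ξ‖ ^ 2))
    rw [hν, inner_zero_left, mul_zero] at h2
    refine pow_eq_zero_iff (two_ne_zero) |>.1 (le_antisymm (ge_of_tendsto h2 ?_) (sq_nonneg _))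
    filter_upwards [hσ, hB₁, hB₂] with σ hσ b1 b2
    have hI := G.smul_mem_I hU hqK hσ.1.le hσ.2
    have h3 := (hcv σ hσ ξ hξ).le_on_segment ml mr (z := 0)
      (by rw [segment_eq_Icc (by linarith)]; exact m0)
    simp only [eα, eβ, zero_smul, add_zero] at h3
    refine (D.inner_sq_le ha hI ξ ν).trans (mul_le_mul_of_nonneg_right
      (h3.trans (max_le_max (b1 ξ) (b2 ξ))) (D.nonneg (a, σ • q) ⟨ha, G.I_sub_K hU hI⟩ ν))
  by_contra hν0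
  have hη0 : η ≠ 0 := by
    rintro rfl
    exact hν0 (inner_self_eq_zero.1 (hperp ν (inner_zero_right _)))
  have hn : 0 < ‖η‖ := norm_pos_iff.2 hη0
  have hNη : D.N (a, q) η = 0 := by
    obtain ⟨c, hc⟩ : ∃ c : ℝ, c = ⟪ν, η⟫_ℝ / ‖η‖ ^ 2 := ⟨_, rfl⟩
    have h2 : ⟪ν - c • η, η⟫_ℝ = 0 := by
      rw [inner_sub_left, real_inner_smul_left, real_inner_self_eq_norm_sq, hc]
      field_simp
      ring
    have h3 : ⟪ν - c • η, ν - c • η⟫_ℝ = 0 := by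
      rw [inner_sub_right, hperp _ h2, inner_smul_right, h2, mul_zero, sub_zero]
    have h4 : ν = c • η := sub_eq_zero.1 (inner_self_eq_zero.1 h3)
    rw [h4, map_smul, smul_eq_zero] at hν
    refine hν.resolve_left ?_
    rintro rfl
    exact hν0 (by rw [h4, zero_smul])
  have hC : 0 < D.C - 1 := by linarith [D.C_ge]
  have hqη : ⟪q, η⟫_ℝ = 0 := by
    have h2 := D.symm (a, q) ⟨ha, hqK⟩ q η
    rw [hNη, inner_zero_right, D.radial (a, q) ⟨ha, hqK⟩, real_inner_smul_left] at h2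
    exact (mul_eq_zero.1 h2).resolve_left (inv_pos.2 hC).ne'
  have hrad : ∀ σ ∈ Ioo (0 : ℝ) 1, ∀ p ∈ G.K a, D.Gm (a, σ • p) p = (D.C - 1) • p := by
    intro σ hσ p hp
    have h2 := D.Gm_radial ha (G.smul_mem_I hU hp hσ.1.le hσ.2)
    rw [map_smul, smul_comm] at h2
    exact smul_right_injective _ hσ.1.ne' h2
  have key : ∀ t ∈ Ioo (0 : ℝ) (1 - τ), t * ‖η‖ ^ 4 ≤
      ((D.C - 1) * t * ‖η‖ ^ 2 + |B₂| * ‖q‖ ^ 2 / (1 - τ)) * ⟪D.N (a, q + t • η) η, η⟫_ℝ := by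
    intro t ht
    have mt : t ∈ Icc (-τ) (1 - τ) := ⟨by linarith [ht.1], ht.2.le⟩
    refine ge_of_tendsto ((hlim _ (hseg t mt) η).const_mul _) ?_
    filter_upwards [hσ, hB₂] with σ hσ b2
    have hI := G.smul_mem_I hU (hseg t mt) hσ.1.le hσ.2
    have hτ1 : 0 < 1 - τ := by linarith
    have hs : t / (1 - τ) ≤ 1 := (div_le_one hτ1).2 ht.2.le
    have hs0 : 0 ≤ t / (1 - τ) := div_nonneg ht.1.le hτ1.le
    have h3 := (hcv σ hσ q hqη).2 m0 mr (sub_nonneg.2 hs) hs0 (by ring)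
    simp only [smul_eq_mul, mul_zero, zero_add, div_mul_cancel₀ _ hτ1.ne', eβ, zero_smul,
      add_zero] at h3
    rw [hrad σ hσ q hqK, real_inner_smul_left, real_inner_self_eq_norm_sq] at h3
    have h4 := hrad σ hσ _ (hseg t mt)
    have h5 := D.Gm_symm ha hI η (q + t • η)
    have h6 := D.inner_sq_le ha hI η η
    have h7 := D.nonneg (a, σ • (q + t • η)) ⟨ha, G.I_sub_K hU hI⟩ η
    rw [real_inner_self_eq_norm_sq] at h6
    generalize D.Gm (a, σ • (q + t • η)) = A at h3 h4 h5 h6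
    have h8 : A q = (D.C - 1) • (q + t • η) - t • A η := by
      rw [← h4, map_add, map_smul]; abel
    have hηq : ⟪η, q⟫_ℝ = 0 := by rw [real_inner_comm]; exact hqη
    rw [h4, inner_add_right, inner_smul_right, inner_smul_right, inner_add_right, hηq,
      inner_smul_right, real_inner_self_eq_norm_sq] at h5
    rw [h8, inner_sub_left, real_inner_smul_left, real_inner_smul_left, inner_add_left,
      real_inner_smul_left, hηq, real_inner_self_eq_norm_sq] at h3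
    have h9 : t / (1 - τ) * ⟪D.Gm (a, σ • β) q, q⟫_ℝ ≤ t * (|B₂| * ‖q‖ ^ 2 / (1 - τ)) := by
      calc _ ≤ t / (1 - τ) * (|B₂| * ‖q‖ ^ 2) := by
            gcongr
            exact (b2 q).trans (by gcongr; exact le_abs_self _)
        _ = _ := by ring
    have h10 : 0 ≤ t / (1 - τ) * ((D.C - 1) * ‖q‖ ^ 2) := by positivity
    have h11 : t * (t * ⟪A η, η⟫_ℝ) ≤
        t * ((D.C - 1) * t * ‖η‖ ^ 2 + |B₂| * ‖q‖ ^ 2 / (1 - τ)) := by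
      have : t * ⟪A η, q⟫_ℝ = t * ((D.C - 1) * (0 + t * ‖η‖ ^ 2) - t * ⟪A η, η⟫_ℝ) := by
        rw [← h5]; ring
      linarith
    have h12 := le_of_mul_le_mul_left h11 ht.1
    calc t * ‖η‖ ^ 4 = t * (‖η‖ ^ 2) ^ 2 := by ring
      _ ≤ t * (⟪A η, η⟫_ℝ * ⟪D.N (a, σ • (q + t • η)) η, η⟫_ℝ) := by gcongr; exact ht.1.le
      _ = t * ⟪A η, η⟫_ℝ * ⟪D.N (a, σ • (q + t • η)) η, η⟫_ℝ := by ring
      _ ≤ _ := by gcongr
  have hd : DifferentiableAt ℝ (fun t : ℝ => ⟪D.N (a, q + t • η) η, η⟫_ℝ) 0 := by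
    have h2 : DifferentiableAt ℝ D.N (a, q + (0 : ℝ) • η) := by
      rw [zero_smul, add_zero]
      exact (D.smooth (a, q) ⟨ha, hqK⟩).differentiableAt (by simp)
    have h3 : DifferentiableAt ℝ (fun t : ℝ => D.N (a, q + t • η)) 0 :=
      DifferentiableAt.comp (f := fun t : ℝ => (a, q + t • η)) 0 h2 (by fun_prop)
    exact (h3.clm_apply (differentiableAt_const _)).inner ℝ (differentiableAt_const _)
  have hmin : IsLocalMin (fun t : ℝ => ⟪D.N (a, q + t • η) η, η⟫_ℝ) 0 := by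
    filter_upwards [Icc_mem_nhds (show -τ < 0 by linarith) (show 0 < 1 - τ by linarith)] with t ht
    simp only [zero_smul, add_zero, hNη, inner_zero_left]
    exact D.nonneg (a, q + t • η) ⟨ha, hseg t ht⟩ η
  have h2 := hd.hasDerivAt.tendsto_slope_zero_right
  rw [hmin.deriv_eq_zero] at h2
  simp only [zero_add, zero_smul, add_zero, hNη, inner_zero_left, sub_zero, smul_eq_mul] at h2
  have h3 : Tendsto (fun t : ℝ => (D.C - 1) * t * ‖η‖ ^ 2 + |B₂| * ‖q‖ ^ 2 / (1 - τ)) (𝓝[>] 0)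
      (𝓝 ((D.C - 1) * 0 * ‖η‖ ^ 2 + |B₂| * ‖q‖ ^ 2 / (1 - τ))) :=
    Tendsto.mono_left (Continuous.tendsto (by fun_prop) 0) nhdsWithin_le_nhds
  have h4 := h3.mul h2
  rw [mul_zero] at h4
  refine absurd (ge_of_tendsto h4 (b := ‖η‖ ^ 4) ?_) (not_le.2 (by positivity))
  filter_upwards [Ioo_mem_nhdsGT (show 0 < 1 - τ by linarith)] with t ht
  have h5 := mul_le_mul_of_nonneg_left (key t ht) (inv_pos.2 ht.1).le
  rw [← mul_assoc, inv_mul_cancel₀ ht.1.ne', one_mul] at h5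
  linarith

/-- `convexHull_min` applied to `{q ∈ convexHull S | N (a, q) injective}`. -/
theorem nonfocal_convexHull (hM : G.MTW) (ha : a ∈ G.F) {S : Set (E n)}
    (hK : convexHull ℝ S ⊆ G.K a) (hS : S ⊆ G.I a) :
    ∀ q ∈ convexHull ℝ S, ∀ u, u ≠ 0 → 0 < ⟪G.W (a, q) u, u⟫_ℝ := by
  obtain ⟨D⟩ := exists_nData G
  have h : convexHull ℝ S ⊆ {q | q ∈ convexHull ℝ S ∧ ∀ u, D.N (a, q) u = 0 → u = 0} := by
    refine convexHull_min (fun q hq => ⟨subset_convexHull ℝ S hq, D.N_inj_of_mem_I ha (hS hq)⟩)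
      (convex_iff_segment_subset.2 fun α hα β hβ q hq => ?_)
    have h1 := (convex_convexHull ℝ S).segment_subset hα.1 hβ.1
    exact ⟨h1 hq, D.nonfocal_segment hM ha (h1.trans hK) hα.2 hβ.2 q hq⟩
  exact fun q hq => D.W_pos (a, q) ⟨ha, hK hq⟩ (h hq).2

end NData

end Crest.Agent.R226
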