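import Crest.Agent.R226.GFlow

/-! Row 226 (copy of row 244): geodesics of a compact manifold exist for all times. -/

set_option autoImplicit false

open Set Filter
open scoped ContDiff Topology

universe u

namespace Crest.Agent.R226.G

open Crest.Agent.R244 hiding E RAtlas

open Crest.GeometryTopology.CoordMetric Crest.GeometryTopology.ChartCurvature
  Crest.GeometryTopology.Geodesic

/-- locally uniform coercivity of a Riemannian metric. -/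
theorem eventually_coercive {n : ℕ} {g : MetricField n} {U : Set (E n)} (hg : IsRiemannianOn g U)
    {y₀ : E n} (hy₀ : y₀ ∈ U) : ∃ c > 0, ∀ᶠ y in 𝓝 y₀, ∀ u : E n, c * ‖u‖ ^ 2 ≤ bil (g y) u u := by
  obtain ⟨c, hc, hcu⟩ := exists_norm_sq_le_bil (hg.posDef _ hy₀)
  have hK : IsCompact (Metric.sphere (0 : E n) 1) := isCompact_sphere _ _
  have h1 : ∀ᶠ y in 𝓝 y₀, ∀ u ∈ Metric.sphere (0 : E n) 1, c / 2 < bil (g y) u u := by
    refine hK.eventually_forall_of_forall_eventually (P := fun y u => c / 2 < bil (g y) u u) ?_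
    intro u hu
    have hb : ContinuousAt (fun w : E n × E n × E n => bil (g w.1) w.2.1 w.2.2) (y₀, u, u) :=
      (contDiffAt_bil hg (z := (y₀, u, u)) hy₀).continuousAt
    have hm : ContinuousAt (fun z : E n × E n => ((z.1, z.2, z.2) : E n × E n × E n)) (y₀, u) := by
      fun_prop
    have hcont : ContinuousAt (fun z : E n × E n => bil (g z.1) z.2 z.2) (y₀, u) :=
      ContinuousAt.comp (g := fun w : E n × E n × E n => bil (g w.1) w.2.1 w.2.2)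
        (f := fun z : E n × E n => ((z.1, z.2, z.2) : E n × E n × E n)) hb hm
    refine hcont.eventually (lt_mem_nhds ?_)
    have h2 := hcu u
    rw [mem_sphere_zero_iff_norm] at hu
    rw [hu] at h2
    change c / 2 < bil (g y₀) u u
    linarith
  refine ⟨c / 2, by linarith, h1.mono fun y hy u => ?_⟩
  rcases eq_or_ne u 0 with rfl | hu
  · simp
  · have hn : 0 < ‖u‖ := norm_pos_iff.2 hu
    have h2 := hy (‖u‖⁻¹ • u) (by
      rw [mem_sphere_zero_iff_norm, norm_smul, norm_inv, norm_norm, inv_mul_cancel₀ hn.ne'])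
    rw [bil_smul_left, bil_smul_right] at h2
    have h3 := mul_lt_mul_of_pos_right h2 (pow_pos hn 2)
    have e : ‖u‖⁻¹ * (‖u‖⁻¹ * bil (g y) u u) * ‖u‖ ^ 2 = bil (g y) u u := by field_simp
    rw [e] at h3
    exact h3.le

namespace RAtlas

variable {n : ℕ} {M : Type u} [TopologicalSpace M]

theorem jet_congr (A : RAtlas n M) (i : A.ι) {γ γ' : ℝ → M} {s : ℝ} (h : γ =ᶠ[𝓝 s] γ') :
    jet (A.crd i γ) =ᶠ[𝓝 s] jet (A.crd i γ') := by
  have h1 : A.crd i γ =ᶠ[𝓝 s] A.crd i γ' := h.mono fun t ht => by simp only [crd, ht]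
  filter_upwards [h1, h1.deriv] with t h2 h3
  simp only [jet, h2, h3]

theorem deriv_crd_congr (A : RAtlas n M) (i : A.ι) {γ γ' : ℝ → M} {s : ℝ} (h : γ =ᶠ[𝓝 s] γ') :
    deriv (A.crd i γ) s = deriv (A.crd i γ') s :=
  congrArg Prod.snd (A.jet_congr i h).eq_of_nhds

/-- being a geodesic is a local property. -/
theorem geoOn_of_local (A : RAtlas n M) {γ : ℝ → M} {S : Set ℝ}
    (h : ∀ s ∈ S, ∃ (γ' : ℝ → M) (S' : Set ℝ), IsOpen S' ∧ s ∈ S' ∧ A.GeoOn γ' S' ∧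
      γ =ᶠ[𝓝 s] γ') : A.GeoOn γ S := by
  refine ⟨fun s hs => ?_, fun s hs i hi => ?_⟩
  · obtain ⟨γ', S', ho, hs', hg, he⟩ := h s hs
    exact ((hg.1.continuousAt (ho.mem_nhds hs')).congr he.symm).continuousWithinAt
  · obtain ⟨γ', S', ho, hs', hg, he⟩ := h s hs
    have hj := A.jet_congr i he
    rw [hj.eq_of_nhds]
    exact (hg.2 s hs' i (he.eq_of_nhds ▸ hi)).congr_of_eventuallyEq hj

theorem GeoOn.glue {A : RAtlas n M} {γ₁ γ₂ : ℝ → M} {S₁ S₂ : Set ℝ} (h₁ : A.GeoOn γ₁ S₁)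
    (h₂ : A.GeoOn γ₂ S₂) (ho₁ : IsOpen S₁) (ho₂ : IsOpen S₂) (he : EqOn γ₁ γ₂ (S₁ ∩ S₂)) :
    ∃ γ, A.GeoOn γ (S₁ ∪ S₂) ∧ EqOn γ γ₁ S₁ := by
  classical
  refine ⟨fun s => if s ∈ S₁ then γ₁ s else γ₂ s, A.geoOn_of_local fun s hs => ?_,
    fun s hs => if_pos hs⟩
  rcases hs with hs | hs
  · refine ⟨γ₁, S₁, ho₁, hs, h₁, ?_⟩
    filter_upwards [ho₁.mem_nhds hs] with t ht
    exact if_pos ht
  · refine ⟨γ₂, S₂, ho₂, hs, h₂, ?_⟩
    filter_upwards [ho₂.mem_nhds hs] with t ht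
    by_cases h : t ∈ S₁
    · rw [if_pos h]; exact he ⟨h, ht⟩
    · exact if_neg h

/-- there is a geodesic on `(-a, a)` with the given initial data. -/
def Sol (A : RAtlas n M) (x : M) (j : A.ι) (v : E n) (a : ℝ) : Prop :=
  ∃ γ, A.GeoOn γ (Ioo (-a) a) ∧ γ 0 = x ∧ deriv (A.crd j γ) 0 = v

theorem Sol.mono {A : RAtlas n M} {x : M} {j : A.ι} {v : E n} {a b : ℝ} (h : A.Sol x j v a)
    (hb : b ≤ a) : A.Sol x j v b := by
  obtain ⟨γ, h1, h2⟩ := h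
  exact ⟨γ, h1.mono (Ioo_subset_Ioo (by linarith) hb), h2⟩

theorem sol_local (A : RAtlas n M) (x₀ : M) : ∃ W ∈ 𝓝 x₀, ∃ ε > 0, ∃ ρ > 0, ∀ x ∈ W, ∀ j,
    x ∈ (A.chart j).source → ∀ v, bil (A.G j (A.chart j x)) v v < ρ → A.Sol x j v ε := by
  obtain ⟨i, hi⟩ := A.cover x₀
  have hy₀ := (A.chart i).map_source hi
  have hO : IsOpen ((A.chart i).target ×ˢ (univ : Set (E n))) :=
    (A.chart i).open_target.prod isOpen_univ
  have hf : ContDiffOn ℝ 1 (spray (A.G i)) ((A.chart i).target ×ˢ (univ : Set (E n))) :=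
    fun z hz => ((contDiffAt_spray (A.riem i) hz.1).of_le (by exact_mod_cast le_top)).contDiffWithinAt
  obtain ⟨ε, hε, U, hU, hz₀, φ, Ψ, hφ⟩ :=
    local_flow hO hf (z₀ := (A.chart i x₀, 0)) ⟨hy₀, mem_univ _⟩
  obtain ⟨δ, hδ, hball⟩ := Metric.isOpen_iff.1 hU _ hz₀
  obtain ⟨c, hc, hco⟩ := eventually_coercive (A.riem i) hy₀
  have hW : ∀ᶠ x in 𝓝 x₀, x ∈ (A.chart i).source ∧ A.chart i x ∈ Metric.ball (A.chart i x₀) δ ∧
      ∀ u : E n, c * ‖u‖ ^ 2 ≤ bil (A.G i (A.chart i x)) u u := by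
    have hca := (A.chart i).continuousAt hi
    exact ((A.chart i).open_source.eventually_mem hi).and
      ((hca.eventually (Metric.ball_mem_nhds _ hδ)).and (hca.eventually hco))
  refine ⟨_, hW, ε, hε, c * δ ^ 2, by positivity, fun x hx j hj v hv => ?_⟩
  obtain ⟨hxi, hxb, hxc⟩ := hx
  obtain ⟨u, hu⟩ : ∃ u, u = fderiv ℝ (A.tr j i) (A.chart j x) v := ⟨_, rfl⟩
  have hiso : bil (A.G j (A.chart j x)) v v = bil (A.G i (A.chart i x)) u u := by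
    rw [hu]; exact A.isom j i x hj hxi v v
  have hun : ‖u‖ < δ := by
    have h1 : c * ‖u‖ ^ 2 < c * δ ^ 2 := lt_of_le_of_lt (hxc u) (hiso ▸ hv)
    exact lt_of_pow_lt_pow_left₀ 2 hδ.le (lt_of_mul_lt_mul_left h1 hc.le)
  have hzU : (A.chart i x, u) ∈ U := by
    refine hball ?_
    rw [← ball_prod_same]
    exact ⟨hxb, by simpa using hun⟩
  obtain ⟨h0, -, hs⟩ := hφ _ hzU
  obtain ⟨hgeo, hjet⟩ := geoOn_symm (A := A) i (z := φ (A.chart i x, u)) (S := Ioo (-ε) ε)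
    isOpen_Ioo fun s hs' => ⟨(hs s hs').1.1, (hs s hs').2.1⟩
  have h00 : (0 : ℝ) ∈ Ioo (-ε) ε := ⟨by linarith, hε⟩
  have hγ0 : (A.chart i).symm (φ (A.chart i x, u) 0).1 = x := by
    rw [h0]; exact (A.chart i).left_inv hxi
  refine ⟨_, hgeo, hγ0, ?_⟩
  have hvel := hgeo.vel_compat isOpen_Ioo h00 (i := i) (j := j) (by rw [hγ0]; exact hxi)
    (by rw [hγ0]; exact hj)
  have hd : deriv (A.crd i fun s => (A.chart i).symm (φ (A.chart i x, u) s).1) 0 = u := by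
    have := congrArg Prod.snd (hjet 0 h00)
    rw [h0] at this
    exact this
  rw [hvel, hd, hγ0, hu, A.fderiv_tr_comp hj hxi hj, A.fderiv_tr_self hj]

theorem sol_small [CompactSpace M] (A : RAtlas n M) : ∃ ε > 0, ∃ ρ > 0, ∀ x ∈ (univ : Set M), ∀ j,
    x ∈ (A.chart j).source → ∀ v, bil (A.G j (A.chart j x)) v v < ρ → A.Sol x j v ε := by
  refine isCompact_univ.induction_on (p := fun K => ∃ ε > 0, ∃ ρ > 0, ∀ x ∈ K, ∀ j,
    x ∈ (A.chart j).source → ∀ v, bil (A.G j (A.chart j x)) v v < ρ → A.Sol x j v ε) ?_ ?_ ?_ ?_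
  · exact ⟨1, one_pos, 1, one_pos, fun x hx => absurd hx (notMem_empty x)⟩
  · rintro s t hst ⟨ε, hε, ρ, hρ, h⟩
    exact ⟨ε, hε, ρ, hρ, fun x hx => h x (hst hx)⟩
  · rintro s t ⟨ε, hε, ρ, hρ, h⟩ ⟨ε', hε', ρ', hρ', h'⟩
    refine ⟨min ε ε', lt_min hε hε', min ρ ρ', lt_min hρ hρ', fun x hx j hj v hv => ?_⟩
    rcases hx with hx | hx
    · exact (h x hx j hj v (hv.trans_le (min_le_left _ _))).mono (min_le_left _ _)
    · exact (h' x hx j hj v (hv.trans_le (min_le_right _ _))).mono (min_le_right _ _)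
  · intro x _
    obtain ⟨W, hW, h⟩ := A.sol_local x
    exact ⟨W, mem_nhdsWithin_of_mem_nhds hW, h⟩

theorem sol_bounded [CompactSpace M] (A : RAtlas n M) {B : ℝ} (hB : 0 ≤ B) : ∃ ε > 0, ∀ x j,
    x ∈ (A.chart j).source → ∀ v, bil (A.G j (A.chart j x)) v v ≤ B → A.Sol x j v ε := by
  obtain ⟨ε, hε, ρ, hρ, h⟩ := A.sol_small
  obtain ⟨l, hl⟩ : ∃ l, l = ρ / (ρ + B + 1) := ⟨_, rfl⟩
  have hl0 : 0 < l := by rw [hl]; positivity
  have hl1 : l ≤ 1 := by rw [hl, div_le_one (by positivity)]; linarith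
  have hlB : l * B < ρ := by
    rw [hl, div_mul_eq_mul_div, div_lt_iff₀ (by positivity)]
    nlinarith
  refine ⟨l * ε, by positivity, fun x j hj v hv => ?_⟩
  obtain ⟨γ, hγ, h0, hd⟩ := h x (mem_univ x) j hj (l • v) (by
    rw [bil_smul_left, bil_smul_right]
    have h1 : l * bil (A.G j (A.chart j x)) v v ≤ l * B := mul_le_mul_of_nonneg_left hv hl0.le
    have h2 : l * (l * B) ≤ 1 * (l * B) := mul_le_mul_of_nonneg_right hl1 (by positivity)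
    have h3 := mul_le_mul_of_nonneg_left h1 hl0.le
    linarith)
  have h00 : l⁻¹ * 0 + 0 = (0 : ℝ) := by ring
  refine ⟨fun s => γ (l⁻¹ * s + 0), (hγ.comp_affine isOpen_Ioo l⁻¹ 0).mono ?_, ?_, ?_⟩
  · intro s hs
    refine ⟨?_, ?_⟩
    · rw [add_zero, lt_inv_mul_iff₀ hl0]; linarith [hs.1]
    · rw [add_zero, inv_mul_lt_iff₀ hl0]; exact hs.2
  · simp only [h00, h0]
  · rw [hγ.deriv_comp_affine l⁻¹ 0 0 (by rw [h00]; exact ⟨by linarith, hε⟩)
      (by rw [h00, h0]; exact hj), h00, hd, smul_smul, inv_mul_cancel₀ hl0.ne', one_smul]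

/-- completeness of compact manifolds. -/
theorem exists_geo [CompactSpace M] [T2Space M] (A : RAtlas n M) {i : A.ι} {x : M}
    (hx : x ∈ (A.chart i).source) (v : E n) :
    ∃ γ, A.Geo γ ∧ γ 0 = x ∧ deriv (A.crd i γ) 0 = v := by
  obtain ⟨ε, hε, hsol⟩ := A.sol_bounded (bil_self_nonneg (A.posDef hx) v)
  let P : Set ℝ → (ℝ → M) → Prop := fun S γ => IsOpen S ∧ IsPreconnected S ∧ (0 : ℝ) ∈ S ∧
    A.GeoOn γ S ∧ γ 0 = x ∧ deriv (A.crd i γ) 0 = v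
  let T : Set ℝ := {t | ∃ S γ, P S γ ∧ t ∈ S}
  have hinter : ∀ {S S' : Set ℝ}, IsPreconnected S → IsPreconnected S' →
      IsPreconnected (S ∩ S') := fun h h' =>
    (h.ordConnected.inter h'.ordConnected).isPreconnected
  have hTo : IsOpen T := by
    rw [isOpen_iff_mem_nhds]
    rintro t ⟨S, γ, hP, ht⟩
    exact mem_of_superset (hP.1.mem_nhds ht) fun t' ht' => ⟨S, γ, hP, ht'⟩
  have hT0 : (0 : ℝ) ∈ T := by
    obtain ⟨γ, h1, h2, h3⟩ := hsol x i hx v le_rfl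
    have h00 : (0 : ℝ) ∈ Ioo (-ε) ε := ⟨by linarith, hε⟩
    exact ⟨_, γ, ⟨isOpen_Ioo, isPreconnected_Ioo, h00, h1, h2, h3⟩, h00⟩
  have hTc : IsClosed T := by
    refine isClosed_of_closure_subset fun t ht => ?_
    obtain ⟨s₁, ⟨S, γ, ⟨ho, hc, h0, hg, hγ0, hγv⟩, hs₁⟩, hd⟩ := Metric.mem_closure_iff.1 ht ε hε
    obtain ⟨j, hj⟩ := A.cover (γ s₁)
    have hsp := hg.speed ho hc hs₁ h0 hj (j := i) (by rw [hγ0]; exact hx)
    rw [hγ0, hγv] at hsp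
    obtain ⟨β, hβ, hβ0, hβv⟩ := hsol (γ s₁) j hj _ hsp.le
    have e0 : 1 * s₁ + -s₁ = (0 : ℝ) := by ring
    have hS' : {s : ℝ | 1 * s + -s₁ ∈ Ioo (-ε) ε} = Ioo (s₁ - ε) (s₁ + ε) := by
      ext s
      simp only [mem_ofPred_eq, mem_Ioo]
      constructor <;> rintro ⟨h1, h2⟩ <;> constructor <;> linarith
    have hβ' := hβ.comp_affine isOpen_Ioo 1 (-s₁)
    rw [hS'] at hβ'
    have hs₁' : s₁ ∈ Ioo (s₁ - ε) (s₁ + ε) := ⟨by linarith, by linarith⟩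
    have heq : EqOn γ (fun s => β (1 * s + -s₁)) (S ∩ Ioo (s₁ - ε) (s₁ + ε)) := by
      refine GeoOn.unique (hg.mono inter_subset_left) (hβ'.mono inter_subset_right)
        (ho.inter isOpen_Ioo) (hinter hc isPreconnected_Ioo) ⟨hs₁, hs₁'⟩ hj ?_ ?_
      · simp only [e0, hβ0]
      · rw [hβ.deriv_comp_affine 1 (-s₁) s₁ (by rw [e0]; exact ⟨by linarith, hε⟩)
          (by rw [e0, hβ0]; exact hj), e0, hβv, one_smul]
    obtain ⟨γ', hγ', he⟩ := hg.glue hβ' ho isOpen_Ioo heq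
    refine ⟨_, γ', ⟨ho.union isOpen_Ioo, hc.union s₁ hs₁ hs₁' isPreconnected_Ioo, Or.inl h0, hγ',
      by rw [he h0, hγ0], ?_⟩, Or.inr ?_⟩
    · rw [A.deriv_crd_congr i (he.eventuallyEq_of_mem (ho.mem_nhds h0)), hγv]
    · rw [Real.dist_eq, abs_lt] at hd
      exact ⟨by linarith [hd.1], by linarith [hd.2]⟩
  have hT : T = univ := IsClopen.eq_univ ⟨hTc, hTo⟩ ⟨0, hT0⟩
  have hall : ∀ t : ℝ, ∃ S γ, P S γ ∧ t ∈ S := fun t => (hT ▸ mem_univ t : t ∈ T)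
  choose S γ hP ht using hall
  have hloc : ∀ t, (fun s => γ s s) =ᶠ[𝓝 t] γ t := by
    intro t
    filter_upwards [(hP t).1.mem_nhds (ht t)] with s hs
    obtain ⟨ho, hc, h0, hg, hγ0, hγv⟩ := hP t
    obtain ⟨ho', hc', h0', hg', hγ0', hγv'⟩ := hP s
    exact GeoOn.unique (hg'.mono inter_subset_left) (hg.mono inter_subset_right) (ho'.inter ho)
      (hinter hc' hc) ⟨h0', h0⟩ (i := i) (by rw [hγ0']; exact hx) (by rw [hγ0, hγ0'])
      (by rw [hγv, hγv']) ⟨ht s, hs⟩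
  refine ⟨fun s => γ s s, A.geoOn_of_local fun t _ => ⟨γ t, S t, (hP t).1, ht t, (hP t).2.2.2.1,
    hloc t⟩, (hP 0).2.2.2.2.1, ?_⟩
  rw [A.deriv_crd_congr i (hloc 0)]
  exact (hP 0).2.2.2.2.2

end RAtlas

end Crest.Agent.R226.G
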