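import Crest.Agent.R244.Trans0
import Crest.Agent.R244.ODE
import Crest.Agent.R226.Defs

/-! Row 226: universe polymorphic copy of the Riemannian atlases of row 244. -/

set_option autoImplicit false

open Set Filter
open scoped ContDiff Topology

universe u

namespace Crest.Agent.R226.G

open Crest.GeometryTopology.CoordMetric Crest.GeometryTopology.ChartCurvature
open Crest.Agent.R244 (bil Gam Rv spray jet tmap cov)

noncomputable section

/-- charts with coordinate metrics and smooth isometric transition maps. -/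
structure RAtlas (n : ℕ) (M : Type u) [TopologicalSpace M] where
  ι : Type u
  chart : ι → OpenPartialHomeomorph M (E n)
  G : ι → MetricField n
  cover : ∀ x, ∃ i, x ∈ (chart i).source
  riem : ∀ i, IsRiemannianOn (G i) (chart i).target
  smooth : ∀ i j x, x ∈ (chart i).source → x ∈ (chart j).source →
    ContDiffAt ℝ ∞ (chart j ∘ (chart i).symm) (chart i x)
  isom : ∀ i j x, x ∈ (chart i).source → x ∈ (chart j).source → ∀ u v,
    bil (G i (chart i x)) u v =
      bil (G j (chart j x)) (fderiv ℝ (chart j ∘ (chart i).symm) (chart i x) u)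
        (fderiv ℝ (chart j ∘ (chart i).symm) (chart i x) v)

namespace RAtlas

variable {n : ℕ} {M : Type u} [TopologicalSpace M] (A : RAtlas n M)

/-- transition map. -/
def tr (i j : A.ι) : E n → E n := A.chart j ∘ (A.chart i).symm

/-- a curve read in the chart `i`. -/
def crd (i : A.ι) (γ : ℝ → M) : ℝ → E n := fun s => A.chart i (γ s)

/-- `γ` is a geodesic on the (open) set of times `S`. -/
def GeoOn (γ : ℝ → M) (S : Set ℝ) : Prop :=
  ContinuousOn γ S ∧ ∀ s ∈ S, ∀ i, γ s ∈ (A.chart i).source →
    HasDerivAt (jet (A.crd i γ)) (spray (A.G i) (jet (A.crd i γ) s)) s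

/-- `γ` is a geodesic defined for all times. -/
def Geo (γ : ℝ → M) : Prop := A.GeoOn γ univ

/-- `ξ i` are the coordinates of a Jacobi field along `γ`: they transform as a vector field and
solve the linearised geodesic equation in every chart. -/
structure Jac (γ : ℝ → M) (ξ : A.ι → ℝ → E n) : Prop where
  compat : ∀ i j s, γ s ∈ (A.chart i).source → γ s ∈ (A.chart j).source →
    ξ j s = fderiv ℝ (A.tr i j) (A.chart i (γ s)) (ξ i s)
  eqn : ∀ i s, γ s ∈ (A.chart i).source →
    HasDerivAt (jet (ξ i)) (fderiv ℝ (spray (A.G i)) (jet (A.crd i γ) s) (jet (ξ i) s)) s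

/-- the field `ξ` vanishes at time `s`. -/
def Van (γ : ℝ → M) (ξ : A.ι → ℝ → E n) (s : ℝ) : Prop :=
  ∀ i, γ s ∈ (A.chart i).source → ξ i s = 0

/-- no conjugate points. -/
def NCP : Prop :=
  ∀ γ ξ, A.Geo γ → A.Jac γ ξ → ∀ a b : ℝ, a ≠ b → A.Van γ ξ a → A.Van γ ξ b → ∀ s, A.Van γ ξ s

/-- non-positive sectional curvature (tested in one chart at each point). -/
def NPC : Prop :=
  ∀ x, ∃ i, x ∈ (A.chart i).source ∧ ∀ u v, secNumer (A.G i) (A.chart i x) u v ≤ 0

/-- all transition maps have positive Jacobian. -/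
def Oriented : Prop :=
  ∀ i j x, x ∈ (A.chart i).source → x ∈ (A.chart j).source →
    0 < LinearMap.det (fderiv ℝ (A.tr i j) (A.chart i x) : E n →ₗ[ℝ] E n)

/-- derivative of `p : E n → M` read in the chart `j`. -/
def dp (p : E n → M) (j : A.ι) (v : E n) : E n →L[ℝ] E n :=
  fderiv ℝ (fun w => A.chart j (p w)) v

/-- `p` is the exponential map at `x`, tangent vectors being read in the chart `i`. -/
structure IsExp (i : A.ι) (x : M) (p : E n → M) : Prop where
  mem : x ∈ (A.chart i).source
  zero : p 0 = x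
  geo : ∀ v, A.Geo (fun s : ℝ => p (s • v))
  vel : ∀ v, deriv (A.crd i (fun s : ℝ => p (s • v))) 0 = v
  cont : Continuous p
  strict : ∀ j v, p v ∈ (A.chart j).source →
    HasStrictFDerivAt (fun w => A.chart j (p w)) (A.dp p j v) v
  jac : ∀ v w, A.Jac (fun s : ℝ => p (s • v)) (fun j s => A.dp p j (s • v) (s • w))
  jac0 : ∀ v w, deriv (fun s : ℝ => A.dp p i (s • v) (s • w)) 0 = w

end RAtlas

end

end Crest.Agent.R226.G
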