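import Crest.Agent.R226.GIft
import Crest.Agent.R244.Bridge1b

/-! Row 226: smooth local orthonormal frames.

* `exists_sqrt`: `ift_smooth` for `X ↦ X * X` at `1` (derivative `2 • id`); for self-adjoint `B` near `1`
  both `g B` and its adjoint lie in `S` and have square `B`, so they are equal; `R B = Ring.inverse (g B)`
  (`contDiffAt_ringInverse`, `g B` is a unit near `1`).
* `exists_frame0`: an orthonormal basis for the inner product `bil g` (e.g. `g = Bᴴ * B` with `B` invertible,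
  or the spectral theorem, or `InnerProductSpace.Core`).
* `exists_frame`: `L y = L₀ ∘ R (B y)` with `⟪B y u, v⟫ = bil (g y) (L₀ u) (L₀ v)`
  (`bridge1b_B`, `bridge1b_contDiffAt`, `InnerProductSpace.toDual`). -/

set_option autoImplicit false

open Set Filter Metric
open scoped ContDiff Topology InnerProductSpace

universe u

namespace Crest.Agent.R226.G

open Crest.Agent.R244 hiding E RAtlas
open Crest.GeometryTopology.CoordMetric Crest.GeometryTopology.ChartCurvature

/-- smooth inverse square root near the identity. -/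
theorem exists_sqrt (n : ℕ) :
    ∃ (V : Set (E n →L[ℝ] E n)) (R : (E n →L[ℝ] E n) → (E n →L[ℝ] E n)), IsOpen V ∧
      ContinuousLinearMap.id ℝ (E n) ∈ V ∧ ContDiffOn ℝ ∞ R V ∧
      ∀ B ∈ V, (∀ u v, ⟪B u, v⟫_ℝ = ⟪u, B v⟫_ℝ) → ∀ u v, ⟪B (R B u), R B v⟫_ℝ = ⟪u, v⟫_ℝ := by
  let f' : (E n →L[ℝ] E n) ≃L[ℝ] (E n →L[ℝ] E n) :=
    ContinuousLinearEquiv.equivOfInverse ((2 : ℝ) • ContinuousLinearMap.id ℝ _)
      ((1 / 2 : ℝ) • ContinuousLinearMap.id ℝ _)
      (fun x => by simp [smul_smul]) (fun x => by simp [smul_smul])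
  have hd : HasFDerivAt (fun X : E n →L[ℝ] E n => X * X)
      (f' : (E n →L[ℝ] E n) →L[ℝ] (E n →L[ℝ] E n)) 1 := by
    have h := (hasFDerivAt_id (𝕜 := ℝ) (1 : E n →L[ℝ] E n)).mul' (hasFDerivAt_id (1 : E n →L[ℝ] E n))
    refine h.congr_fderiv ?_
    ext1 X
    simp [f']
    exact (two_smul ℝ X).symm
  obtain ⟨S, T, g, hS, hT, h1, hSO, hg, hl, hr⟩ :=
    ift_smooth (f := fun X : E n →L[ℝ] E n => X * X) (O := {X | IsUnit X}) Units.isOpen
      (contDiff_id.mul contDiff_id).contDiffOn (z₀ := 1) isUnit_one f' hd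
  have h1T : (1 : E n →L[ℝ] E n) ∈ T := by simpa using (hl 1 h1).1
  have hg1 : g 1 = 1 := by simpa using (hl 1 h1).2
  refine ⟨T ∩ (fun B => star (g B)) ⁻¹' S, fun B => Ring.inverse (g B), ?_, ⟨h1T, ?_⟩, ?_, ?_⟩
  · have hc : Continuous (fun X : E n →L[ℝ] E n => star X) :=
      (ContinuousLinearMap.adjoint (𝕜 := ℝ) (E := E n) (F := E n)).continuous
    exact (hc.comp_continuousOn hg.continuousOn).isOpen_inter_preimage hT hS
  · show star (g 1) ∈ S
    rw [hg1, star_one]; exact h1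
  · intro B hB
    have hu : IsUnit (g B) := hSO (hr B hB.1).1
    obtain ⟨w, hw⟩ := hu
    have h2 : ContDiffAt ℝ ∞ Ring.inverse (g B) := hw ▸ contDiffAt_ringInverse ℝ w
    exact (h2.comp B (hg.contDiffAt (hT.mem_nhds hB.1))).contDiffWithinAt
  · intro B hB hsym u v
    have hu : IsUnit (g B) := hSO (hr B hB.1).1
    have hsq : g B * g B = B := (hr B hB.1).2
    have hBs : star B = B := by
      rw [ContinuousLinearMap.star_eq_adjoint]
      exact ((ContinuousLinearMap.eq_adjoint_iff B B).2 hsym).symm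
    have hsq' : star (g B) * star (g B) = B := by rw [← star_mul, hsq, hBs]
    have hs : star (g B) = g B := by
      have := (hl _ hB.2).2
      simp only [hsq'] at this
      exact this.symm
    have hinv : ∀ z, g B (Ring.inverse (g B) z) = z := fun z => by
      have := congrArg (fun X : E n →L[ℝ] E n => X z) (Ring.mul_inverse_cancel _ hu)
      simpa using this
    have hB' : ∀ z, B z = g B (g B z) := fun z => by
      have := congrArg (fun X : E n →L[ℝ] E n => X z) hsq
      simpa using this.symm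
    have hadj : ∀ a b, ⟪g B a, b⟫_ℝ = ⟪a, g B b⟫_ℝ := fun a b => by
      rw [ContinuousLinearMap.star_eq_adjoint] at hs
      conv_lhs => rw [← hs]
      exact ContinuousLinearMap.adjoint_inner_left _ _ _
    rw [hB', hadj, hinv, hinv]

theorem exists_frame0 {n : ℕ} {g : Matrix (Fin n) (Fin n) ℝ} (hg : g.PosDef) :
    ∃ L : E n →L[ℝ] E n, ∀ u v, bil g (L u) (L v) = ⟪u, v⟫_ℝ := by
  classical
  set e := hg.isHermitian.eigenvectorBasis with he
  set lam := hg.isHermitian.eigenvalues with hlam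
  have hpos : ∀ j, 0 < lam j := hg.eigenvalues_pos
  have hb : ∀ j k, bil g (e j) (e k) = if j = k then lam k else 0 := fun j k => by
    rw [bil_eq_dot_coord, he, hg.isHermitian.mulVec_eigenvectorBasis, dotProduct_smul, ← he]
    have h1 : (e j).ofLp ⬝ᵥ (e k).ofLp = ⟪e j, e k⟫_ℝ := by
      simp [PiLp.inner_apply, dotProduct, mul_comm]
    rw [h1, orthonormal_iff_ite.1 e.orthonormal]
    split_ifs <;> simp [hlam]
  refine ⟨∑ j, (EuclideanSpace.proj j : E n →L[ℝ] ℝ).smulRight ((Real.sqrt (lam j))⁻¹ • e j),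
    fun u v => ?_⟩
  rw [← bridge1b_B_apply]
  simp only [ContinuousLinearMap.sum_apply, ContinuousLinearMap.smulRight_apply, map_sum, map_smul,
    ContinuousLinearMap.smul_apply, bridge1b_B_apply, hb, smul_eq_mul, PiLp.inner_apply]
  refine Finset.sum_congr rfl fun k _ => ?_
  rw [Finset.sum_eq_single k (fun j _ hj => by simp [hj]) (by simp)]
  have h2 : Real.sqrt (lam k) * Real.sqrt (lam k) = lam k := Real.mul_self_sqrt (hpos k).le
  have h3 : Real.sqrt (lam k) ≠ 0 := (Real.sqrt_pos.2 (hpos k)).ne'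
  simp only [if_true, PiLp.proj_apply, EuclideanSpace.proj, RCLike.inner_apply, conj_trivial]
  field_simp
  rw [sq, h2]; ring

/-- smooth local orthonormal frames. -/
theorem exists_frame {n : ℕ} {g : MetricField n} {U : Set (E n)} (hg : IsRiemannianOn g U)
    {y₀ : E n} (hy₀ : y₀ ∈ U) :
    ∃ W : Set (E n), IsOpen W ∧ y₀ ∈ W ∧ W ⊆ U ∧ ∃ L : E n → E n →L[ℝ] E n,
      ContDiffOn ℝ ∞ L W ∧ ∀ y ∈ W, ∀ u v, bil (g y) (L y u) (L y v) = ⟪u, v⟫_ℝ := by
  obtain ⟨L₀, hL₀⟩ := exists_frame0 (hg.posDef y₀ hy₀)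
  obtain ⟨V, R, hV, h1, hR, hRV⟩ := exists_sqrt n
  let A : Fin n → Fin n → (E n →L[ℝ] E n) := fun i j =>
    ((EuclideanSpace.proj i : E n →L[ℝ] ℝ).comp L₀).smulRight
      (ContinuousLinearMap.adjoint L₀ (EuclideanSpace.single j 1))
  let B : E n → E n →L[ℝ] E n := fun y => ∑ i, ∑ j, g y i j • A i j
  have hB : ∀ y u v, ⟪B y u, v⟫_ℝ = bil (g y) (L₀ u) (L₀ v) := fun y u v => by
    simp only [B, A, ContinuousLinearMap.sum_apply, ContinuousLinearMap.smul_apply, sum_inner,
      real_inner_smul_left, ContinuousLinearMap.smulRight_apply,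
      ContinuousLinearMap.adjoint_inner_left, bil, EuclideanSpace.inner_single_left]
    simp [mul_assoc]
  have hBs : ContDiffOn ℝ ∞ B U :=
    ContDiffOn.sum fun i _ => ContDiffOn.sum fun j _ => (hg.contDiffOn i j).smul contDiffOn_const
  have hB0 : B y₀ = ContinuousLinearMap.id ℝ (E n) := by
    ext1 u
    exact ext_inner_right ℝ fun v => by rw [hB, hL₀]; rfl
  refine ⟨U ∩ B ⁻¹' V, hBs.continuousOn.isOpen_inter_preimage hg.isOpen hV,
    ⟨hy₀, by simpa [hB0] using h1⟩, inter_subset_left, fun y => L₀.comp (R (B y)), ?_, ?_⟩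
  · exact contDiffOn_const.clm_comp (hR.comp (hBs.mono inter_subset_left) fun y hy => hy.2)
  · intro y hy u v
    simp only [ContinuousLinearMap.comp_apply]
    rw [← hB]
    refine hRV _ hy.2 (fun a b => ?_) u v
    rw [hB, real_inner_comm, hB, bil_comm (hg.posDef y hy.1)]

/-- finitely many smooth orthonormal frames covering the manifold. -/
structure Frames {n : ℕ} {M : Type u} [TopologicalSpace M] (A : RAtlas n M) where
  N : ℕ
  ch : Fin N → A.ι
  W : Fin N → Set (E n)
  K : Fin N → Set (E n)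
  L : Fin N → E n → E n →L[ℝ] E n
  W_open : ∀ k, IsOpen (W k)
  W_sub : ∀ k, W k ⊆ (A.chart (ch k)).target
  K_compact : ∀ k, IsCompact (K k)
  K_sub : ∀ k, K k ⊆ W k
  cover : ∀ x, ∃ k, ∃ y ∈ K k, (A.chart (ch k)).symm y = x
  L_smooth : ∀ k, ContDiffOn ℝ ∞ (L k) (W k)
  L_iso : ∀ k, ∀ y ∈ W k, ∀ u v, bil (A.G (ch k) y) (L k y u) (L k y v) = ⟪u, v⟫_ℝ

/-- `exists_frame` at every point, a closed ball `K` inside `W`, and a finite subcover by the open sets
`source ∩ chart ⁻¹' ball`. -/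
theorem exists_frames {n : ℕ} {M : Type u} [TopologicalSpace M] [CompactSpace M]
    (A : RAtlas n M) : Nonempty (Frames A) := by
  classical
  choose i hi using A.cover
  have h1 : ∀ x : M, ∃ W : Set (E n), IsOpen W ∧ A.chart (i x) x ∈ W ∧ W ⊆ (A.chart (i x)).target ∧
      ∃ L : E n → E n →L[ℝ] E n, ContDiffOn ℝ ∞ L W ∧
        ∀ y ∈ W, ∀ u v, bil (A.G (i x) y) (L y u) (L y v) = ⟪u, v⟫_ℝ := fun x =>
    exists_frame (A.riem (i x)) ((A.chart (i x)).map_source (hi x))
  choose W hWo hWm hWs L hL hLi using h1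
  have h2 : ∀ x : M, ∃ r > 0, closedBall (A.chart (i x) x) r ⊆ W x := fun x =>
    nhds_basis_closedBall.mem_iff.1 ((hWo x).mem_nhds (hWm x))
  choose r hr hrW using h2
  obtain ⟨t, ht⟩ := isCompact_univ.elim_finite_subcover
    (fun x : M => (A.chart (i x)).source ∩ A.chart (i x) ⁻¹' ball (A.chart (i x) x) (r x))
    (fun x => (A.chart (i x)).continuousOn.isOpen_inter_preimage (A.chart (i x)).open_source
      isOpen_ball)
    (fun x _ => mem_iUnion.2 ⟨x, hi x, mem_ball_self (hr x)⟩)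
  let e : Fin t.card → M := fun k => (t.equivFin.symm k : M)
  refine ⟨⟨t.card, fun k => i (e k), fun k => W (e k),
    fun k => closedBall (A.chart (i (e k)) (e k)) (r (e k)), fun k => L (e k), fun k => hWo _,
    fun k => hWs _, fun k => isCompact_closedBall _ _, fun k => hrW _, fun x => ?_,
    fun k => hL _, fun k => hLi _⟩⟩
  obtain ⟨z, hz, hx⟩ := mem_iUnion₂.1 (ht (mem_univ x))
  have hez : e (t.equivFin ⟨z, hz⟩) = z := by simp [e]
  refine ⟨t.equivFin ⟨z, hz⟩, A.chart (i z) x, ?_, ?_⟩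
  · rw [hez]; exact ball_subset_closedBall hx.2
  · rw [hez]; exact (A.chart (i z)).left_inv hx.1

end Crest.Agent.R226.G
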