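import Crest.Agent.R226.GGeo
import Crest.Agent.R226.GFrame

/-! Row 226: the exponential map in an orthonormal frame.

`Φ.e k (y, p)` is the value at time `1` of the geodesic with initial data `(y, L k y p)` in the chart
`ch k`. `e_iso` and `e_flow`: `geo_eq`, `GeoOn.vel_compat`, `A.isom`, `GeoOn.speed`,
`GeoOn.comp_affine`. -/

set_option autoImplicit false

open Set Filter Metric
open scoped ContDiff Topology InnerProductSpace

universe u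

namespace Crest.Agent.R226.G

open Crest.Agent.R244 hiding E RAtlas
open Crest.GeometryTopology.CoordMetric Crest.GeometryTopology.ChartCurvature

/-- the link between the atlas and the distance. -/
structure Met {n : ℕ} {M : Type u} [MetricSpace M] (A : RAtlas n M) : Prop where
  geo : ∀ γ, A.Geo γ → ∀ (j : A.ι) (s t c : ℝ), γ s ∈ (A.chart j).source → 0 ≤ c →
    bil (A.G j (A.chart j (γ s))) (deriv (A.crd j γ) s) (deriv (A.crd j γ) s) = c ^ 2 →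
    dist (γ s) (γ t) ≤ c * |s - t|
  lip : ∀ f : M → ℝ, (∀ x, ∃ j, x ∈ (A.chart j).source ∧
      ContDiffAt ℝ 1 (f ∘ (A.chart j).symm) (A.chart j x) ∧
      ∀ v, fderiv ℝ (f ∘ (A.chart j).symm) (A.chart j x) v ^ 2 ≤ bil (A.G j (A.chart j x)) v v) →
    ∀ x y, f y - f x ≤ dist x y
  inter : ∀ x y : M, ∀ t ∈ Icc (0 : ℝ) 1,
    ∃ z, dist x z = t * dist x y ∧ dist z y = (1 - t) * dist x y

namespace Frames

section Top

variable {n : ℕ} {M : Type u} [TopologicalSpace M] {A : RAtlas n M} (Φ : Frames A)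

/-- the chart of the frame `k`. -/
abbrev c (k : Fin Φ.N) : OpenPartialHomeomorph M (E n) := A.chart (Φ.ch k)

theorem L_surj {k : Fin Φ.N} {y : E n} (hy : y ∈ Φ.W k) : Function.Surjective (Φ.L k y) := by
  have hinj : Function.Injective (Φ.L k y : E n →ₗ[ℝ] E n) := by
    rw [injective_iff_map_eq_zero]
    intro u hu
    have h1 := Φ.L_iso k y hy u u
    have hu' : Φ.L k y u = 0 := hu
    rw [hu', bil_zero_left] at h1
    exact inner_self_eq_zero.1 h1.symm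
  exact LinearMap.injective_iff_surjective.1 hinj

theorem exists_equiv {k : Fin Φ.N} {y : E n} (hy : y ∈ Φ.W k) :
    ∃ L : E n ≃L[ℝ] E n, (L : E n →L[ℝ] E n) = Φ.L k y := by
  have hs : Function.Surjective (Φ.L k y : E n →ₗ[ℝ] E n) := Φ.L_surj hy
  have hi : Function.Injective (Φ.L k y : E n →ₗ[ℝ] E n) := LinearMap.injective_iff_surjective.2 hs
  refine ⟨(LinearEquiv.ofBijective (Φ.L k y : E n →ₗ[ℝ] E n) ⟨hi, hs⟩).toContinuousLinearEquiv, ?_⟩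
  ext1 u
  rfl

theorem GE_smooth {k : Fin Φ.N} {w : E n × E n} (hw : w.1 ∈ Φ.W k) :
    ContDiffAt ℝ ∞ (fun w' : E n × E n => (w'.1, Φ.L k w'.1 w'.2)) w := by
  have h1 : ContDiffAt ℝ ∞ (Φ.L k) w.1 :=
    (Φ.L_smooth k).contDiffAt ((Φ.W_open k).mem_nhds hw)
  have h2 : ContDiffAt ℝ ∞ (fun w' : E n × E n => Φ.L k w'.1) w :=
    ContDiffAt.comp (f := fun w' : E n × E n => w'.1) w h1 contDiffAt_fst
  exact contDiffAt_fst.prodMk (h2.clm_apply contDiffAt_snd)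

variable [CompactSpace M] [T2Space M]

/-- the exponential map in the frame `k`. -/
noncomputable def e (k : Fin Φ.N) (w : E n × E n) : M :=
  A.geo (Φ.ch k) (w.1, Φ.L k w.1 w.2) 1

theorem e_smul {k : Fin Φ.N} {y : E n} (hy : y ∈ Φ.W k) (p : E n) (t : ℝ) :
    Φ.e k (y, t • p) = A.geo (Φ.ch k) (y, Φ.L k y p) t := by
  have h := RAtlas.geo_smul (A := A) (Φ.W_sub k hy) (Φ.L k y p) t 1
  rw [mul_one] at h
  rw [← h]
  simp only [e, map_smul]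

theorem e_zero {k : Fin Φ.N} {y : E n} (hy : y ∈ Φ.W k) : Φ.e k (y, 0) = (Φ.c k).symm y := by
  have h := Φ.e_smul hy 0 0
  rw [zero_smul] at h
  rw [h, A.geo_zero]

theorem e_geo {k : Fin Φ.N} {y : E n} (hy : y ∈ Φ.W k) (p : E n) :
    A.Geo (fun t : ℝ => Φ.e k (y, t • p)) := by
  have h : (fun t : ℝ => Φ.e k (y, t • p)) = A.geo (Φ.ch k) (y, Φ.L k y p) :=
    funext fun t => Φ.e_smul hy p t
  rw [h]
  exact A.geo_geo _ _

theorem e_vel {k : Fin Φ.N} {y : E n} (hy : y ∈ Φ.W k) (p : E n) :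
    deriv (A.crd (Φ.ch k) (fun t : ℝ => Φ.e k (y, t • p))) 0 = Φ.L k y p := by
  have h : (fun t : ℝ => Φ.e k (y, t • p)) = A.geo (Φ.ch k) (y, Φ.L k y p) :=
    funext fun t => Φ.e_smul hy p t
  rw [h]
  exact RAtlas.geo_vel (A := A) (z := (y, Φ.L k y p)) (Φ.W_sub k hy)

theorem e_cont {k : Fin Φ.N} {w : E n × E n} (hw : w.1 ∈ Φ.W k) : ContinuousAt (Φ.e k) w := by
  have h1 := (Φ.GE_smooth hw).continuousAt
  have h2 := RAtlas.geo_cont (A := A) (z := (w.1, Φ.L k w.1 w.2)) (Φ.W_sub k hw) 1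
  exact ContinuousAt.comp (f := fun w' : E n × E n => (w'.1, Φ.L k w'.1 w'.2)) h2 h1

theorem e_smooth {k : Fin Φ.N} {w : E n × E n} (hw : w.1 ∈ Φ.W k) {j : A.ι}
    (hj : Φ.e k w ∈ (A.chart j).source) : ContDiffAt ℝ ∞ (fun w' => A.chart j (Φ.e k w')) w := by
  have h1 := Φ.GE_smooth hw
  have h2 := RAtlas.geo_smooth (A := A) (z := (w.1, Φ.L k w.1 w.2)) (Φ.W_sub k hw) 1 hj
  exact ContDiffAt.comp (f := fun w' : E n × E n => (w'.1, Φ.L k w'.1 w'.2)) w h2 h1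

theorem e_iso {k l : Fin Φ.N} {y y' : E n} (hy : y ∈ Φ.W k) (hy' : y' ∈ Φ.W l)
    (h : (Φ.c k).symm y = (Φ.c l).symm y') :
    ∃ B : E n ≃ₗᵢ[ℝ] E n, ∀ p, Φ.e l (y', B p) = Φ.e k (y, p) := by
  have hk : (Φ.c k).symm y ∈ (A.chart (Φ.ch k)).source := (Φ.c k).map_target (Φ.W_sub k hy)
  have hl : (Φ.c k).symm y ∈ (A.chart (Φ.ch l)).source := by
    rw [h]; exact (Φ.c l).map_target (Φ.W_sub l hy')
  have hky : A.chart (Φ.ch k) ((Φ.c k).symm y) = y := (Φ.c k).right_inv (Φ.W_sub k hy)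
  have hly : A.chart (Φ.ch l) ((Φ.c k).symm y) = y' := by
    rw [h]; exact (Φ.c l).right_inv (Φ.W_sub l hy')
  obtain ⟨Ll, hLl⟩ := Φ.exists_equiv hy'
  have hLl' : ∀ u, Φ.L l y' (Ll.symm u) = u := fun u => by
    rw [← hLl]; exact Ll.apply_symm_apply u
  set D : E n →L[ℝ] E n := fderiv ℝ (A.tr (Φ.ch k) (Φ.ch l)) y with hD
  set B₀ : E n →L[ℝ] E n := (Ll.symm : E n →L[ℝ] E n).comp (D.comp (Φ.L k y)) with hB₀
  have hB : ∀ p, Φ.L l y' (B₀ p) = D (Φ.L k y p) := fun p => hLl' _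
  have hin : ∀ u v, ⟪(B₀ : E n →ₗ[ℝ] E n) u, (B₀ : E n →ₗ[ℝ] E n) v⟫_ℝ = ⟪u, v⟫_ℝ := by
    intro u v
    have h1 := A.isom (Φ.ch k) (Φ.ch l) _ hk hl (Φ.L k y u) (Φ.L k y v)
    rw [hky, hly, Φ.L_iso k y hy] at h1
    have h2 := Φ.L_iso l y' hy' (B₀ u) (B₀ v)
    rw [hB, hB] at h2
    exact h2.symm.trans h1.symm
  refine ⟨((B₀ : E n →ₗ[ℝ] E n).isometryOfInner hin).toLinearIsometryEquiv rfl, fun p => ?_⟩
  have hγ := A.geo_geo (Φ.ch k) (y, Φ.L k y p)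
  have h0 : A.geo (Φ.ch k) (y, Φ.L k y p) 0 = (Φ.c k).symm y := A.geo_zero _ _
  have hk0 : A.geo (Φ.ch k) (y, Φ.L k y p) 0 ∈ (A.chart (Φ.ch k)).source := h0 ▸ hk
  have hl0 : A.geo (Φ.ch k) (y, Φ.L k y p) 0 ∈ (A.chart (Φ.ch l)).source := h0 ▸ hl
  have h3 := RAtlas.geo_eq hγ hl0
  have h4 := RAtlas.GeoOn.vel_compat hγ isOpen_univ (mem_univ 0) hk0 hl0
  rw [RAtlas.geo_vel (A := A) (z := (y, Φ.L k y p)) (Φ.W_sub k hy), h0, hky] at h4
  rw [h4, h0, hly] at h3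
  have h5 : Φ.e l (y', B₀ p) = A.geo (Φ.ch l) (y', D (Φ.L k y p)) 1 := by
    simp only [e, hB]
  change Φ.e l (y', B₀ p) = A.geo (Φ.ch k) (y, Φ.L k y p) 1
  rw [h5, h3]

theorem e_flow {k l : Fin Φ.N} {y y' : E n} (hy : y ∈ Φ.W k) (hy' : y' ∈ Φ.W l) (p : E n) (s : ℝ)
    (h : (Φ.c l).symm y' = Φ.e k (y, s • p)) :
    ∃ q : E n, ‖q‖ = ‖p‖ ∧ ∀ t : ℝ, Φ.e l (y', t • q) = Φ.e k (y, (s + t) • p) := by
  have hγ := A.geo_geo (Φ.ch k) (y, Φ.L k y p)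
  set γ := A.geo (Φ.ch k) (y, Φ.L k y p) with hγdef
  have hs : γ s = (Φ.c l).symm y' := by rw [h, Φ.e_smul hy]
  have hls : γ s ∈ (A.chart (Φ.ch l)).source := by
    rw [hs]; exact (Φ.c l).map_target (Φ.W_sub l hy')
  have hly : A.chart (Φ.ch l) (γ s) = y' := by
    rw [hs]; exact (Φ.c l).right_inv (Φ.W_sub l hy')
  obtain ⟨q, hq⟩ := Φ.L_surj hy' (deriv (A.crd (Φ.ch l) γ) s)
  have hσ : A.Geo (fun t => γ (1 * t + s)) := by
    have := RAtlas.GeoOn.comp_affine hγ isOpen_univ 1 s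
    exact this.mono fun _ _ => mem_univ _
  have h10 : (1 : ℝ) * 0 + s = s := by ring
  have hl0 : (fun t => γ (1 * t + s)) 0 ∈ (A.chart (Φ.ch l)).source := by
    show γ (1 * 0 + s) ∈ _
    rw [h10]; exact hls
  have h3 := RAtlas.geo_eq hσ hl0
  have h4 := RAtlas.GeoOn.deriv_comp_affine hγ 1 s 0 (mem_univ _) hl0
  rw [h10, one_smul, ← hq] at h4
  rw [h4] at h3
  simp only [h10, hly] at h3
  refine ⟨q, ?_, fun t => ?_⟩
  · have h0 : γ 0 = (Φ.c k).symm y := A.geo_zero _ _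
    have hk0 : γ 0 ∈ (A.chart (Φ.ch k)).source := by
      rw [h0]; exact (Φ.c k).map_target (Φ.W_sub k hy)
    have hky : A.chart (Φ.ch k) (γ 0) = y := by
      rw [h0]; exact (Φ.c k).right_inv (Φ.W_sub k hy)
    have h5 := RAtlas.GeoOn.speed hγ isOpen_univ isPreconnected_univ (mem_univ s) (mem_univ 0) hls hk0
    have hv : deriv (A.crd (Φ.ch k) γ) 0 = Φ.L k y p :=
      RAtlas.geo_vel (A := A) (z := (y, Φ.L k y p)) (Φ.W_sub k hy)
    rw [hly, hky, ← hq, hv, Φ.L_iso l y' hy', Φ.L_iso k y hy, real_inner_self_eq_norm_sq,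
      real_inner_self_eq_norm_sq] at h5
    exact (pow_left_inj₀ (norm_nonneg _) (norm_nonneg _) two_ne_zero).1 h5
  · rw [Φ.e_smul hy', Φ.e_smul hy, ← h3]
    show γ (1 * t + s) = γ (s + t)
    rw [one_mul, add_comm]

/-- Gauss lemma in an orthonormal frame. -/
theorem e_gauss {k : Fin Φ.N} {y : E n} (hy : y ∈ Φ.W k) (p w : E n) {j : A.ι}
    (hj : Φ.e k (y, p) ∈ (A.chart j).source) :
    bil (A.G j (A.chart j (Φ.e k (y, p)))) (fderiv ℝ (fun u => A.chart j (Φ.e k (y, u))) p p)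
      (fderiv ℝ (fun u => A.chart j (Φ.e k (y, u))) p w) = ⟪p, w⟫_ℝ := by
  have hj' : A.geo (Φ.ch k) (y, Φ.L k y p) 1 ∈ (A.chart j).source := hj
  have h1 := RAtlas.geo_gauss (A := A) (Φ.W_sub k hy) (Φ.L k y p) (Φ.L k y w) hj'
  rw [Φ.L_iso k y hy] at h1
  have h2 := RAtlas.geo_smooth (A := A) (z := (y, Φ.L k y p)) (Φ.W_sub k hy) 1 hj'
  have h3 : DifferentiableAt ℝ (fun u => A.chart j (A.geo (Φ.ch k) (y, u) 1)) (Φ.L k y p) :=
    (ContDiffAt.comp (f := fun u : E n => (y, u)) (Φ.L k y p) h2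
      (contDiffAt_const.prodMk contDiffAt_id)).differentiableAt (by simp)
  have h4 : HasFDerivAt (fun u => A.chart j (Φ.e k (y, u)))
      ((fderiv ℝ (fun u => A.chart j (A.geo (Φ.ch k) (y, u) 1)) (Φ.L k y p)).comp (Φ.L k y)) p :=
    h3.hasFDerivAt.comp p (Φ.L k y).hasFDerivAt
  rw [h4.fderiv]
  exact h1

/-- speed of the radial geodesics. -/
theorem e_speed {k : Fin Φ.N} {y : E n} (hy : y ∈ Φ.W k) (p : E n) (s : ℝ) {j : A.ι}
    (hj : Φ.e k (y, s • p) ∈ (A.chart j).source) :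
    bil (A.G j (A.chart j (Φ.e k (y, s • p))))
      (deriv (A.crd j (fun t : ℝ => Φ.e k (y, t • p))) s)
      (deriv (A.crd j (fun t : ℝ => Φ.e k (y, t • p))) s) = ‖p‖ ^ 2 := by
  have hγ := Φ.e_geo hy p
  have h0 : Φ.e k (y, (0 : ℝ) • p) = (Φ.c k).symm y := by rw [zero_smul, Φ.e_zero hy]
  have hk0 : (fun t : ℝ => Φ.e k (y, t • p)) 0 ∈ (A.chart (Φ.ch k)).source := by
    show Φ.e k (y, (0 : ℝ) • p) ∈ _
    rw [h0]; exact (Φ.c k).map_target (Φ.W_sub k hy)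
  have hky : A.chart (Φ.ch k) (Φ.e k (y, (0 : ℝ) • p)) = y := by
    rw [h0]; exact (Φ.c k).right_inv (Φ.W_sub k hy)
  have h5 := RAtlas.GeoOn.speed hγ isOpen_univ isPreconnected_univ (mem_univ s) (mem_univ 0) hj hk0
  rw [Φ.e_vel hy] at h5
  simp only [hky] at h5
  rw [Φ.L_iso k y hy, real_inner_self_eq_norm_sq] at h5
  exact h5

end Top

theorem e_dist_le {n : ℕ} {M : Type u} [MetricSpace M] [CompactSpace M] {A : RAtlas n M}
    (Φ : Frames A) (hm : Met A) {k : Fin Φ.N} {y : E n} (hy : y ∈ Φ.W k) (p : E n) :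
    dist ((Φ.c k).symm y) (Φ.e k (y, p)) ≤ ‖p‖ := by
  have h0 : Φ.e k (y, (0 : ℝ) • p) = (Φ.c k).symm y := by rw [zero_smul, Φ.e_zero hy]
  have hk0 : Φ.e k (y, (0 : ℝ) • p) ∈ (A.chart (Φ.ch k)).source := by
    rw [h0]; exact (Φ.c k).map_target (Φ.W_sub k hy)
  have h1 := hm.geo _ (Φ.e_geo hy p) (Φ.ch k) 0 1 ‖p‖ hk0 (norm_nonneg _) (Φ.e_speed hy p 0 hk0)
  simp only [h0, one_smul, zero_sub, abs_neg, abs_one, mul_one] at h1
  exact h1

end Frames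

end Crest.Agent.R226.G
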