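import Crest.Agent.R226.GTrans

/-! Row 226 (copy of row 244): existence and uniqueness of geodesics. -/

set_option autoImplicit false

open Set Filter
open scoped ContDiff Topology

universe u

namespace Crest.Agent.R226.G

open Crest.Agent.R244 hiding E RAtlas

open Crest.GeometryTopology.CoordMetric Crest.GeometryTopology.ChartCurvature
  Crest.GeometryTopology.Geodesic

/-- local uniqueness for an autonomous `C¹` equation. -/
theorem ode_unique_local {F : Type} [NormedAddCommGroup F] [NormedSpace ℝ F] {v : F → F}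
    {z₁ z₂ : ℝ → F} {s₀ : ℝ} (hv : ContDiffAt ℝ 1 v (z₁ s₀))
    (h₁ : ∀ᶠ s in 𝓝 s₀, HasDerivAt z₁ (v (z₁ s)) s)
    (h₂ : ∀ᶠ s in 𝓝 s₀, HasDerivAt z₂ (v (z₂ s)) s) (h0 : z₁ s₀ = z₂ s₀) : z₁ =ᶠ[𝓝 s₀] z₂ := by
  obtain ⟨K, t, ht, hK⟩ := hv.exists_lipschitzOnWith
  have c₁ : ∀ᶠ s in 𝓝 s₀, z₁ s ∈ t := h₁.self_of_nhds.continuousAt ht
  have c₂ : ∀ᶠ s in 𝓝 s₀, z₂ s ∈ t := h₂.self_of_nhds.continuousAt (h0 ▸ ht)
  exact ODE_solution_unique_of_eventually (v := fun _ => v) (s := fun _ => t) (K := K)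
    (Eventually.of_forall fun _ => hK) (h₁.and c₁) (h₂.and c₂) h0

theorem deriv_affine {F : Type} [NormedAddCommGroup F] [NormedSpace ℝ F] (c : ℝ → F)
    (a b s : ℝ) : deriv (fun s => c (a * s + b)) s = a • deriv c (a * s + b) := by
  rw [deriv_comp_mul_left a (fun u => c (u + b)) s, deriv_comp_add_const]

/-- propagation of a local property along a preconnected set. -/
theorem propagate {P : ℝ → Prop} {S : Set ℝ} (hc : IsPreconnected S) {s₀ : ℝ} (hs₀ : s₀ ∈ S)
    (h0 : ∀ᶠ s in 𝓝 s₀, P s)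
    (h : ∀ s ∈ S, (∃ᶠ s' in 𝓝 s, ∀ᶠ s'' in 𝓝 s', P s'') → ∀ᶠ s' in 𝓝 s, P s') :
    ∀ s ∈ S, P s := by
  have : S ⊆ {s | ∀ᶠ s' in 𝓝 s, P s'} :=
    hc.subset_of_closure_inter_subset isOpen_setOfPred_eventually_nhds ⟨s₀, hs₀, h0⟩
      fun s hs => h s hs.2 (mem_closure_iff_frequently.1 hs.1)
  exact fun s hs => (this hs).self_of_nhds

theorem jet_congr {n : ℕ} {c c' : ℝ → E n} {s : ℝ} (h : c =ᶠ[𝓝 s] c') : jet c s = jet c' s := by
  unfold jet
  rw [h.self_of_nhds, h.deriv_eq]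

namespace RAtlas

variable {n : ℕ} {M : Type u} [TopologicalSpace M] {A : RAtlas n M}

theorem GeoOn.mono {γ : ℝ → M} {S S' : Set ℝ} (h : A.GeoOn γ S) (hS : S' ⊆ S) : A.GeoOn γ S' :=
  ⟨h.1.mono hS, fun s hs => h.2 s (hS hs)⟩

/-- affine reparametrisation. -/
theorem GeoOn.comp_affine {γ : ℝ → M} {S : Set ℝ} (h : A.GeoOn γ S) (hS : IsOpen S) (a b : ℝ) :
    A.GeoOn (fun s => γ (a * s + b)) {s | a * s + b ∈ S} := by
  have hφ : ∀ s : ℝ, HasDerivAt (fun s => a * s + b) a s := fun s => by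
    simpa using ((hasDerivAt_id s).const_mul a).add_const b
  refine ⟨h.1.comp (by fun_prop : Continuous fun s : ℝ => a * s + b).continuousOn
    fun s hs => hs, fun s hs i hi => ?_⟩
  have h1 := h.2 _ hs i hi
  have hj : jet (A.crd i fun s => γ (a * s + b))
      = fun s => (A.crd i γ (a * s + b), a • deriv (A.crd i γ) (a * s + b)) := by
    funext s
    exact Prod.ext rfl (deriv_affine (A.crd i γ) a b s)
  rw [hj]
  have h2 := (jet_fst h1).1.scomp s (hφ s)
  have h3 := ((jet_snd h1).scomp s (hφ s)).const_smul a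
  refine (h2.prodMk h3).congr_deriv ?_
  simp only [spray, jet, Gam_smul_left, Gam_smul_right, smul_neg]

theorem GeoOn.deriv_comp_affine {γ : ℝ → M} {S : Set ℝ} (h : A.GeoOn γ S) (a b s : ℝ)
    (hs : a * s + b ∈ S) {i : A.ι} (hi : γ (a * s + b) ∈ (A.chart i).source) :
    deriv (A.crd i (fun s => γ (a * s + b))) s = a • deriv (A.crd i γ) (a * s + b) := by
  exact deriv_affine (A.crd i γ) a b s

/-- a solution of the spray equation in a chart is a geodesic. -/
theorem geoOn_symm (i : A.ι) {z : ℝ → E n × E n} {S : Set ℝ} (hS : IsOpen S)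
    (hz : ∀ s ∈ S, (z s).1 ∈ (A.chart i).target ∧ HasDerivAt z (spray (A.G i) (z s)) s) :
    A.GeoOn (fun s => (A.chart i).symm (z s).1) S ∧
      ∀ s ∈ S, jet (A.crd i (fun s => (A.chart i).symm (z s).1)) s = z s := by
  have hcrd : ∀ s ∈ S, A.crd i (fun s => (A.chart i).symm (z s).1) =ᶠ[𝓝 s] fun s => (z s).1 := by
    intro s hs
    filter_upwards [hS.mem_nhds hs] with s' hs'
    exact (A.chart i).right_inv (hz s' hs').1
  have hd : ∀ s ∈ S, HasDerivAt (fun s => (z s).1) (z s).2 s := fun s hs =>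
    (ContinuousLinearMap.fst ℝ (E n) (E n)).hasFDerivAt.comp_hasDerivAt s (hz s hs).2
  have hjet : ∀ s ∈ S, jet (A.crd i (fun s => (A.chart i).symm (z s).1)) s = z s := by
    intro s hs
    rw [jet_congr (hcrd s hs)]
    exact Prod.ext rfl (hd s hs).deriv
  refine ⟨A.geoOn_of_pointwise hS ?_ fun s hs => ⟨i, (A.chart i).map_target (hz s hs).1, ?_, ?_⟩,
    hjet⟩
  · exact (A.chart i).continuousOn_symm.comp
      (fun s hs => (hd s hs).continuousAt.continuousWithinAt) fun s hs => (hz s hs).1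
  · filter_upwards [hS.mem_nhds hs] with s' hs'
    exact (hcrd s' hs').differentiableAt_iff.2 (hd s' hs').differentiableAt
  · rw [hjet s hs]
    refine (hz s hs).2.congr_of_eventuallyEq ?_
    filter_upwards [hS.mem_nhds hs] with s' hs' using hjet s' hs'

/-- uniqueness of geodesics. -/
theorem GeoOn.unique [T2Space M] {γ₁ γ₂ : ℝ → M} {S : Set ℝ} (h₁ : A.GeoOn γ₁ S)
    (h₂ : A.GeoOn γ₂ S) (hS : IsOpen S) (hc : IsPreconnected S) {s₀ : ℝ} (hs₀ : s₀ ∈ S) {i : A.ι}
    (hi : γ₁ s₀ ∈ (A.chart i).source) (h0 : γ₁ s₀ = γ₂ s₀)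
    (hv : deriv (A.crd i γ₁) s₀ = deriv (A.crd i γ₂) s₀) : EqOn γ₁ γ₂ S := by
  have key : ∀ s ∈ S, ∀ j : A.ι, γ₁ s ∈ (A.chart j).source → γ₁ s = γ₂ s →
      jet (A.crd j γ₁) s = jet (A.crd j γ₂) s → ∀ᶠ s' in 𝓝 s, γ₁ s' = γ₂ s' := by
    intro s hs j hj he hjet
    have e₁ : ∀ᶠ s' in 𝓝 s, γ₁ s' ∈ (A.chart j).source :=
      (h₁.1.continuousAt (hS.mem_nhds hs)) ((A.chart j).open_source.mem_nhds hj)
    have e₂ : ∀ᶠ s' in 𝓝 s, γ₂ s' ∈ (A.chart j).source :=
      (h₂.1.continuousAt (hS.mem_nhds hs)) ((A.chart j).open_source.mem_nhds (he ▸ hj))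
    have hv : ContDiffAt ℝ 1 (spray (A.G j)) (jet (A.crd j γ₁) s) :=
      (contDiffAt_spray (A.riem j) ((A.chart j).map_source hj)).of_le (by exact_mod_cast le_top)
    have := ode_unique_local hv
      (by filter_upwards [hS.mem_nhds hs, e₁] with s' a b using h₁.2 s' a j b)
      (by filter_upwards [hS.mem_nhds hs, e₂] with s' a b using h₂.2 s' a j b) hjet
    filter_upwards [this, e₁, e₂] with s' a b c
    exact (A.chart j).injOn b c (congrArg Prod.fst a)
  refine propagate (P := fun s => γ₁ s = γ₂ s) hc hs₀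
    (key s₀ hs₀ i hi h0 (Prod.ext (congrArg (A.chart i) h0) hv)) fun s hs hf => ?_
  have he : γ₁ s = γ₂ s := tendsto_nhds_unique_of_frequently_eq
    (h₁.1.continuousAt (hS.mem_nhds hs)) (h₂.1.continuousAt (hS.mem_nhds hs))
    (hf.mono fun s' h => h.self_of_nhds)
  obtain ⟨j, hj⟩ := A.cover (γ₁ s)
  refine key s hs j hj he (tendsto_nhds_unique_of_frequently_eq (h₁.2 s hs j hj).continuousAt
    (h₂.2 s hs j (he ▸ hj)).continuousAt (hf.mono fun s' h => jet_congr ?_))
  filter_upwards [h] with s'' h'' using congrArg (A.chart j) h''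

/-- geodesics have constant speed. -/
theorem GeoOn.speed {γ : ℝ → M} {S : Set ℝ} (h : A.GeoOn γ S) (hS : IsOpen S)
    (hc : IsPreconnected S) {s s' : ℝ} (hs : s ∈ S) (hs' : s' ∈ S) {i j : A.ι}
    (hi : γ s ∈ (A.chart i).source) (hj : γ s' ∈ (A.chart j).source) :
    bil (A.G i (A.chart i (γ s))) (deriv (A.crd i γ) s) (deriv (A.crd i γ) s) =
      bil (A.G j (A.chart j (γ s'))) (deriv (A.crd j γ) s') (deriv (A.crd j γ) s') := by
  choose c hc' using A.cover
  set f : ℝ → ℝ := fun s => bil (A.G (c (γ s)) (A.chart (c (γ s)) (γ s)))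
    (deriv (A.crd (c (γ s)) γ) s) (deriv (A.crd (c (γ s)) γ) s) with hf
  have hind : ∀ s ∈ S, ∀ i, γ s ∈ (A.chart i).source →
      bil (A.G i (A.chart i (γ s))) (deriv (A.crd i γ) s) (deriv (A.crd i γ) s) = f s := by
    intro s hs i hi
    rw [A.isom i (c (γ s)) (γ s) hi (hc' _), hf]
    beta_reduce
    rw [h.vel_compat hS hs hi (hc' _)]
    rfl
  have hder : ∀ s ∈ S, HasDerivAt f 0 s := by
    intro s hs
    have hi := hc' (γ s)
    set i := c (γ s)
    have h1 := h.2 s hs i hi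
    have h2 := hasDerivAt_bil (A.riem i) (c := A.crd i γ) ((A.chart i).map_source hi)
      (jet_fst h1).1 (jet_snd h1) (jet_snd h1)
    simp only [spray, jet, neg_add_cancel, bil_zero_left, bil_zero_right, add_zero] at h2
    refine h2.congr_of_eventuallyEq ?_
    have e₁ : ∀ᶠ s' in 𝓝 s, γ s' ∈ (A.chart i).source :=
      (h.1.continuousAt (hS.mem_nhds hs)) ((A.chart i).open_source.mem_nhds hi)
    filter_upwards [hS.mem_nhds hs, e₁] with s' a b using (hind s' a i b).symm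
  rw [hind s hs i hi, hind s' hs' j hj]
  exact hS.is_const_of_deriv_eq_zero hc
    (fun s hs => (hder s hs).differentiableAt.differentiableWithinAt)
    (fun s hs => (hder s hs).deriv) hs hs'

/-- uniqueness of Jacobi fields. -/
theorem Jac.unique {γ : ℝ → M} {ξ : A.ι → ℝ → E n} (hγ : A.Geo γ) (hξ : A.Jac γ ξ) {a : ℝ}
    {i : A.ι} (hi : γ a ∈ (A.chart i).source) (h0 : ξ i a = 0) (h1 : deriv (ξ i) a = 0) (s : ℝ) :
    A.Van γ ξ s := by
  have key : ∀ s, ∀ j : A.ι, γ s ∈ (A.chart j).source → jet (ξ j) s = 0 →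
      ∀ᶠ s' in 𝓝 s, A.Van γ ξ s' := by
    intro s j hj hjet
    have e₁ : ∀ᶠ s' in 𝓝 s, γ s' ∈ (A.chart j).source :=
      hγ.continuous.continuousAt ((A.chart j).open_source.mem_nhds hj)
    have hsp : ContDiffAt ℝ ∞ (spray (A.G j)) (jet (A.crd j γ) s) :=
      contDiffAt_spray (A.riem j) ((A.chart j).map_source hj)
    have hsp1 : ContDiffAt ℝ 1 (spray (A.G j)) (jet (A.crd j γ) s) :=
      hsp.of_le (by exact_mod_cast le_top)
    have hsp2 : ContDiffAt ℝ 1 (fderiv ℝ (spray (A.G j))) (jet (A.crd j γ) s) :=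
      hsp.fderiv_right (by norm_cast)
    have hv : ContDiffAt ℝ 1 (fun w : (E n × E n) × (E n × E n) =>
        (spray (A.G j) w.1, fderiv ℝ (spray (A.G j)) w.1 w.2))
        (jet (A.crd j γ) s, jet (ξ j) s) :=
      (hsp1.comp (f := Prod.fst) (jet (A.crd j γ) s, jet (ξ j) s) contDiffAt_fst).prodMk
        ((hsp2.comp (f := Prod.fst) (jet (A.crd j γ) s, jet (ξ j) s) contDiffAt_fst).clm_apply
          contDiffAt_snd)
    have := ode_unique_local (z₁ := fun s => (jet (A.crd j γ) s, jet (ξ j) s))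
      (z₂ := fun s => (jet (A.crd j γ) s, (0 : E n × E n))) hv
      (by filter_upwards [e₁] with s' b using (hγ.2 s' trivial j b).prodMk (hξ.eqn j s' b))
      (by
        filter_upwards [e₁] with s' b
        simpa using (hγ.2 s' trivial j b).prodMk (hasDerivAt_const s' (0 : E n × E n)))
      (by simp [hjet])
    filter_upwards [this, e₁] with s' a b
    exact hξ.van_of b (congrArg (fun w => w.2.1) a)
  refine propagate (P := A.Van γ ξ) isPreconnected_univ (mem_univ a)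
    (key a i hi (Prod.ext h0 h1)) (fun s _ hf => ?_) s (mem_univ s)
  obtain ⟨j, hj⟩ := A.cover (γ s)
  have e₁ : ∀ᶠ s' in 𝓝 s, γ s' ∈ (A.chart j).source :=
    hγ.continuous.continuousAt ((A.chart j).open_source.mem_nhds hj)
  refine key s j hj (tendsto_nhds_unique_of_frequently_eq (hξ.eqn j s hj).continuousAt
    (tendsto_const_nhds (x := (0 : E n × E n)))
    ((hf.and_eventually e₁.eventually_nhds).mono fun s' h => ?_))
  have : ξ j =ᶠ[𝓝 s'] fun _ => 0 := by
    filter_upwards [h.1, h.2] with s'' a b using a j b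
  rw [jet_congr this]
  simp [jet]

end RAtlas

end Crest.Agent.R226.G
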