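import Crest.Agent.R226.GFlow

/-! Row 226 (copy of row 244): Gauss lemma and the expansion property of the exponential map. -/

set_option autoImplicit false

open Set Filter
open scoped ContDiff Topology

universe u

namespace Crest.Agent.R226.G

open Crest.Agent.R244 hiding E RAtlas

open Crest.GeometryTopology.CoordMetric Crest.GeometryTopology.ChartCurvature
  Crest.GeometryTopology.Geodesic

/-- derivative of the energy on phase space. -/
theorem gauss_fderiv_energy {n : ℕ} {g : MetricField n} {U : Set (E n)} (hg : IsRiemannianOn g U)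
    {x : E n} (hx : x ∈ U) (v ξ η : E n) :
    fderiv ℝ (fun z : E n × E n => bil (g z.1) z.2 z.2) (x, v) (ξ, η) =
      2 * bil (g x) v (η + Gam g x v ξ) := by
  have hd : DifferentiableAt ℝ (fun z : E n × E n => bil (g z.1) z.2 z.2) (x, v) := by
    have h1 := (contDiffAt_bil hg (z := (x, v, v)) hx).differentiableAt (by simp)
    have h2 : DifferentiableAt ℝ (fun z : E n × E n => (z.1, z.2, z.2)) (x, v) := by fun_prop
    exact DifferentiableAt.comp (x, v) (g := fun w : E n × E n × E n => bil (g w.1) w.2.1 w.2.2)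
      h1 h2
  have hc : HasDerivAt (fun t : ℝ => x + t • ξ) ξ 0 := by
    simpa using ((hasDerivAt_id (0 : ℝ)).smul_const ξ).const_add x
  have hv : HasDerivAt (fun t : ℝ => v + t • η) η 0 := by
    simpa using ((hasDerivAt_id (0 : ℝ)).smul_const η).const_add v
  have h1 := hasDerivAt_bil hg (c := fun t : ℝ => x + t • ξ) (by simpa using hx) hc hv hv
  have hd' : HasFDerivAt (fun z : E n × E n => bil (g z.1) z.2 z.2)
      (fderiv ℝ (fun z : E n × E n => bil (g z.1) z.2 z.2) (x, v))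
      ((fun t : ℝ => (x + t • ξ, v + t • η)) 0) := by simpa using hd.hasFDerivAt
  have h2 := hd'.comp_hasDerivAt (0 : ℝ) (hc.prodMk hv)
  have := h2.unique h1
  simp only [zero_smul, add_zero] at this
  rw [this, bil_comm (hg.posDef x hx) _ v, Gam_comm hg hx ξ v]
  ring

/-- a convexity argument. -/
theorem gauss_sq_le {u u₁ u₂ : ℝ → ℝ} (h1 : ∀ s, HasDerivAt u (u₁ s) s)
    (h2 : ∀ s, HasDerivAt u₁ (u₂ s) s) (h0 : ∀ s, 0 ≤ u s) (h3 : ∀ s, 0 ≤ u₂ s)
    (h4 : ∀ s, u₁ s ^ 2 ≤ 2 * u s * u₂ s) (hz : u 0 = 0) {s : ℝ} (hs0 : 0 ≤ s) (hs1 : s ≤ 1) :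
    u s ≤ s ^ 2 * u 1 := by
  have key : ∀ ε > 0, √(u s) ≤ (1 - s) * √ε + s * √(u 1 + ε) := by
    intro ε hε
    have hp : ∀ t, 0 < u t + ε := fun t => by linarith [h0 t]
    have hr : ∀ t, HasDerivAt (fun t => √(u t + ε)) (u₁ t / (2 * √(u t + ε))) t := fun t =>
      ((h1 t).add_const ε).sqrt (hp t).ne'
    have hs : ∀ t, 0 < √(u t + ε) := fun t => Real.sqrt_pos.2 (hp t)
    have hr' : ∀ t, HasDerivAt (fun t => u₁ t / (2 * √(u t + ε)))
        ((u₂ t * (2 * √(u t + ε)) - u₁ t * (2 * (u₁ t / (2 * √(u t + ε))))) /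
          (2 * √(u t + ε)) ^ 2) t := fun t =>
      (h2 t).div ((hr t).const_mul 2) (by have := hs t; positivity)
    have hde : deriv (fun t => √(u t + ε)) = fun t => u₁ t / (2 * √(u t + ε)) :=
      funext fun t => (hr t).deriv
    have hconv : ConvexOn ℝ univ (fun t => √(u t + ε)) := by
      refine Monotone.convexOn_univ_of_deriv (fun t => (hr t).differentiableAt) ?_
      rw [hde]
      refine monotone_of_deriv_nonneg (fun t => (hr' t).differentiableAt) fun t => ?_
      rw [(hr' t).deriv]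
      refine div_nonneg ?_ (by positivity)
      have e := Real.mul_self_sqrt (hp t).le
      have hst := hs t
      have : u₂ t * (2 * √(u t + ε)) - u₁ t * (2 * (u₁ t / (2 * √(u t + ε)))) =
          (2 * (√(u t + ε) * √(u t + ε)) * u₂ t - u₁ t ^ 2) / √(u t + ε) := by
        field_simp
      rw [this, e]
      refine div_nonneg ?_ hst.le
      nlinarith [h3 t, h4 t]
    have := hconv.2 (mem_univ (0 : ℝ)) (mem_univ (1 : ℝ)) (sub_nonneg.2 hs1) hs0 (by ring)
    simp only [smul_eq_mul, mul_zero, mul_one, zero_add, hz] at this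
    exact (Real.sqrt_le_sqrt (by linarith)).trans this
  have hc : Continuous fun ε : ℝ => (1 - s) * √ε + s * √(u 1 + ε) := by fun_prop
  have hl := ge_of_tendsto ((hc.tendsto 0).mono_left (nhdsWithin_le_nhds (s := Ioi 0)))
    (eventually_nhdsWithin_of_forall fun ε hε => key ε hε)
  simp only [Real.sqrt_zero, mul_zero, add_zero, zero_add] at hl
  calc u s = √(u s) ^ 2 := (Real.sq_sqrt (h0 s)).symm
    _ ≤ (s * √(u 1)) ^ 2 := pow_le_pow_left₀ (Real.sqrt_nonneg _) hl 2
    _ = _ := by rw [mul_pow, Real.sq_sqrt (h0 1)]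

namespace RAtlas

variable {n : ℕ} {M : Type u} [TopologicalSpace M] {A : RAtlas n M} {i : A.ι} {x : M}
  {p : E n → M}

theorem gauss_ev {γ : ℝ → M} (hγ : Continuous γ) {j : A.ι} {s : ℝ}
    (hj : γ s ∈ (A.chart j).source) : ∀ᶠ t in 𝓝 s, γ t ∈ (A.chart j).source :=
  hγ.continuousAt.eventually_mem ((A.chart j).open_source.mem_nhds hj)

/-- chart independent functions along a curve. -/
theorem gauss_glue {γ : ℝ → M} (hγ : Continuous γ) (F : A.ι → ℝ → ℝ)
    (hF : ∀ j k s, γ s ∈ (A.chart j).source → γ s ∈ (A.chart k).source → F j s = F k s) :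
    ∃ f : ℝ → ℝ, ∀ j s, γ s ∈ (A.chart j).source → f =ᶠ[𝓝 s] F j := by
  choose ch hch using fun s => A.cover (γ s)
  exact ⟨fun s => F (ch s) s, fun j s hj =>
    (gauss_ev hγ hj).mono fun t ht => hF _ _ t (hch t) ht⟩

section
variable {γ : ℝ → M} {ξ : A.ι → ℝ → E n} {j : A.ι} {s : ℝ}

theorem Geo.gauss_c (hγ : A.Geo γ) (hj : γ s ∈ (A.chart j).source) :
    HasDerivAt (A.crd j γ) (deriv (A.crd j γ) s) s := (jet_fst (hγ.2 s trivial j hj)).1

theorem Geo.gauss_c' (hγ : A.Geo γ) (hj : γ s ∈ (A.chart j).source) :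
    HasDerivAt (deriv (A.crd j γ))
      (-Gam (A.G j) (A.crd j γ s) (deriv (A.crd j γ) s) (deriv (A.crd j γ) s)) s :=
  jet_snd (hγ.2 s trivial j hj)

theorem Jac.gauss_d (hξ : A.Jac γ ξ) (hj : γ s ∈ (A.chart j).source) :
    HasDerivAt (ξ j) (deriv (ξ j) s) s := (jet_fst (hξ.eqn j s hj)).1

theorem Jac.gauss_cov (hγ : A.Geo γ) (hξ : A.Jac γ ξ) (hj : γ s ∈ (A.chart j).source) :
    HasDerivAt (cov (A.G j) (A.crd j γ) (ξ j))
      (-Rv (A.G j) (A.crd j γ s) (ξ j s) (deriv (A.crd j γ) s)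
        - Gam (A.G j) (A.crd j γ s) (deriv (A.crd j γ) s) (cov (A.G j) (A.crd j γ) (ξ j) s)) s := by
  have h := hξ.eqn j s hj
  have := hasDerivAt_cov (A.riem j) (c := A.crd j γ) ((A.chart j).map_source hj)
    (hγ.2 s trivial j hj) (hasDerivAt_jet (hξ.gauss_d hj).differentiableAt (jet_snd h))
  simpa using this

theorem Jac.gauss_e (hγ : A.Geo γ) (hξ : A.Jac γ ξ) (hj : γ s ∈ (A.chart j).source) :
    HasDerivAt (fun s => bil (A.G j (A.crd j γ s)) (deriv (A.crd j γ) s)
      (cov (A.G j) (A.crd j γ) (ξ j) s)) 0 s := by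
  have hU : A.crd j γ s ∈ (A.chart j).target := (A.chart j).map_source hj
  have hΨ : ContDiffAt ℝ 2 (fun z : E n × E n => bil (A.G j z.1) z.2 z.2) (jet (A.crd j γ) s) := by
    have h1 := (contDiffAt_bil (A.riem j)
      (z := (A.crd j γ s, deriv (A.crd j γ) s, deriv (A.crd j γ) s)) hU).of_le
        (show (2 : WithTop ℕ∞) ≤ ∞ from ENat.natCast_le_of_coe_top_le_withTop le_rfl 2)
    have h2 : ContDiffAt ℝ 2 (fun z : E n × E n => (z.1, z.2, z.2)) (jet (A.crd j γ) s) := by
      fun_prop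
    exact ContDiffAt.comp (jet (A.crd j γ) s)
      (g := fun w : E n × E n × E n => bil (A.G j w.1) w.2.1 w.2.2) h1 h2
  have hev : ∀ᶠ w : E n × E n in 𝓝 (jet (A.crd j γ) s), w.1 ∈ (A.chart j).target :=
    continuous_fst.continuousAt.eventually_mem ((A.chart j).open_target.mem_nhds hU)
  have h := lin_related (S := spray (A.G j)) (S' := fun _ : ℝ => (0 : ℝ)) hΨ
    ((contDiffAt_spray (A.riem j) hU).differentiableAt (by simp)) (differentiableAt_const _)
    (hev.mono fun w hw => by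
      obtain ⟨y, v⟩ := w
      simp only [spray]
      rw [gauss_fderiv_energy (A.riem j) hw]; simp) (hγ.2 s trivial j hj) (hξ.eqn j s hj)
  have h' := h.const_mul (1 / 2)
  simp only [fderiv_fun_const, Pi.zero_apply, ContinuousLinearMap.zero_apply, mul_zero] at h'
  refine h'.congr_of_eventuallyEq ((gauss_ev hγ.continuous hj).mono fun t ht => ?_)
  simp only [jet]
  rw [gauss_fderiv_energy (A.riem j) (x := A.crd j γ t) ((A.chart j).map_source ht)]
  simp only [cov, crd]
  ring

end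

/-- the velocity of the radial geodesic. -/
theorem IsExp.dp_self (h : A.IsExp i x p) {j : A.ι} {v : E n} {s : ℝ}
    (hj : p (s • v) ∈ (A.chart j).source) :
    deriv (A.crd j (fun s : ℝ => p (s • v))) s = A.dp p j (s • v) v := by
  have h1 : HasDerivAt (fun s : ℝ => s • v) v s := by
    simpa using (hasDerivAt_id s).smul_const v
  exact ((h.strict j _ hj).hasFDerivAt.comp_hasDerivAt s h1).deriv

/-- Gauss lemma. -/
theorem IsExp.gauss (h : A.IsExp i x p) {j : A.ι} {v : E n} (hj : p v ∈ (A.chart j).source)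
    (w : E n) :
    bil (A.G j (A.chart j (p v))) (A.dp p j v v) (A.dp p j v w) =
      bil (A.G i (A.chart i x)) v w := by
  have hγ := h.geo v
  have hξ := h.jac v w
  set γ : ℝ → M := fun s => p (s • v) with hγd
  set ξ : A.ι → ℝ → E n := fun j s => A.dp p j (s • v) (s • w) with hξd
  obtain ⟨f, hf⟩ := gauss_glue hγ.continuous
    (fun k s => bil (A.G k (A.crd k γ s)) (deriv (A.crd k γ) s) (ξ k s)) (fun k l s hk hl => by
      rw [hγ.vel_compat isOpen_univ trivial hk hl, hξ.compat k l s hk hl]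
      exact A.isom k l _ hk hl _ _)
  have hd : ∀ k s, γ s ∈ (A.chart k).source → HasDerivAt f
      (bil (A.G k (A.crd k γ s)) (deriv (A.crd k γ) s) (cov (A.G k) (A.crd k γ) (ξ k) s)) s := by
    intro k s hk
    have := hasDerivAt_bil (A.riem k) (c := A.crd k γ) ((A.chart k).map_source hk)
      (hγ.gauss_c hk) (hγ.gauss_c' hk) (hξ.gauss_d hk)
    rw [neg_add_cancel, bil_zero_left, zero_add] at this
    exact this.congr_of_eventuallyEq (hf k s hk)
  have hd2 : ∀ s, HasDerivAt (deriv f) 0 s := by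
    intro s
    obtain ⟨k, hk⟩ := A.cover (γ s)
    exact (hξ.gauss_e hγ hk).congr_of_eventuallyEq
      ((gauss_ev hγ.continuous hk).mono fun t ht => (hd k t ht).deriv)
  have h0 : γ 0 = x := by simp [hγd, h.zero]
  have hi0 : γ 0 ∈ (A.chart i).source := h0 ▸ h.mem
  have hξ0 : ξ i 0 = 0 := by simp [hξd]
  have hc : ∀ s, deriv f s = bil (A.G i (A.chart i x)) v w := by
    intro s
    rw [is_const_of_deriv_eq_zero (fun t => (hd2 t).differentiableAt) (fun t => (hd2 t).deriv) s 0,
      (hd i 0 hi0).deriv, cov, hξ0, Gam_zero_right, add_zero, h.vel v, h.jac0 v w, crd, h0]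
  have hdf : ∀ s, HasDerivAt (fun s => f s - s * bil (A.G i (A.chart i x)) v w) 0 s := by
    intro s
    obtain ⟨k, hk⟩ := A.cover (γ s)
    have := (hd k s hk).differentiableAt.hasDerivAt.sub
      ((hasDerivAt_id s).mul_const (bil (A.G i (A.chart i x)) v w))
    rw [hc, one_mul, sub_self] at this
    exact this
  have h1 := is_const_of_deriv_eq_zero (fun t => (hdf t).differentiableAt)
    (fun t => (hdf t).deriv) 1 0
  have hj1 : γ 1 ∈ (A.chart j).source := by simpa [hγd] using hj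
  rw [(hf j 1 hj1).eq_of_nhds, (hf i 0 hi0).eq_of_nhds, hξ0, bil_zero_right, h.dp_self hj1] at h1
  simp only [crd, hγd, hξd, one_smul] at h1
  linarith

/-- in non-positive curvature the exponential map expands. -/
theorem IsExp.expand (h : A.IsExp i x p) (hA : A.NPC) {j : A.ι} {v : E n}
    (hj : p v ∈ (A.chart j).source) (w : E n) :
    bil (A.G i (A.chart i x)) w w ≤
      bil (A.G j (A.chart j (p v))) (A.dp p j v w) (A.dp p j v w) := by
  have hγ := h.geo v
  have hξ := h.jac v w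
  set γ : ℝ → M := fun s => p (s • v) with hγd
  set ξ : A.ι → ℝ → E n := fun j s => A.dp p j (s • v) (s • w) with hξd
  obtain ⟨u, hu⟩ := gauss_glue hγ.continuous
    (fun k s => bil (A.G k (A.crd k γ s)) (ξ k s) (ξ k s)) (fun k l s hk hl => by
      rw [hξ.compat k l s hk hl]
      exact A.isom k l _ hk hl _ _)
  have hd : ∀ k s, γ s ∈ (A.chart k).source → HasDerivAt u
      (2 * bil (A.G k (A.crd k γ s)) (cov (A.G k) (A.crd k γ) (ξ k) s) (ξ k s)) s := by
    intro k s hk
    have := hasDerivAt_bil (A.riem k) (c := A.crd k γ) ((A.chart k).map_source hk)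
      (hγ.gauss_c hk) (hξ.gauss_d hk) (hξ.gauss_d hk)
    rw [bil_comm (g := A.G k (A.crd k γ s)) (A.posDef hk) (ξ k s), ← two_mul] at this
    exact this.congr_of_eventuallyEq (hu k s hk)
  have hd2 : ∀ k s, γ s ∈ (A.chart k).source → HasDerivAt (deriv u)
      (2 * (bil (A.G k (A.crd k γ s)) (cov (A.G k) (A.crd k γ) (ξ k) s)
        (cov (A.G k) (A.crd k γ) (ξ k) s) -
        secNumer (A.G k) (A.crd k γ s) (ξ k s) (deriv (A.crd k γ) s))) s := by
    intro k s hk
    have := (hasDerivAt_bil (A.riem k) (c := A.crd k γ) ((A.chart k).map_source hk)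
      (hγ.gauss_c hk) (hξ.gauss_cov hγ hk) (hξ.gauss_d hk)).const_mul 2
    rw [sub_add_cancel, bil_neg_left, ← secNumer_eq, neg_add_eq_sub] at this
    exact this.congr_of_eventuallyEq
      ((gauss_ev hγ.continuous hk).mono fun t ht => (hd k t ht).deriv)
  have h0 : γ 0 = x := by simp [hγd, h.zero]
  have hi0 : γ 0 ∈ (A.chart i).source := h0 ▸ h.mem
  have hξ0 : ξ i 0 = 0 := by simp [hξd]
  have hle : ∀ s, 0 ≤ s → s ≤ 1 → u s ≤ s ^ 2 * u 1 := by
    intro s hs0 hs1
    refine gauss_sq_le (u₁ := deriv u) (u₂ := deriv (deriv u)) (fun t => ?_) (fun t => ?_)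
      (fun t => ?_) (fun t => ?_) (fun t => ?_) ?_ hs0 hs1
    · obtain ⟨k, hk⟩ := A.cover (γ t)
      exact (hd k t hk).differentiableAt.hasDerivAt
    · obtain ⟨k, hk⟩ := A.cover (γ t)
      exact (hd2 k t hk).differentiableAt.hasDerivAt
    · obtain ⟨k, hk⟩ := A.cover (γ t)
      rw [(hu k t hk).eq_of_nhds]
      exact bil_self_nonneg (A.posDef hk) _
    · obtain ⟨k, hk, hs⟩ := hA (γ t)
      rw [(hd2 k t hk).deriv]
      have h1 := bil_self_nonneg (A.posDef hk) (cov (A.G k) (A.crd k γ) (ξ k) t)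
      have h2 := hs (ξ k t) (deriv (A.crd k γ) t)
      simp only [crd] at h1 h2 ⊢
      linarith
    · obtain ⟨k, hk, hs⟩ := hA (γ t)
      rw [(hd2 k t hk).deriv, (hd k t hk).deriv, (hu k t hk).eq_of_nhds]
      have h1 := bil_sq_le (A.posDef hk) (cov (A.G k) (A.crd k γ) (ξ k) t) (ξ k t)
      have h2 := hs (ξ k t) (deriv (A.crd k γ) t)
      have h3 := bil_self_nonneg (A.posDef hk) (ξ k t)
      simp only [crd] at h1 h2 h3 ⊢
      nlinarith [mul_nonneg h3 (neg_nonneg.2 h2)]
    · rw [(hu i 0 hi0).eq_of_nhds, hξ0, bil_zero_left]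
  have hj1 : γ 1 ∈ (A.chart j).source := by simpa [hγd] using hj
  have e1 : u 1 = bil (A.G j (A.chart j (p v))) (A.dp p j v w) (A.dp p j v w) := by
    rw [(hu j 1 hj1).eq_of_nhds]
    simp only [crd, hγd, hξd, one_smul]
  rw [← e1]
  have hw : HasDerivAt (ξ i) w 0 := by
    have := hξ.gauss_d hi0
    rwa [show deriv (ξ i) 0 = w from h.jac0 v w] at this
  have t1 : Tendsto (fun t : ℝ => t⁻¹ • ξ i t) (𝓝[>] 0) (𝓝 w) := by
    have := hasDerivAt_iff_tendsto_slope_zero.1 hw
    simp only [zero_add, hξ0, sub_zero] at this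
    exact this.mono_left (nhdsWithin_mono _ fun t ht => ne_of_gt ht)
  have t2 : Tendsto (A.crd i γ) (𝓝[>] 0) (𝓝 (A.chart i x)) := by
    have := (hγ.gauss_c hi0).continuousAt.tendsto
    rw [show A.crd i γ 0 = A.chart i x by rw [crd, h0]] at this
    exact this.mono_left nhdsWithin_le_nhds
  have t3 := ((contDiffAt_bil (A.riem i) (z := (A.chart i x, w, w))
    ((A.chart i).map_source h.mem)).continuousAt.tendsto).comp (t2.prodMk_nhds (t1.prodMk_nhds t1))
  refine le_of_tendsto t3 ?_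
  filter_upwards [(hu i 0 hi0).filter_mono nhdsWithin_le_nhds, self_mem_nhdsWithin,
    (eventually_le_nhds (zero_lt_one' ℝ)).filter_mono nhdsWithin_le_nhds] with t e ht0 ht1
  have ht : (0 : ℝ) < t := ht0
  simp only [Function.comp, bil_smul_left, bil_smul_right]
  rw [← e]
  have := hle t ht.le ht1
  calc t⁻¹ * (t⁻¹ * u t) ≤ t⁻¹ * (t⁻¹ * (t ^ 2 * u 1)) := by gcongr
    _ = u 1 := by field_simp

theorem IsExp.inj_of_npc (h : A.IsExp i x p) (hA : A.NPC) (j : A.ι) (v : E n)
    (hj : p v ∈ (A.chart j).source) : Function.Injective (A.dp p j v) := by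
  refine (injective_iff_map_eq_zero _).2 fun w hw => ?_
  by_contra h0
  have := h.expand hA hj w
  rw [hw, bil_zero_left] at this
  exact absurd (bil_self_pos (A.posDef h.mem) h0) (not_lt.2 this)

theorem IsExp.inj_of_ncp (h : A.IsExp i x p) (hA : A.NCP) (j : A.ι) (v : E n)
    (hj : p v ∈ (A.chart j).source) : Function.Injective (A.dp p j v) := by
  refine (injective_iff_map_eq_zero _).2 fun w hw => ?_
  have hγ := h.geo v
  have hξ := h.jac v w
  have hi0 : p ((0 : ℝ) • v) ∈ (A.chart i).source := by simpa [h.zero] using h.mem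
  have hv := hA _ _ hγ hξ 0 1 zero_ne_one (hξ.van_of hi0 (by simp))
    (hξ.van_of (i := j) (by simpa using hj) (by simpa using hw))
  have : (fun s : ℝ => A.dp p i (s • v) (s • w)) =ᶠ[𝓝 0] fun _ => 0 :=
    (gauss_ev hγ.continuous hi0).mono fun t ht => hv t i ht
  rw [← h.jac0 v w, this.deriv_eq, deriv_const]

end RAtlas

end Crest.Agent.R226.G
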