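import Crest.Agent.R226.GSm
import Crest.Agent.R226.GGauss

/-! Row 226: the geodesic with given initial data in a chart.

`geo_eq`: `GeoOn.unique`; `geo_smul`: `GeoOn.comp_affine`, `GeoOn.deriv_comp_affine` (see `hscale` in
`exists_exp`); `geo_famS`: `famS_all` (near `z` the jet at time `0` is `w` itself);
`geo_gauss`: the map `p` of `exists_exp` is `fun v => A.geo i (y, v) 1` by `geo_eq`, then
`IsExp.gauss`; `Geo.contDiffAt_crd`: `geo_eq` for the shifted curve `γ (· + s)`, `geo_smul` and
`geo_smooth`. -/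

set_option autoImplicit false

open Set Filter Metric
open scoped ContDiff Topology InnerProductSpace

universe u

namespace Crest.Agent.R226.G

open Crest.Agent.R244 hiding E RAtlas
open Crest.GeometryTopology.CoordMetric Crest.GeometryTopology.ChartCurvature

namespace RAtlas

variable {n : ℕ} {M : Type u} [TopologicalSpace M] (A : RAtlas n M)

theorem geo_const (x : M) : A.Geo (fun _ => x) := by
  refine ⟨continuousOn_const, fun s _ i _ => ?_⟩
  have e : jet (A.crd i fun _ => x) = fun _ => (A.chart i x, 0) := by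
    funext t
    simp only [jet]
    rw [show (A.crd i fun _ => x) = fun _ => A.chart i x from rfl, deriv_const]
  have h0 : Gam (A.G i) (A.chart i x) 0 0 = 0 := by
    simpa using Gam_smul_left (g := A.G i) 0 (A.chart i x) 0 0
  rw [e]
  simp only [spray, h0, neg_zero]
  exact hasDerivAt_const _ _

variable [CompactSpace M] [T2Space M]

open Classical in
/-- the geodesic with initial position and velocity `z`, read in the chart `i`. -/
noncomputable def geo (i : A.ι) (z : E n × E n) : ℝ → M :=
  if h : z.1 ∈ (A.chart i).target then (A.exists_geo ((A.chart i).map_target h) z.2).choose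
  else fun _ => (A.chart i).symm z.1

theorem geo_geo (i : A.ι) (z : E n × E n) : A.Geo (A.geo i z) := by
  unfold geo
  split_ifs with h
  · exact (A.exists_geo ((A.chart i).map_target h) z.2).choose_spec.1
  · exact A.geo_const _

theorem geo_zero (i : A.ι) (z : E n × E n) : A.geo i z 0 = (A.chart i).symm z.1 := by
  unfold geo
  split_ifs with h
  · exact (A.exists_geo ((A.chart i).map_target h) z.2).choose_spec.2.1
  · rfl

variable {A}

theorem geo_vel {i : A.ι} {z : E n × E n} (h : z.1 ∈ (A.chart i).target) :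
    deriv (A.crd i (A.geo i z)) 0 = z.2 := by
  unfold geo
  rw [dif_pos h]
  exact (A.exists_geo ((A.chart i).map_target h) z.2).choose_spec.2.2

theorem geo_eq {γ : ℝ → M} (hγ : A.Geo γ) {i : A.ι} (hi : γ 0 ∈ (A.chart i).source) :
    γ = A.geo i (A.chart i (γ 0), deriv (A.crd i γ) 0) := by
  funext t
  refine GeoOn.unique (i := i) (s₀ := 0) hγ (A.geo_geo i _) isOpen_univ isPreconnected_univ
    (mem_univ _) hi ?_ ?_ (mem_univ t)
  · rw [geo_zero, (A.chart i).left_inv hi]
  · rw [geo_vel ((A.chart i).map_source hi)]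

theorem geo_smul {i : A.ι} {y : E n} (h : y ∈ (A.chart i).target) (v : E n) (s t : ℝ) :
    A.geo i (y, s • v) t = A.geo i (y, v) (s * t) := by
  have h1 : A.Geo (fun t => A.geo i (y, v) (s * t + 0)) :=
    (GeoOn.comp_affine (A.geo_geo i (y, v)) isOpen_univ s 0).mono fun _ _ => mem_univ _
  have h2 : A.geo i (y, v) (s * 0 + 0) = (A.chart i).symm y := by
    rw [mul_zero, add_zero, geo_zero]
  have h3 : A.geo i (y, v) (s * 0 + 0) ∈ (A.chart i).source := h2 ▸ (A.chart i).map_target h
  have h4 := congrFun (geo_eq h1 h3) t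
  rw [GeoOn.deriv_comp_affine (A.geo_geo i (y, v)) s 0 0 (mem_univ _) h3, h2,
    (A.chart i).right_inv h, mul_zero, add_zero, add_zero, geo_vel h] at h4
  exact h4.symm

theorem geo_famS {i : A.ι} {z : E n × E n} (h : z.1 ∈ (A.chart i).target) (s : ℝ) {j : A.ι}
    (hj : A.geo i z s ∈ (A.chart j).source) : A.FamS (A.geo i) z j s := by
  refine famS_all (i := i) (A.geo_geo i) ⟨?_, ?_, ?_⟩ s hj
  · rw [geo_zero]; exact (A.chart i).map_target h
  · simp only [geo_zero]
    exact ((A.chart i).continuousAt_symm h).comp continuousAt_fst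
  · refine contDiffAt_id.congr_of_eventuallyEq ?_
    filter_upwards [continuousAt_fst.preimage_mem_nhds ((A.chart i).open_target.mem_nhds h)]
      with w hw
    simp only [jet, geo_vel hw, id]
    rw [crd, geo_zero, (A.chart i).right_inv hw]

theorem geo_cont {i : A.ι} {z : E n × E n} (h : z.1 ∈ (A.chart i).target) (s : ℝ) :
    ContinuousAt (fun w => A.geo i w s) z := by
  obtain ⟨j, hj⟩ := A.cover (A.geo i z s)
  exact (geo_famS h s hj).2.1

theorem geo_smooth {i : A.ι} {z : E n × E n} (h : z.1 ∈ (A.chart i).target) (s : ℝ) {j : A.ι}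
    (hj : A.geo i z s ∈ (A.chart j).source) :
    ContDiffAt ℝ ∞ (fun w => A.chart j (A.geo i w s)) z := by
  exact (geo_famS h s hj).2.2.fst

/-- Gauss lemma. -/
theorem geo_gauss {i : A.ι} {y : E n} (h : y ∈ (A.chart i).target) (v w : E n) {j : A.ι}
    (hj : A.geo i (y, v) 1 ∈ (A.chart j).source) :
    bil (A.G j (A.chart j (A.geo i (y, v) 1)))
      (fderiv ℝ (fun u => A.chart j (A.geo i (y, u) 1)) v v)
      (fderiv ℝ (fun u => A.chart j (A.geo i (y, u) 1)) v w) = bil (A.G i y) v w := by
  have hx := (A.chart i).map_target h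
  obtain ⟨p, hp⟩ := A.exists_exp hx
  have e : p = fun u => A.geo i (y, u) 1 := by
    funext u
    have h0 : p ((0 : ℝ) • u) = (A.chart i).symm y := by rw [zero_smul, hp.zero]
    have h1 := congrFun (geo_eq (hp.geo u) (i := i) (h0 ▸ hx)) 1
    rwa [hp.vel, h0, (A.chart i).right_inv h, one_smul] at h1
  subst e
  have h2 := hp.gauss (j := j) (v := v) hj w
  rwa [(A.chart i).right_inv h] at h2

/-- geodesics are smooth. -/
theorem Geo.contDiffAt_crd {γ : ℝ → M} (hγ : A.Geo γ) {j : A.ι} {s : ℝ}
    (hj : γ s ∈ (A.chart j).source) : ContDiffAt ℝ ∞ (A.crd j γ) s := by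
  have h1 : A.Geo (fun t => γ (1 * t + s)) :=
    (GeoOn.comp_affine hγ isOpen_univ 1 s).mono fun _ _ => mem_univ _
  have h2 : γ (1 * 0 + s) = γ s := by rw [mul_zero, zero_add]
  have h3 := geo_eq h1 (i := j) (h2 ▸ hj)
  rw [h2] at h3
  generalize deriv (A.crd j fun t => γ (1 * t + s)) 0 = v at h3
  have hy := (A.chart j).map_source hj
  have e : A.crd j γ = fun u => A.chart j (A.geo j (A.chart j (γ s), (u - s) • v) 1) := by
    funext u
    rw [geo_smul hy, ← h3, crd]
    congr 2
    ring
  have h4 : A.geo j (A.chart j (γ s), (s - s) • v) 1 ∈ (A.chart j).source := by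
    rw [geo_smul hy, sub_self, zero_mul, geo_zero, (A.chart j).left_inv hj]; exact hj
  rw [e]
  exact ContDiffAt.comp (g := fun w => A.chart j (A.geo j w 1)) s (geo_smooth hy 1 h4)
    (contDiffAt_const.prodMk ((contDiffAt_id.sub contDiffAt_const).smul contDiffAt_const))

end RAtlas

end Crest.Agent.R226.G
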