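import Crest.Agent.R226.GDefs

/-! Row 226: two pieces of calculus.

* `ift_smooth`: `ContDiffAt.toOpenPartialHomeomorph`, restricted to the open set where the derivative
  is invertible (`ContinuousLinearEquiv.isOpen`, or `Units.isOpen`), and
  `OpenPartialHomeomorph.contDiffAt_symm` at every point.
* `exists_cut`: `ψ u = a + ∫ t in a..u, max 0 (min 1 ((b - t) / (b - a)))`. -/

set_option autoImplicit false

open Set Filter Metric
open scoped ContDiff Topology InnerProductSpace

universe u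

namespace Crest.Agent.R226.G

open Crest.Agent.R244 hiding E RAtlas
open Crest.GeometryTopology.CoordMetric Crest.GeometryTopology.ChartCurvature

/-- the inverse function theorem for smooth maps. -/
theorem ift_smooth {F : Type} [NormedAddCommGroup F] [NormedSpace ℝ F] [CompleteSpace F]
    {f : F → F} {O : Set F} (hO : IsOpen O) (hf : ContDiffOn ℝ ∞ f O) {z₀ : F} (hz₀ : z₀ ∈ O)
    (f' : F ≃L[ℝ] F) (hf' : HasFDerivAt f (f' : F →L[ℝ] F) z₀) :
    ∃ (S T : Set F) (g : F → F), IsOpen S ∧ IsOpen T ∧ z₀ ∈ S ∧ S ⊆ O ∧ ContDiffOn ℝ ∞ g T ∧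
      (∀ z ∈ S, f z ∈ T ∧ g (f z) = z) ∧ ∀ w ∈ T, g w ∈ S ∧ f (g w) = w := by
  have h0 : ContDiffAt ℝ ∞ f z₀ := hf.contDiffAt (hO.mem_nhds hz₀)
  let e := h0.toOpenPartialHomeomorph f hf' (by simp)
  have he : (e : F → F) = f := rfl
  have hc : ContinuousOn (fderiv ℝ f) O := hf.continuousOn_fderiv_of_isOpen hO (by simp)
  let V : Set F := O ∩ fderiv ℝ f ⁻¹' range ((↑) : (F ≃L[ℝ] F) → F →L[ℝ] F)
  have hV : IsOpen V := hc.isOpen_inter_preimage hO ContinuousLinearEquiv.isOpen
  have hzV : z₀ ∈ V := ⟨hz₀, f', hf'.fderiv.symm⟩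
  let e' := e.restrOpen V hV
  have he' : (e' : F → F) = f := rfl
  have hs : e'.source = e.source ∩ V := rfl
  refine ⟨e'.source, e'.target, e'.symm, e'.open_source, e'.open_target,
    ⟨h0.mem_toOpenPartialHomeomorph_source hf' (by simp), hzV⟩, fun z hz => hz.2.1, ?_,
    fun z hz => ⟨e'.map_source hz, e'.left_inv hz⟩,
    fun w hw => ⟨e'.map_target hw, e'.right_inv hw⟩⟩
  intro w hw
  have h1 : e'.symm w ∈ V := (e'.map_target hw).2
  obtain ⟨h2, A, hA⟩ := h1
  have h3 : ContDiffAt ℝ ∞ f (e'.symm w) := hf.contDiffAt (hO.mem_nhds h2)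
  refine (e'.contDiffAt_symm (f₀' := A) hw ?_ h3).contDiffWithinAt
  rw [he', hA]
  exact (h3.differentiableAt (by simp)).hasFDerivAt

/-- a cut-off of the identity. -/
theorem exists_cut {a b : ℝ} (hab : a < b) :
    ∃ ψ : ℝ → ℝ, ContDiff ℝ 1 ψ ∧ Monotone ψ ∧ (∀ t, |deriv ψ t| ≤ 1) ∧ (∀ t ≤ a, ψ t = t) ∧
      ∀ t, b ≤ t → ψ t = ψ b := by
  let φ : ℝ → ℝ := fun t => max 0 (min 1 ((b - t) / (b - a)))
  have hφ : Continuous φ := by fun_prop
  have h0 : ∀ t, 0 ≤ φ t := fun t => le_max_left _ _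
  have h1 : ∀ t, φ t ≤ 1 := fun t => max_le zero_le_one (min_le_left _ _)
  have hba : 0 < b - a := by linarith
  have hd : ∀ u, HasDerivAt (fun u => a + ∫ t in a..u, φ t) (φ u) u := fun u =>
    (hφ.deriv_integral φ a u ▸ (intervalIntegral.integral_hasDerivAt_right
      (hφ.intervalIntegrable _ _) (hφ.stronglyMeasurableAtFilter _ _)
      hφ.continuousAt).differentiableAt.hasDerivAt).const_add a
  have hder : deriv (fun u => a + ∫ t in a..u, φ t) = φ := funext fun u => (hd u).deriv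
  have hdiff : Differentiable ℝ fun u => a + ∫ t in a..u, φ t := fun u => (hd u).differentiableAt
  refine ⟨fun u => a + ∫ t in a..u, φ t, ?_, ?_, fun t => ?_, fun t ht => ?_, fun t ht => ?_⟩
  · rw [contDiff_one_iff_deriv, hder]; exact ⟨hdiff, hφ⟩
  · exact monotone_of_deriv_nonneg hdiff fun t => by rw [hder]; exact h0 t
  · rw [hder, abs_of_nonneg (h0 t)]; exact h1 t
  · have : ∫ s in a..t, φ s = ∫ _ in a..t, (1 : ℝ) := by
      refine intervalIntegral.integral_congr fun s hs => ?_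
      rw [uIcc_of_ge ht] at hs
      have : 1 ≤ (b - s) / (b - a) := by rw [le_div_iff₀ hba]; linarith [hs.2]
      simp only [φ, min_eq_left this, max_eq_right zero_le_one]
    simp [this]
  · have h2 : ∫ s in b..t, φ s = ∫ _ in b..t, (0 : ℝ) := by
      refine intervalIntegral.integral_congr fun s hs => ?_
      rw [uIcc_of_le ht] at hs
      have : (b - s) / (b - a) ≤ 0 := div_nonpos_of_nonpos_of_nonneg (by linarith [hs.1]) hba.le
      exact max_eq_left ((min_le_right _ _).trans this)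
    have h3 := intervalIntegral.integral_add_adjacent_intervals (hφ.intervalIntegrable (μ := MeasureTheory.volume) a b)
      (hφ.intervalIntegrable b t)
    simp only
    rw [← h3, h2]
    simp

end Crest.Agent.R226.G
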