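import Crest.Agent.R226.GNB

/-! Row 226: the local properties of the exponential maps, and `LocGeo` from an atlas.

`hρ` is the conclusion of `exists_rho`. `loc_dist`, `loc_surj`: move to the frame given by `hρ` with
`e_iso`, then `e_dist_le`, `IsLog.near`, `IsLog.left/right`. `loc_smooth`: near the base point the cost
is `‖lg (c (e w), c (e w'))‖ ^ 2 / 2` (`IsLog.near`, continuity `e_cont`), then `e_smooth` and
`contDiff_norm_sq`. `exists_locGeo_atlas`: `U = {a | ∃ k, |a.1 - k| < 1/2 ∧ a.2 ∈ W k}`,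
`F = ⋃ k, {k} ×ˢ K k`, `ex a p = e (sel a.1) (a.2, p)`. -/

set_option autoImplicit false

open Set Filter Metric
open scoped ContDiff Topology InnerProductSpace

universe u

namespace Crest.Agent.R226.G

open Crest.Agent.R244 hiding E RAtlas
open Crest.GeometryTopology.CoordMetric Crest.GeometryTopology.ChartCurvature

namespace Frames

variable {n : ℕ} {M : Type u} [MetricSpace M] [CompactSpace M] {A : RAtlas n M} (Φ : Frames A)

/-- `ρ` is smaller than the radii of a covering family of logarithms. -/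
def Rho (ρ : ℝ) : Prop :=
  ∀ x : M, ∃ k y₀ r R lg T, Φ.IsLog k y₀ r R lg T ∧ ρ < R ∧
    x ∈ (Φ.c k).source ∧ Φ.c k x ∈ ball y₀ r

variable {Φ}

theorem loc_dist (hm : Met A) {ρ : ℝ} (hρ : Φ.Rho ρ) {k : Fin Φ.N} {y : E n} (hy : y ∈ Φ.W k)
    {p : E n} (hp : ‖p‖ ≤ ρ) : dist ((Φ.c k).symm y) (Φ.e k (y, p)) = ‖p‖ := by
  obtain ⟨l, y₀, r, R, lg, T, h, hR, hs, hb⟩ := hρ ((Φ.c k).symm y)
  have e := (Φ.c l).left_inv hs
  obtain ⟨B, hB⟩ := Φ.e_iso hy (h.sub hb) e.symm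
  have hp' : ‖B p‖ < R := by rw [B.norm_map]; linarith
  have h1 := h.near hm hb ((Φ.e_dist_le hm (h.sub hb) (B p)).trans_lt hp')
  rw [← hB, ← B.norm_map p]
  conv_lhs => arg 1; rw [← e]
  rw [h1.2.2, (h.left _ hb _ (mem_ball_zero_iff.2 hp')).2.2]

theorem loc_surj (hm : Met A) {ρ : ℝ} (hρ : Φ.Rho ρ) {k : Fin Φ.N} {y : E n} (hy : y ∈ Φ.W k)
    {z : M} (hz : dist ((Φ.c k).symm y) z ≤ ρ) : ∃ p, ‖p‖ ≤ ρ ∧ Φ.e k (y, p) = z := by
  obtain ⟨l, y₀, r, R, lg, T, h, hR, hs, hb⟩ := hρ ((Φ.c k).symm y)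
  have e := (Φ.c l).left_inv hs
  obtain ⟨B, hB⟩ := Φ.e_iso hy (h.sub hb) e.symm
  obtain ⟨h1, h2, h3⟩ := h.near hm hb (z := z) (by rw [e]; linarith)
  rw [e] at h3
  refine ⟨B.symm (lg (Φ.c l ((Φ.c k).symm y), Φ.c l z)), by rw [B.symm.norm_map]; linarith, ?_⟩
  rw [← hB, B.apply_symm_apply]
  exact (h.right _ h2).2.2.2.trans ((Φ.c l).left_inv h1)

theorem loc_smooth (hm : Met A) {ρ : ℝ} (hρ : Φ.Rho ρ) {k l : Fin Φ.N} {w w' : E n × E n}
    (hw : w.1 ∈ Φ.W k) (hw' : w'.1 ∈ Φ.W l) (hd : dist (Φ.e k w) (Φ.e l w') < ρ) :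
    ContDiffAt ℝ ∞ (fun z : (E n × E n) × (E n × E n) => cst (Φ.e k z.1) (Φ.e l z.2)) (w, w') := by
  obtain ⟨m, y₀, r, R, lg, T, h, hR, hs, hb⟩ := hρ (Φ.e k w)
  obtain ⟨h1, h2, -⟩ := h.near hm hb (z := Φ.e l w') (by rw [(Φ.c m).left_inv hs]; linarith)
  have c1 : ContinuousAt (fun z : (E n × E n) × (E n × E n) => Φ.e k z.1) (w, w') :=
    ContinuousAt.comp (f := Prod.fst) (Φ.e_cont hw) continuousAt_fst
  have c2 : ContinuousAt (fun z : (E n × E n) × (E n × E n) => Φ.e l z.2) (w, w') :=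
    ContinuousAt.comp (f := Prod.snd) (Φ.e_cont hw') continuousAt_snd
  have s1 : ContDiffAt ℝ ∞ (fun z : (E n × E n) × (E n × E n) => Φ.c m (Φ.e k z.1)) (w, w') :=
    ContDiffAt.comp (f := Prod.fst) (w, w') (Φ.e_smooth hw hs) contDiffAt_fst
  have s2 : ContDiffAt ℝ ∞ (fun z : (E n × E n) × (E n × E n) => Φ.c m (Φ.e l z.2)) (w, w') :=
    ContDiffAt.comp (f := Prod.snd) (w, w') (Φ.e_smooth hw' h1) contDiffAt_snd
  have s3 : ContDiffAt ℝ ∞ (fun z : (E n × E n) × (E n × E n) =>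
      lg (Φ.c m (Φ.e k z.1), Φ.c m (Φ.e l z.2))) (w, w') :=
    ContDiffAt.comp (w, w') (h.smooth.contDiffAt (h.T_open.mem_nhds h2)) (s1.prodMk s2)
  refine ((s3.norm_sq ℝ).div_const 2).congr_of_eventuallyEq ?_
  filter_upwards [c1.preimage_mem_nhds ((Φ.c m).open_source.mem_nhds hs),
    s1.continuousAt.preimage_mem_nhds (isOpen_ball.mem_nhds hb),
    (c1.dist c2).eventually_lt continuousAt_const (hd.trans hR)] with z a1 a2 a3
  have e := (Φ.c m).left_inv a1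
  have a4 := (h.near hm a2 (z := Φ.e l z.2) (by rw [e]; exact a3)).2.2
  rw [e] at a4
  rw [cst, a4]

end Frames

/-- selection of the slab. -/
theorem exists_sel {N : ℕ} (hN : 0 < N) :
    ∃ sel : ℝ → Fin N, ∀ (k : Fin N) (t : ℝ), |t - (k : ℕ)| < 1 / 2 → sel t = k := by
  classical
  refine ⟨fun t => if h : ∃ k : Fin N, |t - (k : ℕ)| < 1 / 2 then h.choose else ⟨0, hN⟩,
    fun k t hk => ?_⟩
  have h : ∃ k : Fin N, |t - (k : ℕ)| < 1 / 2 := ⟨k, hk⟩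
  simp only [dif_pos h]
  have h1 := h.choose_spec
  generalize h.choose = l at h1
  rw [abs_lt] at hk h1
  have h2 : (l : ℕ) < (k : ℕ) + 1 := by exact_mod_cast (by linarith : ((l : ℕ) : ℝ) < (k : ℕ) + 1)
  have h3 : (k : ℕ) < (l : ℕ) + 1 := by exact_mod_cast (by linarith : ((k : ℕ) : ℝ) < (l : ℕ) + 1)
  exact Fin.ext (by omega)

theorem exists_locGeo_atlas {n : ℕ} {M : Type u} [MetricSpace M] [CompactSpace M] [Nonempty M]
    {A : RAtlas n M} (Φ : Frames A) (hm : Met A) :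
    ∃ Γ : LocGeo n M, ∀ a ∈ Γ.U, ∃ k, a.2 ∈ Φ.W k ∧ ∀ p, Γ.ex a p = Φ.e k (a.2, p) := by
  obtain ⟨k₀, -⟩ := Φ.cover (Classical.arbitrary M)
  obtain ⟨sel, hsel⟩ := exists_sel k₀.pos
  obtain ⟨ρ, hρ0, hρ⟩ := Φ.exists_rho
  let U : Set (P n) := ⋃ k : Fin Φ.N, {t : ℝ | |t - (k : ℕ)| < 1 / 2} ×ˢ Φ.W k
  have hU : ∀ a ∈ U, a.2 ∈ Φ.W (sel a.1) ∧ ∀ᶠ t in 𝓝 a.1, sel t = sel a.1 := by
    intro a ha
    obtain ⟨k, h1, h2⟩ := mem_iUnion.1 ha
    rw [hsel k _ h1]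
    refine ⟨h2, ?_⟩
    have : IsOpen {t : ℝ | |t - (k : ℕ)| < 1 / 2} := isOpen_lt (by fun_prop) continuous_const
    filter_upwards [this.mem_nhds h1] with t ht using hsel k t ht
  have hev : ∀ a ∈ U, ∀ p : E n, (fun z : P n × E n => Φ.e (sel z.1.1) (z.1.2, z.2)) =ᶠ[𝓝 (a, p)]
      fun z => Φ.e (sel a.1) (z.1.2, z.2) := by
    intro a ha p
    have hc : ContinuousAt (fun z : P n × E n => z.1.1) (a, p) := by fun_prop
    filter_upwards [hc.eventually (hU a ha).2] with z hz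
    rw [hz]
  have hk : ∀ k : Fin Φ.N, |((k : ℕ) : ℝ) - (k : ℕ)| < 1 / 2 := fun k => by simp
  refine ⟨{
    U := U
    F := ⋃ k : Fin Φ.N, {((k : ℕ) : ℝ)} ×ˢ Φ.K k
    ex := fun a p => Φ.e (sel a.1) (a.2, p)
    ρ := ρ
    U_open := isOpen_iUnion fun k =>
      (isOpen_lt (by fun_prop) continuous_const).prod (Φ.W_open k)
    F_compact := isCompact_iUnion fun k => isCompact_singleton.prod (Φ.K_compact k)
    F_sub := iUnion_mono fun k => prod_mono (singleton_subset_iff.2 (hk k)) (Φ.K_sub k)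
    surj := fun x => ?_
    cont := fun z hz => ?_
    iso := fun a ha b hb h => ?_
    flow := fun a ha b hb p s h => ?_
    dist_le := fun a ha p => ?_
    ρ_pos := hρ0
    loc_dist := fun a ha p hp => ?_
    loc_surj := fun a ha y hy => ?_
    loc_smooth := fun a ha b hb p q h => ?_
    inter := hm.inter }, fun a ha => ⟨sel a.1, (hU a ha).1, fun p => rfl⟩⟩
  · obtain ⟨k, y, hy, e⟩ := Φ.cover x
    refine ⟨((k : ℕ), y), mem_iUnion.2 ⟨k, rfl, hy⟩, ?_⟩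
    simp only [hsel k _ (hk k)]
    exact (Φ.e_zero (Φ.K_sub k hy)).trans e
  · refine (ContinuousAt.congr ?_ (hev z.1 hz.1 z.2).symm).continuousWithinAt
    exact ContinuousAt.comp (f := fun z : P n × E n => (z.1.2, z.2))
      (Φ.e_cont (hU z.1 hz.1).1) (by fun_prop)
  · rw [Φ.e_zero (hU a ha).1, Φ.e_zero (hU b hb).1] at h
    exact Φ.e_iso (hU a ha).1 (hU b hb).1 h
  · rw [Φ.e_zero (hU b hb).1] at h
    exact Φ.e_flow (hU a ha).1 (hU b hb).1 p s h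
  · rw [Φ.e_zero (hU a ha).1]
    exact Φ.e_dist_le hm (hU a ha).1 p
  · rw [Φ.e_zero (hU a ha).1]
    exact Frames.loc_dist hm hρ (hU a ha).1 hp
  · rw [Φ.e_zero (hU a ha).1] at hy
    exact Frames.loc_surj hm hρ (hU a ha).1 hy
  · have h1 := Frames.loc_smooth hm hρ (w := (a.2, p)) (w' := (b.2, q)) (hU a ha).1 (hU b hb).1 h
    have h2 := ContDiffAt.comp
      (f := fun z : (P n × E n) × (P n × E n) => ((z.1.1.2, z.1.2), (z.2.1.2, z.2.2)))
      ((a, p), (b, q)) h1 (by fun_prop)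
    refine h2.congr_of_eventuallyEq ?_
    filter_upwards [(continuousAt_fst (p := ((a, p), (b, q)))).eventually (hev a ha p),
      (continuousAt_snd (p := ((a, p), (b, q)))).eventually (hev b hb q)] with z h3 h4
    exact congrArg₂ cst h3 h4

end Crest.Agent.R226.G
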