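import Crest.Agent.R226.GE

/-! Row 226: uniform normal neighbourhoods.

* `e_fderiv`: the map is differentiable (`e_smooth`); on `(a, 0)` use `e_zero` (near `y` the map
  `y' ↦ c (e (y', 0))` is the identity), on `(0, b)` use `e_vel` along the ray `t • b`.
* `exists_isLog`: `ift_smooth` for `Θ w = (w.1, c (e w))` on the open set
  `{w | w.1 ∈ W k ∧ e w ∈ source}`, derivative `(a, b) ↦ (a, a + L b)`; choose `ball ×ˢ ball ⊆ S` and put
  `T = T₀ ∩ g ⁻¹' (ball ×ˢ ball)`, `lg w = (g w).2` (note `(g w).1 = w.1`).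
* `IsLog.grad`: differentiate `c (e (y, lg (y, w'))) = w'` at `w`; with `p = lg (y, w)`, `D` the derivative
  in `e_gauss` and `ξ` the derivative of `lg (y, ·)` in the direction `v` one has `D ξ = v`,
  `⟪p, ξ⟫ = bil (D p) v`, `bil (D p) (D p) = ‖p‖ ^ 2`; finish with `bil_sq_le`.
* `exists_rho`: finite subcover of `M` by the open sets `source ∩ c ⁻¹' ball y₀ r`. -/

set_option autoImplicit false

open Set Filter Metric
open scoped ContDiff Topology InnerProductSpace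

universe u

namespace Crest.Agent.R226.G

open Crest.Agent.R244 hiding E RAtlas
open Crest.GeometryTopology.CoordMetric Crest.GeometryTopology.ChartCurvature

namespace Frames

variable {n : ℕ} {M : Type u} [TopologicalSpace M] [CompactSpace M] [T2Space M] {A : RAtlas n M}
  (Φ : Frames A)

theorem glog_zero_mem {k : Fin Φ.N} {y : E n} (hy : y ∈ Φ.W k) : Φ.e k (y, 0) ∈ (Φ.c k).source := by
  rw [Φ.e_zero hy]
  exact (Φ.c k).map_target (Φ.W_sub k hy)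

theorem e_fderiv {k : Fin Φ.N} {y : E n} (hy : y ∈ Φ.W k) (a b : E n) :
    fderiv ℝ (fun w => Φ.c k (Φ.e k w)) (y, 0) (a, b) = a + Φ.L k y b := by
  have hd : HasFDerivAt (fun w => Φ.c k (Φ.e k w))
      (fderiv ℝ (fun w => Φ.c k (Φ.e k w)) (y, 0)) (y, 0) :=
    ((Φ.e_smooth (w := (y, 0)) hy (Φ.glog_zero_mem hy)).differentiableAt (by simp)).hasFDerivAt
  set D := fderiv ℝ (fun w => Φ.c k (Φ.e k w)) (y, 0) with hD
  have h1 : D (a, 0) = a := by
    have h2 : HasFDerivAt (fun y' : E n => Φ.c k (Φ.e k (y', 0)))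
        (D.comp (ContinuousLinearMap.inl ℝ (E n) (E n))) y :=
      HasFDerivAt.comp (g := fun w => Φ.c k (Φ.e k w)) (f := fun y' : E n => (y', (0 : E n))) y hd
        (hasFDerivAt_prodMk_left y 0)
    have h3 : HasFDerivAt (fun y' : E n => Φ.c k (Φ.e k (y', 0))) (ContinuousLinearMap.id ℝ _) y := by
      refine (hasFDerivAt_id y).congr_of_eventuallyEq ?_
      filter_upwards [(Φ.W_open k).mem_nhds hy] with y' hy'
      rw [Φ.e_zero hy']
      exact (Φ.c k).right_inv (Φ.W_sub k hy')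
    simpa using congrArg (fun T : E n →L[ℝ] E n => T a) (h2.unique h3)
  have h4 : D (0, b) = Φ.L k y b := by
    have h5 : HasDerivAt (fun t : ℝ => ((y, t • b) : E n × E n)) (0, b) 0 := by
      refine (hasDerivAt_const _ y).prodMk ?_
      simpa using (hasDerivAt_id (0 : ℝ)).smul_const b
    have hd' : HasFDerivAt (fun w => Φ.c k (Φ.e k w)) D (y, (0 : ℝ) • b) := by
      rwa [zero_smul]
    have h6 := HasFDerivAt.comp_hasDerivAt (l := fun w => Φ.c k (Φ.e k w))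
      (f := fun t : ℝ => ((y, t • b) : E n × E n)) (0 : ℝ) hd' h5
    rw [← Φ.e_vel hy b]
    exact h6.deriv.symm
  have : ((a, b) : E n × E n) = (a, 0) + (0, b) := by simp
  rw [this, map_add, h1, h4]

/-- `lg` is a smooth logarithm on the balls of radius `R` with centres in `ball y₀ r`. -/
structure IsLog (k : Fin Φ.N) (y₀ : E n) (r R : ℝ) (lg : E n × E n → E n)
    (T : Set (E n × E n)) : Prop where
  r_pos : 0 < r
  R_pos : 0 < R
  T_open : IsOpen T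
  sub : ball y₀ r ⊆ Φ.W k
  smooth : ContDiffOn ℝ ∞ lg T
  left : ∀ y ∈ ball y₀ r, ∀ p ∈ ball (0 : E n) R, Φ.e k (y, p) ∈ (Φ.c k).source ∧
    (y, Φ.c k (Φ.e k (y, p))) ∈ T ∧ lg (y, Φ.c k (Φ.e k (y, p))) = p
  right : ∀ w ∈ T, w.1 ∈ ball y₀ r ∧ w.2 ∈ (Φ.c k).target ∧ lg w ∈ ball (0 : E n) R ∧
    Φ.e k (w.1, lg w) = (Φ.c k).symm w.2

theorem exists_isLog {k : Fin Φ.N} {y₀ : E n} (hy₀ : y₀ ∈ Φ.W k) :
    ∃ r R lg T, Φ.IsLog k y₀ r R lg T := by
  obtain ⟨L, hL⟩ := Φ.exists_equiv hy₀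
  set O : Set (E n × E n) := {w | w.1 ∈ Φ.W k ∧ Φ.e k w ∈ (Φ.c k).source} with hO
  have hOo : IsOpen O := by
    refine isOpen_iff_mem_nhds.2 fun w hw => ?_
    exact Filter.inter_mem (continuous_fst.continuousAt ((Φ.W_open k).mem_nhds hw.1))
      (Φ.e_cont hw.1 ((Φ.c k).open_source.mem_nhds hw.2))
  have hΘ : ContDiffOn ℝ ∞ (fun w : E n × E n => (w.1, Φ.c k (Φ.e k w))) O := fun w hw =>
    (contDiffAt_fst.prodMk (Φ.e_smooth hw.1 hw.2)).contDiffWithinAt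
  have hz₀ : ((y₀, 0) : E n × E n) ∈ O := ⟨hy₀, Φ.glog_zero_mem hy₀⟩
  have hd : HasFDerivAt (fun w : E n × E n => (w.1, Φ.c k (Φ.e k w)))
      (((ContinuousLinearEquiv.refl ℝ (E n)).skewProd L (ContinuousLinearMap.id ℝ (E n)) :
        (E n × E n) ≃L[ℝ] (E n × E n)) : (E n × E n) →L[ℝ] (E n × E n)) (y₀, 0) := by
    have h1 := ((Φ.e_smooth (w := (y₀, 0)) hy₀ hz₀.2).differentiableAt (by simp)).hasFDerivAt
    refine (hasFDerivAt_fst.prodMk h1).congr_fderiv ?_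
    refine ContinuousLinearMap.ext fun w => ?_
    obtain ⟨a, b⟩ := w
    have h2 := Φ.e_fderiv hy₀ a b
    rw [← hL] at h2
    simp only [ContinuousLinearMap.prod_apply, ContinuousLinearMap.coe_fst', h2,
      ContinuousLinearEquiv.coe_coe, ContinuousLinearEquiv.skewProd_apply]
    simp [add_comm]
  obtain ⟨S, T, g, hS, hT, hzS, hSO, hg, hl, hr⟩ := ift_smooth hOo hΘ hz₀ _ hd
  obtain ⟨ε, hε, hball⟩ := Metric.isOpen_iff.1 hS _ hzS
  have hmem : ∀ w : E n × E n, w ∈ ball ((y₀, 0) : E n × E n) ε ↔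
      w.1 ∈ ball y₀ ε ∧ w.2 ∈ ball (0 : E n) ε := by
    intro w
    rw [← ball_prod_same]
    rfl
  refine ⟨ε, ε, fun w => (g w).2, T ∩ g ⁻¹' ball (y₀, 0) ε, hε, hε,
    hg.continuousOn.isOpen_inter_preimage hT isOpen_ball, ?_,
    (hg.mono inter_subset_left).snd, ?_, ?_⟩
  · intro y hy
    exact (hSO (hball ((hmem (y, 0)).2 ⟨hy, mem_ball_self hε⟩))).1
  · intro y hy p hp
    have h1 : ((y, p) : E n × E n) ∈ ball ((y₀, 0) : E n × E n) ε := (hmem (y, p)).2 ⟨hy, hp⟩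
    obtain ⟨h2, h3⟩ := hl _ (hball h1)
    refine ⟨(hSO (hball h1)).2, ⟨h2, ?_⟩, congrArg Prod.snd h3⟩
    rw [mem_preimage, h3]
    exact h1
  · intro w hw
    obtain ⟨h1, h2⟩ := hr w hw.1
    have h3 : (g w).1 = w.1 := (congrArg Prod.fst h2 :)
    have h4 : Φ.c k (Φ.e k (g w)) = w.2 := (congrArg Prod.snd h2 :)
    have h5 := (hmem _).1 hw.2
    have h6 : ((w.1, (g w).2) : E n × E n) = g w := by rw [← h3]
    refine ⟨h3 ▸ h5.1, h4 ▸ (Φ.c k).map_source (hSO h1).2, h5.2, ?_⟩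
    rw [h6, ← h4, (Φ.c k).left_inv (hSO h1).2]

variable {Φ} in
theorem IsLog.grad {k : Fin Φ.N} {y₀ : E n} {r R : ℝ} {lg : E n × E n → E n}
    {T : Set (E n × E n)} (h : Φ.IsLog k y₀ r R lg T) {y w : E n} (hw : (y, w) ∈ T) (v : E n) :
    ⟪lg (y, w), fderiv ℝ (fun w' => lg (y, w')) w v⟫_ℝ ^ 2 ≤
      ‖lg (y, w)‖ ^ 2 * bil (A.G (Φ.ch k) w) v v := by
  obtain ⟨h1, h2, -, h4⟩ := h.right _ hw
  have hy : y ∈ Φ.W k := h.sub h1
  simp only at h2 h4
  have hs : Φ.e k (y, lg (y, w)) ∈ (Φ.c k).source := h4 ▸ (Φ.c k).map_target h2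
  have hc : Φ.c k (Φ.e k (y, lg (y, w))) = w := by rw [h4, (Φ.c k).right_inv h2]
  have hf : DifferentiableAt ℝ (fun u => Φ.c k (Φ.e k (y, u))) (lg (y, w)) :=
    DifferentiableAt.comp (g := fun w => Φ.c k (Φ.e k w)) (f := fun u : E n => (y, u)) _
      ((Φ.e_smooth (w := (y, lg (y, w))) hy hs).differentiableAt (by simp)) (by fun_prop)
  have hl : DifferentiableAt ℝ (fun w' => lg (y, w')) w :=
    DifferentiableAt.comp (g := lg) (f := fun u : E n => (y, u)) _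
      ((h.smooth.contDiffAt (h.T_open.mem_nhds hw)).differentiableAt (by simp)) (by fun_prop)
  have h5 := HasFDerivAt.comp (g := fun u => Φ.c k (Φ.e k (y, u))) (f := fun w' => lg (y, w')) w
    hf.hasFDerivAt hl.hasFDerivAt
  have h6 : HasFDerivAt ((fun u => Φ.c k (Φ.e k (y, u))) ∘ fun w' => lg (y, w'))
      (ContinuousLinearMap.id ℝ _) w := by
    refine (hasFDerivAt_id w).congr_of_eventuallyEq ?_
    have hcont : ContinuousAt (fun u : E n => (y, u)) w := by fun_prop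
    filter_upwards [hcont (h.T_open.mem_nhds hw)] with u hu
    obtain ⟨-, h7, -, h8⟩ := h.right _ hu
    simp only at h7 h8
    simp only [Function.comp, id]
    rw [h8, (Φ.c k).right_inv h7]
  have h7 : fderiv ℝ (fun u => Φ.c k (Φ.e k (y, u))) (lg (y, w))
      (fderiv ℝ (fun w' => lg (y, w')) w v) = v :=
    congrArg (fun T : E n →L[ℝ] E n => T v) (h5.unique h6)
  have g1 := Φ.e_gauss hy (lg (y, w)) (fderiv ℝ (fun w' => lg (y, w')) w v) hs
  have g2 := Φ.e_gauss hy (lg (y, w)) (lg (y, w)) hs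
  rw [real_inner_self_eq_norm_sq] at g2
  rw [h7] at g1
  rw [← g1, ← g2]
  have hpd := A.posDef hs
  have := bil_sq_le hpd (fderiv ℝ (fun u => Φ.c k (Φ.e k (y, u))) (lg (y, w)) (lg (y, w))) v
  conv_rhs => rw [← hc]
  simpa only [hc] using this

theorem exists_rho : ∃ ρ > 0, ∀ x : M, ∃ k y₀ r R lg T, Φ.IsLog k y₀ r R lg T ∧ ρ < R ∧
    x ∈ (Φ.c k).source ∧ Φ.c k x ∈ ball y₀ r := by
  have key : ∀ x : M, ∃ k y₀ r R lg T, Φ.IsLog k y₀ r R lg T ∧
      (Φ.c k).source ∩ Φ.c k ⁻¹' ball y₀ r ∈ 𝓝 x := by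
    intro x
    obtain ⟨k, y, hy, rfl⟩ := Φ.cover x
    have hW := Φ.K_sub k hy
    obtain ⟨r, R, lg, T, h⟩ := Φ.exists_isLog hW
    refine ⟨k, y, r, R, lg, T, h, ((Φ.c k).isOpen_inter_preimage isOpen_ball).mem_nhds
      ⟨(Φ.c k).map_target (Φ.W_sub k hW), ?_⟩⟩
    rw [mem_preimage, (Φ.c k).right_inv (Φ.W_sub k hW)]
    exact mem_ball_self h.r_pos
  choose k y₀ r R lg T h hU using key
  obtain ⟨t, -, ht⟩ := isCompact_univ.elim_nhds_subcover
    (fun x => (Φ.c (k x)).source ∩ Φ.c (k x) ⁻¹' ball (y₀ x) (r x)) (fun x _ => hU x)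
  have hev : ∀ᶠ ρ in 𝓝[>] (0 : ℝ), ∀ x ∈ t, ρ < R x :=
    (Finset.eventually_all t).2 fun x _ => nhdsWithin_le_nhds (Iio_mem_nhds (h x).R_pos)
  obtain ⟨ρ, h1, h2⟩ := (hev.and self_mem_nhdsWithin).exists
  refine ⟨ρ, h2, fun x => ?_⟩
  obtain ⟨z, hz, hx⟩ := mem_iUnion₂.1 (ht (mem_univ x))
  exact ⟨k z, y₀ z, r z, R z, lg z, T z, h z, h1 z hz, hx.1, hx.2⟩

end Frames

end Crest.Agent.R226.G
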