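import Crest.Agent.R226.GE
import Crest.Agent.R244.Bridge3

/-! Row 226: the Riemannian atlas of a Riemannian manifold. -/

set_option autoImplicit false

open Set Filter Metric Bundle
open scoped ContDiff Topology Manifold Bundle

universe u

namespace Crest.Agent.R226.G

open Crest.Agent.R244 hiding E RAtlas
open Crest.GeometryTopology.CoordMetric Crest.GeometryTopology.ChartCurvature
open Crest.GeometryTopology.MTW (curveVel)

section Aux

variable {n : ℕ} {M : Type u} [TopologicalSpace M] [ChartedSpace (E n) M] [IsManifold (𝓡 n) ∞ M]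

theorem gm_field (x : M) (e : E n) :
    ContMDiffOn (𝓡 n) ((𝓡 n).prod 𝓘(ℝ, E n)) ∞
      (fun y => TotalSpace.mk' (E n) (E := fun x : M => TangentSpace (𝓡 n) x)
        ((chartAt (E n) x).symm y) (mfderiv (𝓡 n) (𝓡 n) (chartAt (E n) x).symm y e))
      (chartAt (E n) x).target := by
  have h1 := (contMDiffOn_chart_symm (I := 𝓡 n) (n := ∞) (x := x)).contMDiffOn_tangentMapWithin
    (m := ∞) (by simp) (chartAt (E n) x).open_target.uniqueMDiffOn
  have h2 : ContMDiff (𝓡 n) (𝓡 n).tangent ∞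
      (fun y : E n => TotalSpace.mk' (E n) (E := fun x : E n => TangentSpace (𝓡 n) x) y e) :=
    (contMDiff_vectorSpace_iff_contDiff (V := fun _ => e)).2 contDiff_const
  refine (h1.comp h2.contMDiffOn fun y hy => hy).congr fun y hy => ?_
  simp only [Function.comp_apply, tangentMapWithin]
  rw [mfderivWithin_of_isOpen (chartAt (E n) x).open_target hy]

theorem gm_smooth (i j x : M) (hi : x ∈ (chartAt (E n) i).source)
    (hj : x ∈ (chartAt (E n) j).source) :
    ContDiffAt ℝ ∞ (chartAt (E n) j ∘ (chartAt (E n) i).symm) (chartAt (E n) i x) := by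
  rw [← contMDiffAt_iff_contDiffAt]
  refine ContMDiffAt.comp (I' := 𝓡 n) _ ?_ (contMDiffAt_symm_of_mem_maximalAtlas
    (IsManifold.chart_mem_maximalAtlas i) ((chartAt (E n) i).map_source hi))
  rw [(chartAt (E n) i).left_inv hi]
  exact contMDiffAt_of_mem_maximalAtlas (IsManifold.chart_mem_maximalAtlas j) hj

theorem gm_chain (i j x : M) (hi : x ∈ (chartAt (E n) i).source)
    (hj : x ∈ (chartAt (E n) j).source) (u : E n) :
    (mfderiv (𝓡 n) (𝓡 n) (chartAt (E n) j).symm (chartAt (E n) j x)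
      (fderiv ℝ (chartAt (E n) j ∘ (chartAt (E n) i).symm) (chartAt (E n) i x) u) : E n) =
    mfderiv (𝓡 n) (𝓡 n) (chartAt (E n) i).symm (chartAt (E n) i x) u := by
  have h1 : MDifferentiableAt (𝓡 n) (𝓡 n) (chartAt (E n) i).symm (chartAt (E n) i x) :=
    (mdifferentiable_chart i).mdifferentiableAt_symm ((chartAt (E n) i).map_source hi)
  have h2 : MDifferentiableAt (𝓡 n) (𝓡 n) (chartAt (E n) j) x :=
    (mdifferentiable_chart j).mdifferentiableAt hj
  have h3 := mfderiv_comp_apply_of_eq _ h2 h1 ((chartAt (E n) i).left_inv hi) u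
  rw [mfderiv_eq_fderiv] at h3
  have h4 := (mdifferentiable_chart (I := 𝓡 n) j).symm_comp_deriv hj
  have h5 := congrArg (fun L : E n →L[ℝ] E n =>
    L (mfderiv (𝓡 n) (𝓡 n) (chartAt (E n) i).symm (chartAt (E n) i x) u)) h4
  exact (congrArg _ h3).trans h5

/-- a curve which is `C^k` in a chart is `C^k`. -/
theorem gm_contMDiffAt {k : WithTop ℕ∞} (hk : k ≤ ∞) {γ : ℝ → M} {t : ℝ} (hc : ContinuousAt γ t)
    {j : M} (hj : γ t ∈ (chartAt (E n) j).source)
    (h : ContDiffAt ℝ k (fun s => chartAt (E n) j (γ s)) t) :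
    ContMDiffAt 𝓘(ℝ, ℝ) (𝓡 n) k γ t := by
  have h1 : ContMDiffAt (𝓡 n) (𝓡 n) k (chartAt (E n) j).symm (chartAt (E n) j (γ t)) :=
    (contMDiffAt_symm_of_mem_maximalAtlas (n := ∞)
      (IsManifold.chart_mem_maximalAtlas j) ((chartAt (E n) j).map_source hj)).of_le hk
  have h2 := h1.comp t h.contMDiffAt
  refine h2.congr_of_eventuallyEq ?_
  filter_upwards [hc.preimage_mem_nhds ((chartAt (E n) j).open_source.mem_nhds hj)] with s hs
  exact ((chartAt (E n) j).left_inv hs).symm

/-- the velocity read in a chart. -/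
theorem gm_vel {γ : ℝ → M} {t : ℝ} (h : MDifferentiableAt 𝓘(ℝ, ℝ) (𝓡 n) γ t)
    {j : M} (hj : γ t ∈ (chartAt (E n) j).source) :
    (mfderiv 𝓘(ℝ, ℝ) (𝓡 n) γ t (1 : ℝ) : E n) =
      mfderiv (𝓡 n) (𝓡 n) (chartAt (E n) j).symm (chartAt (E n) j (γ t))
        (deriv (fun s => chartAt (E n) j (γ s)) t) := by
  have h2 : MDifferentiableAt (𝓡 n) (𝓡 n) (chartAt (E n) j) (γ t) :=
    (mdifferentiable_chart j).mdifferentiableAt hj
  have h3 := mfderiv_comp_apply t h2 h (1 : ℝ)
  rw [mfderiv_eq_fderiv] at h3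
  have h4 := (mdifferentiable_chart (I := 𝓡 n) j).symm_comp_deriv hj
  have h5 := congrArg (fun L : E n →L[ℝ] E n => L (mfderiv 𝓘(ℝ, ℝ) (𝓡 n) γ t (1 : ℝ))) h4
  exact ((congrArg _ h3).trans h5).symm

variable [RiemannianBundle (fun p : M => TangentSpace (𝓡 n) p)]

/-- the metric read in the chart at `x`. -/
noncomputable def mG (x : M) : MetricField n := fun y =>
  Matrix.of fun k l => inner ℝ
    (mfderiv (𝓡 n) (𝓡 n) (chartAt (E n) x).symm y (EuclideanSpace.single k 1))
    (mfderiv (𝓡 n) (𝓡 n) (chartAt (E n) x).symm y (EuclideanSpace.single l 1))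

omit [IsManifold (𝓡 n) ∞ M] in
theorem mG_bil (x : M) (y u v : E n) :
    bil (mG x y) u v = inner ℝ (mfderiv (𝓡 n) (𝓡 n) (chartAt (E n) x).symm y u)
      (mfderiv (𝓡 n) (𝓡 n) (chartAt (E n) x).symm y v) := by
  let L : E n →L[ℝ] TangentSpace (𝓡 n) ((chartAt (E n) x).symm y) :=
    mfderiv (𝓡 n) (𝓡 n) (chartAt (E n) x).symm y
  exact b3_bil_clm ((innerSL ℝ).bilinearComp L L) u v

theorem mG_posDef (x : M) {y : E n} (hy : y ∈ (chartAt (E n) x).target) :
    (mG x y).PosDef := by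
  refine Matrix.PosDef.of_dotProduct_mulVec_pos ?_ fun w hw => ?_
  · ext i j
    exact real_inner_comm (F := TangentSpace (𝓡 n) ((chartAt (E n) x).symm y)) _ _
  · have h1 : star w ⬝ᵥ (mG x y).mulVec w = bil (mG x y) (WithLp.toLp 2 w) (WithLp.toLp 2 w) := by
      simp only [bil, dotProduct, Matrix.mulVec, star_trivial, Finset.mul_sum]
      refine Finset.sum_congr rfl fun i _ => Finset.sum_congr rfl fun j _ => ?_
      ring
    rw [h1, mG_bil]
    refine real_inner_self_pos.2 fun h0 => hw ?_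
    have hinj := (mdifferentiable_chart (I := 𝓡 n) x).symm.mfderiv_injective hy
    have h2 : (WithLp.toLp 2 w : E n) = 0 := hinj (h0.trans (map_zero _).symm)
    simpa using h2

omit [IsManifold (𝓡 n) ∞ M] in
theorem gm_inner_congr {x y : M} (h : x = y) (u v : E n) :
    inner ℝ (E := TangentSpace (𝓡 n) x) u v = inner ℝ (E := TangentSpace (𝓡 n) y) u v := by
  subst h; rfl

variable [IsContMDiffRiemannianBundle (𝓡 n) ∞ (E n) (fun p : M => TangentSpace (𝓡 n) p)]

theorem mG_contDiffOn (x : M) (i j : Fin n) :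
    ContDiffOn ℝ ∞ (fun y => mG x y i j) (chartAt (E n) x).target := by
  rw [← contMDiffOn_iff_contDiffOn]
  exact ContMDiffOn.inner_bundle (F := E n) (E := fun p : M => TangentSpace (𝓡 n) p)
    (gm_field x (EuclideanSpace.single i 1)) (gm_field x (EuclideanSpace.single j 1))

variable (n M) in
/-- the Riemannian atlas of a Riemannian manifold. -/
noncomputable def mAtlas : RAtlas n M where
  ι := M
  chart := chartAt (E n)
  G := mG
  cover x := ⟨x, mem_chart_source _ x⟩
  riem x := ⟨(chartAt (E n) x).open_target, mG_contDiffOn x, fun _ hy => mG_posDef x hy⟩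
  smooth := gm_smooth
  isom i j x hi hj u v := by
    rw [mG_bil, mG_bil, gm_chain i j x hi hj, gm_chain i j x hi hj]
    exact gm_inner_congr (((chartAt (E n) i).left_inv hi).trans
      ((chartAt (E n) j).left_inv hj).symm) _ _

omit [IsContMDiffRiemannianBundle (𝓡 n) ∞ (E n) (fun p : M => TangentSpace (𝓡 n) p)] in
/-- squared speed of a curve in a chart. -/
theorem gm_speed {γ : ℝ → M} {t : ℝ} (h : MDifferentiableAt 𝓘(ℝ, ℝ) (𝓡 n) γ t)
    {j : M} (hj : γ t ∈ (chartAt (E n) j).source) :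
    ‖mfderiv 𝓘(ℝ, ℝ) (𝓡 n) γ t (1 : ℝ)‖ ^ 2 =
      bil (mG j (chartAt (E n) j (γ t))) (deriv (fun s => chartAt (E n) j (γ s)) t)
        (deriv (fun s => chartAt (E n) j (γ s)) t) := by
  rw [mG_bil, ← real_inner_self_eq_norm_sq]
  refine (gm_inner_congr ((chartAt (E n) j).left_inv hj).symm _ _).trans ?_
  exact congrArg₂ (inner ℝ (E := TangentSpace (𝓡 n) ((chartAt (E n) j).symm (chartAt (E n) j (γ t)))))
    (gm_vel h hj) (gm_vel h hj)

variable [CompactSpace M] [T2Space M]

/-- geodesics are smooth. -/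
theorem geo_contMDiff {γ : ℝ → M} (hγ : (mAtlas n M).Geo γ) :
    ContMDiff 𝓘(ℝ, ℝ) (𝓡 n) ∞ γ := fun t =>
  gm_contMDiffAt le_rfl (continuousOn_univ.1 hγ.1).continuousAt (mem_chart_source _ (γ t))
    (hγ.contDiffAt_crd (j := γ t) (mem_chart_source _ (γ t)))

end Aux

end Crest.Agent.R226.G
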