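import Crest.Agent.R226.GMan

/-! Row 226: the Riemannian distance and the atlas. -/

set_option autoImplicit false

open Set Filter Metric Bundle Manifold MeasureTheory
open scoped ContDiff Topology Manifold Bundle ENNReal

universe u

namespace Crest.Agent.R226.G

open Crest.Agent.R244 hiding E RAtlas
open Crest.GeometryTopology.CoordMetric Crest.GeometryTopology.ChartCurvature

variable {n : ℕ} {M : Type u} [MetricSpace M] [ChartedSpace (E n) M] [IsManifold (𝓡 n) ∞ M]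
  [RiemannianBundle (fun p : M => TangentSpace (𝓡 n) p)] [IsRiemannianManifold (𝓡 n) M]

omit [IsManifold (𝓡 n) ∞ M] in
/-- a curve of speed `c` is `c`-Lipschitz. -/
theorem gmet_speed {γ : ℝ → M} (hγ : ContMDiff 𝓘(ℝ, ℝ) (𝓡 n) 1 γ) {c : ℝ} (hc : 0 ≤ c)
    (h : ∀ t, ‖mfderiv 𝓘(ℝ, ℝ) (𝓡 n) γ t (1 : ℝ)‖ = c) (s t : ℝ) :
    dist (γ s) (γ t) ≤ c * |s - t| := by
  wlog hst : s ≤ t generalizing s t
  · rw [dist_comm, abs_sub_comm]
    exact this t s (le_of_not_ge hst)
  have h1 : edist (γ s) (γ t) ≤ pathELength (𝓡 n) γ s t := by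
    rw [IsRiemannianManifold.out (I := 𝓡 n)]
    exact riemannianEDist_le_pathELength hγ.contMDiffOn rfl rfl hst
  have h2 : pathELength (𝓡 n) γ s t = ENNReal.ofReal (c * |s - t|) := by
    rw [pathELength_eq_lintegral_mfderiv_Icc]
    have h3 : ∀ r, ‖mfderiv 𝓘(ℝ, ℝ) (𝓡 n) γ r (1 : ℝ)‖ₑ = ENNReal.ofReal c := fun r => by
      rw [← ofReal_norm, h r]
    refine (lintegral_congr (g := fun _ => ENNReal.ofReal c) h3).trans ?_
    rw [setLIntegral_const, Real.volume_Icc,
      ← ENNReal.ofReal_mul hc, abs_sub_comm, abs_of_nonneg (sub_nonneg.2 hst)]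
  rw [h2, edist_dist] at h1
  exact (ENNReal.ofReal_le_ofReal_iff (by positivity)).1 h1

set_option backward.isDefEq.respectTransparency false in
theorem gmet_lip (f : M → ℝ) (hf : ∀ x, ∃ j, x ∈ (chartAt (E n) j).source ∧
      ContDiffAt ℝ 1 (f ∘ (chartAt (E n) j).symm) (chartAt (E n) j x) ∧
      ∀ v, fderiv ℝ (f ∘ (chartAt (E n) j).symm) (chartAt (E n) j x) v ^ 2 ≤
        bil (mG j (chartAt (E n) j x)) v v) (x y : M) : f y - f x ≤ dist x y := by
  refine le_of_forall_gt_imp_ge_of_dense fun r hr => ?_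
  have hr0 : 0 < r := lt_of_le_of_lt dist_nonneg hr
  have hr' : riemannianEDist (𝓡 n) x y < ENNReal.ofReal r := by
    rw [← IsRiemannianManifold.out (I := 𝓡 n), edist_dist]
    exact (ENNReal.ofReal_lt_ofReal_iff hr0).2 hr
  obtain ⟨γ, hγx, hγy, γ_smooth, hγ, -⟩ :=
    exists_lt_locally_constant_of_riemannianEDist_lt hr' zero_lt_one
  have key : ∀ t, ContDiffAt ℝ 1 (f ∘ γ) t ∧
      ‖deriv (f ∘ γ) t‖ ≤ ‖mfderiv 𝓘(ℝ, ℝ) (𝓡 n) γ t (1 : ℝ)‖ := by
    intro t
    obtain ⟨j, hj, hd, hb⟩ := hf (γ t)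
    have h1 : ContDiffAt ℝ 1 (fun s => chartAt (E n) j (γ s)) t := by
      rw [← contMDiffAt_iff_contDiffAt]
      exact ((contMDiffAt_of_mem_maximalAtlas (I := 𝓡 n) (n := ∞)
        (IsManifold.chart_mem_maximalAtlas j) hj).of_le (by simp)).comp t (γ_smooth t)
    have h2 : f ∘ γ =ᶠ[𝓝 t] (f ∘ (chartAt (E n) j).symm) ∘ fun s => chartAt (E n) j (γ s) := by
      filter_upwards [γ_smooth.continuous.continuousAt.preimage_mem_nhds
        ((chartAt (E n) j).open_source.mem_nhds hj)] with s hs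
      simp only [Function.comp_apply, (chartAt (E n) j).left_inv hs]
    refine ⟨(hd.comp t h1).congr_of_eventuallyEq h2, ?_⟩
    have h3 : deriv (f ∘ γ) t = fderiv ℝ (f ∘ (chartAt (E n) j).symm) (chartAt (E n) j (γ t))
        (deriv (fun s => chartAt (E n) j (γ s)) t) := by
      rw [h2.deriv_eq]
      exact ((hd.differentiableAt one_ne_zero).hasFDerivAt.comp_hasDerivAt t
        (h1.differentiableAt one_ne_zero).hasDerivAt).deriv
    refine le_of_sq_le_sq ?_ (norm_nonneg _)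
    rw [gm_speed (γ_smooth.mdifferentiable one_ne_zero t) hj, h3, Real.norm_eq_abs, sq_abs]
    exact hb _
  have hC : ContDiff ℝ 1 (f ∘ γ) := contDiff_iff_contDiffAt.2 fun t => (key t).1
  have h4 : ‖(f ∘ γ) 1 - (f ∘ γ) 0‖ₑ < ENNReal.ofReal r :=
    calc ‖(f ∘ γ) 1 - (f ∘ γ) 0‖ₑ ≤ ∫⁻ t in Icc 0 1, ‖deriv (f ∘ γ) t‖ₑ :=
          enorm_sub_le_lintegral_deriv_of_contDiffOn_Icc hC.contDiffOn zero_le_one
      _ ≤ ∫⁻ t in Icc 0 1, ‖mfderiv 𝓘(ℝ, ℝ) (𝓡 n) γ t 1‖ₑ := by
          refine lintegral_mono fun t => ?_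
          rw [← ofReal_norm, ← ofReal_norm]
          exact ENNReal.ofReal_le_ofReal (key t).2
      _ = pathELength (𝓡 n) γ 0 1 := pathELength_eq_lintegral_mfderiv_Icc.symm
      _ < ENNReal.ofReal r := hγ
  rw [← ofReal_norm, ENNReal.ofReal_lt_ofReal_iff hr0] at h4
  simp only [Function.comp_apply, hγx, hγy] at h4
  exact ((le_abs_self _).trans h4.le)

omit [IsManifold (𝓡 n) ∞ M] in
include n in
theorem gmet_approx (x y : M) {t : ℝ} (ht : t ∈ Icc (0 : ℝ) 1) {ε : ℝ} (hε : 0 < ε) :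
    ∃ z, dist x z = t * dist x y ∧ dist z y ≤ (1 - t) * dist x y + ε := by
  have hr0 : 0 < dist x y + ε := by positivity
  have hr' : riemannianEDist (𝓡 n) x y < ENNReal.ofReal (dist x y + ε) := by
    rw [← IsRiemannianManifold.out (I := 𝓡 n), edist_dist]
    exact (ENNReal.ofReal_lt_ofReal_iff hr0).2 (by linarith)
  obtain ⟨γ, hγx, hγy, γ_smooth, hγ, -⟩ :=
    exists_lt_locally_constant_of_riemannianEDist_lt hr' zero_lt_one
  have hc : Continuous fun s => dist x (γ s) := continuous_const.dist γ_smooth.continuous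
  have hm : t * dist x y ∈ Icc (dist x (γ 0)) (dist x (γ 1)) := by
    rw [hγx, hγy, dist_self]
    exact ⟨mul_nonneg ht.1 dist_nonneg, mul_le_of_le_one_left dist_nonneg ht.2⟩
  obtain ⟨s, hs, hsd⟩ := intermediate_value_Icc zero_le_one hc.continuousOn hm
  refine ⟨γ s, hsd, ?_⟩
  have h1 : edist x (γ s) ≤ pathELength (𝓡 n) γ 0 s := by
    rw [IsRiemannianManifold.out (I := 𝓡 n)]
    exact riemannianEDist_le_pathELength γ_smooth.contMDiffOn hγx rfl hs.1
  have h2 : edist (γ s) y ≤ pathELength (𝓡 n) γ s 1 := by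
    rw [IsRiemannianManifold.out (I := 𝓡 n)]
    exact riemannianEDist_le_pathELength γ_smooth.contMDiffOn rfl hγy hs.2
  have h3 := ((add_le_add h1 h2).trans_eq (pathELength_add hs.1 hs.2)).trans_lt hγ
  rw [edist_dist, edist_dist, ← ENNReal.ofReal_add dist_nonneg dist_nonneg,
    ENNReal.ofReal_lt_ofReal_iff hr0] at h3
  have hsd' : dist x (γ s) = t * dist x y := hsd
  linarith

omit [IsManifold (𝓡 n) ∞ M] in
include n in
theorem gmet_inter [CompactSpace M] (x y : M) {t : ℝ} (ht : t ∈ Icc (0 : ℝ) 1) :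
    ∃ z, dist x z = t * dist x y ∧ dist z y = (1 - t) * dist x y := by
  have hS : IsCompact {z | dist x z = t * dist x y} :=
    (isClosed_eq (continuous_const.dist continuous_id) continuous_const).isCompact
  obtain ⟨z₀, hz₀, -⟩ := gmet_approx (n := n) x y ht one_pos
  obtain ⟨z, hz, hmin⟩ := hS.exists_isMinOn ⟨z₀, hz₀⟩
    (continuous_id.dist (continuous_const (y := y))).continuousOn
  have hz' : dist x z = t * dist x y := hz
  refine ⟨z, hz', le_antisymm (le_of_forall_pos_le_add fun ε hε => ?_) ?_⟩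
  · obtain ⟨w, hw, hw'⟩ := gmet_approx (n := n) x y ht hε
    exact (hmin hw).trans hw'
  · have := dist_triangle x z y
    linarith

variable [IsContMDiffRiemannianBundle (𝓡 n) ∞ (E n) (fun p : M => TangentSpace (𝓡 n) p)]
  [CompactSpace M]

theorem met_mAtlas : Met (mAtlas n M) := by
  refine ⟨fun γ hγ j s t c hj hc hb => ?_, gmet_lip, fun x y t ht => gmet_inter (n := n) x y ht⟩
  have hs := geo_contMDiff hγ
  refine gmet_speed (n := n) (hs.of_le (by simp)) hc (fun r => ?_) s t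
  have h1 := gm_speed (hs.mdifferentiable (by simp) r) (mem_chart_source (E n) (γ r))
  have h2 := RAtlas.GeoOn.speed hγ isOpen_univ isPreconnected_univ (mem_univ r) (mem_univ s)
    (i := γ r) (mem_chart_source (E n) (γ r)) hj
  exact (pow_left_inj₀ (norm_nonneg _) hc two_ne_zero).1 (h1.trans (h2.trans hb))

end Crest.Agent.R226.G
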