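import Crest.Agent.R226.GLog

/-! Row 226: geodesics are minimising in normal balls.

`IsLog.lower`: let `ψ` be the function of `exists_cut` for `a < b < R`, let `V` be the open set
`{z ∈ source | (y, c z) ∈ T}` and `f z = ψ (√(‖lg (y, c z)‖ ^ 2 + ε ^ 2))` on `V`, `f z = ψ b` off `V`.
On `V` it is `C¹` in the chart with gradient at most `1` (`IsLog.grad`); off the compact set
`e (y, ·) '' closedBall 0 b ⊆ V` it is locally constant. Apply `Met.lip` to `f` between `symm y` (where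
`f = ε`, `lg = 0` by `left` and `e_zero`) and `z`; `ψ t ≥ min a t` by monotonicity.
`IsLog.near`: let `ε → 0` in `lower` with `dist < a < R`. -/

set_option autoImplicit false

open Set Filter Metric
open scoped ContDiff Topology InnerProductSpace

universe u

namespace Crest.Agent.R226.G

open Crest.Agent.R244 hiding E RAtlas
open Crest.GeometryTopology.CoordMetric Crest.GeometryTopology.ChartCurvature

namespace Frames

variable {n : ℕ} {M : Type u} [MetricSpace M] [CompactSpace M] {A : RAtlas n M} {Φ : Frames A}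
  {k : Fin Φ.N} {y₀ : E n} {r R : ℝ} {lg : E n × E n → E n} {T : Set (E n × E n)}

theorem IsLog.lower (hm : Met A) (h : Φ.IsLog k y₀ r R lg T) {y : E n} (hy : y ∈ ball y₀ r)
    {a ε : ℝ} (hε : 0 < ε) (hεa : ε ≤ a) (haR : a < R) (z : M) :
    (z ∈ (Φ.c k).source → (y, Φ.c k z) ∈ T →
      min a ‖lg (y, Φ.c k z)‖ - ε ≤ dist ((Φ.c k).symm y) z) ∧
    (¬ (z ∈ (Φ.c k).source ∧ (y, Φ.c k z) ∈ T) → a - ε ≤ dist ((Φ.c k).symm y) z) := by
  classical
  obtain ⟨b, hab, hbR⟩ := exists_between haR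
  obtain ⟨ψ, hψ, hmono, hder, hid, hconst⟩ := exists_cut hab
  set f : M → ℝ := fun z => if z ∈ (Φ.c k).source ∧ (y, Φ.c k z) ∈ T then
    ψ (√(‖lg (y, Φ.c k z)‖ ^ 2 + ε ^ 2)) else ψ b with hf
  have hyW : y ∈ Φ.W k := h.sub hy
  have hsq : ∀ p : E n, ‖p‖ ≤ √(‖p‖ ^ 2 + ε ^ 2) := fun p =>
    Real.le_sqrt_of_sq_le (by nlinarith [sq_nonneg ε])
  have hK : IsCompact ((fun p => Φ.e k (y, p)) '' closedBall (0 : E n) b) := by
    refine (isCompact_closedBall _ _).image (continuous_iff_continuousAt.2 fun p => ?_)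
    exact (Φ.e_cont (w := (y, p)) hyW).comp (f := fun p : E n => (y, p)) (by fun_prop)
  have key := hm.lip f (fun x => ?_) ((Φ.c k).symm y) z
  · have h0 : f ((Φ.c k).symm y) = ε := by
      have h1 := h.left y hy 0 (mem_ball_self h.R_pos)
      rw [Φ.e_zero hyW] at h1
      simp only [hf, if_pos (And.intro h1.1 h1.2.1), h1.2.2, norm_zero]
      rw [zero_pow two_ne_zero, zero_add, Real.sqrt_sq hε.le, hid ε hεa]
    rw [h0] at key
    refine ⟨fun h1 h2 => le_trans ?_ key, fun h1 => le_trans ?_ key⟩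
    · simp only [hf, if_pos (And.intro h1 h2)]
      have := hmono ((min_le_right a _).trans (hsq (lg (y, Φ.c k z))))
      rw [hid _ (min_le_left _ _)] at this
      linarith
    · simp only [hf, if_neg h1]
      have := hmono hab.le
      rw [hid _ le_rfl] at this
      linarith
  by_cases hx : x ∈ (Φ.c k).source ∧ (y, Φ.c k x) ∈ T
  · refine ⟨Φ.ch k, hx.1, ?_⟩
    have hev : f ∘ (A.chart (Φ.ch k)).symm =ᶠ[𝓝 (A.chart (Φ.ch k) x)]
        fun w => ψ (√(‖lg (y, w)‖ ^ 2 + ε ^ 2)) := by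
      have h1 : ∀ᶠ w in 𝓝 (Φ.c k x), (y, w) ∈ T :=
        (Continuous.prodMk_right y).continuousAt.eventually (h.T_open.mem_nhds hx.2)
      filter_upwards [h1] with w hw
      have hw' : w ∈ (Φ.c k).target := (h.right _ hw).2.1
      have e1 : Φ.c k ((Φ.c k).symm w) = w := (Φ.c k).right_inv hw'
      simp only [Function.comp, hf, e1, if_pos (And.intro ((Φ.c k).map_target hw') hw)]
    have hg : ContDiffAt ℝ 1 (fun w => lg (y, w)) (Φ.c k x) :=
      ((h.smooth.contDiffAt (h.T_open.mem_nhds hx.2)).of_le (by simp)).comp (Φ.c k x)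
        (f := fun w : E n => (y, w)) (by fun_prop)
    have hpos : 0 < ‖lg (y, Φ.c k x)‖ ^ 2 + ε ^ 2 := by positivity
    refine ⟨ContDiffAt.congr_of_eventuallyEq ?_ hev, fun v => ?_⟩
    · exact hψ.contDiffAt.comp _ (((hg.norm_sq ℝ).add contDiffAt_const).sqrt hpos.ne')
    · have d1 := (hg.differentiableAt (by simp)).hasFDerivAt
      have d2 := (d1.norm_sq.add_const (ε ^ 2)).sqrt hpos.ne'
      have d3 := ((hψ.differentiable (by simp) _).hasDerivAt).comp_hasFDerivAt (Φ.c k x) d2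
      rw [hev.fderiv_eq, show fderiv ℝ (fun w => ψ (√(‖lg (y, w)‖ ^ 2 + ε ^ 2)))
        (A.chart (Φ.ch k) x) = _ from d3.fderiv]
      have hb := bil_self_nonneg ((A.riem (Φ.ch k)).posDef _ ((Φ.c k).map_source hx.1)) v
      have hgr := h.grad hx.2 v
      set s := √(‖lg (y, Φ.c k x)‖ ^ 2 + ε ^ 2) with hs
      have hs0 : 0 < s := Real.sqrt_pos.2 hpos
      have hs2 : s ^ 2 = ‖lg (y, Φ.c k x)‖ ^ 2 + ε ^ 2 := Real.sq_sqrt hpos.le
      have hd : deriv ψ s ^ 2 ≤ 1 := by
        rw [← sq_abs]; exact pow_le_one₀ (abs_nonneg _) (hder s)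
      simp only [ContinuousLinearMap.smul_apply, ContinuousLinearMap.comp_apply, smul_eq_mul,
        innerSL_apply_apply, nsmul_eq_mul, Nat.cast_ofNat]
      set I := ⟪lg (y, Φ.c k x), fderiv ℝ (fun w' => lg (y, w')) (Φ.c k x) v⟫_ℝ
      set B := bil (A.G (Φ.ch k) (Φ.c k x)) v v
      have e1 : (deriv ψ s * (1 / (2 * s) * (2 * I))) ^ 2 = deriv ψ s ^ 2 * (I ^ 2 / s ^ 2) := by
        field_simp
      have e2 : I ^ 2 / s ^ 2 ≤ B := by
        rw [div_le_iff₀ (by positivity), hs2]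
        nlinarith [mul_nonneg hb (sq_nonneg ε)]
      rw [e1]
      exact (mul_le_of_le_one_left (by positivity) hd).trans e2
  · obtain ⟨j, hj⟩ := A.cover x
    refine ⟨j, hj, ?_⟩
    have hxK : x ∉ (fun p => Φ.e k (y, p)) '' closedBall (0 : E n) b := by
      rintro ⟨p, hp, rfl⟩
      have h1 := h.left y hy p (closedBall_subset_ball hbR hp)
      exact hx ⟨h1.1, h1.2.1⟩
    have hev : f ∘ (A.chart j).symm =ᶠ[𝓝 (A.chart j x)] fun _ => ψ b := by
      have h1 : ∀ᶠ z in 𝓝 x, f z = ψ b := by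
        filter_upwards [hK.isClosed.isOpen_compl.mem_nhds hxK] with z hz
        by_cases hz' : z ∈ (Φ.c k).source ∧ (y, Φ.c k z) ∈ T
        · simp only [hf, if_pos hz']
          refine hconst _ (le_trans ?_ (hsq _))
          by_contra hlt
          refine hz ⟨lg (y, Φ.c k z), mem_closedBall_zero_iff.2 (not_le.1 hlt).le, ?_⟩
          exact ((h.right _ hz'.2).2.2.2).trans ((Φ.c k).left_inv hz'.1)
        · simp only [hf, if_neg hz']
      exact ((A.chart j).tendsto_symm hj).eventually h1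
    refine ⟨contDiffAt_const.congr_of_eventuallyEq hev, fun v => ?_⟩
    rw [hev.fderiv_eq]
    simpa using bil_self_nonneg ((A.riem j).posDef _ ((A.chart j).map_source hj)) v

theorem IsLog.near (hm : Met A) (h : Φ.IsLog k y₀ r R lg T) {y : E n} (hy : y ∈ ball y₀ r)
    {z : M} (hz : dist ((Φ.c k).symm y) z < R) :
    z ∈ (Φ.c k).source ∧ (y, Φ.c k z) ∈ T ∧
      dist ((Φ.c k).symm y) z = ‖lg (y, Φ.c k z)‖ := by
  obtain ⟨a, ha, haR⟩ := exists_between hz
  have hd : 0 ≤ dist ((Φ.c k).symm y) z := dist_nonneg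
  have h1 : z ∈ (Φ.c k).source ∧ (y, Φ.c k z) ∈ T := by
    by_contra hc
    have := (h.lower hm hy (a := a) (ε := (a - dist ((Φ.c k).symm y) z) / 2) (by linarith)
      (by linarith) haR z).2 hc
    linarith
  refine ⟨h1.1, h1.2, le_antisymm ?_ ?_⟩
  · have h2 := Φ.e_dist_le hm (h.sub hy) (lg (y, Φ.c k z))
    rwa [show Φ.e k (y, lg (y, Φ.c k z)) = z from
      ((h.right _ h1.2).2.2.2).trans ((Φ.c k).left_inv h1.1)] at h2
  · have h2 : min a ‖lg (y, Φ.c k z)‖ ≤ dist ((Φ.c k).symm y) z := by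
      refine le_of_forall_pos_le_add fun ε hε => ?_
      have := (h.lower hm hy (a := a) (ε := min ε a) (lt_min hε (by linarith))
        (min_le_right _ _) haR z).1 h1.1 h1.2
      linarith [min_le_left ε a]
    rcases min_le_iff.1 h2 with h3 | h3
    · linarith
    · exact h3

end Frames

end Crest.Agent.R226.G
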