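import Crest.Agent.R226.GDefs

/-! Row 226 (copy of row 244): change of charts. -/

set_option autoImplicit false

open Set Filter
open scoped ContDiff Topology

universe u

namespace Crest.Agent.R226.G

open Crest.Agent.R244 hiding E RAtlas

open Crest.GeometryTopology.CoordMetric Crest.GeometryTopology.ChartCurvature
  Crest.GeometryTopology.Geodesic

variable {n : ℕ}

theorem trans_two_le : (2 : WithTop ℕ∞) ≤ ∞ := WithTop.coe_le_coe.2 (le_top (a := (2 : ℕ∞)))

theorem trans_hasFDerivAt_fderiv {ψ : E n → E n} {x : E n} (hψ : ContDiffAt ℝ ∞ ψ x) :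
    HasFDerivAt (fderiv ℝ ψ) (fderiv ℝ (fderiv ℝ ψ) x) x :=
  ((hψ.fderiv_right (m := 1) trans_two_le).differentiableAt one_ne_zero).hasFDerivAt

theorem trans_fderiv_apply {ψ : E n → E n} {x : E n} (hψ : ContDiffAt ℝ ∞ ψ x) (u v : E n) :
    fderiv ℝ (fun y => fderiv ℝ ψ y v) x u = fderiv ℝ (fderiv ℝ ψ) x u v := by
  rw [((trans_hasFDerivAt_fderiv hψ).clm_apply (hasFDerivAt_const v x)).fderiv]
  simp

theorem trans_fderiv_tmap {ψ : E n → E n} {x : E n} (hψ : ContDiffAt ℝ ∞ ψ x) (v a b : E n) :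
    fderiv ℝ (tmap ψ) (x, v) (a, b) =
      (fderiv ℝ ψ x a, fderiv ℝ ψ x b + fderiv ℝ (fderiv ℝ ψ) x a v) := by
  have h1 : HasFDerivAt (fun z : E n × E n => ψ z.1)
      ((fderiv ℝ ψ x).comp (ContinuousLinearMap.fst ℝ (E n) (E n))) (x, v) :=
    HasFDerivAt.comp (x, v) (hψ.differentiableAt (by simp)).hasFDerivAt hasFDerivAt_fst
  have h2 : HasFDerivAt (fun z : E n × E n => fderiv ℝ ψ z.1)
      ((fderiv ℝ (fderiv ℝ ψ) x).comp (ContinuousLinearMap.fst ℝ (E n) (E n))) (x, v) :=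
    HasFDerivAt.comp (x, v) (trans_hasFDerivAt_fderiv hψ) hasFDerivAt_fst
  have h3 := h1.prodMk (h2.clm_apply (hasFDerivAt_snd (𝕜 := ℝ) (p := (x, v))))
  have h4 : fderiv ℝ (tmap ψ) (x, v) = _ := h3.fderiv
  rw [h4]
  simp

namespace RAtlas

variable {M : Type u} [TopologicalSpace M] (A : RAtlas n M)

theorem posDef {i : A.ι} {x : M} (hx : x ∈ (A.chart i).source) :
    (A.G i (A.chart i x)).PosDef :=
  (A.riem i).posDef _ ((A.chart i).map_source hx)

theorem tr_apply {i : A.ι} (j : A.ι) {x : M} (hx : x ∈ (A.chart i).source) :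
    A.tr i j (A.chart i x) = A.chart j x := by
  simp only [tr, Function.comp_apply, (A.chart i).left_inv hx]

theorem contDiffAt_tr {i j : A.ι} {x : M} (hi : x ∈ (A.chart i).source)
    (hj : x ∈ (A.chart j).source) : ContDiffAt ℝ ∞ (A.tr i j) (A.chart i x) :=
  A.smooth i j x hi hj

theorem trans_near {i : A.ι} {x : M} (hi : x ∈ (A.chart i).source) {U : Set M} (hU : U ∈ 𝓝 x) :
    ∀ᶠ y in 𝓝 (A.chart i x), ∃ x', x' ∈ (A.chart i).source ∧ x' ∈ U ∧ A.chart i x' = y := by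
  have h1 := (A.chart i).map_source hi
  have h2 : ContinuousAt (A.chart i).symm (A.chart i x) := (A.chart i).continuousAt_symm h1
  have h3 : U ∈ 𝓝 ((A.chart i).symm (A.chart i x)) := by rwa [(A.chart i).left_inv hi]
  filter_upwards [(A.chart i).open_target.mem_nhds h1, h2.preimage_mem_nhds h3] with y hy hy'
  exact ⟨_, (A.chart i).map_target hy, hy', (A.chart i).right_inv hy⟩

theorem fderiv_tr_self {i : A.ι} {x : M} (hi : x ∈ (A.chart i).source) (v : E n) :
    fderiv ℝ (A.tr i i) (A.chart i x) v = v := by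
  have h : A.tr i i =ᶠ[𝓝 (A.chart i x)] id := by
    filter_upwards [A.trans_near hi univ_mem] with y ⟨x', h1, _, h2⟩
    rw [← h2, A.tr_apply i h1, id]
  rw [h.fderiv_eq, fderiv_id]
  rfl

theorem fderiv_tr_comp {i j k : A.ι} {x : M} (hi : x ∈ (A.chart i).source)
    (hj : x ∈ (A.chart j).source) (hk : x ∈ (A.chart k).source) (v : E n) :
    fderiv ℝ (A.tr j k) (A.chart j x) (fderiv ℝ (A.tr i j) (A.chart i x) v) =
      fderiv ℝ (A.tr i k) (A.chart i x) v := by
  have h : A.tr i k =ᶠ[𝓝 (A.chart i x)] A.tr j k ∘ A.tr i j := by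
    filter_upwards [A.trans_near hi ((A.chart j).open_source.mem_nhds hj)] with y ⟨x', h1, h2, h3⟩
    rw [← h3, Function.comp_apply, A.tr_apply k h1, A.tr_apply j h1, A.tr_apply k h2]
  have h1 : DifferentiableAt ℝ (A.tr j k) (A.tr i j (A.chart i x)) := by
    rw [A.tr_apply j hi]
    exact (A.contDiffAt_tr hj hk).differentiableAt (by simp)
  rw [h.fderiv_eq, fderiv_comp _ h1 ((A.contDiffAt_tr hi hj).differentiableAt (by simp)),
    A.tr_apply j hi]
  rfl

theorem contDiffAt_tmap {i j : A.ι} {x : M} (hi : x ∈ (A.chart i).source)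
    (hj : x ∈ (A.chart j).source) (v : E n) :
    ContDiffAt ℝ ∞ (tmap (A.tr i j)) (A.chart i x, v) := by
  have h := A.contDiffAt_tr hi hj
  have h1 : ContDiffAt ℝ ∞ (fun z : E n × E n => A.tr i j z.1) (A.chart i x, v) :=
    ContDiffAt.comp (g := A.tr i j) (A.chart i x, v) h contDiffAt_fst
  have h2 : ContDiffAt ℝ ∞ (fun z : E n × E n => fderiv ℝ (A.tr i j) z.1) (A.chart i x, v) :=
    ContDiffAt.comp (A.chart i x, v) (h.fderiv_right (m := ∞) (by simp)) contDiffAt_fst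
  exact h1.prodMk (h2.clm_apply contDiffAt_snd)

theorem crd_eventuallyEq {i : A.ι} (j : A.ι) {γ : ℝ → M} {s : ℝ} (hγ : ContinuousAt γ s)
    (hi : γ s ∈ (A.chart i).source) : A.crd j γ =ᶠ[𝓝 s] A.tr i j ∘ A.crd i γ := by
  filter_upwards [hγ.preimage_mem_nhds ((A.chart i).open_source.mem_nhds hi)] with s' hs'
  exact (A.tr_apply j hs').symm

theorem jet_tr {i j : A.ι} {γ : ℝ → M} {s : ℝ} (hγ : ContinuousAt γ s)
    (hi : γ s ∈ (A.chart i).source) (hj : γ s ∈ (A.chart j).source)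
    (hd : DifferentiableAt ℝ (A.crd i γ) s) :
    jet (A.crd j γ) s = tmap (A.tr i j) (jet (A.crd i γ) s) := by
  have h := A.crd_eventuallyEq j hγ hi
  have h1 : HasFDerivAt (A.tr i j) (fderiv ℝ (A.tr i j) (A.crd i γ s)) (A.crd i γ s) :=
    ((A.contDiffAt_tr hi hj).differentiableAt (by simp)).hasFDerivAt
  refine Prod.ext h.eq_of_nhds ?_
  exact h.deriv_eq.trans (h1.comp_hasDerivAt s hd.hasDerivAt).deriv

/-- the sprays of two charts are related by the tangent map of the transition. -/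
theorem tmap_spray {i j : A.ι} {x : M} (hi : x ∈ (A.chart i).source)
    (hj : x ∈ (A.chart j).source) (v : E n) :
    fderiv ℝ (tmap (A.tr i j)) (A.chart i x, v) (spray (A.G i) (A.chart i x, v)) =
      spray (A.G j) (tmap (A.tr i j) (A.chart i x, v)) := by
  have h := A.contDiffAt_tr hi hj
  have h1 := Gam_trans (A.riem i) (A.riem j) (ψ := A.tr i j) ((A.chart i).map_source hi)
    (by rw [A.tr_apply j hi]; exact (A.chart j).map_source hj) (h.of_le trans_two_le) (by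
      filter_upwards [A.trans_near hi ((A.chart j).open_source.mem_nhds hj)]
        with y ⟨x', h1, h2, h3⟩ u w
      rw [← h3, A.tr_apply j h1]
      exact A.isom i j x' h1 h2 u w) v v
  rw [trans_fderiv_apply h] at h1
  simp only [spray, tmap]
  rw [trans_fderiv_tmap h, map_neg, ← h1]
  congr 1
  abel

theorem geoOn_of_pointwise {γ : ℝ → M} {S : Set ℝ} (hS : IsOpen S) (hγ : ContinuousOn γ S)
    (h : ∀ s ∈ S, ∃ i, γ s ∈ (A.chart i).source ∧
      (∀ᶠ s' in 𝓝 s, DifferentiableAt ℝ (A.crd i γ) s') ∧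
      HasDerivAt (jet (A.crd i γ)) (spray (A.G i) (jet (A.crd i γ) s)) s) : A.GeoOn γ S := by
  refine ⟨hγ, fun s hs j hj => ?_⟩
  obtain ⟨i, hi, hd, hD⟩ := h s hs
  have hc := hγ.continuousAt (hS.mem_nhds hs)
  have h1 : jet (A.crd j γ) =ᶠ[𝓝 s] tmap (A.tr i j) ∘ jet (A.crd i γ) := by
    filter_upwards [hS.mem_nhds hs, hd, hc.preimage_mem_nhds ((A.chart i).open_source.mem_nhds hi),
      hc.preimage_mem_nhds ((A.chart j).open_source.mem_nhds hj)] with s' h1 h2 h3 h4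
    exact A.jet_tr (hγ.continuousAt (hS.mem_nhds h1)) h3 h4 h2
  have h2 : HasFDerivAt (tmap (A.tr i j)) (fderiv ℝ (tmap (A.tr i j)) (jet (A.crd i γ) s))
      (jet (A.crd i γ) s) :=
    ((A.contDiffAt_tmap hi hj _).differentiableAt (by simp)).hasFDerivAt
  have h3 := (h2.comp_hasDerivAt s hD).congr_of_eventuallyEq h1
  have h4 : fderiv ℝ (tmap (A.tr i j)) (jet (A.crd i γ) s) (spray (A.G i) (jet (A.crd i γ) s)) =
      spray (A.G j) (tmap (A.tr i j) (jet (A.crd i γ) s)) := A.tmap_spray hi hj _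
  rwa [h4, ← A.jet_tr hc hi hj hd.self_of_nhds] at h3

theorem jac_of_pointwise {γ : ℝ → M} (hγ : A.Geo γ) {ξ : A.ι → ℝ → E n}
    (hc : ∀ i j s, γ s ∈ (A.chart i).source → γ s ∈ (A.chart j).source →
      ξ j s = fderiv ℝ (A.tr i j) (A.chart i (γ s)) (ξ i s))
    (h : ∀ s, ∃ i, γ s ∈ (A.chart i).source ∧ (∀ᶠ s' in 𝓝 s, DifferentiableAt ℝ (ξ i) s') ∧
      HasDerivAt (jet (ξ i)) (fderiv ℝ (spray (A.G i)) (jet (A.crd i γ) s) (jet (ξ i) s)) s) :
    A.Jac γ ξ := by
  refine ⟨hc, fun j s hj => ?_⟩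
  obtain ⟨i, hi, hd, hD⟩ := h s
  have hcont : Continuous γ := continuousOn_univ.1 hγ.1
  have hnear : ∀ s', γ s' ∈ (A.chart i).source → γ s' ∈ (A.chart j).source →
      ∀ᶠ t in 𝓝 s', γ t ∈ (A.chart i).source ∧ γ t ∈ (A.chart j).source := fun s' h1 h2 =>
    Filter.inter_mem (hcont.continuousAt.preimage_mem_nhds ((A.chart i).open_source.mem_nhds h1))
      (hcont.continuousAt.preimage_mem_nhds ((A.chart j).open_source.mem_nhds h2))
  have h1 : ∀ᶠ s' in 𝓝 s,
      jet (ξ j) s' = fderiv ℝ (tmap (A.tr i j)) (jet (A.crd i γ) s') (jet (ξ i) s') := by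
    filter_upwards [hnear s hi hj, hd] with s' ⟨h1, h2⟩ h3
    have hψ := A.contDiffAt_tr h1 h2
    have h4 := (jet_fst (hγ.2 s' (mem_univ _) i h1)).1
    have h5 : ξ j =ᶠ[𝓝 s'] fun t => fderiv ℝ (A.tr i j) (A.crd i γ t) (ξ i t) := by
      filter_upwards [hnear s' h1 h2] with t ⟨h6, h7⟩
      exact hc i j t h6 h7
    have h6 : HasDerivAt (fun t => fderiv ℝ (A.tr i j) (A.crd i γ t))
        (fderiv ℝ (fderiv ℝ (A.tr i j)) (A.chart i (γ s')) (deriv (A.crd i γ) s')) s' :=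
      (trans_hasFDerivAt_fderiv hψ).comp_hasDerivAt s' h4
    have h7 := (h6.clm_apply h3.hasDerivAt).deriv
    have h8 := (hψ.isSymmSndFDerivAt (by simpa using trans_two_le)).eq
      (deriv (A.crd i γ) s') (ξ i s')
    have h9 := trans_fderiv_tmap hψ (deriv (A.crd i γ) s') (ξ i s') (deriv (ξ i) s')
    refine Eq.trans ?_ h9.symm
    refine Prod.ext (hc i j s' h1 h2) ?_
    change deriv (ξ j) s' = _
    rw [h5.deriv_eq, h7, h8, add_comm]
    rfl
  have h2 := lin_related (S := spray (A.G i)) (S' := spray (A.G j)) (Ψ := tmap (A.tr i j))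
    (z := jet (A.crd i γ)) (ζ := jet (ξ i)) (s := s)
    ((A.contDiffAt_tmap hi hj _).of_le trans_two_le)
    ((contDiffAt_spray (A.riem i) ((A.chart i).map_source hi)).differentiableAt (by simp))
    ((contDiffAt_spray (A.riem j) (by
      change A.tr i j (A.chart i (γ s)) ∈ _
      rw [A.tr_apply j hi]; exact (A.chart j).map_source hj)).differentiableAt (by simp))
    (by
      have h3 := continuousAt_fst (p := jet (A.crd i γ) s) |>.eventually
        (A.trans_near hi ((A.chart j).open_source.mem_nhds hj))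
      filter_upwards [h3] with ⟨y, v⟩ ⟨x', h4, h5, h6⟩
      obtain rfl : A.chart i x' = y := h6
      exact A.tmap_spray h4 h5 v)
    (hγ.2 s (mem_univ _) i hi) hD
  rw [← h1.self_of_nhds, ← A.jet_tr hcont.continuousAt hi hj
    (jet_fst (hγ.2 s (mem_univ _) i hi)).1.differentiableAt] at h2
  exact h2.congr_of_eventuallyEq h1

variable {A}

theorem Geo.continuous {γ : ℝ → M} (hγ : A.Geo γ) : Continuous γ :=
  continuousOn_univ.1 hγ.1

theorem GeoOn.vel_compat {γ : ℝ → M} {S : Set ℝ} (hγ : A.GeoOn γ S) (hS : IsOpen S) {s : ℝ}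
    (hs : s ∈ S) {i j : A.ι} (hi : γ s ∈ (A.chart i).source) (hj : γ s ∈ (A.chart j).source) :
    deriv (A.crd j γ) s = fderiv ℝ (A.tr i j) (A.chart i (γ s)) (deriv (A.crd i γ) s) := by
  exact congrArg Prod.snd (A.jet_tr (hγ.1.continuousAt (hS.mem_nhds hs)) hi hj
    (jet_fst (hγ.2 s hs i hi)).1.differentiableAt)

theorem Jac.van_of {γ : ℝ → M} {ξ : A.ι → ℝ → E n} (hξ : A.Jac γ ξ) {s : ℝ} {i : A.ι}
    (hi : γ s ∈ (A.chart i).source) (h : ξ i s = 0) : A.Van γ ξ s := by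
  intro j hj
  rw [hξ.compat i j s hi hj, h, map_zero]

/-- `⟨D J, J⟩` does not depend on the chart. -/
theorem Jac.pair_indep {γ : ℝ → M} {ξ : A.ι → ℝ → E n} (hγ : A.Geo γ) (hξ : A.Jac γ ξ) {s : ℝ}
    {i j : A.ι} (hi : γ s ∈ (A.chart i).source) (hj : γ s ∈ (A.chart j).source) :
    bil (A.G i (A.chart i (γ s))) (cov (A.G i) (A.crd i γ) (ξ i) s) (ξ i s) =
      bil (A.G j (A.chart j (γ s))) (cov (A.G j) (A.crd j γ) (ξ j) s) (ξ j s) := by
  have key : ∀ k, γ s ∈ (A.chart k).source →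
      HasDerivAt (fun t => bil (A.G k (A.crd k γ t)) (ξ k t) (ξ k t))
        (2 * bil (A.G k (A.chart k (γ s))) (cov (A.G k) (A.crd k γ) (ξ k) s) (ξ k s)) s := by
    intro k hk
    have h1 := (jet_fst (hξ.eqn k s hk)).1
    have h2 := hasDerivAt_bil (A.riem k) (c := A.crd k γ) ((A.chart k).map_source hk)
      (jet_fst (hγ.2 s (mem_univ _) k hk)).1 h1 h1
    rw [two_mul]
    nth_rewrite 2 [bil_comm (A.posDef hk)]
    exact h2
  have h3 : (fun t => bil (A.G i (A.crd i γ t)) (ξ i t) (ξ i t)) =ᶠ[𝓝 s]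
      fun t => bil (A.G j (A.crd j γ t)) (ξ j t) (ξ j t) := by
    filter_upwards [hγ.continuous.continuousAt.preimage_mem_nhds
      ((A.chart i).open_source.mem_nhds hi), hγ.continuous.continuousAt.preimage_mem_nhds
      ((A.chart j).open_source.mem_nhds hj)] with t h4 h5
    rw [hξ.compat i j t h4 h5]
    exact A.isom i j (γ t) h4 h5 _ _
  have h4 := (key i hi).unique ((key j hj).congr_of_eventuallyEq h3)
  linarith

end RAtlas

end Crest.Agent.R226.G
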