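import Crest.Agent.R226.HarnAux

/-! Row 226: Harnack inequality for `det N` along steep chords. -/

set_option autoImplicit false

open Set Filter Metric MeasureTheory
open scoped ContDiff Topology InnerProductSpace ENNReal

namespace Crest.Agent.R226

variable {n : ℕ} {M : Type*} [MetricSpace M] [CompactSpace M] {G : LocGeo n M}

theorem NData.harnack (D : NData G) (hM : G.MTW) {u₀ t₁ : ℝ} (hu : 0 < u₀) (ht : 0 < t₁) :
    ∃ c > 0, ∀ a ∈ G.F, ∀ p₀ ∈ G.K a, ∀ p₁ ∈ G.K a, ∀ t ∈ Icc t₁ 1,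
      (∀ s ∈ Icc t 1, u₀ * ‖p₁ - p₀‖ ^ 2 ≤ |⟪p₀ + s • (p₁ - p₀), p₁ - p₀⟫_ℝ|) →
      c * (D.N (a, p₁)).det ≤ (D.N (a, p₀ + t • (p₁ - p₀))).det := by
  obtain ⟨τ₀, h0, h1, h⟩ := D.short hM hu
  set c : ℝ := (1 / 48 : ℝ) ^ n with hc
  have hc0 : 0 < c := by positivity
  have hc1 : c ≤ 1 := pow_le_one₀ (by norm_num) (by norm_num)
  have key : ∀ k : ℕ, ∀ a ∈ G.F, ∀ p₀ ∈ G.K a, ∀ p₁ ∈ G.K a, ∀ t ∈ Icc ((1 - τ₀) ^ k) 1,
      (∀ s ∈ Icc t 1, u₀ * ‖p₁ - p₀‖ ^ 2 ≤ |⟪p₀ + s • (p₁ - p₀), p₁ - p₀⟫_ℝ|) →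
      c ^ k * (D.N (a, p₁)).det ≤ (D.N (a, p₀ + t • (p₁ - p₀))).det := by
    intro k
    induction k with
    | zero =>
      intro a ha p₀ hp₀ p₁ hp₁ t ht _
      have : t = 1 := le_antisymm ht.2 (by simpa using ht.1)
      simp [this]
    | succ k ih =>
      intro a ha p₀ hp₀ p₁ hp₁ t ht hst
      have hq : 0 < 1 - τ₀ := by linarith
      have ht0 : 0 < t := lt_of_lt_of_le (pow_pos hq _) ht.1
      set s := min 1 (t / (1 - τ₀)) with hs
      have hts : t ≤ s := le_min ht.2 (by rw [le_div_iff₀ hq]; nlinarith)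
      have hs1 : s ≤ 1 := min_le_left _ _
      have hs0 : 0 < s := ht0.trans_le hts
      have hsk : (1 - τ₀) ^ k ≤ s := le_min (pow_le_one₀ hq.le (by linarith))
        (by rw [le_div_iff₀ hq, ← pow_succ]; exact ht.1)
      have hst' : (1 - τ₀) * s ≤ t := by
        have := min_le_right 1 (t / (1 - τ₀))
        rw [← hs, le_div_iff₀ hq] at this
        linarith
      have h2 := ih a ha p₀ hp₀ p₁ hp₁ s ⟨hsk, hs1⟩ fun s' hs' => hst s' ⟨hts.trans hs'.1, hs'.2⟩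
      have hrK : p₀ + s • (p₁ - p₀) ∈ G.K a :=
        (LocGeo.convex_K hM (G.F_sub ha)).add_smul_sub_mem hp₀ hp₁ ⟨hs0.le, hs1⟩
      have e1 : p₀ + s • (p₁ - p₀) - p₀ = s • (p₁ - p₀) := by module
      have h3 := h a ha p₀ hp₀ _ hrK (by
        rw [e1, norm_smul, real_inner_smul_right, abs_mul, Real.norm_eq_abs, abs_of_pos hs0,
          mul_pow]
        have h4 := mul_le_mul_of_nonneg_left (hst s ⟨hts, hs1⟩) hs0.le
        have h5 : 0 ≤ s * (u₀ * ‖p₁ - p₀‖ ^ 2) := by positivity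
        nlinarith) (1 - t / s) ⟨by rw [sub_nonneg, div_le_one hs0]; exact hts, by
          have : 1 - τ₀ ≤ t / s := by rw [le_div_iff₀ hs0]; exact hst'
          linarith⟩
      have e2 : p₀ + s • (p₁ - p₀) - (1 - t / s) • (p₀ + s • (p₁ - p₀) - p₀) =
          p₀ + t • (p₁ - p₀) := by
        rw [e1, smul_smul, show (1 - t / s) * s = s - t by field_simp]; module
      rw [e2] at h3
      calc c ^ (k + 1) * (D.N (a, p₁)).det = c * (c ^ k * (D.N (a, p₁)).det) := by ring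
        _ ≤ c * (D.N (a, p₀ + s • (p₁ - p₀))).det := by gcongr
        _ ≤ _ := h3
  obtain ⟨k, hk⟩ := exists_pow_lt_of_lt_one ht (show 1 - τ₀ < 1 by linarith)
  exact ⟨c ^ k, by positivity, fun a ha p₀ hp₀ p₁ hp₁ t ht' hst =>
    key k a ha p₀ hp₀ p₁ hp₁ t ⟨hk.le.trans ht'.1, ht'.2⟩ hst⟩

theorem NData.move (D : NData G) (hM : G.MTW) {u₀ t₁ : ℝ} (hu : 0 < u₀) (ht : 0 < t₁) :
    ∃ c > 0, ∀ a ∈ G.F, ∀ z ∈ G.K a, ∀ A ⊆ G.K a, MeasurableSet A → ∀ t ∈ Icc t₁ 1,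
      (∀ r ∈ A, ∀ s ∈ Icc t 1, u₀ * ‖r - z‖ ^ 2 ≤ |⟪z + s • (r - z), r - z⟫_ℝ|) →
      ENNReal.ofReal c * D.m a A ≤ D.m a ((fun r => z + t • (r - z)) '' A) := by
  obtain ⟨c, hc, h⟩ := D.harnack hM hu ht
  refine ⟨t₁ ^ n * c, by positivity, fun a ha z hz A hA hAm t ht' hst => ?_⟩
  have ht0 : 0 < t := ht.trans_le ht'.1
  have hd : ∀ r ∈ A, HasFDerivWithinAt (fun r : E n => z + t • (r - z))
      (t • ContinuousLinearMap.id ℝ (E n)) A r := fun r _ =>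
    ((((hasFDerivAt_id r).sub_const z).const_smul t).const_add z).hasFDerivWithinAt
  have hinj : InjOn (fun r : E n => z + t • (r - z)) A := fun r _ r' _ e => by
    have e1 : t • (r - z) = t • (r' - z) := add_left_cancel e
    exact sub_left_injective (smul_right_injective _ ht0.ne' e1)
  have hdet : (t • ContinuousLinearMap.id ℝ (E n)).det = t ^ n := by
    have := LinearMap.det_smul t (LinearMap.id : E n →ₗ[ℝ] E n)
    rw [LinearMap.det_id, mul_one, finrank_euclideanSpace_fin] at this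
    exact this
  unfold NData.m
  rw [lintegral_image_eq_lintegral_abs_det_fderiv_mul volume hAm hd hinj,
    ← lintegral_const_mul' _ _ ENNReal.ofReal_ne_top]
  refine setLIntegral_mono' hAm fun r hr => ?_
  rw [hdet, ← ENNReal.ofReal_mul (by positivity), ← ENNReal.ofReal_mul (abs_nonneg _),
    abs_of_pos (pow_pos ht0 n)]
  refine ENNReal.ofReal_le_ofReal ?_
  have h1 := h a ha z hz r (hA hr) t ht' (hst r hr)
  have h2 : 0 ≤ (D.N (a, r)).det :=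
    det_nonneg_of_nonneg (D.symm (a, r) ⟨ha, hA hr⟩) (D.nonneg (a, r) ⟨ha, hA hr⟩)
  have h3 : t₁ ^ n ≤ t ^ n := pow_le_pow_left₀ ht.le ht'.1 n
  calc t₁ ^ n * c * (D.N (a, r)).det = t₁ ^ n * (c * (D.N (a, r)).det) := by ring
    _ ≤ t ^ n * (c * (D.N (a, r)).det) := by gcongr
    _ ≤ t ^ n * (D.N (a, z + t • (r - z))).det := by gcongr

end Crest.Agent.R226
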