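import Crest.Agent.R226.Defs

/-! Row 226: comparison of determinants by counting dimensions (Courant–Fischer). -/

set_option autoImplicit false

open Set
open scoped InnerProductSpace

namespace Crest.Agent.R226

variable {n : ℕ}

theorem harn_quad {A : E n →L[ℝ] E n} {φ : OrthonormalBasis (Fin n) ℝ (E n)} {l : Fin n → ℝ}
    (h : ∀ i, A (φ i) = l i • φ i) (w : E n) :
    ⟪A w, w⟫_ℝ = ∑ j, l j * ⟪φ j, w⟫_ℝ ^ 2 := by
  have h1 : A w = ∑ j, ⟪φ j, w⟫_ℝ • l j • φ j := by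
    conv_lhs => rw [← φ.sum_repr' w]
    simp only [map_sum, map_smul, h]
  rw [h1, sum_inner]
  refine Finset.sum_congr rfl fun j _ => ?_
  rw [real_inner_smul_left, real_inner_smul_left]
  ring

theorem harn_eig {A : E n →L[ℝ] E n} (hA : ∀ u v, ⟪A u, v⟫_ℝ = ⟪u, A v⟫_ℝ) :
    ∃ (φ : OrthonormalBasis (Fin n) ℝ (E n)) (l : Fin n → ℝ), Antitone l ∧
      (∀ i, A (φ i) = l i • φ i) ∧ A.det = ∏ i, l i := by
  have hT : (A : E n →ₗ[ℝ] E n).IsSymmetric := hA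
  have hD : Module.finrank ℝ (E n) = n := finrank_euclideanSpace_fin
  exact ⟨hT.eigenvectorBasis hD, hT.eigenvalues hD, hT.eigenvalues_antitone hD,
    fun i => hT.apply_eigenvectorBasis hD i, hT.det_eq_prod_eigenvalues hD⟩

theorem harn_eig_eq {A : E n →L[ℝ] E n} {φ : OrthonormalBasis (Fin n) ℝ (E n)} {l : Fin n → ℝ}
    (h : ∀ i, A (φ i) = l i • φ i) (i : Fin n) : ⟪A (φ i), φ i⟫_ℝ = l i := by
  rw [h, real_inner_smul_left, real_inner_self_eq_norm_sq, φ.orthonormal.1 i]; ring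

theorem harn_test {A : E n →L[ℝ] E n} {φ : OrthonormalBasis (Fin n) ℝ (E n)} {l : Fin n → ℝ}
    (hl : Antitone l) (h : ∀ i, A (φ i) = l i • φ i) (i : Fin n) {Y : Submodule ℝ (E n)}
    (hY : (i : ℕ) < Module.finrank ℝ Y) {s : ℝ} (hs : ∀ y ∈ Y, s * ‖y‖ ^ 2 ≤ ⟪A y, y⟫_ℝ) :
    s ≤ l i := by
  let T : Y →ₗ[ℝ] (Fin i → ℝ) := LinearMap.pi fun j =>
    (innerSL ℝ (φ (Fin.castLE i.2.le j))).toLinearMap ∘ₗ Y.subtype
  obtain ⟨y, hy, hy0⟩ := (Submodule.ne_bot_iff _).1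
    (T.ker_ne_bot_of_finrank_lt (by simpa using hY))
  have hw : ∀ j < i, ⟪φ j, (y : E n)⟫_ℝ = 0 := fun j hj =>
    congrFun (LinearMap.mem_ker.1 hy) ⟨j, hj⟩
  have h1 : ⟪A y, (y : E n)⟫_ℝ ≤ l i * ‖(y : E n)‖ ^ 2 := by
    rw [harn_quad h, ← φ.sum_sq_inner_right, Finset.mul_sum]
    refine Finset.sum_le_sum fun j _ => ?_
    rcases lt_or_ge j i with hj | hj
    · rw [hw j hj]; simp
    · exact mul_le_mul_of_nonneg_right (hl hj) (sq_nonneg _)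
  have h2 : 0 < ‖(y : E n)‖ ^ 2 := pow_pos (norm_pos_iff.2 fun e => hy0 (Subtype.ext e)) 2
  exact le_of_mul_le_mul_right ((hs y y.2).trans h1) h2

theorem harn_exists_test {A : E n →L[ℝ] E n} {φ : OrthonormalBasis (Fin n) ℝ (E n)}
    {l : Fin n → ℝ} (hl : Antitone l) (h : ∀ i, A (φ i) = l i • φ i) (i : Fin n) :
    ∃ Y : Submodule ℝ (E n), Module.finrank ℝ Y = i + 1 ∧
      ∀ y ∈ Y, l i * ‖y‖ ^ 2 ≤ ⟪A y, y⟫_ℝ := by
  have hi : (i : ℕ) + 1 ≤ n := i.2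
  refine ⟨Submodule.span ℝ (Set.range fun j : Fin (i + 1) => φ (Fin.castLE hi j)), ?_,
    fun y hy => ?_⟩
  · rw [finrank_span_eq_card, Fintype.card_fin]
    exact φ.orthonormal.linearIndependent.comp _ (Fin.castLE_injective hi)
  · rw [harn_quad h, ← φ.sum_sq_inner_right, Finset.mul_sum]
    refine Finset.sum_le_sum fun j _ => ?_
    rcases le_or_gt j i with hj | hj
    · exact mul_le_mul_of_nonneg_right (hl hj) (sq_nonneg _)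
    · obtain ⟨c, rfl⟩ := (Submodule.mem_span_range_iff_exists_fun ℝ).1 hy
      have : ⟪φ j, ∑ k, c k • φ (Fin.castLE hi k)⟫_ℝ = 0 := by
        rw [inner_sum]
        refine Finset.sum_eq_zero fun k _ => ?_
        rw [real_inner_smul_right, φ.orthonormal.2, mul_zero]
        intro e
        have h1 : (j : ℕ) = k := congrArg Fin.val e
        have h2 : (i : ℕ) < j := hj
        have h3 := k.2
        omega
      rw [this]; simp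

theorem det_nonneg_of_nonneg {A : E n →L[ℝ] E n} (hA : ∀ u v, ⟪A u, v⟫_ℝ = ⟪u, A v⟫_ℝ)
    (h0 : ∀ u, 0 ≤ ⟪A u, u⟫_ℝ) : 0 ≤ A.det := by
  obtain ⟨φ, l, -, h, hd⟩ := harn_eig hA
  rw [hd]
  exact Finset.prod_nonneg fun i _ => harn_eig_eq h i ▸ h0 _

/-- determinants compared through test subspaces. -/
theorem det_le_of_subspaces {A B : E n →L[ℝ] E n} (hA : ∀ u v, ⟪A u, v⟫_ℝ = ⟪u, A v⟫_ℝ)
    (hB : ∀ u v, ⟪B u, v⟫_ℝ = ⟪u, B v⟫_ℝ) (hA0 : ∀ u, 0 ≤ ⟪A u, u⟫_ℝ)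
    (hA1 : ∀ u, ⟪A u, u⟫_ℝ ≤ ‖u‖ ^ 2) (hB0 : ∀ u, 0 ≤ ⟪B u, u⟫_ℝ) {c : ℝ} (hc : 0 ≤ c)
    (h : ∀ (V : Submodule ℝ (E n)) (ν : ℝ), 0 < ν → ν ≤ 1 →
      (∀ v ∈ V, ν * ‖v‖ ^ 2 ≤ ⟪A v, v⟫_ℝ) → ∃ V' : Submodule ℝ (E n),
        Module.finrank ℝ V ≤ Module.finrank ℝ V' ∧ ∀ v ∈ V', c * ν * ‖v‖ ^ 2 ≤ ⟪B v, v⟫_ℝ) :
    c ^ n * A.det ≤ B.det := by
  obtain ⟨φ, l, hl, hφ, hd⟩ := harn_eig hA
  obtain ⟨φ', l', hl', hφ', hd'⟩ := harn_eig hB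
  have h0 : ∀ i, 0 ≤ l i := fun i => harn_eig_eq hφ i ▸ hA0 _
  have h1 : ∀ i, l i ≤ 1 := fun i => by
    have := hA1 (φ i)
    rwa [harn_eig_eq hφ i, φ.orthonormal.1 i, one_pow] at this
  have h0' : ∀ i, 0 ≤ l' i := fun i => harn_eig_eq hφ' i ▸ hB0 _
  have key : ∀ i, c * l i ≤ l' i := fun i => by
    rcases (h0 i).eq_or_lt with e | hp
    · rw [← e, mul_zero]; exact h0' i
    · obtain ⟨Y, hY, hYs⟩ := harn_exists_test hl hφ i
      obtain ⟨V', hV', hs⟩ := h Y (l i) hp (h1 i) hYs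
      exact harn_test hl' hφ' i (by omega) hs
  rw [hd, hd']
  calc c ^ n * ∏ i, l i = ∏ i, c * l i := by
        rw [Finset.prod_mul_distrib, Finset.prod_const, Finset.card_univ, Fintype.card_fin]
    _ ≤ ∏ i, l' i := Finset.prod_le_prod (fun i _ => mul_nonneg hc (h0 i)) fun i _ => key i

end Crest.Agent.R226
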