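import Crest.Agent.R226.DASM
import Crest.Agent.R226.HarnLA

/-! Row 226: the short step of the Harnack inequality for `det N`. -/

set_option autoImplicit false

open Set Filter Metric
open scoped ContDiff Topology InnerProductSpace

namespace Crest.Agent.R226

variable {n : ℕ} {M : Type*} [MetricSpace M] [CompactSpace M] {G : LocGeo n M}

theorem harn_abs_inner_le (A : E n →L[ℝ] E n) (u : E n) : |⟪A u, u⟫_ℝ| ≤ ‖A‖ * ‖u‖ ^ 2 := by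
  calc |⟪A u, u⟫_ℝ| ≤ ‖A u‖ * ‖u‖ := abs_real_inner_le_norm _ _
    _ ≤ ‖A‖ * ‖u‖ * ‖u‖ := by gcongr; exact A.le_opNorm u
    _ = ‖A‖ * ‖u‖ ^ 2 := by ring

/-- `C¹` and `C²` bounds for `N` along chords of `K`. -/
theorem NData.reg (D : NData G) (hM : G.MTW) : ∃ C : ℝ, 1 ≤ C ∧ ∀ a ∈ G.F, ∀ p ∈ G.K a,
    ∀ q ∈ G.K a, ‖D.N (a, p) - D.N (a, q)‖ ≤ C * ‖p - q‖ ∧ ∀ τ ∈ Icc (0 : ℝ) 1,
      ‖(1 - τ) • D.N (a, p) + τ • D.N (a, q) - D.N (a, p - τ • (p - q))‖ ≤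
        C * τ * ‖p - q‖ ^ 2 := by
  obtain ⟨r, hr, C, hC0, hC⟩ := unif_bound G.isCompact_KF (Φ := D.N) 2
    (fun z hz => (D.smooth z hz).of_le (WithTop.coe_le_coe.2 (le_top (a := (2 : ℕ∞)))))
  have hK : ∀ a ∈ G.F, ∀ p ∈ G.K a, ∀ q ∈ G.K a, ∀ t ∈ Icc (0 : ℝ) 1,
      ((a, q) : P n × E n) + t • ((0 : P n), p - q) ∈ cthickening r G.KF := by
    intro a ha p hp q hq t ht
    refine self_subset_cthickening _ ⟨by simpa using ha, ?_⟩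
    have := (LocGeo.convex_K hM (G.F_sub ha)).add_smul_sub_mem hq hp ht
    simpa using this
  have hnorm : ∀ v : E n, ‖(((0 : P n), v) : P n × E n)‖ = ‖v‖ := fun v => by
    simp [Prod.norm_def]
  have hadd : ∀ (a : P n) (p q : E n), ((a, q) : P n × E n) + ((0 : P n), p - q) = (a, p) :=
    fun a p q => by simp
  refine ⟨C + 1, by linarith, fun a ha p hp q hq => ⟨?_, fun τ hτ => ?_⟩⟩
  · have h1 := taylor0 (Φ := D.N) (z := (a, q)) (v := ((0 : P n), p - q)) (C := C)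
      fun t ht => ⟨(hC _ (hK a ha p hp q hq t ht)).1.of_le (by norm_num),
        (hC _ (hK a ha p hp q hq t ht)).2 1 (by norm_num)⟩
    rw [hadd, hnorm] at h1
    nlinarith [norm_nonneg (p - q)]
  · set w := p - τ • (p - q) with hw
    have hwK : w ∈ G.K a := by
      have := (LocGeo.convex_K hM (G.F_sub ha)).add_smul_sub_mem hp hq hτ
      convert this using 1
      rw [hw]; module
    have h1 := taylor1 (Φ := D.N) (z := (a, w)) (v := ((0 : P n), p - w)) (C := C)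
      fun t ht => ⟨(hC _ (hK a ha p hp w hwK t ht)).1, (hC _ (hK a ha p hp w hwK t ht)).2 2 le_rfl⟩
    have h2 := taylor1 (Φ := D.N) (z := (a, w)) (v := ((0 : P n), q - w)) (C := C)
      fun t ht => ⟨(hC _ (hK a ha q hq w hwK t ht)).1, (hC _ (hK a ha q hq w hwK t ht)).2 2 le_rfl⟩
    rw [hadd, hnorm] at h1 h2
    have e1 : p - w = τ • (p - q) := by rw [hw]; module
    have e2 : q - w = (-(1 - τ)) • (p - q) := by rw [hw]; module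
    set L := fderiv ℝ D.N (a, w) with hL
    have e3 : (1 - τ) • L ((0 : P n), p - w) + τ • L ((0 : P n), q - w) = 0 := by
      rw [← map_smul, ← map_smul, ← map_add, e1, e2]
      have : (1 - τ) • (((0 : P n), τ • (p - q)) : P n × E n) +
          τ • ((0 : P n), (-(1 - τ)) • (p - q)) = 0 := by
        ext1
        · simp
        · simp only [Prod.snd_add, Prod.smul_snd, Prod.snd_zero]; module
      rw [this, map_zero]
    have e4 : (1 - τ) • D.N (a, p) + τ • D.N (a, q) - D.N (a, w) =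
        (1 - τ) • (D.N (a, p) - D.N (a, w) - L ((0 : P n), p - w)) +
          τ • (D.N (a, q) - D.N (a, w) - L ((0 : P n), q - w)) +
          ((1 - τ) • L ((0 : P n), p - w) + τ • L ((0 : P n), q - w)) := by module
    rw [e4, e3, add_zero]
    have n1 : ‖p - w‖ = τ * ‖p - q‖ := by rw [e1, norm_smul, Real.norm_of_nonneg hτ.1]
    have n2 : ‖q - w‖ = (1 - τ) * ‖p - q‖ := by
      rw [e2, norm_smul, norm_neg, Real.norm_of_nonneg (by linarith [hτ.2])]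
    rw [n1] at h1
    rw [n2] at h2
    have h0 : 0 ≤ 1 - τ := by linarith [hτ.2]
    calc _ ≤ (1 - τ) * (C * (τ * ‖p - q‖) ^ 2) + τ * (C * ((1 - τ) * ‖p - q‖) ^ 2) := by
          refine (norm_add_le _ _).trans (add_le_add ?_ ?_)
          · rw [norm_smul, Real.norm_of_nonneg h0]; gcongr
          · rw [norm_smul, Real.norm_of_nonneg hτ.1]; gcongr; exact hτ.1
      _ = C * τ * ‖p - q‖ ^ 2 * (1 - τ) := by ring
      _ ≤ (C + 1) * τ * ‖p - q‖ ^ 2 := by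
          have h3 : 0 ≤ C * τ * ‖p - q‖ ^ 2 := by have := hτ.1; positivity
          have h4 : 0 ≤ τ * ‖p - q‖ ^ 2 := by have := hτ.1; positivity
          nlinarith [hτ.1]

theorem NData.Gm_add_radial (D : NData G) {a : P n} (ha : a ∈ G.F) {p : E n} (hp : p ∈ G.I a)
    {R : ℝ} (hR : ‖p‖ ≤ R) (x : E n) (l : ℝ) :
    ⟪D.Gm (a, p) (x + l • p), x + l • p⟫_ℝ ≤
      2 * ⟪D.Gm (a, p) x, x⟫_ℝ + 2 * l ^ 2 * ((D.C - 1) * R ^ 2) := by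
  have h1 := D.le_Gm ha hp (x - l • p)
  have h2 := D.Gm_symm ha hp x p
  have h3 := D.Gm_radial ha hp
  have h4 : ‖p‖ ^ 2 ≤ R ^ 2 := by gcongr
  have h5 : 0 ≤ D.C - 1 := by linarith [D.C_ge]
  have h6 : l ^ 2 * ((D.C - 1) * ‖p‖ ^ 2) ≤ l ^ 2 * ((D.C - 1) * R ^ 2) := by gcongr
  simp only [map_add, map_sub, map_smul, h3, inner_add_left, inner_add_right, inner_sub_left,
    inner_sub_right, real_inner_smul_left, real_inner_smul_right, real_inner_self_eq_norm_sq,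
    real_inner_comm x p] at h1 h2 ⊢
  rw [h2] at h1 ⊢
  nlinarith [sq_nonneg ‖x - l • p‖]

/-- the core estimate for small eigenvalues. -/
theorem NData.short_small (D : NData G) (hM : G.MTW) {a : P n} (ha : a ∈ G.F) {r p₀ : E n}
    (hr : r ∈ G.I a) (hp₀ : p₀ ∈ G.K a) {R cl ν τ k₁ k₂ : ℝ} (hR : ∀ p ∈ G.K a, ‖p‖ ≤ R)
    (hcl : 0 < cl)
    (hlow : ∀ δ ∈ Icc (0 : ℝ) 1, ∀ u, cl * δ * ‖u‖ ^ 2 ≤ ⟪D.N (a, (1 - δ) • p₀) u, u⟫_ℝ)
    (hν : 0 < ν) (hν1 : ν ≤ 1) (hτ : τ ∈ Icc (0 : ℝ) 1) {e : E n} (he : e = r - (1 - ν) • p₀)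
    (hρ : ⟪r, e⟫_ℝ ≠ 0) (hk₁ : ‖e‖ ^ 2 ≤ k₁ * |⟪r, e⟫_ℝ|)
    (hk₂ : ν * ‖e‖ ^ 2 ≤ k₂ * ⟪r, e⟫_ℝ ^ 2) (h1 : 2 * τ * k₁ ≤ 1)
    (h2 : 4 * τ * (1 + k₁) ^ 2 ≤ cl) (h3 : 10 * k₂ * ((D.C - 1) * R ^ 2) ≤ 1)
    (V : Submodule ℝ (E n)) (hV : ∀ v ∈ V, ν * ‖v‖ ^ 2 ≤ ⟪D.N (a, r) v, v⟫_ℝ) :
    ∃ V' : Submodule ℝ (E n), Module.finrank ℝ V ≤ Module.finrank ℝ V' ∧
      ∀ v ∈ V', ν / 24 * ‖v‖ ^ 2 ≤ ⟪D.N (a, r - τ • e) v, v⟫_ℝ := by
  have haU := G.F_sub ha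
  set ρ := ⟪r, e⟫_ℝ with hρd
  have hρ0 : 0 < |ρ| := abs_pos.2 hρ
  have hk0 : 0 ≤ k₁ := by
    by_contra h
    have := mul_neg_of_neg_of_pos (not_le.1 h) hρ0
    nlinarith [sq_nonneg ‖e‖]
  have hpt : (1 - ν) • p₀ ∈ G.I a := G.smul_mem_I haU hp₀ (by linarith) (by linarith)
  have hchord : ∀ t ∈ Icc (0 : ℝ) 1, r + t • (-e) ∈ G.I a := fun t ht => by
    have := (LocGeo.convex_I hM haU).add_smul_sub_mem hr hpt ht
    convert this using 2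
    rw [he]; module
  have hph : r - τ • e ∈ G.I a := by
    have := hchord τ hτ
    convert this using 1
    module
  let T : E n →L[ℝ] E n := ContinuousLinearMap.id ℝ (E n) - (τ / ρ) • (innerSL ℝ e).smulRight e
  have hT : ∀ u, T u = u - (τ * (⟪e, u⟫_ℝ / ρ)) • e := fun u => by
    simp only [T, ContinuousLinearMap.sub_apply, ContinuousLinearMap.id_apply,
      ContinuousLinearMap.smul_apply, ContinuousLinearMap.smulRight_apply, innerSL_apply_apply,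
      smul_smul]
    congr 2; ring
  have hle : ∀ u : E n, ‖(⟪e, u⟫_ℝ / ρ) • e‖ ≤ k₁ * ‖u‖ := fun u => by
    rw [norm_smul, Real.norm_eq_abs, abs_div, div_mul_eq_mul_div, div_le_iff₀ hρ0]
    calc |⟪e, u⟫_ℝ| * ‖e‖ ≤ ‖e‖ * ‖u‖ * ‖e‖ := by gcongr; exact abs_real_inner_le_norm _ _
      _ = ‖e‖ ^ 2 * ‖u‖ := by ring
      _ ≤ k₁ * |ρ| * ‖u‖ := by gcongr
      _ = k₁ * ‖u‖ * |ρ| := by ring
  have hTn : ∀ u, ‖u‖ ≤ 2 * ‖T u‖ := fun u => by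
    have h4 : ‖(τ * (⟪e, u⟫_ℝ / ρ)) • e‖ ≤ τ * (k₁ * ‖u‖) := by
      rw [mul_smul, norm_smul, Real.norm_of_nonneg hτ.1]
      exact mul_le_mul_of_nonneg_left (hle u) hτ.1
    have h5 : ‖u‖ ≤ ‖T u‖ + ‖(τ * (⟪e, u⟫_ℝ / ρ)) • e‖ := by
      rw [hT]; simpa using norm_add_le (u - (τ * (⟪e, u⟫_ℝ / ρ)) • e) ((τ * (⟪e, u⟫_ℝ / ρ)) • e)
    nlinarith [norm_nonneg u]
  let f : E n →ₗ[ℝ] E n := (T.comp (D.N (a, r)) : E n →L[ℝ] E n)
  have hf : Function.Injective f := by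
    refine (injective_iff_map_eq_zero f).2 fun v hv => ?_
    have h4 := hTn (D.N (a, r) v)
    have h5 : T (D.N (a, r) v) = 0 := hv
    rw [h5, norm_zero, mul_zero] at h4
    exact D.N_inj_of_mem_I ha hr v (norm_le_zero_iff.1 h4)
  refine ⟨V.map f, (Submodule.equivMapOfInjective f hf V).finrank_eq.le, ?_⟩
  rintro _ ⟨v, hv, rfl⟩
  set u := D.N (a, r) v with hu
  have hfu : f v = T u := rfl
  rw [hfu]
  set l := ⟪e, u⟫_ℝ / ρ with hl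
  -- `G(r)(u, u) ≤ ‖u‖² / ν`
  have hGu : ν * ⟪D.Gm (a, r) u, u⟫_ℝ ≤ ‖u‖ ^ 2 := by
    have e1 : D.Gm (a, r) u = v := by rw [D.Gm_apply]; exact D.right_inv a ha r hr v
    rw [e1, real_inner_comm]
    have h4 := hV v hv
    have h5 : ⟪u, v⟫_ℝ ≤ ‖u‖ * ‖v‖ := real_inner_le_norm _ _
    rw [← hu] at h4
    rcases (norm_nonneg v).eq_or_lt with h6 | h6
    · rw [norm_eq_zero.1 h6.symm, inner_zero_right, mul_zero]; positivity
    · have h7 : ν * ‖v‖ ≤ ‖u‖ := by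
        refine le_of_mul_le_mul_right ?_ h6
        nlinarith
      nlinarith [norm_nonneg u]
  have hl2 : ν * l ^ 2 ≤ k₂ * ‖u‖ ^ 2 := by
    have hρ2 : 0 < ρ ^ 2 := by positivity
    rw [hl, div_pow, ← mul_div_assoc, div_le_iff₀ hρ2]
    have h4 : ⟪e, u⟫_ℝ ^ 2 ≤ ‖e‖ ^ 2 * ‖u‖ ^ 2 := by
      rw [← mul_pow, ← sq_abs]
      gcongr
      exact abs_real_inner_le_norm _ _
    calc ν * ⟪e, u⟫_ℝ ^ 2 ≤ ν * (‖e‖ ^ 2 * ‖u‖ ^ 2) := by gcongr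
      _ = ν * ‖e‖ ^ 2 * ‖u‖ ^ 2 := by ring
      _ ≤ k₂ * ρ ^ 2 * ‖u‖ ^ 2 := by gcongr
      _ = _ := by ring
  set ζ := u - l • r with hζ
  have hζe : ⟪ζ, -e⟫_ℝ = 0 := by
    rw [hζ, inner_neg_right, inner_sub_left, real_inner_smul_left, ← hρd, hl,
      div_mul_cancel₀ _ hρ, real_inner_comm, sub_self, neg_zero]
  set B := (D.C - 1) * R ^ 2 with hB
  have hB0 : 0 ≤ B := mul_nonneg (by linarith [D.C_ge]) (sq_nonneg _)
  have hc := (D.Gm_convex hM ha (p := r) hζe hchord).2 (left_mem_Icc.2 zero_le_one)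
    (right_mem_Icc.2 zero_le_one) (show 0 ≤ 1 - τ by linarith [hτ.2]) hτ.1 (by ring)
  simp only [smul_eq_mul, mul_zero, mul_one, zero_add, zero_smul, add_zero, one_smul] at hc
  have e2 : r + τ • (-e) = r - τ • e := by module
  have e3 : r + -e = (1 - ν) • p₀ := by rw [he]; module
  rw [e2, e3] at hc
  have g1 := D.Gm_add_radial ha hr (hR r (G.I_sub_K haU hr)) u (-l)
  have e4 : u + (-l) • r = ζ := by rw [hζ]; module
  rw [e4, neg_sq] at g1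
  have g2 := D.Gm_add_radial ha hpt (hR _ (G.I_sub_K haU hpt)) (u - l • e) (-l)
  have e5 : u - l • e + (-l) • (1 - ν) • p₀ = ζ := by rw [hζ, he]; module
  rw [e5, neg_sq] at g2
  have g3 := D.Gm_le_of_le_N ha hpt (θ := cl * ν) (by positivity) (hlow ν ⟨hν.le, hν1⟩)
    (u - l • e)
  have g4 : ‖u - l • e‖ ≤ (1 + k₁) * ‖u‖ := by
    have := norm_sub_le u (l • e)
    have := hle u
    rw [← hl] at this
    linarith
  have g5 : τ * ν * ⟪D.Gm (a, (1 - ν) • p₀) (u - l • e), u - l • e⟫_ℝ ≤ ‖u‖ ^ 2 / 4 := by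
    have hτ0 := hτ.1
    calc τ * ν * ⟪D.Gm (a, (1 - ν) • p₀) (u - l • e), u - l • e⟫_ℝ
        ≤ τ * ν * ((cl * ν)⁻¹ * ((1 + k₁) * ‖u‖) ^ 2) := by
          gcongr
          exact g3.trans (by gcongr)
      _ = (4 * τ * (1 + k₁) ^ 2) / cl * (‖u‖ ^ 2 / 4) := by field_simp
      _ ≤ 1 * (‖u‖ ^ 2 / 4) := by gcongr; rwa [div_le_one hcl]
      _ = _ := one_mul _
  have g6 := D.Gm_add_radial ha hph (hR _ (G.I_sub_K haU hph)) ζ l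
  have e6 : ζ + l • (r - τ • e) = T u := by rw [hT, hζ, ← hl]; module
  rw [e6] at g6
  rw [← hB] at g1 g2 g6
  have g7 : ν * (l ^ 2 * B) ≤ ‖u‖ ^ 2 / 10 := by
    calc ν * (l ^ 2 * B) = ν * l ^ 2 * B := by ring
      _ ≤ k₂ * ‖u‖ ^ 2 * B := by gcongr
      _ = 10 * k₂ * B * (‖u‖ ^ 2 / 10) := by ring
      _ ≤ 1 * (‖u‖ ^ 2 / 10) := by gcongr
      _ = _ := one_mul _
  have hz0 : 0 ≤ ⟪D.Gm (a, r) ζ, ζ⟫_ℝ := (sq_nonneg _).trans (D.le_Gm ha hr ζ)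
  have hlB : 0 ≤ l ^ 2 * B := by positivity
  have g8 : ν * ⟪D.Gm (a, r - τ • e) (T u), T u⟫_ℝ ≤ 6 * ‖u‖ ^ 2 := by
    have i1 : (1 - τ) * ⟪D.Gm (a, r) ζ, ζ⟫_ℝ ≤ ⟪D.Gm (a, r) ζ, ζ⟫_ℝ := by nlinarith [hτ.1]
    have i2 : τ * ⟪D.Gm (a, (1 - ν) • p₀) ζ, ζ⟫_ℝ ≤
        2 * (τ * ⟪D.Gm (a, (1 - ν) • p₀) (u - l • e), u - l • e⟫_ℝ) + 2 * (l ^ 2 * B) := by
      nlinarith [hτ.1, hτ.2]
    have i3 : ⟪D.Gm (a, r - τ • e) (T u), T u⟫_ℝ ≤ 4 * ⟪D.Gm (a, r) u, u⟫_ℝ +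
        4 * (τ * ⟪D.Gm (a, (1 - ν) • p₀) (u - l • e), u - l • e⟫_ℝ) + 10 * (l ^ 2 * B) := by
      linarith
    have i4 := mul_le_mul_of_nonneg_left i3 hν.le
    nlinarith
  have g9 := D.inner_sq_le ha hph (T u) (T u)
  rw [real_inner_self_eq_norm_sq] at g9
  have hN0 : 0 ≤ ⟪D.N (a, r - τ • e) (T u), T u⟫_ℝ :=
    D.nonneg (a, r - τ • e) ⟨ha, G.I_sub_K haU hph⟩ _
  have g10 : ‖u‖ ^ 2 ≤ 4 * ‖T u‖ ^ 2 := by nlinarith [hTn u, norm_nonneg u]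
  rcases (norm_nonneg (T u)).eq_or_lt with h6 | h6
  · rw [← h6]; simpa using hN0
  · have h7 : 0 < ‖T u‖ ^ 2 := by positivity
    refine le_of_mul_le_mul_right ?_ h7
    have i5 : ν * (‖T u‖ ^ 2) ^ 2 ≤ 24 * ‖T u‖ ^ 2 * ⟪D.N (a, r - τ • e) (T u), T u⟫_ℝ := by
      calc ν * (‖T u‖ ^ 2) ^ 2 ≤ ν * (⟪D.Gm (a, r - τ • e) (T u), T u⟫_ℝ *
            ⟪D.N (a, r - τ • e) (T u), T u⟫_ℝ) := by gcongr
        _ = ν * ⟪D.Gm (a, r - τ • e) (T u), T u⟫_ℝ * ⟪D.N (a, r - τ • e) (T u), T u⟫_ℝ := by ring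
        _ ≤ 24 * ‖T u‖ ^ 2 * ⟪D.N (a, r - τ • e) (T u), T u⟫_ℝ :=
            mul_le_mul_of_nonneg_right (by linarith) hN0
    nlinarith

/-- the short step inside `I`. -/
theorem NData.short_I (D : NData G) (hM : G.MTW) {u₀ : ℝ} (hu : 0 < u₀) :
    ∃ τ₀ > (0 : ℝ), τ₀ ≤ 1 / 4 ∧ ∀ a ∈ G.F, ∀ p₀ ∈ G.K a, ∀ r ∈ G.I a,
      u₀ * ‖r - p₀‖ ^ 2 ≤ |⟪r, r - p₀⟫_ℝ| → ∀ τ ∈ Icc 0 τ₀,
        (1 / 48 : ℝ) ^ n * (D.N (a, r)).det ≤ (D.N (a, r - τ • (r - p₀))).det := by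
  obtain ⟨C, hC1, hC⟩ := D.reg hM
  obtain ⟨R, hR1, hR⟩ := exists_diam M
  obtain ⟨cl, hcl, hlow⟩ := D.lower
  have hC2 := D.C_ge
  set B := (D.C - 1) * R ^ 2 with hB
  have hB0 : 0 ≤ B := mul_nonneg (by linarith) (sq_nonneg _)
  set k₁ := 8 / u₀ with hk₁
  have hk0 : 0 < k₁ := by positivity
  have hev : ∀ k : ℝ, ∀ᶠ τ in 𝓝[>] (0 : ℝ), k * τ ≤ 1 := fun k => by
    have : Tendsto (fun τ : ℝ => k * τ) (𝓝[>] 0) (𝓝 (k * 0)) :=
      (tendsto_const_nhds.mul tendsto_id).mono_left nhdsWithin_le_nhds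
    exact this.eventually (eventually_le_nhds (by simp))
  obtain ⟨τ₀, ⟨⟨⟨⟨⟨⟨c1, c2⟩, c3⟩, c4⟩, c5⟩, c6⟩, c7⟩, hτ₀⟩ :=
    ((((((((hev 4).and (hev (8 * C * R ^ 2 / u₀))).and (hev (8 * C * R ^ 2))).and
      (hev (2 * k₁))).and (hev (4 * (1 + k₁) ^ 2 / cl))).and
      (hev (640 * C / u₀ ^ 2 * B))).and (hev (48 * C * R))).and self_mem_nhdsWithin).exists
  have hτ₀' : 0 < τ₀ := hτ₀
  refine ⟨τ₀, hτ₀', by linarith, fun a ha p₀ hp₀ r hr hst τ hτ => ?_⟩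
  have haU := G.F_sub ha
  have hrK := G.I_sub_K haU hr
  have hRK : ∀ p ∈ G.K a, ‖p‖ ≤ R := fun p hp => by rw [← hp]; exact hR _ _
  have hτ1 : τ ∈ Icc (0 : ℝ) 1 := ⟨hτ.1, by linarith [hτ.2]⟩
  set η := r - p₀ with hη
  have hwK : r - τ • η ∈ G.K a := by
    have := (LocGeo.convex_K hM haU).add_smul_sub_mem hrK hp₀ hτ1
    convert this using 1
    rw [hη]; module
  refine det_le_of_subspaces (D.symm (a, r) ⟨ha, hrK⟩) (D.symm _ ⟨ha, hwK⟩)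
    (D.nonneg (a, r) ⟨ha, hrK⟩) (D.le_one (a, r) ⟨ha, hrK⟩) (D.nonneg _ ⟨ha, hwK⟩) (by norm_num)
    fun V ν hν hν1 hV => ?_
  rcases le_or_gt (4 * C * τ₀ * ‖η‖ ^ 2) ν with hbig | hsmall
  · refine ⟨V, le_rfl, fun v hv => ?_⟩
    have h1 := (hC a ha r hrK p₀ hp₀).2 τ hτ1
    have h2 := (abs_le.1 ((harn_abs_inner_le _ v).trans
      (mul_le_mul_of_nonneg_right h1 (sq_nonneg ‖v‖)))).2
    simp only [ContinuousLinearMap.sub_apply, ContinuousLinearMap.add_apply,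
      ContinuousLinearMap.smul_apply, inner_sub_left, inner_add_left, real_inner_smul_left] at h2
    rw [← hη] at h2
    have h3 := D.nonneg (a, p₀) ⟨ha, hp₀⟩ v
    have h4 := hV v hv
    have h5 : C * τ * ‖η‖ ^ 2 * ‖v‖ ^ 2 ≤ ν / 4 * ‖v‖ ^ 2 := by
      gcongr
      have : C * τ * ‖η‖ ^ 2 ≤ C * τ₀ * ‖η‖ ^ 2 := by gcongr; exact hτ.2
      linarith
    have h6 : 3 / 4 * (ν * ‖v‖ ^ 2) ≤ (1 - τ) * ⟪D.N (a, r) v, v⟫_ℝ := by
      have : 0 ≤ ν * ‖v‖ ^ 2 := by positivity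
      gcongr
      · linarith [hτ1.2]
      · linarith [hτ.2]
    have h7 := mul_nonneg hτ.1 h3
    have h8 : 0 ≤ ν * ‖v‖ ^ 2 := by positivity
    linarith
  · set e := r - (1 - ν) • p₀ with he
    have he' : e = η + ν • p₀ := by rw [he, hη]; module
    have hη0 : 0 < ‖η‖ := by
      rcases (norm_nonneg η).eq_or_lt with h | h
      · rw [← h] at hsmall; simp at hsmall; linarith
      · exact h
    have hη2 : ‖η‖ ≤ 2 * R := by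
      have := norm_sub_le r p₀
      linarith [hRK r hrK, hRK p₀ hp₀]
    have hνR : ν * R ^ 2 ≤ u₀ / 2 * ‖η‖ ^ 2 := by
      calc ν * R ^ 2 ≤ 4 * C * τ₀ * ‖η‖ ^ 2 * R ^ 2 := by gcongr
        _ = (8 * C * R ^ 2 / u₀ * τ₀) * (u₀ / 2 * ‖η‖ ^ 2) := by field_simp; ring
        _ ≤ 1 * (u₀ / 2 * ‖η‖ ^ 2) := by gcongr
        _ = _ := one_mul _
    have hρ : u₀ / 2 * ‖η‖ ^ 2 ≤ |⟪r, e⟫_ℝ| := by
      have h1 : |ν * ⟪r, p₀⟫_ℝ| ≤ ν * R ^ 2 := by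
        rw [abs_mul, abs_of_pos hν]
        gcongr
        calc |⟪r, p₀⟫_ℝ| ≤ ‖r‖ * ‖p₀‖ := abs_real_inner_le_norm _ _
          _ ≤ R * R := by gcongr; exacts [hRK r hrK, hRK p₀ hp₀]
          _ = R ^ 2 := by ring
      have h2 : ⟪r, η⟫_ℝ = ⟪r, e⟫_ℝ - ν * ⟪r, p₀⟫_ℝ := by
        rw [he', inner_add_right, real_inner_smul_right]; ring
      have h3 := abs_sub (⟪r, e⟫_ℝ) (ν * ⟪r, p₀⟫_ℝ)
      rw [← h2] at h3
      linarith
    have hen : ‖e‖ ≤ 2 * ‖η‖ := by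
      have h1 : ‖ν • p₀‖ ≤ ν * R := by
        rw [norm_smul, Real.norm_of_nonneg hν.le]; gcongr; exact hRK p₀ hp₀
      have h2 : ν * R ≤ ‖η‖ := by
        calc ν * R ≤ 4 * C * τ₀ * ‖η‖ ^ 2 * R := by gcongr
          _ = 4 * C * τ₀ * ‖η‖ * R * ‖η‖ := by ring
          _ ≤ 4 * C * τ₀ * (2 * R) * R * ‖η‖ := by gcongr
          _ = (8 * C * R ^ 2 * τ₀) * ‖η‖ := by ring
          _ ≤ 1 * ‖η‖ := by gcongr
          _ = _ := one_mul _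
      have h3 := norm_add_le η (ν • p₀)
      rw [← he'] at h3
      linarith
    have he2 : ‖e‖ ^ 2 ≤ 4 * ‖η‖ ^ 2 := by nlinarith [norm_nonneg e]
    have hρ0 : 0 < |⟪r, e⟫_ℝ| := lt_of_lt_of_le (by positivity) hρ
    obtain ⟨V', hV', hs⟩ := D.short_small hM ha hr hp₀ (k₁ := k₁) (k₂ := 64 * C * τ₀ / u₀ ^ 2)
      hRK hcl (hlow (a, p₀) ⟨ha, hp₀⟩) hν hν1 hτ1 he (abs_pos.1 hρ0)
      (by
        calc ‖e‖ ^ 2 ≤ 4 * ‖η‖ ^ 2 := he2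
          _ = k₁ * (u₀ / 2 * ‖η‖ ^ 2) := by rw [hk₁]; field_simp; ring
          _ ≤ k₁ * |⟪r, e⟫_ℝ| := by gcongr)
      (by
        calc ν * ‖e‖ ^ 2 ≤ (4 * C * τ₀ * ‖η‖ ^ 2) * (4 * ‖η‖ ^ 2) := by gcongr
          _ = 64 * C * τ₀ / u₀ ^ 2 * (u₀ / 2 * ‖η‖ ^ 2) ^ 2 := by field_simp; ring
          _ ≤ 64 * C * τ₀ / u₀ ^ 2 * |⟪r, e⟫_ℝ| ^ 2 := by gcongr
          _ = _ := by rw [sq_abs])
      (by nlinarith [hτ.2])
      (by
        have h1 : 4 * τ * (1 + k₁) ^ 2 ≤ 4 * τ₀ * (1 + k₁) ^ 2 := by gcongr; exact hτ.2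
        have h2 : 4 * τ₀ * (1 + k₁) ^ 2 = (4 * (1 + k₁) ^ 2 / cl * τ₀) * cl := by field_simp
        have h3 : (4 * (1 + k₁) ^ 2 / cl * τ₀) * cl ≤ 1 * cl := by gcongr
        linarith)
      (by
        rw [← hB]
        calc 10 * (64 * C * τ₀ / u₀ ^ 2) * B = 640 * C / u₀ ^ 2 * B * τ₀ := by ring
          _ ≤ 1 := c6)
      V hV
    refine ⟨V', hV', fun v hv => ?_⟩
    have hpt : (1 - ν) • p₀ ∈ G.K a := G.K_smul haU hp₀ ⟨by linarith, by linarith⟩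
    have hph : r - τ • e ∈ G.K a := by
      have := (LocGeo.convex_K hM haU).add_smul_sub_mem hrK hpt hτ1
      convert this using 1
      rw [he]; module
    have h1 := (hC a ha _ hph _ hwK).1
    have h2 : ‖r - τ • e - (r - τ • η)‖ ≤ τ₀ * (ν * R) := by
      have : r - τ • e - (r - τ • η) = (-τ) • ν • p₀ := by rw [he']; module
      rw [this, norm_smul, norm_smul, norm_neg, Real.norm_of_nonneg hτ.1,
        Real.norm_of_nonneg hν.le]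
      gcongr
      · exact hτ.2
      · exact hRK p₀ hp₀
    have h3 : ‖D.N (a, r - τ • e) - D.N (a, r - τ • η)‖ ≤ ν / 48 := by
      calc _ ≤ C * (τ₀ * (ν * R)) := h1.trans (by gcongr)
        _ = (48 * C * R * τ₀) * (ν / 48) := by ring
        _ ≤ 1 * (ν / 48) := by gcongr
        _ = _ := one_mul _
    have h4 := (abs_le.1 ((harn_abs_inner_le _ v).trans
      (mul_le_mul_of_nonneg_right h3 (sq_nonneg ‖v‖)))).2
    simp only [ContinuousLinearMap.sub_apply, inner_sub_left] at h4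
    have h5 := hs v hv
    linarith

/-- the short step on `K`. -/
theorem NData.short (D : NData G) (hM : G.MTW) {u₀ : ℝ} (hu : 0 < u₀) :
    ∃ τ₀ > (0 : ℝ), τ₀ ≤ 1 / 4 ∧ ∀ a ∈ G.F, ∀ p₀ ∈ G.K a, ∀ r ∈ G.K a,
      u₀ * ‖r - p₀‖ ^ 2 ≤ |⟪r, r - p₀⟫_ℝ| → ∀ τ ∈ Icc 0 τ₀,
        (1 / 48 : ℝ) ^ n * (D.N (a, r)).det ≤ (D.N (a, r - τ • (r - p₀))).det := by
  obtain ⟨τ₀, h0, h1, h⟩ := D.short_I hM hu
  refine ⟨τ₀, h0, h1, fun a ha p₀ hp₀ r hr hst τ hτ => ?_⟩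
  have haU := G.F_sub ha
  have hτ1 : τ ∈ Icc (0 : ℝ) 1 := ⟨hτ.1, by linarith [hτ.2]⟩
  have hwK : r - τ • (r - p₀) ∈ G.K a := by
    have := (LocGeo.convex_K hM haU).add_smul_sub_mem hr hp₀ hτ1
    convert this using 1
    module
  have hlim : ∀ p ∈ G.K a, Tendsto (fun σ : ℝ => (D.N (a, σ • p)).det) (𝓝[<] 1)
      (𝓝 (D.N (a, p)).det) := fun p hp => by
    have h2 : ContinuousAt (fun σ : ℝ => ((a, σ • p) : P n × E n)) 1 := by fun_prop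
    have h3 : ContinuousAt D.N (a, (1 : ℝ) • p) := by
      rw [one_smul]; exact (D.smooth (a, p) ⟨ha, hp⟩).continuousAt
    have h4 := (ContinuousLinearMap.continuous_det.continuousAt.comp
      (ContinuousAt.comp (f := fun σ : ℝ => ((a, σ • p) : P n × E n)) h3 h2)).tendsto
    simp only [Function.comp_def, one_smul] at h4
    exact h4.mono_left nhdsWithin_le_nhds
  refine le_of_tendsto_of_tendsto ((hlim r hr).const_mul _) (hlim _ hwK) ?_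
  filter_upwards [Ioo_mem_nhdsLT (zero_lt_one' ℝ)] with σ hσ
  have h2 := h a ha (σ • p₀) (G.K_smul haU hp₀ ⟨hσ.1.le, hσ.2.le⟩) (σ • r)
    (G.smul_mem_I haU hr hσ.1.le hσ.2) (by
      rw [← smul_sub, norm_smul, real_inner_smul_left, real_inner_smul_right, abs_mul, abs_mul,
        Real.norm_eq_abs, mul_pow]
      have := mul_le_mul_of_nonneg_left hst (sq_nonneg |σ|)
      nlinarith) τ hτ
  have e : σ • r - τ • (σ • r - σ • p₀) = σ • (r - τ • (r - p₀)) := by module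
  rwa [e] at h2

end Crest.Agent.R226
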