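import Crest.Agent.R226.Lip

/-! Row 226: auxiliary lemmas for `Hess.lean`. -/

set_option autoImplicit false

open Set Filter Metric
open scoped ContDiff Topology InnerProductSpace

namespace Crest.Agent.R226

theorem hx1_two_le : (2 : WithTop ℕ∞) ≤ ∞ := ENat.natCast_le_of_coe_top_le_withTop le_rfl 2

/-- iterated derivatives along a curve with a given velocity. -/
theorem hx1_hasDerivAt {X : Type*} [NormedAddCommGroup X] [NormedSpace ℝ X] {F : X → ℝ}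
    {γ : ℝ → X} {v : X} {s : ℝ} (hγ : HasDerivAt γ v s) (hF : ContDiffAt ℝ ∞ F (γ s)) {k : ℕ}
    (m : Fin k → X) :
    HasDerivAt (fun t => iteratedFDeriv ℝ k F (γ t) m)
      (iteratedFDeriv ℝ (k + 1) F (γ s) (Matrix.vecCons v m)) s := by
  have h1 : DifferentiableAt ℝ (iteratedFDeriv ℝ k F) (γ s) :=
    hF.differentiableAt_iteratedFDeriv (by exact_mod_cast ENat.natCast_lt_top k)
  have h2 := h1.hasFDerivAt.comp_hasDerivAt s hγ
  exact (ContinuousMultilinearMap.apply ℝ (fun _ : Fin k => X) ℝ m).hasFDerivAt.comp_hasDerivAt s h2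

/-- the Hessian as a second derivative in two variables. -/
theorem hx1_hess_eq {n : ℕ} {f : E n → ℝ} {F : ℝ × ℝ → ℝ} {s : ℝ} {ξ : E n}
    (hf : ContDiffAt ℝ ∞ f 0) (hF : ContDiffAt ℝ ∞ F (s, 0)) (h : ∀ τ : ℝ, F (s, τ) = f (τ • ξ)) :
    ⟪hess f 0 ξ, ξ⟫_ℝ = iteratedFDeriv ℝ 2 F (s, 0) ![((0 : ℝ), (1 : ℝ)), (0, 1)] := by
  have hγ : ∀ τ : ℝ, HasDerivAt (fun t : ℝ => ((s, t) : ℝ × ℝ)) (0, 1) τ := fun τ =>
    (hasDerivAt_const τ s).prodMk (hasDerivAt_id τ)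
  have hδ : ∀ τ : ℝ, HasDerivAt (fun t : ℝ => (0 : E n) + t • ξ) ξ τ := fun τ => by
    simpa using (hasDerivAt_id τ).smul_const ξ
  have h1 := hess_line (hf.of_le hx1_two_le) ξ
  have h2 := hx1_hasDerivAt (hγ 0) hF ![((0 : ℝ), (1 : ℝ))]
  refine h1.unique (h2.congr_of_eventuallyEq ?_)
  have e1 : ∀ᶠ τ : ℝ in 𝓝 0, ContDiffAt ℝ 1 f ((0 : E n) + τ • ξ) := by
    refine (hδ 0).continuousAt.eventually ?_
    simpa using (hf.of_le (by simp : (1 : WithTop ℕ∞) ≤ ∞)).eventually (by simp)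
  have e2 : ∀ᶠ τ : ℝ in 𝓝 0, ContDiffAt ℝ 1 F (s, τ) :=
    (hγ 0).continuousAt.eventually
      ((hF.of_le (by simp : (1 : WithTop ℕ∞) ≤ ∞)).eventually (by simp))
  filter_upwards [e1, e2] with τ h3 h4
  have h5 := (h3.differentiableAt (by simp)).hasFDerivAt.comp_hasDerivAt τ (hδ τ)
  have h6 := (h4.differentiableAt (by simp)).hasFDerivAt.comp_hasDerivAt τ (hγ τ)
  have h7 : (f ∘ fun t : ℝ => (0 : E n) + t • ξ) = F ∘ fun t : ℝ => ((s, t) : ℝ × ℝ) := by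
    funext t
    simp [h]
  rw [h7] at h5
  rw [iteratedFDeriv_one_apply]
  exact h5.unique h6

namespace LocGeo

variable {n : ℕ} {M : Type*} [MetricSpace M] [CompactSpace M] (G : LocGeo n M) {a : P n}
  {p q : E n}

theorem hx1_contDiffAt_left (ha : a ∈ G.U) (h : (G.ex a q, G.ex a p) ∈ G.Reg) :
    ContDiffAt ℝ ∞ (fun ξ => cst (G.ex a ξ) (G.ex a p)) q :=
  ContDiffAt.comp (g := G.cc) (f := fun ξ : E n => ((a, ξ), (a, p))) q
    (G.contDiffAt_cc ha ha h) (by fun_prop)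

theorem hx1_reg1 (ha : a ∈ G.U) (hp : p ∈ G.K a) :
    (G.ex a 0, G.ex a ((1 / 2 : ℝ) • p)) ∈ G.Reg := by
  have := G.reg_of_K ha hp (s := 0) (t := 1 / 2) (by norm_num) (by norm_num)
    (by rw [abs_lt]; norm_num)
  rwa [zero_smul] at this

theorem hx1_reg2 (ha : a ∈ G.U) (hp : p ∈ G.K a) {t : ℝ} (h0 : 0 < t) (h1 : t ≤ 1) :
    (G.ex a (t • p), G.ex a p) ∈ G.Reg := by
  have := G.reg_of_K ha hp (s := t) (t := 1) ⟨h0.le, h1⟩ (by norm_num)
    (by rw [abs_lt]; constructor <;> linarith)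
  rwa [one_smul] at this

omit [CompactSpace M] in
theorem hx1_cst (ha : a ∈ G.U) (hp : p ∈ G.K a) {t : ℝ} (ht : t ∈ Icc (0 : ℝ) 1) :
    cst (G.ex a (t • p)) (G.ex a p) = (1 - t) ^ 2 * ‖p‖ ^ 2 / 2 := by
  have := G.K_dist ha hp ht (t := 1) (by norm_num)
  rw [one_smul] at this
  rw [cst, this, mul_pow, sq_abs]
  ring

theorem hx1_gradient (ha : a ∈ G.U) (hp : p ∈ G.K a) {t : ℝ} (h0 : 0 < t) (h1 : t ≤ 1) :
    gradient (fun ξ => cst (G.ex a ξ) (G.ex a p)) (t • p) = -((1 - t) • p) := by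
  refine (le_hess_of_le (θ := -((1 - t) / (2 * t)))
    ((G.hx1_contDiffAt_left ha (G.hx1_reg2 ha hp h0 h1)).of_le hx1_two_le)
    (Eventually.of_forall fun y => ?_)).1
  have h2 := cst_interp (G.ex a p) (G.ex a y) (G.pt a) (s := 1 - t) (by linarith) (by linarith)
  rw [cst_comm (G.ex a p) (G.pt a), G.cst_K hp, cst_comm (G.ex a p), cst_comm _ (G.pt a),
    sub_sub_cancel] at h2
  have h3 : cst (G.pt a) (G.ex a y) ≤ ‖y‖ ^ 2 / 2 := by
    have := G.dist_le a ha y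
    unfold cst
    gcongr
    exact this
  have h4 : (1 - t) / t * cst (G.pt a) (G.ex a y) ≤ (1 - t) / t * (‖y‖ ^ 2 / 2) :=
    mul_le_mul_of_nonneg_left h3 (div_nonneg (by linarith) h0.le)
  rw [G.hx1_cst ha hp ⟨h0.le, h1⟩, norm_sub_sq_real, inner_neg_left, inner_sub_right,
    real_inner_smul_left, real_inner_smul_left, real_inner_smul_right, real_inner_smul_right,
    real_inner_self_eq_norm_sq, norm_smul, mul_pow, Real.norm_eq_abs, sq_abs, real_inner_comm p y]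
  have h5 : (1 - t) ^ 2 * ‖p‖ ^ 2 / 2 + -((1 - t) * ⟪p, y⟫_ℝ - (1 - t) * (t * ‖p‖ ^ 2)) +
      -((1 - t) / (2 * t)) * (‖y‖ ^ 2 - 2 * (t * ⟪p, y⟫_ℝ) + t ^ 2 * ‖p‖ ^ 2) =
      (1 - t) * (‖p‖ ^ 2 / 2) - (1 - t) / t * (‖y‖ ^ 2 / 2) := by
    field_simp
    ring
  linarith

end LocGeo

end Crest.Agent.R226
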