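import Crest.Agent.R226.Lip

/-! Row 226: auxiliary lemmas for `Hess.lean` (critical point of the midpoint energy, Schur
complement). -/

set_option autoImplicit false

open Set Filter Metric
open scoped ContDiff Topology InnerProductSpace

namespace Crest.Agent.R226

variable {n : ℕ}

/-- second derivative of a composition with an affine map. -/
theorem ha2_snd_affine {X Y : Type*} [NormedAddCommGroup X] [NormedSpace ℝ X]
    [NormedAddCommGroup Y] [NormedSpace ℝ Y] {f : Y → ℝ} (c : Y) (L : X →L[ℝ] Y) {z₀ : X}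
    (hf : ContDiffAt ℝ 2 f (c + L z₀)) (u v : X) :
    fderiv ℝ (fderiv ℝ fun z => f (c + L z)) z₀ u v =
      fderiv ℝ (fderiv ℝ f) (c + L z₀) (L u) (L v) := by
  have haff : ∀ z, HasFDerivAt (fun z => c + L z) L z := fun z => L.hasFDerivAt.const_add c
  have hc : ContinuousAt (fun z => c + L z) z₀ := (haff z₀).continuousAt
  have h1 : ∀ᶠ y in 𝓝 (c + L z₀), DifferentiableAt ℝ f y :=
    ((hf.of_le (m := 1) (by norm_num)).eventually (by simp)).mono fun y hy =>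
      hy.differentiableAt (by simp)
  have h2 : (fderiv ℝ fun z => f (c + L z)) =ᶠ[𝓝 z₀] fun z => (fderiv ℝ f (c + L z)).comp L := by
    filter_upwards [hc.eventually h1] with z hz
    exact (hz.hasFDerivAt.comp z (haff z)).fderiv
  have h3 : HasFDerivAt (fderiv ℝ f) (fderiv ℝ (fderiv ℝ f) (c + L z₀)) (c + L z₀) :=
    ((hf.fderiv_right (m := 1) (by norm_num)).differentiableAt (by simp)).hasFDerivAt
  have h4 := (h3.comp z₀ (haff z₀)).clm_comp (hasFDerivAt_const L z₀)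
  rw [h2.fderiv_eq]
  erw [h4.fderiv]
  simp

theorem ha2_hess_sub_const (f : E n → ℝ) (c : ℝ) (x : E n) :
    hess (fun m => f m - c) x = hess f x := by
  unfold hess gradient
  simp only [fderiv_sub_const]

theorem ha2_hess_comb {f g : E n → ℝ} (k : ℝ) {x : E n} (hf : ContDiffAt ℝ 2 f x)
    (hg : ContDiffAt ℝ 2 g x) (u : E n) :
    hess (fun ξ => 2 * f ξ + k - g ξ) x u = (2 : ℝ) • hess f x u - hess g x u := by
  have h1 : ∀ᶠ y in 𝓝 x, DifferentiableAt ℝ f y :=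
    ((hf.of_le (m := 1) (by norm_num)).eventually (by simp)).mono fun y hy =>
      hy.differentiableAt (by simp)
  have h2 : ∀ᶠ y in 𝓝 x, DifferentiableAt ℝ g y :=
    ((hg.of_le (m := 1) (by norm_num)).eventually (by simp)).mono fun y hy =>
      hy.differentiableAt (by simp)
  have h3 : gradient (fun ξ => 2 * f ξ + k - g ξ) =ᶠ[𝓝 x]
      fun y => (2 : ℝ) • gradient f y - gradient g y := by
    filter_upwards [h1, h2] with y hy1 hy2
    have := ((hy1.hasFDerivAt.const_mul 2).add_const k).sub hy2.hasFDerivAt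
    unfold gradient
    erw [this.fderiv]
    simp
  have h4 := ((hasFDerivAt_gradient hf).const_smul (2 : ℝ)).sub (hasFDerivAt_gradient hg)
  unfold hess at h4 ⊢
  rw [h3.fderiv_eq]
  erw [h4.fderiv]
  simp

/-- abstract Schur complement identity. -/
theorem ha2_schur {Ψ : E n × E n → ℝ} {m₀ c : E n} {μ : E n → E n}
    (hΨ : ContDiffAt ℝ 2 Ψ (0, m₀)) (hμ : DifferentiableAt ℝ μ 0) (h0 : μ 0 = m₀)
    (hmin : ∀ᶠ ξ in 𝓝 (0 : E n), IsLocalMin Ψ (ξ, μ ξ))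
    (hmix : ∀ᶠ m in 𝓝 m₀, gradient (fun ξ => Ψ (ξ, m)) 0 = c - (2 : ℝ) • m) (u : E n) :
    hess (fun m => Ψ (0, m)) m₀ (hess (fun ξ => Ψ (ξ, m₀)) 0 u) = (4 : ℝ) • u := by
  set B := fderiv ℝ (fderiv ℝ Ψ) (0, m₀) with hB
  have hBd : HasFDerivAt (fderiv ℝ Ψ) B (0, m₀) :=
    ((hΨ.fderiv_right (m := 1) (by norm_num)).differentiableAt (by simp)).hasFDerivAt
  have hsym : ∀ v w, B v w = B w v := fun v w =>
    (hΨ.isSymmSndFDerivAt (by simp)).eq v w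
  set μ' := fderiv ℝ μ 0 with hμ'
  -- the graph consists of critical points
  have h1 : ∀ v w, B (v, μ' v) w = 0 := by
    intro v w
    have hg : HasFDerivAt (fun ξ => (ξ, μ ξ)) ((ContinuousLinearMap.id ℝ (E n)).prod μ') 0 :=
      (hasFDerivAt_id 0).prodMk hμ.hasFDerivAt
    have hBd' : HasFDerivAt (fderiv ℝ Ψ) B ((fun ξ => (ξ, μ ξ)) 0) := by
      simpa only [h0] using hBd
    have h2 := hBd'.comp 0 hg
    have h3 : (fderiv ℝ Ψ ∘ fun ξ => (ξ, μ ξ)) =ᶠ[𝓝 0] fun _ => 0 :=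
      hmin.mono fun ξ hξ => hξ.fderiv_eq_zero
    have h4 := h2.unique ((hasFDerivAt_const (0 : E n × E n →L[ℝ] ℝ) (0 : E n)).congr_of_eventuallyEq h3)
    have h5 := congrArg (fun T => T v w) h4
    simpa using h5
  -- the three blocks
  have e1 : ((0 : E n), (0 : E n)) + ContinuousLinearMap.inr ℝ (E n) (E n) m₀ = (0, m₀) := by simp
  have e2 : ((0 : E n), m₀) + ContinuousLinearMap.inl ℝ (E n) (E n) 0 = (0, m₀) := by simp
  have c1 : ContDiffAt ℝ 2 (fun m => Ψ (0, m)) m₀ :=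
    hΨ.comp m₀ (contDiffAt_const.prodMk contDiffAt_id)
  have c2 : ContDiffAt ℝ 2 (fun ξ => Ψ (ξ, m₀)) 0 :=
    hΨ.comp 0 (contDiffAt_id.prodMk contDiffAt_const)
  have b1 : ∀ v w, ⟪hess (fun m => Ψ (0, m)) m₀ v, w⟫_ℝ = B (0, v) (0, w) := by
    intro v w
    have := ha2_snd_affine (f := Ψ) ((0 : E n), (0 : E n)) (ContinuousLinearMap.inr ℝ (E n) (E n))
      (z₀ := m₀) (by rw [e1]; exact hΨ) v w
    rw [e1] at this
    rw [inner_hess c1]
    simpa using this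
  have b2 : ∀ v w, ⟪hess (fun ξ => Ψ (ξ, m₀)) 0 v, w⟫_ℝ = B (v, 0) (w, 0) := by
    intro v w
    have := ha2_snd_affine (f := Ψ) ((0 : E n), m₀) (ContinuousLinearMap.inl ℝ (E n) (E n))
      (z₀ := 0) (by rw [e2]; exact hΨ) v w
    rw [e2] at this
    rw [inner_hess c2]
    simpa using this
  have b3 : ∀ v w, B (0, v) (w, 0) = -2 * ⟪v, w⟫_ℝ := by
    intro v w
    have hg : HasFDerivAt (fun m : E n => ((0 : E n), m))
        (ContinuousLinearMap.inr ℝ (E n) (E n)) m₀ := hasFDerivAt_prodMk_right 0 m₀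
    have h2 := (hBd.comp m₀ hg).clm_apply (hasFDerivAt_const ((w, 0) : E n × E n) m₀)
    have hd : ∀ᶠ y in 𝓝 ((0 : E n), m₀), DifferentiableAt ℝ Ψ y :=
      ((hΨ.of_le (m := 1) (by norm_num)).eventually (by simp)).mono fun y hy =>
        hy.differentiableAt (by simp)
    have h3 : (fun m => (fderiv ℝ Ψ ∘ fun m : E n => ((0 : E n), m)) m ((w, 0) : E n × E n)) =ᶠ[𝓝 m₀]
        fun m => ⟪c, w⟫_ℝ - 2 * innerSL ℝ w m := by
      filter_upwards [hmix, hg.continuousAt.eventually hd] with m hm1 hm2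
      have h4 : HasFDerivAt (fun ξ => Ψ (ξ, m))
          ((fderiv ℝ Ψ (0, m)).comp (ContinuousLinearMap.inl ℝ (E n) (E n))) 0 :=
        hm2.hasFDerivAt.comp (0 : E n) (hasFDerivAt_prodMk_left 0 m)
      have h5 := inner_gradient (fun ξ => Ψ (ξ, m)) 0 w
      rw [hm1, h4.fderiv] at h5
      simp only [ContinuousLinearMap.comp_apply, ContinuousLinearMap.inl_apply, inner_sub_left,
        real_inner_smul_left] at h5
      simp only [Function.comp_apply, innerSL_apply_apply]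
      rw [← h5, real_inner_comm m w]
    have h6 := (((innerSL ℝ w).hasFDerivAt (x := m₀)).const_mul 2).const_sub ⟪c, w⟫_ℝ
    have h7 := h2.unique (h6.congr_of_eventuallyEq h3)
    have h8 := congrArg (fun T => T v) h7
    simp at h8
    rw [h8, real_inner_comm]
    ring
  have s1 : hess (fun ξ => Ψ (ξ, m₀)) 0 u = (2 : ℝ) • μ' u := by
    refine ext_inner_right ℝ fun w => ?_
    have h2 := h1 u (w, 0)
    have h3 : ((u, μ' u) : E n × E n) = (u, 0) + (0, μ' u) := by simp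
    rw [h3, map_add, add_apply, b3] at h2
    rw [b2, real_inner_smul_left]
    linarith
  have s2 : hess (fun m => Ψ (0, m)) m₀ (μ' u) = (2 : ℝ) • u := by
    refine ext_inner_right ℝ fun w => ?_
    have h2 := h1 u (0, w)
    have h3 : ((u, μ' u) : E n × E n) = (u, 0) + (0, μ' u) := by simp
    rw [h3, map_add, add_apply, hsym (u, 0), b3] at h2
    rw [b1, real_inner_smul_left, real_inner_comm]
    linarith
  rw [s1, map_smul, s2, smul_smul]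
  norm_num

namespace LocGeo

variable {M : Type*} [MetricSpace M] [CompactSpace M] (G : LocGeo n M) {a b : P n}
  {p q : E n}

omit [CompactSpace M] in
theorem ha2_zero_mem_I (ha : a ∈ G.U) : (0 : E n) ∈ G.I a :=
  G.mem_I_of_norm_lt ha (by simpa using G.ρ_pos)

theorem ha2_contDiffAt_left (hb : b ∈ G.U) {y : M} (h : (G.ex b q, y) ∈ G.Reg) :
    ContDiffAt ℝ ∞ (fun ξ => cst (G.ex b ξ) y) q := by
  obtain ⟨c, hcF, hc⟩ := G.exists_frame y
  have h1 := G.contDiffAt_cc (p := q) (q := 0) hb (G.F_sub hcF) (by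
    change (G.ex b q, G.pt c) ∈ G.Reg
    rwa [hc])
  have h2 := h1.comp (f := fun ξ : E n => ((b, ξ), (c, (0 : E n)))) q (by fun_prop)
  refine h2.congr_of_eventuallyEq (Eventually.of_forall fun ξ => ?_)
  change cst (G.ex b ξ) y = cst (G.ex b ξ) (G.pt c)
  rw [hc]

theorem ha2_hasFDerivAt (hb : b ∈ G.U) (hq : q ∈ G.I b) :
    HasFDerivAt (fun ξ => cst (G.ex b ξ) (G.ex b q)) (innerSL ℝ (-q)) 0 := by
  have h1 := (G.ha2_contDiffAt_left (q := 0) hb (G.reg_of_mem_I hb hq)).differentiableAt (by simp)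
  have h2 : gradient (fun ξ => cst (G.ex b ξ) (G.ex b q)) 0 = -q := by
    have := G.lg_ex hb hq
    unfold lg at this
    rw [← neg_eq_iff_eq_neg, this]
  refine h1.hasFDerivAt.congr_fderiv (ContinuousLinearMap.ext fun v => ?_)
  rw [← inner_gradient, h2]
  simp

/-- near `K` both halves of the geodesic, seen from the midpoint, are in the injectivity domain. -/
theorem ha2_mid_frame (ha : a ∈ G.U) (hp : p ∈ G.K a) :
    ∀ᶠ z : P n × E n in 𝓝 (a, p), ∃ b ∈ G.U, ∃ q : E n, ‖q‖ = ‖z.2‖ ∧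
      G.pt b = G.ex z.1 ((1 / 2 : ℝ) • z.2) ∧ G.ex b ((1 / 2 : ℝ) • q) = G.ex z.1 z.2 ∧
      G.ex b (-((1 / 2 : ℝ) • q)) = G.pt z.1 ∧ (1 / 2 : ℝ) • q ∈ G.I b ∧
      -((1 / 2 : ℝ) • q) ∈ G.I b := by
  have hK : IsCompact (G.F ×ˢ closedBall (0 : E n) (‖p‖ + 1)) :=
    G.F_compact.prod (isCompact_closedBall _ _)
  have key := hK.eventually_forall_of_forall_eventually (x₀ := (a, p))
    (P := fun (z : P n × E n) (w : P n × E n) => ‖w.2‖ = ‖z.2‖ →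
      G.pt w.1 = G.ex z.1 ((1 / 2 : ℝ) • z.2) → G.ex w.1 ((1 / 2 : ℝ) • w.2) = G.ex z.1 z.2 →
      G.ex w.1 (-((1 / 2 : ℝ) • w.2)) = G.pt z.1 →
      (1 / 2 : ℝ) • w.2 ∈ G.I w.1 ∧ -((1 / 2 : ℝ) • w.2) ∈ G.I w.1) (by
    rintro ⟨b, q⟩ ⟨hbF, -⟩
    have hb : b ∈ G.U := G.F_sub hbF
    have cA : ∀ t : ℝ, ContinuousAt
        (fun z : (P n × E n) × (P n × E n) => G.ex z.1.1 (t • z.1.2)) ((a, p), (b, q)) := fun t =>
      (G.continuousAt_ex ha (t • p)).comp_of_eq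
        (f := fun z : (P n × E n) × (P n × E n) => (z.1.1, t • z.1.2)) (by fun_prop) rfl
    have cB : ∀ t : ℝ, ContinuousAt
        (fun z : (P n × E n) × (P n × E n) => G.ex z.2.1 (t • z.2.2)) ((a, p), (b, q)) := fun t =>
      (G.continuousAt_ex hb (t • q)).comp_of_eq
        (f := fun z : (P n × E n) × (P n × E n) => (z.2.1, t • z.2.2)) (by fun_prop) rfl
    by_cases h1 : ‖q‖ = ‖p‖
    swap
    · have : ∀ᶠ z : (P n × E n) × (P n × E n) in 𝓝 ((a, p), (b, q)), ‖z.2.2‖ ≠ ‖z.1.2‖ :=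
        (ContinuousAt.ne_iff_eventually_ne (f := fun z : (P n × E n) × (P n × E n) => ‖z.2.2‖)
          (g := fun z => ‖z.1.2‖) (by fun_prop) (by fun_prop)).1 h1
      exact this.mono fun z hz h => absurd h hz
    by_cases h2 : G.pt b = G.ex a ((1 / 2 : ℝ) • p)
    swap
    · have := ((cB 0).ne_iff_eventually_ne (cA (1 / 2))).1 (by simpa [pt] using h2)
      exact this.mono fun z hz _ h => absurd (by simpa [pt] using h) hz
    by_cases h3 : G.ex b ((1 / 2 : ℝ) • q) = G.ex a p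
    swap
    · have := ((cB (1 / 2)).ne_iff_eventually_ne (cA 1)).1 (by simpa [pt] using h3)
      exact this.mono fun z hz _ _ h => absurd (by simpa [pt] using h) hz
    by_cases h4 : G.ex b (-((1 / 2 : ℝ) • q)) = G.pt a
    swap
    · have := ((cB (-(1 / 2))).ne_iff_eventually_ne (cA 0)).1 (by simpa [pt] using h4)
      exact this.mono fun z hz _ _ _ h => absurd (by simpa [pt] using h) hz
    have hh : (1 / 2 : ℝ) ∈ Icc (0 : ℝ) 1 := ⟨by norm_num, by norm_num⟩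
    have n1 : ‖(1 / 2 : ℝ) • q‖ = 1 / 2 * ‖p‖ := by
      rw [norm_smul, h1, Real.norm_of_nonneg hh.1]
    have i1 : (1 / 2 : ℝ) • q ∈ G.I b := by
      refine G.mem_I_of_reg hb ?_ ?_
      · change dist _ _ = _
        have d := G.K_dist ha hp hh ⟨zero_le_one, le_rfl⟩
        rw [one_smul] at d
        rw [h2, h3, d, n1, abs_of_neg (by norm_num)]
        norm_num
      · have := G.reg_of_K ha hp hh ⟨zero_le_one, le_rfl⟩ (by rw [abs_of_neg (by norm_num)]; norm_num)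
        rwa [one_smul, ← h2, ← h3] at this
    have i2 : -((1 / 2 : ℝ) • q) ∈ G.I b := by
      refine G.mem_I_of_reg hb ?_ ?_
      · change dist _ _ = _
        have d := G.K_dist ha hp hh ⟨le_rfl, zero_le_one⟩
        rw [zero_smul] at d
        rw [h2, h4, pt, d, norm_neg, n1, abs_of_pos (by norm_num)]
        norm_num
      · have := G.reg_of_K ha hp hh ⟨le_rfl, zero_le_one⟩ (by rw [abs_of_pos (by norm_num)]; norm_num)
        rw [zero_smul, ← h2] at this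
        rwa [h4]
    have e1 : ∀ᶠ z : (P n × E n) × (P n × E n) in 𝓝 ((a, p), (b, q)),
        (z.2.1, (1 / 2 : ℝ) • z.2.2) ∈ G.IU :=
      ContinuousAt.eventually_mem
        (f := fun z : (P n × E n) × (P n × E n) => (z.2.1, (1 / 2 : ℝ) • z.2.2)) (by fun_prop)
        (G.isOpen_IU.mem_nhds ⟨hb, i1⟩)
    have e2 : ∀ᶠ z : (P n × E n) × (P n × E n) in 𝓝 ((a, p), (b, q)),
        (z.2.1, -((1 / 2 : ℝ) • z.2.2)) ∈ G.IU :=
      ContinuousAt.eventually_mem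
        (f := fun z : (P n × E n) × (P n × E n) => (z.2.1, -((1 / 2 : ℝ) • z.2.2))) (by fun_prop)
        (G.isOpen_IU.mem_nhds ⟨hb, i2⟩)
    filter_upwards [e1, e2] with z hz1 hz2 _ _ _ _
    exact ⟨hz1.2, hz2.2⟩)
  have hU : ∀ᶠ z : P n × E n in 𝓝 (a, p), z.1 ∈ G.U :=
    continuousAt_fst.eventually_mem (G.U_open.mem_nhds ha)
  have hN : ∀ᶠ z : P n × E n in 𝓝 (a, p), ‖z.2‖ < ‖p‖ + 1 :=
    ContinuousAt.eventually_lt (f := fun z : P n × E n => ‖z.2‖) (g := fun _ => ‖p‖ + 1)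
      (by fun_prop) continuousAt_const (by simp)
  filter_upwards [key, hU, hN] with z hz hzU hzN
  obtain ⟨b, hbF, hb⟩ := G.exists_frame (G.ex z.1 ((1 / 2 : ℝ) • z.2))
  obtain ⟨q, hq1, hq2⟩ := G.exists_cont hzU (G.F_sub hbF) hb
  have f1 : G.ex b ((1 / 2 : ℝ) • q) = G.ex z.1 z.2 := by rw [hq2]; norm_num
  have f2 : G.ex b (-((1 / 2 : ℝ) • q)) = G.pt z.1 := by rw [← neg_smul, hq2]; simp [pt]
  obtain ⟨i1, i2⟩ := hz (b, q) ⟨hbF, by rw [mem_closedBall_zero_iff, hq1]; exact hzN.le⟩ hq1 hb f1 f2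
  exact ⟨b, G.F_sub hbF, q, hq1, hb, f1, f2, i1, i2⟩

/-- the midpoint is a critical point of the midpoint energy. -/
theorem ha2_crit (ha : a ∈ G.U) (hb : b ∈ G.U) {m₀ : E n} (h0 : G.pt b = G.ex a m₀)
    (h1 : q ∈ G.I b) (h2 : -q ∈ G.I b) :
    gradient (fun m => 2 * cst (G.ex b (-q)) (G.ex a m) + 2 * cst (G.ex a m) (G.ex b q)) m₀ = 0 := by
  have d1 := G.ha2_hasFDerivAt hb h1
  have d2 := G.ha2_hasFDerivAt hb h2
  have d3 : HasFDerivAt (fun ξ => 2 * cst (G.ex b ξ) (G.ex b (-q)) + 2 * cst (G.ex b ξ) (G.ex b q))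
      (0 : E n →L[ℝ] ℝ) 0 := by
    refine ((d2.const_mul 2).add (d1.const_mul 2)).congr_fderiv
      (ContinuousLinearMap.ext fun v => ?_)
    simp
  have r0 : (G.pt b, G.ex a m₀) ∈ G.Reg := G.reg_of_dist_lt (by rw [h0, dist_self]; exact G.ρ_pos)
  have c1 : DifferentiableAt ℝ (fun m => G.lg b (G.ex a m)) m₀ :=
    ((G.contDiffAt_lg hb ha r0).comp (f := fun m : E n => (b, (a, m))) m₀
      (by fun_prop)).differentiableAt (by simp)
  have c2 : G.lg b (G.ex a m₀) = 0 := by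
    rw [← h0]
    exact G.lg_ex hb (G.ha2_zero_mem_I hb)
  have c3 : ∀ᶠ m in 𝓝 m₀, (G.pt b, G.ex a m) ∈ G.Reg :=
    ContinuousAt.eventually_mem (f := fun m => (G.pt b, G.ex a m))
      (continuousAt_const.prodMk (G.continuous_ex ha).continuousAt) (G.isOpen_Reg.mem_nhds r0)
  rw [← c2] at d3
  have d4 := d3.comp m₀ c1.hasFDerivAt
  have d5 : HasFDerivAt
      (fun m => 2 * cst (G.ex b (-q)) (G.ex a m) + 2 * cst (G.ex a m) (G.ex b q))
      (0 : E n →L[ℝ] ℝ) m₀ := by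
    refine (d4.congr_of_eventuallyEq ?_).congr_fderiv (by simp)
    filter_upwards [c3] with m hm
    simp only [Function.comp_apply, G.ex_lg hb hm]
    rw [cst_comm (G.ex b (-q))]
  unfold gradient
  rw [d5.fderiv]
  simp

omit [CompactSpace M] in
theorem ha2_half (hb : b ∈ G.U) (hq : q ∈ G.K b) :
    2 * cst (G.pt b) (G.ex b ((1 / 2 : ℝ) • q)) + 2 * cst (G.ex b ((1 / 2 : ℝ) • q)) (G.ex b q) =
      cst (G.pt b) (G.ex b q) := by
  have hh : (1 / 2 : ℝ) ∈ Icc (0 : ℝ) 1 := ⟨by norm_num, by norm_num⟩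
  have d1 := G.K_dist hb hq ⟨le_rfl, zero_le_one⟩ hh
  have d2 := G.K_dist hb hq hh ⟨zero_le_one, le_rfl⟩
  rw [zero_smul, show |(0 : ℝ) - 1 / 2| = 1 / 2 by rw [zero_sub, abs_neg, abs_of_pos one_half_pos]]
    at d1
  rw [one_smul, show |(1 / 2 : ℝ) - 1| = 1 / 2 by rw [abs_of_neg (by norm_num)]; norm_num] at d2
  rw [G.cst_K hq, cst, cst, pt, d1, d2]
  ring

/-- the smooth midpoint map. -/
theorem ha2_midmap (ha : a ∈ G.U) (hp : p ∈ G.I a) :
    ∃ μ : E n → E n, DifferentiableAt ℝ μ 0 ∧ μ 0 = (1 / 2 : ℝ) • p ∧ ∀ᶠ ξ in 𝓝 (0 : E n),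
      2 * cst (G.ex a ξ) (G.ex a (μ ξ)) + 2 * cst (G.ex a (μ ξ)) (G.ex a p) =
        cst (G.ex a ξ) (G.ex a p) := by
  have hpK := G.I_sub_K ha hp
  obtain ⟨b, hbF, hb₀⟩ := G.exists_frame (G.ex a p)
  have hb := G.F_sub hbF
  obtain ⟨q₀, hq₀, hq₁⟩ := G.exists_cont (p := p) (s := 1) ha hb (by rw [hb₀, one_smul])
  have hq₂ : ∀ t : ℝ, G.ex b (t • -q₀) = G.ex a ((1 - t) • p) := fun t => by
    rw [smul_neg, ← neg_smul, hq₁, sub_eq_add_neg]
  have e1 : G.ex b (-q₀) = G.pt a := by simpa [pt] using hq₂ 1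
  have e2 : G.ex b ((1 / 2 : ℝ) • -q₀) = G.ex a ((1 / 2 : ℝ) • p) := by
    rw [hq₂]; norm_num
  have hqK : -q₀ ∈ G.K b := by
    change dist _ _ = _
    rw [e1, hb₀, dist_comm, norm_neg, hq₀]
    exact hpK
  have r1 : (G.pt b, G.ex a 0) ∈ G.Reg := by
    rw [hb₀]
    exact G.reg_symm (G.reg_of_mem_I ha hp)
  have hqI : -q₀ ∈ G.I b := G.mem_I_of_reg hb hqK (by rw [e1]; exact r1)
  have l0 : G.lg b (G.ex a 0) = -q₀ := by
    have := G.lg_ex hb hqI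
    rwa [e1] at this
  have hpI : (1 / 2 : ℝ) • p ∈ G.I a := G.smul_mem_I ha hpK (by norm_num) (by norm_num)
  have r2 : (G.pt a, G.ex b ((1 / 2 : ℝ) • G.lg b (G.ex a 0))) ∈ G.Reg := by
    rw [l0, e2]
    exact G.reg_of_mem_I ha hpI
  have c1 : ContDiffAt ℝ ∞ (fun ξ => G.lg b (G.ex a ξ)) 0 :=
    (G.contDiffAt_lg hb ha r1).comp (f := fun m : E n => (b, (a, m))) 0 (by fun_prop)
  have c2 : ContDiffAt ℝ ∞ (fun ξ => G.lg a (G.ex b ((1 / 2 : ℝ) • G.lg b (G.ex a ξ)))) 0 :=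
    (G.contDiffAt_lg ha hb r2).comp
      (f := fun ξ : E n => (a, (b, (1 / 2 : ℝ) • G.lg b (G.ex a ξ)))) 0
      (contDiffAt_const.prodMk (contDiffAt_const.prodMk (c1.const_smul _)))
  refine ⟨_, c2.differentiableAt (by simp), ?_, ?_⟩
  · rw [l0, e2, G.lg_ex ha hpI]
  have c3 : ∀ᶠ ξ in 𝓝 (0 : E n), (G.pt b, G.ex a ξ) ∈ G.Reg :=
    ContinuousAt.eventually_mem (f := fun m => (G.pt b, G.ex a m))
      (continuousAt_const.prodMk (G.continuous_ex ha).continuousAt) (G.isOpen_Reg.mem_nhds r1)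
  have c4 : ∀ᶠ ξ in 𝓝 (0 : E n),
      (G.pt a, G.ex b ((1 / 2 : ℝ) • G.lg b (G.ex a ξ))) ∈ G.Reg :=
    ContinuousAt.eventually_mem
      (f := fun ξ => (G.pt a, G.ex b ((1 / 2 : ℝ) • G.lg b (G.ex a ξ))))
      (continuousAt_const.prodMk ((G.continuous_ex hb).continuousAt.comp
        (c1.continuousAt.const_smul (1 / 2 : ℝ)))) (G.isOpen_Reg.mem_nhds r2)
  filter_upwards [c3, c4] with ξ h3 h4
  have h5 := G.ha2_half hb (G.I_sub_K hb (G.lg_mem_I hb h3))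
  rw [G.ex_lg hb h3, hb₀] at h5
  rw [G.ex_lg ha h4, cst_comm (G.ex a ξ) (G.ex a p), ← h5, cst_comm (G.ex a ξ),
    cst_comm _ (G.ex a p)]
  ring

/-- quadratic growth of the midpoint energy in the frame `a`. -/
theorem ha2_growth : ∃ c : ℝ, 0 < c ∧ ∀ z ∈ G.KF, ∀ δ : ℝ, 0 < δ → δ ≤ 1 →
    ∀ᶠ m in 𝓝 ((1 / 2 : ℝ) • (1 - δ) • z.2),
      cst (G.pt z.1) (G.ex z.1 ((1 - δ) • z.2)) +
          c * δ * ‖m - (1 / 2 : ℝ) • (1 - δ) • z.2‖ ^ 2 ≤
        2 * cst (G.pt z.1) (G.ex z.1 m) + 2 * cst (G.ex z.1 m) (G.ex z.1 ((1 - δ) • z.2)) := by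
  obtain ⟨c, hc, hqg⟩ := G.quad_growth
  obtain ⟨D, hD1, hD⟩ := exists_diam M
  obtain ⟨L, hL1, hL⟩ := G.ex_lip D
  have hZ : IsCompact ((fun w : (P n × E n) × ℝ => (w.1.1, w.2 • w.1.2)) ''
      (G.KF ×ˢ Icc (0 : ℝ) (1 / 2))) := (G.isCompact_KF.prod isCompact_Icc).image (by fun_prop)
  obtain ⟨L', hL'1, r, hr, hL'⟩ := G.lg_lip hZ (by
    rintro _ ⟨⟨z, t⟩, ⟨hz, ht⟩, rfl⟩
    exact ⟨G.F_sub hz.1, G.smul_mem_I (G.F_sub hz.1) hz.2 ht.1 (by linarith [ht.2])⟩)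
  refine ⟨c / (L * L') ^ 2, by positivity, ?_⟩
  rintro ⟨a, p⟩ ⟨haF, hp⟩ δ hδ0 hδ1
  have ha : a ∈ G.U := G.F_sub haF
  replace hp : p ∈ G.K a := hp
  dsimp only
  have hδ : (1 - δ) ∈ Icc (0 : ℝ) 1 := ⟨by linarith, by linarith⟩
  have hpδ : (1 - δ) • p ∈ G.K a := G.K_smul ha hp hδ
  obtain ⟨b, hbF, hb₀⟩ := G.exists_frame (G.ex a ((1 - δ) • p))
  have hb := G.F_sub hbF
  obtain ⟨q₀, hq₀, hq₁⟩ := G.exists_cont ha hb hb₀
  have e1 : G.ex b ((-(1 - δ)) • q₀) = G.pt a := by rw [hq₁]; simp [pt]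
  have nq : ‖(-(1 - δ)) • q₀‖ = (1 - δ) * ‖p‖ := by
    rw [norm_smul, norm_neg, hq₀, Real.norm_of_nonneg hδ.1]
  have hqK : (-(1 - δ)) • q₀ ∈ G.K b := by
    change dist _ _ = _
    rw [e1, hb₀, dist_comm, nq, hpδ.out, norm_smul, Real.norm_of_nonneg hδ.1]
  have e2 : G.ex b ((1 / 2 : ℝ) • (-(1 - δ)) • q₀) = G.ex a ((1 / 2 : ℝ) • (1 - δ) • p) := by
    rw [smul_smul, hq₁, smul_smul]
    congr 2
    ring
  have hg := hqg b hb _ hqK δ hδ0 hδ1 (by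
    have h1 : (1 - δ ^ 2) ∈ Icc (0 : ℝ) 1 := ⟨by nlinarith, by nlinarith⟩
    have h2 := (G.K_smul ha hp h1).out
    rw [e1, smul_smul, ← neg_smul, hq₁, nq,
      show 1 - δ + -(δ * -(1 - δ)) = 1 - δ ^ 2 by ring, h2, norm_smul, Real.norm_of_nonneg h1.1]
    ring)
  rw [e1, hb₀] at hg
  have hI : (1 / 2 : ℝ) • (1 - δ) • p ∈ G.I a := G.smul_mem_I ha hpδ (by norm_num) (by norm_num)
  have hz := hL' (a, (1 / 2 : ℝ) • (1 - δ) • p)
    ⟨((a, p), 1 / 2 * (1 - δ)), ⟨⟨haF, hp⟩, ⟨by linarith, by linarith⟩⟩, by simp [smul_smul]⟩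
  dsimp only at hz
  have hnear : ∀ᶠ m in 𝓝 ((1 / 2 : ℝ) • (1 - δ) • p),
      G.ex a m ∈ closedBall (G.ex a ((1 / 2 : ℝ) • (1 - δ) • p)) r :=
    (G.continuous_ex ha).continuousAt.eventually_mem (closedBall_mem_nhds _ hr)
  filter_upwards [hnear, (G.isOpen_I ha).mem_nhds hI] with m hm hmI
  obtain ⟨μ, hμK, hμ⟩ := G.exists_min hb (G.ex a m)
  have h1 := hg μ hμK
  rw [hμ] at h1
  have h2 := (hz (G.ex a m) _ hm (by rw [dist_self]; exact hr.le)).2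
  rw [G.lg_ex ha hmI, G.lg_ex ha hI] at h2
  have hq2 : (1 / 2 : ℝ) • (-(1 - δ)) • q₀ ∈ G.K b := G.K_smul hb hqK ⟨by norm_num, by norm_num⟩
  have h3 := hL b hb μ _ (by rw [← hμK.out]; exact hD _ _) (by rw [← hq2.out]; exact hD _ _)
  rw [hμ, e2] at h3
  have h4 : ‖m - (1 / 2 : ℝ) • (1 - δ) • p‖ ≤ L * L' * ‖μ - (1 / 2 : ℝ) • (-(1 - δ)) • q₀‖ := by
    refine h2.trans ?_
    rw [mul_comm L L', mul_assoc]
    gcongr
  have h5 : c / (L * L') ^ 2 * δ * ‖m - (1 / 2 : ℝ) • (1 - δ) • p‖ ^ 2 ≤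
      c * δ * ‖μ - (1 / 2 : ℝ) • (-(1 - δ)) • q₀‖ ^ 2 := by
    calc c / (L * L') ^ 2 * δ * ‖m - (1 / 2 : ℝ) • (1 - δ) • p‖ ^ 2
        ≤ c / (L * L') ^ 2 * δ * (L * L' * ‖μ - (1 / 2 : ℝ) • (-(1 - δ)) • q₀‖) ^ 2 := by gcongr
      _ = c * δ * ‖μ - (1 / 2 : ℝ) • (-(1 - δ)) • q₀‖ ^ 2 := by field_simp
  linarith

end LocGeo

end Crest.Agent.R226
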