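import Crest.Agent.R226.Lip
import Crest.Agent.R226.HessAux2
import Crest.Agent.R226.HessAux1

/-! Row 226: the Hessians `H` (of the cost) and `W` (of the midpoint energy). -/

set_option autoImplicit false

open Set Filter Metric
open scoped ContDiff Topology InnerProductSpace

namespace Crest.Agent.R226

noncomputable section

namespace LocGeo

variable {n : ℕ} {M : Type*} [MetricSpace M] [CompactSpace M] (G : LocGeo n M) {a : P n}
  {p : E n}

/-- Hessian at the base point of the cost to `ex a p`. -/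
def H (z : P n × E n) : E n →L[ℝ] E n := hess (fun ξ => cst (G.ex z.1 ξ) (G.ex z.1 z.2)) 0

/-- the midpoint energy. -/
def En (a : P n) (ξ m p : E n) : ℝ :=
  2 * cst (G.ex a ξ) (G.ex a m) + 2 * cst (G.ex a m) (G.ex a p)

/-- Hessian of the midpoint energy in the midpoint. -/
def W (z : P n × E n) : E n →L[ℝ] E n := hess (fun m => G.En z.1 0 m z.2) ((1 / 2 : ℝ) • z.2)

theorem contDiffAt_H {z : P n × E n} (hz : z ∈ G.IU) : ContDiffAt ℝ ∞ G.H z := by
  have h1 : ContDiffAt ℝ ∞ (fun w : (P n × E n) × E n => G.cc ((w.1.1, w.2), w.1)) (z, 0) :=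
    ContDiffAt.comp (g := G.cc) (f := fun w : (P n × E n) × E n => ((w.1.1, w.2), w.1)) (z, 0)
      (G.contDiffAt_cc hz.1 hz.1 (G.reg_of_mem_I hz.1 hz.2)) (by fun_prop)
  exact ContDiffAt.comp (f := fun w : P n × E n => (w, (0 : E n))) z
    (contDiffAt_hess_param (k := ∞) h1 le_rfl) (by fun_prop)

theorem H_symm {z : P n × E n} (hz : z ∈ G.IU) (u v : E n) :
    ⟪G.H z u, v⟫_ℝ = ⟪u, G.H z v⟫_ℝ := by
  exact hess_symm ((G.hx1_contDiffAt_left hz.1 (G.reg_of_mem_I hz.1 hz.2)).of_le hx1_two_le) u v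

/-- `cst (ex ξ) y ≥ (1-t) (‖p‖²/2 - ‖ξ‖²/(2t))` with equality at `ξ = t p`, so the gradient at
`t p` is `-(1-t) p` for small `t > 0`; differentiate at `t = 0`. -/
theorem H_radial {z : P n × E n} (hz : z ∈ G.IU) : G.H z z.2 = z.2 := by
  obtain ⟨a, p⟩ := z
  have ha : a ∈ G.U := hz.1
  have hK : p ∈ G.K a := G.I_sub_K ha hz.2
  have h1 := hasFDerivAt_gradient
    ((G.hx1_contDiffAt_left ha (G.reg_of_mem_I ha hz.2)).of_le hx1_two_le)
  have hδ : HasDerivAt (fun t : ℝ => t • p) p 0 := by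
    simpa using (hasDerivAt_id (0 : ℝ)).smul_const p
  have h2 := HasFDerivAt.comp_hasDerivAt_of_eq (0 : ℝ) h1 hδ (by simp)
  have h3 : HasDerivAt (fun t : ℝ => -((1 - t) • p)) p 0 := by
    simpa using (((hasDerivAt_id (0 : ℝ)).const_sub 1).smul_const p).fun_neg
  have h0 : gradient (fun ξ => cst (G.ex a ξ) (G.ex a p)) 0 = -p := by
    have := G.lg_ex ha hz.2
    rw [lg] at this
    rw [← neg_eq_iff_eq_neg]
    exact this
  have h4 : HasDerivWithinAt ((gradient fun ξ => cst (G.ex a ξ) (G.ex a p)) ∘ fun t : ℝ => t • p) p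
      (Ici 0) 0 := by
    refine h3.hasDerivWithinAt.congr_of_eventuallyEq ?_ (by simp [h0])
    filter_upwards [Icc_mem_nhdsGE (zero_lt_one' ℝ)] with t ht
    rcases ht.1.eq_or_lt with rfl | h
    · simp [h0]
    · exact G.hx1_gradient ha hK h ht.2
  exact (uniqueDiffWithinAt_Ici (0 : ℝ)).eq_deriv _ h2.hasDerivWithinAt h4

theorem H_le : ∃ C : ℝ, 1 ≤ C ∧ ∀ z ∈ G.IU, ∀ u, ⟪G.H z u, u⟫_ℝ ≤ C * ‖u‖ ^ 2 := by
  obtain ⟨C, hC, h⟩ := G.semiconcave
  refine ⟨2 * C, by linarith, fun z hz u => ?_⟩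
  have hK := G.I_sub_K hz.1 hz.2
  refine (hess_le_of_le (g := -z.2) (θ := C)
    ((G.hx1_contDiffAt_left hz.1 (G.reg_of_mem_I hz.1 hz.2)).of_le hx1_two_le)
    (Eventually.of_forall fun y => ?_)).2 u
  have h1 := h z.1 hz.1 z.2 hK y
  have h2 := G.cst_K hK
  rw [sub_zero, inner_neg_left]
  unfold pt at h2
  linarith

theorem contDiffAt_En (ha : a ∈ G.U) (hp : p ∈ G.K a) :
    ContDiffAt ℝ ∞ (fun w : (P n × E n) × (E n × E n) => G.En w.1.1 w.2.1 w.2.2 w.1.2)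
      ((a, p), (0, (1 / 2 : ℝ) • p)) := by
  have h1 : ContDiffAt ℝ ∞
      (fun w : (P n × E n) × (E n × E n) => G.cc ((w.1.1, w.2.1), (w.1.1, w.2.2)))
      ((a, p), (0, (1 / 2 : ℝ) • p)) :=
    ContDiffAt.comp (g := G.cc)
      (f := fun w : (P n × E n) × (E n × E n) => ((w.1.1, w.2.1), (w.1.1, w.2.2))) _
      (G.contDiffAt_cc ha ha (G.hx1_reg1 ha hp)) (by fun_prop)
  have h2 : ContDiffAt ℝ ∞
      (fun w : (P n × E n) × (E n × E n) => G.cc ((w.1.1, w.2.2), (w.1.1, w.1.2)))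
      ((a, p), (0, (1 / 2 : ℝ) • p)) :=
    ContDiffAt.comp (g := G.cc)
      (f := fun w : (P n × E n) × (E n × E n) => ((w.1.1, w.2.2), (w.1.1, w.1.2))) _
      (G.contDiffAt_cc ha ha (G.hx1_reg2 ha hp (by norm_num) (by norm_num))) (by fun_prop)
  exact (contDiffAt_const.mul h1).add (contDiffAt_const.mul h2)

theorem contDiffAt_W (ha : a ∈ G.U) (hp : p ∈ G.K a) : ContDiffAt ℝ ∞ G.W (a, p) := by
  have h1 : ContDiffAt ℝ ∞ (fun w : (P n × E n) × E n => G.En w.1.1 0 w.2 w.1.2)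
      ((a, p), (1 / 2 : ℝ) • p) :=
    ContDiffAt.comp (g := fun w : (P n × E n) × (E n × E n) => G.En w.1.1 w.2.1 w.2.2 w.1.2)
      (f := fun w : (P n × E n) × E n => (w.1, ((0 : E n), w.2))) _
      (G.contDiffAt_En ha hp) (by fun_prop)
  exact ContDiffAt.comp (f := fun w : P n × E n => (w, (1 / 2 : ℝ) • w.2)) (a, p)
    (contDiffAt_hess_param (k := ∞) h1 le_rfl) (by fun_prop)

theorem W_symm (ha : a ∈ G.U) (hp : p ∈ G.K a) (u v : E n) :
    ⟪G.W (a, p) u, v⟫_ℝ = ⟪u, G.W (a, p) v⟫_ℝ := by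
  have h1 : ContDiffAt ℝ ∞ (fun m => G.En a 0 m p) ((1 / 2 : ℝ) • p) :=
    ContDiffAt.comp (g := fun w : (P n × E n) × (E n × E n) => G.En w.1.1 w.2.1 w.2.2 w.1.2)
      (f := fun m : E n => ((a, p), ((0 : E n), m))) _ (G.contDiffAt_En ha hp) (by fun_prop)
  exact hess_symm (h1.of_le hx1_two_le) u v

theorem W_nonneg (ha : a ∈ G.U) (hp : p ∈ G.K a) (u : E n) : 0 ≤ ⟪G.W (a, p) u, u⟫_ℝ := by
  have h1 : ContDiffAt ℝ ∞ (fun m => G.En a 0 m p) ((1 / 2 : ℝ) • p) :=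
    ContDiffAt.comp (g := fun w : (P n × E n) × (E n × E n) => G.En w.1.1 w.2.1 w.2.2 w.1.2)
      (f := fun m : E n => ((a, p), ((0 : E n), m))) _ (G.contDiffAt_En ha hp) (by fun_prop)
  have h2 := (le_hess_of_le (g := 0) (θ := 0) (h1.of_le hx1_two_le)
    (Eventually.of_forall fun y => ?_)).2 u
  · simpa [W] using h2
  have h3 := cst_le_two (G.pt a) (G.ex a y) (G.ex a p)
  have h4 := G.cst_K (G.K_smul ha hp (t := 1 / 2) (by norm_num))
  have h5 := G.hx1_cst ha hp (t := 1 / 2) (by norm_num)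
  rw [G.cst_K hp] at h3
  rw [norm_smul, Real.norm_of_nonneg (by norm_num)] at h4
  unfold pt at h3 h4
  simp only [En, h4, h5, inner_zero_left]
  linarith

/-- near `K` the half velocity is still a critical point of the midpoint energy, with value
`‖p‖²/2`.  Proof: for `(a', p')` near `(a, p)` both `p'/2 ∈ I a'` and the two halves are regular
pairs, and the second half is minimising (frame `b` at `ex a' (p'/2)`, continuation `q`:
`q/2 ∈ K b` because `(3/4)`-subsegments are minimising: use `isOpen_IU` at the limit frames /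
compactness of `F`); in the frame `b` the energy is `ξ ↦ 2 cst (ex b (-q/2)) (ex b ξ) +
2 cst (ex b ξ) (ex b (q/2))` whose gradient at `0` vanishes by `lg_ex`; change coordinates by
`m ↦ lg b (ex a' m)`. -/
theorem eventually_crit (ha : a ∈ G.U) (hp : p ∈ G.K a) :
    ∀ᶠ z : P n × E n in 𝓝 (a, p), G.En z.1 0 ((1 / 2 : ℝ) • z.2) z.2 = ‖z.2‖ ^ 2 / 2 ∧
      gradient (fun m => G.En z.1 0 m z.2) ((1 / 2 : ℝ) • z.2) = 0 ∧
      (1 / 2 : ℝ) • z.2 ∈ G.I z.1 := by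
  have hI : ∀ᶠ z : P n × E n in 𝓝 (a, p), (z.1, (1 / 2 : ℝ) • z.2) ∈ G.IU :=
    ContinuousAt.eventually_mem (f := fun z : P n × E n => (z.1, (1 / 2 : ℝ) • z.2)) (by fun_prop)
      (G.isOpen_IU.mem_nhds ⟨ha, G.smul_mem_I ha hp (by norm_num) (by norm_num)⟩)
  filter_upwards [hI, G.ha2_mid_frame ha hp] with z hz ⟨b, hb, q, hq, h0, h1, h2, i1, i2⟩
  refine ⟨?_, ?_, hz.2⟩
  · have n1 : ‖(1 / 2 : ℝ) • q‖ = 1 / 2 * ‖z.2‖ := by
      rw [norm_smul, hq, Real.norm_of_nonneg (by norm_num)]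
    have k1 := G.cst_K (G.I_sub_K hb i1)
    have k2 := G.cst_K (G.I_sub_K hb i2)
    rw [h1, h0, n1] at k1
    rw [h2, h0, norm_neg, n1, cst_comm] at k2
    change 2 * cst (G.pt z.1) _ + 2 * cst _ _ = _
    rw [k1, k2]
    ring
  · have := G.ha2_crit hz.1 hb h0 i1 i2
    rwa [h1, h2] at this

/-- Proof: `quad_growth` in a frame `b` at `ex a ((1-δ) p)`, `ex_lip`, `lg_lip` on the compact set
`{(a, t p) | (a, p) ∈ KF, t ∈ [0, 1/2]}`, `le_hess_of_le`. -/
theorem W_lower : ∃ c : ℝ, 0 < c ∧ ∀ z ∈ G.KF, ∀ δ ∈ Icc (0 : ℝ) 1, ∀ u,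
    c * δ * ‖u‖ ^ 2 ≤ ⟪G.W (z.1, (1 - δ) • z.2) u, u⟫_ℝ := by
  obtain ⟨c, hc, h⟩ := G.ha2_growth
  refine ⟨c, hc, fun z hz δ hδ u => ?_⟩
  have ha : z.1 ∈ G.U := G.F_sub hz.1
  have hK : (1 - δ) • z.2 ∈ G.K z.1 := G.K_smul ha hz.2 ⟨by linarith [hδ.2], by linarith [hδ.1]⟩
  rcases hδ.1.eq_or_lt with h0 | h0
  · have := G.W_nonneg ha hK u
    rw [← h0] at this ⊢
    simpa using this
  have hs : ContDiffAt ℝ 2 (fun m => G.En z.1 0 m ((1 - δ) • z.2)) ((1 / 2 : ℝ) • (1 - δ) • z.2) :=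
    ((G.contDiffAt_En ha hK).comp
      (f := fun m : E n => ((z.1, (1 - δ) • z.2), ((0 : E n), m))) ((1 / 2 : ℝ) • (1 - δ) • z.2)
      (by fun_prop)).of_le (WithTop.coe_le_coe.2 le_top)
  have h1 := (le_hess_of_le (g := 0) (θ := c * δ) hs (by
    filter_upwards [h z hz δ h0 hδ.2] with m hm
    have h2 := G.ha2_half ha hK
    simp only [inner_zero_left, add_zero]
    change 2 * cst (G.pt z.1) _ + 2 * cst _ _ + _ ≤ 2 * cst (G.pt z.1) _ + 2 * cst _ _
    rw [h2]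
    exact hm)).2 u
  have h3 : 0 ≤ c * δ * ‖u‖ ^ 2 := by positivity
  change _ ≤ ⟪hess (fun m => G.En z.1 0 m ((1 - δ) • z.2)) ((1 / 2 : ℝ) • (1 - δ) • z.2) u, u⟫_ℝ
  linarith

/-- Schur complement.  Proof: `b` a frame at `y = ex a p`, the midpoint
`m ξ = lg a (ex b ((1/2) • lg b (ex a ξ)))` is smooth, `En a ξ m p - cst (ex a ξ) y ≥ 0` vanishes
on its graph, so both partial gradients vanish there; differentiate at `ξ = 0`, the mixed
derivative of `En` at `(0, p/2)` being `-2 Id` (`lg_ex`). -/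
theorem W_schur (ha : a ∈ G.U) (hp : p ∈ G.I a) (u : E n) :
    G.W (a, p) ((2 : ℝ) • G.H (a, (1 / 2 : ℝ) • p) u - G.H (a, p) u) = (4 : ℝ) • u := by
  have hpK := G.I_sub_K ha hp
  have hpI : (1 / 2 : ℝ) • p ∈ G.I a := G.smul_mem_I ha hpK (by norm_num) (by norm_num)
  obtain ⟨μ, hμ, hμ0, hmid⟩ := G.ha2_midmap ha hp
  have two : (2 : WithTop ℕ∞) ≤ ∞ := WithTop.coe_le_coe.2 le_top
  have g1 : ContDiffAt ℝ ∞ (fun ξ => cst (G.ex a ξ) (G.ex a p)) 0 :=
    G.ha2_contDiffAt_left ha (G.reg_of_mem_I ha hp)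
  have g2 : ContDiffAt ℝ ∞ (fun ξ => cst (G.ex a ξ) (G.ex a ((1 / 2 : ℝ) • p))) 0 :=
    G.ha2_contDiffAt_left ha (G.reg_of_mem_I ha hpI)
  have hE : ContDiffAt ℝ ∞ (fun w : E n × E n => G.En a w.1 w.2 p) (0, (1 / 2 : ℝ) • p) :=
    (G.contDiffAt_En ha hpK).comp (f := fun w : E n × E n => ((a, p), w)) _ (by fun_prop)
  have g3 : ContDiffAt ℝ ∞ (fun w : E n × E n => cst (G.ex a w.1) (G.ex a p))
      (0, (1 / 2 : ℝ) • p) :=
    ContDiffAt.comp (g := fun ξ => cst (G.ex a ξ) (G.ex a p)) (f := fun w : E n × E n => w.1) _ g1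
      contDiffAt_fst
  have key := ha2_schur
    (Ψ := fun w : E n × E n => G.En a w.1 w.2 p - cst (G.ex a w.1) (G.ex a p))
    (m₀ := (1 / 2 : ℝ) • p) (c := p) (μ := μ)
    ((hE.sub g3).of_le two) hμ hμ0 (by
      filter_upwards [hmid] with ξ hξ
      refine Eventually.of_forall fun w => ?_
      have := cst_le_two (G.ex a w.1) (G.ex a w.2) (G.ex a p)
      simp only [En]
      linarith) (by
      filter_upwards [(G.isOpen_I ha).mem_nhds hpI] with m hm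
      have d := (((G.ha2_hasFDerivAt ha hm).const_mul 2).add_const
        (2 * cst (G.ex a m) (G.ex a p))).sub (G.ha2_hasFDerivAt ha hp)
      refine ext_inner_right ℝ fun v => ?_
      rw [inner_gradient]
      erw [d.fderiv]
      simp [inner_sub_left, real_inner_smul_left]
      ring) u
  dsimp only at key
  rw [ha2_hess_sub_const (fun m => G.En a 0 m p)] at key
  have e := ha2_hess_comb (2 * cst (G.ex a ((1 / 2 : ℝ) • p)) (G.ex a p)) (g2.of_le two)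
    (g1.of_le two) u
  change hess _ _ (hess (fun ξ => 2 * cst (G.ex a ξ) (G.ex a ((1 / 2 : ℝ) • p)) +
    2 * cst (G.ex a ((1 / 2 : ℝ) • p)) (G.ex a p) - cst (G.ex a ξ) (G.ex a p)) 0 u) = _ at key
  rw [e] at key
  exact key

/-- weak MTW: concavity of `H (ξ, ξ)` along segments orthogonal to `ξ`
(`concaveOn_of_deriv2_nonpos`-type lemma; the second derivative is the fourth derivative in the
definition of `MTW`). -/
theorem mtw_concave (hM : G.MTW) (ha : a ∈ G.U) {ξ η : E n} (h : ⟪ξ, η⟫_ℝ = 0) {t₀ t₁ : ℝ}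
    (hI : ∀ t ∈ Icc t₀ t₁, p + t • η ∈ G.I a) :
    ConcaveOn ℝ (Icc t₀ t₁) fun t => ⟪G.H (a, p + t • η) ξ, ξ⟫_ℝ := by
  set F : ℝ × ℝ → ℝ := fun z => cst (G.ex a (z.2 • ξ)) (G.ex a (p + z.1 • η)) with hF
  have hs : ∀ t ∈ Icc t₀ t₁, ContDiffAt ℝ ∞ F (t, 0) := by
    intro t ht
    refine ContDiffAt.comp (g := G.cc)
      (f := fun z : ℝ × ℝ => ((a, z.2 • ξ), (a, p + z.1 • η))) _ ?_ (by fun_prop)
    simp only [zero_smul]
    exact G.contDiffAt_cc ha ha (G.reg_of_mem_I ha (hI t ht))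
  have hγ : ∀ t : ℝ, HasDerivAt (fun t : ℝ => ((t, 0) : ℝ × ℝ)) (1, 0) t := fun t =>
    (hasDerivAt_id t).prodMk (hasDerivAt_const t 0)
  have h1 := fun t ht => hx1_hasDerivAt (hγ t) (hs t ht) ![((0 : ℝ), (1 : ℝ)), (0, 1)]
  have h2 := fun t ht => hx1_hasDerivAt (hγ t) (hs t ht) ![((1 : ℝ), (0 : ℝ)), (0, 1), (0, 1)]
  have h3 := concaveOn_of_hasDerivWithinAt2_nonpos (convex_Icc t₀ t₁)
    (fun t ht => (h1 t ht).continuousAt.continuousWithinAt)
    (fun t ht => (h1 t (interior_subset ht)).hasDerivWithinAt)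
    (fun t ht => (h2 t (interior_subset ht)).hasDerivWithinAt) (fun t ht => ?_)
  · refine h3.congr fun t ht => ?_
    exact (hx1_hess_eq (G.hx1_contDiffAt_left ha (G.reg_of_mem_I ha (hI t ht))) (hs t ht)
      fun τ => rfl).symm
  · have h4 := hM a ha _ (hI t (interior_subset ht)) ξ η h
    have h5 : (fun z : ℝ × ℝ => cst (G.ex a (z.2 • ξ)) (G.ex a (p + t • η + z.1 • η))) =
        fun z => F ((t, 0) + z) := by
      funext z
      simp [hF, add_smul, add_assoc]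
    rw [h5, iteratedFDeriv_comp_add_left] at h4
    simpa using h4

end LocGeo

end

end Crest.Agent.R226
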