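import Crest.Agent.R226.Hess

/-! Row 226: weak MTW implies `H ≤ 1` and the hinge (Toponogov) inequality. -/

set_option autoImplicit false

open Set Filter Metric
open scoped ContDiff Topology InnerProductSpace

namespace Crest.Agent.R226

theorem Hinge_lim {A B D : ℝ} (h : ∀ t ∈ Ioo (0 : ℝ) 1, A ≤ B + t * D) : A ≤ B := by
  have h1 : Tendsto (fun t : ℝ => B + t * D) (𝓝[>] 0) (𝓝 (B + 0 * D)) :=
    ((continuous_const.add (continuous_id.mul continuous_const)).tendsto 0).mono_left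
      nhdsWithin_le_nhds
  rw [zero_mul, add_zero] at h1
  exact ge_of_tendsto h1 (mem_of_superset (Ioo_mem_nhdsGT zero_lt_one) h)

theorem Hinge_taylor {n : ℕ} {f : E n → ℝ} (hf : ContDiffAt ℝ 3 f 0) {η : ℝ} (hη : 0 < η) :
    ∀ᶠ ξ in 𝓝 (0 : E n), f ξ ≤ f 0 + ⟪gradient f 0, ξ⟫_ℝ + ⟪hess f 0 ξ, ξ⟫_ℝ / 2 +
      η * ‖ξ‖ ^ 2 := by
  obtain ⟨r, hr, C, hC, h⟩ := unif_bound (Z := {(0 : E n)}) (Φ := f) isCompact_singleton 3
    (by rintro _ rfl; exact hf)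
  rw [cthickening_singleton _ hr.le] at h
  filter_upwards [closedBall_mem_nhds (0 : E n) (lt_min hr (div_pos hη (by linarith : 0 < C + 1)))]
    with ξ hξ
  rw [mem_closedBall_zero_iff, le_min_iff, le_div_iff₀ (by linarith)] at hξ
  have h1 := taylor2 (Φ := f) (z := 0) (v := ξ) (C := C) fun t ht => by
    have h2 := h (0 + t • ξ) (by
      rw [mem_closedBall_zero_iff, zero_add, norm_smul, Real.norm_of_nonneg ht.1]
      exact (mul_le_of_le_one_left (norm_nonneg _) ht.2).trans hξ.1)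
    exact ⟨h2.1, h2.2 3 le_rfl⟩
  rw [zero_add, Real.norm_eq_abs, smul_eq_mul] at h1
  rw [inner_gradient, inner_hess (hf.of_le (by norm_num))]
  have h3 := (le_abs_self _).trans h1
  have h4 : C * ‖ξ‖ ^ 3 ≤ η * ‖ξ‖ ^ 2 := by
    have : C * ‖ξ‖ ≤ η := by nlinarith [norm_nonneg ξ]
    calc C * ‖ξ‖ ^ 3 = C * ‖ξ‖ * ‖ξ‖ ^ 2 := by ring
      _ ≤ _ := mul_le_mul_of_nonneg_right this (sq_nonneg _)
  linarith

/-- a continuous function with strict local upper supports is concave. -/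
theorem concaveOn_of_local_support {h : ℝ → ℝ} (hc : Continuous h)
    (hs : ∀ t, ∃ l ε : ℝ, 0 < ε ∧ ∀ᶠ τ in 𝓝 (0 : ℝ), h (t + τ) ≤ h t + l * τ - ε * τ ^ 2) :
    ConcaveOn ℝ univ h := by
  refine LinearOrder.concaveOn_of_lt convex_univ fun x _ y _ hxy a b ha hb hab => ?_
  set m := (h y - h x) / (y - x) with hm
  have hm' : m * (y - x) = h y - h x := div_mul_cancel₀ _ (sub_pos.2 hxy).ne'
  have hg : Continuous fun t => h t - m * t := hc.sub (continuous_const.mul continuous_id)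
  obtain ⟨t, ht, hmin⟩ := isCompact_Icc.exists_isMinOn (nonempty_Icc.2 hxy.le) hg.continuousOn
  have key : h x - m * x ≤ h t - m * t := by
    rcases ht.1.eq_or_lt with rfl | h1
    · exact le_rfl
    rcases ht.2.eq_or_lt with rfl | h2
    · linarith
    exfalso
    obtain ⟨l, ε, hε, he⟩ := hs t
    have h3 : ∀ᶠ τ in 𝓝 (0 : ℝ), t + τ ∈ Icc x y := by
      have : Tendsto (fun τ : ℝ => t + τ) (𝓝 0) (𝓝 t) := by
        simpa using (continuous_const_add t).tendsto 0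
      exact this.eventually (Icc_mem_nhds h1 h2)
    have h4 := he.and h3
    have h5 : Tendsto (fun τ : ℝ => -τ) (𝓝 0) (𝓝 0) := by simpa using continuous_neg.tendsto (0 : ℝ)
    obtain ⟨τ, ⟨⟨a1, a2⟩, a3, a4⟩, hτ⟩ := (((h4.and (h5.eventually h4)).filter_mono
      (nhdsWithin_le_nhds (s := Ioi 0))).and self_mem_nhdsWithin).exists
    have b1 : h t - m * t ≤ h (t + τ) - m * (t + τ) := hmin a2
    have b2 : h t - m * t ≤ h (t + -τ) - m * (t + -τ) := hmin a4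
    have b3 : 0 < ε * τ ^ 2 := mul_pos hε (pow_pos hτ 2)
    nlinarith
  have hz : a * x + b * y ∈ Icc x y := by
    obtain rfl : a = 1 - b := by linarith
    constructor <;> nlinarith
  have h6 : h t - m * t ≤ h (a * x + b * y) - m * (a * x + b * y) := hmin hz
  simp only [smul_eq_mul]
  obtain rfl : a = 1 - b := by linarith
  have h7 : b * (m * (y - x)) = b * (h y - h x) := by rw [hm']
  nlinarith

namespace LocGeo

variable {n : ℕ} {M : Type*} [MetricSpace M] [CompactSpace M] {G : LocGeo n M} {a : P n}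

/-- `g (ξ, p) = cst (ex a ξ) (ex a p)` is symmetric and `∇_ξ g (0, p) = -p` near `0`, hence
`H (a, 0) = 1` and `∂_p ∂_ξ ∂_ξ g (0, 0) = 0` (`iteratedFDeriv_perm`). -/
theorem hasDerivAt_H_zero (ha : a ∈ G.U) (p ξ : E n) :
    ⟪G.H (a, 0) ξ, ξ⟫_ℝ = ‖ξ‖ ^ 2 ∧
      HasDerivAt (fun t : ℝ => ⟪G.H (a, t • p) ξ, ξ⟫_ℝ) 0 0 := by
  have hsm : ∀ q : E n, ∀ᶠ t : ℝ in 𝓝 0, ‖t • q‖ < G.ρ := fun q => by
    have h1 : ContinuousAt (fun t : ℝ => ‖t • q‖) 0 := by fun_prop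
    exact h1.eventually_lt continuousAt_const (by simpa using G.ρ_pos)
  constructor
  · have h1 : (fun ξ : E n => cst (G.ex a ξ) (G.ex a 0)) =ᶠ[𝓝 0] fun ξ => ‖ξ‖ ^ 2 / 2 := by
      filter_upwards [ball_mem_nhds (0 : E n) G.ρ_pos] with y hy
      rw [cst_comm]
      exact G.cst_K (G.mem_K_of_norm_le ha (mem_ball_zero_iff.1 hy).le)
    have h2 : ContDiffAt ℝ 2 (fun ξ : E n => ‖ξ‖ ^ 2 / 2) 0 :=
      ((contDiff_norm_sq ℝ).div_const 2).contDiffAt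
    have h3 := (le_hess_of_le (g := 0) (θ := 1 / 2) h2
      (Eventually.of_forall fun y => by simp; linarith)).2 ξ
    have h4 := (hess_le_of_le (g := 0) (θ := 1 / 2) h2
      (Eventually.of_forall fun y => by simp; linarith)).2 ξ
    have h5 : G.H (a, 0) = hess (fun ξ : E n => ‖ξ‖ ^ 2 / 2) 0 := hess_congr h1
    rw [h5]
    linarith
  · set F : ℝ × ℝ → ℝ := fun z => cst (G.ex a (z.2 • ξ)) (G.ex a (z.1 • p)) with hF
    have hc : ContinuousAt (fun z : ℝ × ℝ => dist (G.ex a (z.2 • ξ)) (G.ex a (z.1 • p))) (0, 0) := by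
      have := G.continuous_ex ha
      fun_prop
    have hs : ∀ᶠ z : ℝ × ℝ in 𝓝 (0, 0), ContDiffAt ℝ ∞ F z := by
      filter_upwards [hc.eventually_lt continuousAt_const (by simpa using G.ρ_pos)] with z hz
      exact ContDiffAt.comp (g := G.cc) (f := fun z : ℝ × ℝ => ((a, z.2 • ξ), (a, z.1 • p))) _
        (G.contDiffAt_cc_of_lt ha ha hz) (by fun_prop)
    have hγ : ∀ τ t : ℝ, HasDerivAt (fun t : ℝ => ((t, τ) : ℝ × ℝ)) (1, 0) t := fun τ t =>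
      (hasDerivAt_id t).prodMk (hasDerivAt_const t τ)
    have hδ : ∀ τ : ℝ, HasDerivAt (fun t : ℝ => ((0, t) : ℝ × ℝ)) (0, 1) τ := fun τ =>
      (hasDerivAt_const τ 0).prodMk (hasDerivAt_id τ)
    have hs1 : ∀ᶠ t : ℝ in 𝓝 0, ContDiffAt ℝ ∞ F (t, 0) := (hγ 0 0).continuousAt.eventually hs
    have hs2 : ∀ᶠ t : ℝ in 𝓝 0, ContDiffAt ℝ ∞ F (0, t) := (hδ 0).continuousAt.eventually hs
    have d1 : ∀ᶠ τ : ℝ in 𝓝 0,
        iteratedFDeriv ℝ 1 F (0, τ) ![((1 : ℝ), (0 : ℝ))] = -(τ * ⟪ξ, p⟫_ℝ) := by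
      filter_upwards [hs2, hsm ξ] with τ h1 h2
      have h3 := hx1_hasDerivAt (hγ τ 0) h1 ![]
      have h4 := (G.hx1_contDiffAt_left ha (G.reg_of_mem_I ha (G.mem_I_of_norm_lt ha h2))
        ).differentiableAt (by simp)
      have h5 : HasDerivAt (fun t : ℝ => t • p) p 0 := by
        simpa using (hasDerivAt_id (0 : ℝ)).smul_const p
      have h6 := HasFDerivAt.comp_hasDerivAt_of_eq (0 : ℝ) h4.hasFDerivAt h5 (by simp)
      have h7 := G.lg_ex_of_lt ha h2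
      rw [lg, neg_eq_iff_eq_neg] at h7
      rw [← inner_gradient, h7, inner_neg_left, real_inner_smul_left] at h6
      refine h3.unique (h6.congr_of_eventuallyEq (Eventually.of_forall fun t => ?_))
      exact cst_comm _ _
    have d2 : ∀ᶠ τ : ℝ in 𝓝 0,
        iteratedFDeriv ℝ 2 F (0, τ) ![((0 : ℝ), (1 : ℝ)), (1, 0)] = -⟪ξ, p⟫_ℝ := by
      filter_upwards [hs2, d1.eventually_nhds] with τ h1 h2
      refine (hx1_hasDerivAt (hδ τ) h1 ![((1 : ℝ), (0 : ℝ))]).unique ?_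
      exact ((((hasDerivAt_id τ).mul_const ⟪ξ, p⟫_ℝ).neg).congr_deriv
        (by rw [one_mul])).congr_of_eventuallyEq h2
    have d3 : iteratedFDeriv ℝ 3 F (0, 0) ![((0 : ℝ), (1 : ℝ)), (0, 1), (1, 0)] = 0 :=
      (hx1_hasDerivAt (hδ 0) hs.self_of_nhds ![((0 : ℝ), (1 : ℝ)), (1, 0)]).unique
        ((hasDerivAt_const (0 : ℝ) _).congr_of_eventuallyEq d2)
    have d4 : iteratedFDeriv ℝ 3 F (0, 0) ![((1 : ℝ), (0 : ℝ)), (0, 1), (0, 1)] = 0 := by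
      refine Eq.trans ?_ ((iteratedFDeriv_perm (hs.self_of_nhds.of_le
        (ENat.natCast_le_of_coe_top_le_withTop le_rfl 3)) ![((0 : ℝ), (1 : ℝ)), (0, 1), (1, 0)]
        (Equiv.swap 0 2)).trans d3)
      congr 1
      funext i
      fin_cases i <;> rfl
    have h1 := (hx1_hasDerivAt (hγ 0 0) hs.self_of_nhds ![((0 : ℝ), (1 : ℝ)), (0, 1)]).congr_deriv d4
    refine h1.congr_of_eventuallyEq ?_
    filter_upwards [hs1, hsm p] with t h2 h3
    exact hx1_hess_eq (G.hx1_contDiffAt_left ha (G.reg_of_mem_I ha (G.mem_I_of_norm_lt ha h3))) h2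
      fun τ => rfl

/-- for `ξ ⊥ p` use `mtw_concave` on `[0, 1]` and `hasDerivAt_H_zero`; in general split
`ξ` along `p` and use `H_radial`, `H_symm`. -/
theorem H_le_one (hM : G.MTW) {z : P n × E n} (hz : z ∈ G.IU) (u : E n) :
    ⟪G.H z u, u⟫_ℝ ≤ ‖u‖ ^ 2 := by
  obtain ⟨a, p⟩ := z
  have ha : a ∈ G.U := hz.1
  have hp : p ∈ G.I a := hz.2
  have key : ∀ ξ : E n, ⟪ξ, p⟫_ℝ = 0 → ⟪G.H (a, p) ξ, ξ⟫_ℝ ≤ ‖ξ‖ ^ 2 := by
    intro ξ hξ
    have h1 := G.mtw_concave hM ha (p := 0) hξ (t₀ := 0) (t₁ := 1) (fun t ht => by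
      rw [zero_add]
      rcases ht.2.eq_or_lt with rfl | h
      · rwa [one_smul]
      · exact G.smul_mem_I ha (G.I_sub_K ha hp) ht.1 h)
    simp only [zero_add] at h1
    obtain ⟨h2, h3⟩ := hasDerivAt_H_zero ha p ξ
    have h4 := h1.slope_le_of_hasDerivAt ⟨le_rfl, zero_le_one⟩ ⟨zero_le_one, le_rfl⟩ zero_lt_one h3
    rw [slope_def_field, one_smul, zero_smul, h2] at h4
    linarith
  by_cases hp0 : p = 0
  · exact key u (by rw [hp0, inner_zero_right])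
  have hn : ‖p‖ ^ 2 ≠ 0 := pow_ne_zero _ (norm_ne_zero_iff.2 hp0)
  obtain ⟨c, ξ, hξ, rfl⟩ : ∃ (c : ℝ) (ξ : E n), ⟪ξ, p⟫_ℝ = 0 ∧ u = ξ + c • p := by
    refine ⟨⟪u, p⟫_ℝ / ‖p‖ ^ 2, u - (⟪u, p⟫_ℝ / ‖p‖ ^ 2) • p, ?_, by abel⟩
    rw [inner_sub_left, real_inner_smul_left, real_inner_self_eq_norm_sq, div_mul_cancel₀ _ hn,
      sub_self]
  have h1 := key ξ hξ
  have h2 : G.H (a, p) p = p := G.H_radial hz
  have h3 := G.H_symm hz ξ p
  have h4 : ⟪p, ξ⟫_ℝ = 0 := by rwa [real_inner_comm]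
  rw [h2, hξ] at h3
  rw [norm_add_sq_real, map_add, map_smul, h2, inner_add_left, inner_add_right, inner_add_right,
    real_inner_smul_right, real_inner_smul_left, real_inner_smul_right (y := p) (x := ξ), h3, h4, hξ,
    real_inner_self_eq_norm_sq]
  linarith

/-- `cst_interp` through `ex a (σ p)`, `σ ↑ 1`, Taylor expansion (`taylor2`) and `H_le_one`. -/
theorem semiconcave_loc (hM : G.MTW) (ha : a ∈ G.U) {p : E n} (hp : p ∈ G.K a) {ε : ℝ}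
    (hε : 0 < ε) : ∀ᶠ ξ in 𝓝 (0 : E n),
      cst (G.ex a ξ) (G.ex a p) ≤ ‖p‖ ^ 2 / 2 - ⟪p, ξ⟫_ℝ + (1 + ε) * (‖ξ‖ ^ 2 / 2) := by
  set σ : ℝ := (1 + ε / 2) / (1 + ε) with hσ
  have hσe : σ * (1 + ε) = 1 + ε / 2 := div_mul_cancel₀ _ (by positivity)
  have hσ0 : 0 < σ := by positivity
  have hσ1 : σ < 1 := (div_lt_one (by positivity)).2 (by linarith)
  have hI : σ • p ∈ G.I a := G.smul_mem_I ha hp hσ0.le hσ1
  have hf : ContDiffAt ℝ 3 (fun ξ : E n => cst (G.ex a ξ) (G.ex a (σ • p))) 0 := by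
    have h1 : ContDiffAt ℝ ∞ (fun ξ : E n => (((a, ξ), (a, σ • p)) :
        (P n × E n) × (P n × E n))) 0 := by fun_prop
    exact ((G.contDiffAt_cc ha ha (G.reg_of_mem_I ha hI)).comp 0 h1).of_le
      (ENat.natCast_le_of_coe_top_le_withTop le_rfl 3)
  have hg : gradient (fun ξ : E n => cst (G.ex a ξ) (G.ex a (σ • p))) 0 = -(σ • p) := by
    rw [← G.lg_ex ha hI]
    conv_lhs => rw [G.lg_ex ha hI]
    exact (neg_neg _).symm
  have h0 : cst (G.ex a 0) (G.ex a (σ • p)) = σ ^ 2 * ‖p‖ ^ 2 / 2 := by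
    have := G.cst_K (G.I_sub_K ha hI)
    rwa [norm_smul, Real.norm_of_nonneg hσ0.le, mul_pow] at this
  have hd : cst (G.ex a (σ • p)) (G.ex a p) = (1 - σ) ^ 2 * ‖p‖ ^ 2 / 2 := by
    have := G.K_dist ha hp (s := σ) (t := 1) ⟨hσ0.le, hσ1.le⟩ ⟨zero_le_one, le_rfl⟩
    rw [one_smul] at this
    rw [cst, this, mul_pow, sq_abs]
    ring
  filter_upwards [Hinge_taylor hf (η := ε / 4) (by positivity)] with ξ hξ
  have hH : ⟪hess (fun ξ : E n => cst (G.ex a ξ) (G.ex a (σ • p))) 0 ξ, ξ⟫_ℝ ≤ ‖ξ‖ ^ 2 :=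
    H_le_one hM (z := (a, σ • p)) ⟨ha, hI⟩ ξ
  rw [hg, h0, inner_neg_left, real_inner_smul_left] at hξ
  have h2 := cst_interp (G.ex a ξ) (G.ex a (σ • p)) (G.ex a p) hσ0.le hσ1
  have h3 : σ / (1 - σ) * ((1 - σ) ^ 2 * ‖p‖ ^ 2 / 2) = σ * (1 - σ) * ‖p‖ ^ 2 / 2 := by
    have : 1 - σ ≠ 0 := by linarith
    field_simp
  rw [hd, h3] at h2
  refine le_of_mul_le_mul_left ?_ hσ0
  have h4 : σ * (‖p‖ ^ 2 / 2 - ⟪p, ξ⟫_ℝ + (1 + ε) * (‖ξ‖ ^ 2 / 2)) =
      σ * (‖p‖ ^ 2 / 2) - σ * ⟪p, ξ⟫_ℝ + (1 + ε / 2) * (‖ξ‖ ^ 2 / 2) := by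
    rw [← hσe]; ring
  rw [h4]
  nlinarith

/-- `concaveOn_of_local_support` for `t ↦ cst (ex a (t q)) y - (1 + 2ε) t² ‖q‖²/2 - ε t²`
(frame at `ex a (t q)`, `exists_cont`, `exists_min`, `semiconcave_loc`), then `ε → 0`. -/
theorem concave_along (hM : G.MTW) (ha : a ∈ G.U) (q : E n) (y : M) :
    ConcaveOn ℝ univ fun t : ℝ => cst (G.ex a (t • q)) y - t ^ 2 * (‖q‖ ^ 2 / 2) := by
  have hcont : Continuous fun t : ℝ => cst (G.ex a (t • q)) y :=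
    continuous_cst.comp (((G.continuous_ex ha).comp (continuous_id.smul continuous_const)).prodMk
      continuous_const)
  have key : ∀ ε : ℝ, 0 < ε → ConcaveOn ℝ univ fun t : ℝ =>
      cst (G.ex a (t • q)) y - t ^ 2 * (‖q‖ ^ 2 / 2) - ε * (t ^ 2 * (‖q‖ ^ 2 / 2 + 1)) := by
    intro ε hε
    refine concaveOn_of_local_support (by fun_prop) fun t => ?_
    obtain ⟨b, hb, hbt⟩ := G.exists_frame (G.ex a (t • q))
    have hb' := G.F_sub hb
    obtain ⟨q', hq', hex⟩ := G.exists_cont ha hb' hbt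
    obtain ⟨p, hp, rfl⟩ := G.exists_min hb' y
    have h1 : Tendsto (fun τ : ℝ => τ • q') (𝓝 0) (𝓝 0) := by
      have : Continuous fun τ : ℝ => τ • q' := by fun_prop
      simpa using this.tendsto 0
    refine ⟨-⟪p, q'⟫_ℝ - t * ‖q‖ ^ 2 - ε * (2 * t * (‖q‖ ^ 2 / 2 + 1)), ε, hε, ?_⟩
    filter_upwards [h1.eventually (semiconcave_loc hM hb' hp hε)] with τ hτ
    rw [hex, norm_smul, mul_pow, Real.norm_eq_abs, sq_abs, hq', real_inner_smul_right] at hτ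
    rw [← hbt, G.cst_K hp]
    nlinarith
  refine ⟨convex_univ, fun x _ z _ α β hα hβ hαβ => ?_⟩
  refine Hinge_lim (D := (α * x ^ 2 + β * z ^ 2 - (α * x + β * z) ^ 2) * (‖q‖ ^ 2 / 2 + 1))
    fun ε hε => ?_
  have := (key ε hε.1).2 (mem_univ x) (mem_univ z) hα hβ hαβ
  simp only [smul_eq_mul] at this ⊢
  linarith

/-- the hinge inequality. -/
theorem hinge (hM : G.MTW) (ha : a ∈ G.U) {p : E n} (hp : p ∈ G.K a) (q : E n) :
    cst (G.ex a q) (G.ex a p) ≤ ‖q - p‖ ^ 2 / 2 := by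
  obtain ⟨C, -, hC⟩ := G.semiconcave
  have h0 : cst (G.ex a 0) (G.ex a p) = ‖p‖ ^ 2 / 2 := G.cst_K hp
  rw [norm_sub_sq_real, real_inner_comm]
  refine Hinge_lim (D := C * ‖q‖ ^ 2) fun t ht => ?_
  have h1 := (concave_along hM ha q (G.ex a p)).2 (mem_univ 0) (mem_univ 1)
    (sub_nonneg.2 ht.2.le) ht.1.le (sub_add_cancel 1 t)
  simp only [smul_eq_mul, mul_zero, mul_one, zero_add, zero_smul, one_smul, h0] at h1
  have h2 := hC a ha p hp (t • q)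
  rw [norm_smul, mul_pow, Real.norm_eq_abs, sq_abs, real_inner_smul_right] at h2
  refine le_of_mul_le_mul_left ?_ ht.1
  nlinarith [mul_nonneg (sq_nonneg t) (sq_nonneg ‖q‖)]

theorem dist_ex_le_norm (hM : G.MTW) (ha : a ∈ G.U) {p : E n} (hp : p ∈ G.K a) (q : E n) :
    dist (G.ex a q) (G.ex a p) ≤ ‖q - p‖ := by
  have h := hinge hM ha hp q
  rw [cst] at h
  exact (sq_le_sq₀ dist_nonneg (norm_nonneg _)).1 (by linarith)

end LocGeo

end Crest.Agent.R226
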