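import Crest.Agent.R226.Cut

/-! Row 226: dictionary between `LocGeo` and the definitions of the statement. -/

set_option autoImplicit false

open Set Filter Metric Bundle
open scoped ContDiff Topology Manifold Bundle

namespace Crest.Agent.R226

open Crest.GeometryTopology.MTW

variable {n : ℕ} {M : Type*} [MetricSpace M] [ChartedSpace (E n) M]
  [IsManifold (𝓡 n) ∞ M] [RiemannianBundle (fun p : M => TangentSpace (𝓡 n) p)]

theorem image_I_subset (G : LocGeo n M) {a : P n} {A : E n ≃ₗᵢ[ℝ] TangentSpace (𝓡 n) (G.pt a)}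
    (hA : IsExpMapAt n (G.pt a) (fun v => G.ex a (A.symm v))) :
    A '' G.I a ⊆ injDomain n (G.pt a) := by
  rintro _ ⟨p, ⟨s, hs, hp⟩, rfl⟩
  obtain ⟨⟨hsm, c, -, hc, -⟩, h0, hv⟩ := hA (A p)
  refine ⟨s, hs, fun t : ℝ => G.ex a (A.symm (t • A p)), hsm.of_le (by simp), h0, hv,
    fun t _ => ?_, ?_⟩
  · have h1 : ∀ x y : M, x = y → ∀ v : E n,
        ‖(show TangentSpace (𝓡 n) x from v)‖ = ‖(show TangentSpace (𝓡 n) y from v)‖ := by
      rintro x y rfl v; rfl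
    refine (hc t).trans ((hc 0).symm.trans ((h1 _ _ h0 _).trans ?_))
    exact congrArg (fun v : TangentSpace (𝓡 n) (G.pt a) => ‖v‖) hv
  · have hp' : dist (G.pt a) (G.ex a (s • p)) = ‖s • p‖ := hp
    change dist (G.pt a) (G.ex a (A.symm (s • A p))) = _
    rw [map_smul, A.symm_apply_apply, hp', norm_smul, A.norm_map, Real.norm_eq_abs,
      abs_of_pos (by linarith)]

/-- a `C¹` curve of constant speed is Lipschitz (`riemannianEDist_le_pathELength`). -/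
theorem dist_le_of_speed [IsRiemannianManifold (𝓡 n) M] {γ : ℝ → M}
    (hγ : ContMDiff (modelWithCornersSelf ℝ ℝ) (𝓡 n) 1 γ) {s t l : ℝ} (hst : s ≤ t)
    (h : ∀ τ ∈ Icc s t, ‖curveVel n γ τ‖ = l) : dist (γ s) (γ t) ≤ (t - s) * l := by
  have hl : 0 ≤ l := (h s ⟨le_rfl, hst⟩) ▸ norm_nonneg _
  have h1 : edist (γ s) (γ t) ≤ Manifold.pathELength (𝓡 n) γ s t := by
    rw [IsRiemannianManifold.out (I := 𝓡 n)]
    exact Manifold.riemannianEDist_le_pathELength hγ.contMDiffOn rfl rfl hst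
  have h2 : Manifold.pathELength (𝓡 n) γ s t = ENNReal.ofReal ((t - s) * l) := by
    rw [Manifold.pathELength_eq_lintegral_mfderiv_Icc]
    have h3 : ∀ r ∈ Icc s t, ‖mfderiv 𝓘(ℝ, ℝ) (𝓡 n) γ r (1 : ℝ)‖ₑ = ENNReal.ofReal l :=
      fun r hr => by
        rw [← ofReal_norm, ← h r hr]; rfl
    refine (MeasureTheory.setLIntegral_congr_fun (g := fun _ => ENNReal.ofReal l)
      measurableSet_Icc h3).trans ?_
    rw [MeasureTheory.setLIntegral_const, Real.volume_Icc, ← ENNReal.ofReal_mul hl, mul_comm]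
  rw [h2, edist_dist] at h1
  exact (ENNReal.ofReal_le_ofReal_iff (mul_nonneg (sub_nonneg.2 hst) hl)).1 h1

/-- `dist_le_of_speed`, `geodesic_eq`, uniqueness of one-sided derivatives at `0`. -/
theorem injDomain_subset [IsRiemannianManifold (𝓡 n) M] [CompactSpace M] (G : LocGeo n M)
    {a : P n} (ha : a ∈ G.U) {A : E n ≃ₗᵢ[ℝ] TangentSpace (𝓡 n) (G.pt a)}
    (hA : IsExpMapAt n (G.pt a) (fun v => G.ex a (A.symm v))) :
    injDomain n (G.pt a) ⊆ A '' G.I a := by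
  rintro v ⟨s, hs, γ, hγ, h0, hv, hsp, hd⟩
  have hs0 : 0 < s := by linarith
  have hle : ∀ t u, 0 ≤ t → t ≤ u → u ≤ s → dist (γ t) (γ u) ≤ (u - t) * ‖v‖ :=
    fun t u ht htu hu => dist_le_of_speed hγ htu fun τ hτ => hsp τ ⟨ht.trans hτ.1, hτ.2.trans hu⟩
  have heq : ∀ t u, 0 ≤ t → t ≤ u → u ≤ s → dist (γ t) (γ u) = (u - t) * ‖v‖ := by
    intro t u ht htu hu
    refine le_antisymm (hle t u ht htu hu) ?_
    have h1 := hle 0 t le_rfl ht (htu.trans hu)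
    have h2 := hle u s (ht.trans htu) hu le_rfl
    have h3 := dist_triangle4 (γ 0) (γ t) (γ u) (γ s)
    rw [h0] at h1 h3
    linarith
  obtain ⟨p, hp, hγp⟩ := G.geodesic_eq ha (γ := fun t => γ (s * t)) (l := s * ‖v‖)
    (by simpa using h0) (by
      intro t ht u hu
      have ht1 : s * t ≤ s := mul_le_of_le_one_right hs0.le ht.2
      have hu1 : s * u ≤ s := mul_le_of_le_one_right hs0.le hu.2
      rcases le_total t u with h | h
      · rw [heq _ _ (mul_nonneg hs0.le ht.1) (mul_le_mul_of_nonneg_left h hs0.le) hu1,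
          abs_sub_comm, abs_of_nonneg (sub_nonneg.2 h)]
        ring
      · rw [dist_comm, heq _ _ (mul_nonneg hs0.le hu.1) (mul_le_mul_of_nonneg_left h hs0.le) ht1,
          abs_of_nonneg (sub_nonneg.2 h)]
        ring)
  refine ⟨s⁻¹ • p, ⟨s, hs, by rwa [smul_inv_smul₀ hs0.ne']⟩, ?_⟩
  obtain ⟨⟨hsm, -⟩, -, hw⟩ := hA (A (s⁻¹ • p))
  set δ : ℝ → M := fun t : ℝ => G.ex a (A.symm (t • A (s⁻¹ • p))) with hδ
  have hE : EqOn δ γ (Icc 0 s) := by
    intro t ht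
    have h1 := hγp (s⁻¹ * t) ⟨mul_nonneg (inv_nonneg.2 hs0.le) ht.1, by
      rw [inv_mul_le_iff₀ hs0, mul_one]; exact ht.2⟩
    simp only [mul_inv_cancel_left₀ hs0.ne'] at h1
    rw [h1, hδ]
    simp only [map_smul, A.symm_apply_apply, smul_smul, mul_comm t]
  have hu : UniqueMDiffWithinAt 𝓘(ℝ, ℝ) (Icc 0 s) (0 : ℝ) :=
    (uniqueDiffOn_Icc hs0 0 ⟨le_rfl, hs0.le⟩).uniqueMDiffWithinAt
  have h1 := mfderivWithin_eq_mfderiv hu (hγ.mdifferentiable one_ne_zero 0)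
  have h2 := mfderivWithin_eq_mfderiv hu (hsm.mdifferentiable (by simp) 0)
  have h3 := mfderivWithin_congr (I := 𝓘(ℝ, ℝ)) (I' := 𝓡 n) hE (hE ⟨le_rfl, hs0.le⟩)
  have h4 : (curveVel n δ 0 : E n) = curveVel n γ 0 :=
    congrArg (fun L : ℝ →L[ℝ] E n => L 1) (h2.symm.trans (h3.trans h1))
  exact hw.symm.trans (h4.trans hv)

theorem mtw_of_link (G : LocGeo n M)
    (hG : ∀ a ∈ G.U, ∃ A : E n ≃ₗᵢ[ℝ] TangentSpace (𝓡 n) (G.pt a),
      IsExpMapAt n (G.pt a) (fun v => G.ex a (A.symm v)))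
    (h : SatisfiesWeakMTW M n) : G.MTW := by
  intro a ha p hp ξ η hξη
  obtain ⟨A, hA⟩ := hG a ha
  have h1 := h _ _ hA (A p) (image_I_subset G hA ⟨p, hp, rfl⟩) (A ξ) (A η)
    ((A.inner_map_map ξ η).trans hξη)
  unfold mtwForm at h1
  simp only [map_smul, map_add, A.symm_apply_apply] at h1
  have h2 : (fun z : ℝ × ℝ => cst (G.ex a (z.2 • ξ)) (G.ex a (p + z.1 • η))) =
    fun z : ℝ × ℝ => halfDistSq (G.ex a (z.2 • ξ)) (G.ex a (p + z.1 • η)) := rfl
  rw [h2]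
  linarith

end Crest.Agent.R226
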