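import Crest.Agent.R226.Smooth

/-! Row 226: proofs of `ex_lip` and `lg_lip`. -/

set_option autoImplicit false

open Set Filter Metric
open scoped ContDiff Topology InnerProductSpace

namespace Crest.Agent.R226

namespace LocGeo

variable {n : ℕ} {M : Type*} [MetricSpace M] [CompactSpace M] (G : LocGeo n M)

omit [CompactSpace M] in
theorem lip1_loc (R : ℝ) : ∃ L : ℝ, 1 ≤ L ∧ ∃ r > 0, ∀ a ∈ G.F, ∀ p q : E n, ‖p‖ ≤ R →
    ‖p - q‖ ≤ r → dist (G.ex a p) (G.ex a q) ≤ L * ‖p - q‖ := by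
  have hZ : IsCompact ((fun z : P n × E n => (z, z)) '' (G.F ×ˢ closedBall (0 : E n) R)) :=
    (G.F_compact.prod (isCompact_closedBall _ _)).image (by fun_prop)
  obtain ⟨r, hr, C, hC, h⟩ := unif_bound hZ (Φ := G.cc) 2 (by
    rintro _ ⟨⟨a, p⟩, hz, rfl⟩
    exact (G.contDiffAt_cc_of_lt (G.F_sub hz.1) (G.F_sub hz.1)
      (by rw [dist_self]; exact G.ρ_pos)).of_le
        (WithTop.coe_le_coe.2 (le_top : ((2 : ℕ) : ℕ∞) ≤ ⊤)))
  refine ⟨2 * C + 1, by linarith, r, hr, fun a ha p q hp hpq => ?_⟩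
  have hw : ‖(((0, 0), (0, q - p)) : (P n × E n) × (P n × E n))‖ = ‖p - q‖ := by
    simp [Prod.norm_def, norm_sub_rev]
  have h1 := taylor1 (Φ := G.cc) (z := ((a, p), (a, p))) (v := ((0, 0), (0, q - p))) (C := C)
    (fun t ht => by
      have := h (((a, p), (a, p)) + t • ((0, 0), (0, q - p)))
        (mem_cthickening_of_dist_le _ ((a, p), (a, p)) _ _
          ⟨(a, p), ⟨ha, mem_closedBall_zero_iff.2 hp⟩, rfl⟩ (by
            rw [dist_eq_norm, add_sub_cancel_left, norm_smul, hw, Real.norm_eq_abs,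
              abs_of_nonneg ht.1]
            nlinarith [ht.1, ht.2, norm_nonneg (p - q)]))
      exact ⟨this.1, this.2 2 le_rfl⟩)
  have h0 : G.cc ((a, p), (a, p)) = 0 := by simp [cc, cst]
  have hmin : IsLocalMin G.cc ((a, p), (a, p)) :=
    Eventually.of_forall fun z => by rw [h0]; exact cst_nonneg _ _
  have h2 : G.cc (((a, p), (a, p)) + ((0, 0), (0, q - p))) =
      dist (G.ex a p) (G.ex a q) ^ 2 / 2 := by simp [cc, cst]
  rw [hmin.fderiv_eq_zero, h0, h2, hw] at h1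
  have h3 : dist (G.ex a p) (G.ex a q) ^ 2 / 2 ≤ C * ‖p - q‖ ^ 2 := by
    simpa using h1
  refine abs_le_of_sq_le_sq' ?_ (by positivity) |>.2
  nlinarith [sq_nonneg ‖p - q‖, mul_nonneg (mul_nonneg hC hC) (sq_nonneg ‖p - q‖),
    mul_nonneg hC (sq_nonneg ‖p - q‖)]

omit [CompactSpace M] in
theorem lip1_ex (R : ℝ) : ∃ L : ℝ, 1 ≤ L ∧ ∀ a ∈ G.U, ∀ p q : E n, ‖p‖ ≤ R → ‖q‖ ≤ R →
    dist (G.ex a p) (G.ex a q) ≤ L * ‖p - q‖ := by
  obtain ⟨L, hL, r, hr, h⟩ := G.lip1_loc R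
  have key : ∀ a ∈ G.F, ∀ k : ℕ, ∀ p q : E n, ‖p‖ ≤ R → ‖q‖ ≤ R → ‖p - q‖ ≤ 2 ^ k * r →
      dist (G.ex a p) (G.ex a q) ≤ L * ‖p - q‖ := fun a ha k => by
    induction k with
    | zero => exact fun p q hp _ hpq => h a ha p q hp (by simpa using hpq)
    | succ k ih =>
      intro p q hp hq hpq
      have e1 : ‖p - (1 / 2 : ℝ) • (p + q)‖ = 1 / 2 * ‖p - q‖ := by
        rw [show p - (1 / 2 : ℝ) • (p + q) = (1 / 2 : ℝ) • (p - q) by module, norm_smul]
        norm_num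
      have e2 : ‖(1 / 2 : ℝ) • (p + q) - q‖ = 1 / 2 * ‖p - q‖ := by
        rw [show (1 / 2 : ℝ) • (p + q) - q = (1 / 2 : ℝ) • (p - q) by module, norm_smul]
        norm_num
      have e3 : ‖(1 / 2 : ℝ) • (p + q)‖ ≤ R := by
        rw [norm_smul, Real.norm_eq_abs, abs_of_pos (by norm_num : (0 : ℝ) < 1 / 2)]
        linarith [norm_add_le p q]
      rw [pow_succ] at hpq
      have a1 := ih p _ hp e3 (by rw [e1]; linarith)
      have a2 := ih _ q e3 hq (by rw [e2]; linarith)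
      have a3 := dist_triangle (G.ex a p) (G.ex a ((1 / 2 : ℝ) • (p + q))) (G.ex a q)
      rw [e1] at a1
      rw [e2] at a2
      linarith
  refine ⟨L, hL, fun a ha p q hp hq => ?_⟩
  obtain ⟨b, hb, A, hA⟩ := G.exists_iso_F ha
  obtain ⟨k, hk⟩ := pow_unbounded_of_one_lt (‖p - q‖ / r) (by norm_num : (1 : ℝ) < 2)
  have e : ‖A p - A q‖ = ‖p - q‖ := by rw [← map_sub, A.norm_map]
  have := key b hb k (A p) (A q) (by rwa [A.norm_map]) (by rwa [A.norm_map])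
    (by rw [e]; exact ((div_lt_iff₀ hr).1 hk).le)
  rwa [hA, hA, e] at this

theorem lip1_lg {Z : Set (P n × E n)} (hZ : IsCompact Z) (hZI : Z ⊆ G.IU) :
    ∃ L : ℝ, 1 ≤ L ∧ ∃ r > 0, ∀ z ∈ Z, ∀ m m' : M, dist m (G.ex z.1 z.2) ≤ r →
      dist m' (G.ex z.1 z.2) ≤ r →
      (G.pt z.1, m) ∈ G.Reg ∧ ‖G.lg z.1 m - G.lg z.1 m'‖ ≤ L * dist m m' := by
  have hce : ContinuousOn (fun z : P n × E n => G.ex z.1 z.2) Z := fun z hz =>
    (G.continuousAt_ex (hZI hz).1 z.2).continuousWithinAt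
  have hcp : ContinuousOn (fun z : P n × E n => G.pt z.1) Z :=
    G.continuousOn_pt.comp continuousOn_fst fun z hz => (hZI hz).1
  obtain ⟨δ, hδ, hδR⟩ := (hZ.image_of_continuousOn (hcp.prodMk hce)).exists_cthickening_subset_open
    G.isOpen_Reg (by
      rintro _ ⟨z, hz, rfl⟩
      exact G.reg_of_mem_I (hZI hz).1 (hZI hz).2)
  have hreg : ∀ z ∈ Z, ∀ m : M, dist m (G.ex z.1 z.2) ≤ δ → (G.pt z.1, m) ∈ G.Reg :=
    fun z hz m hm => hδR (mem_cthickening_of_dist_le _ (G.pt z.1, G.ex z.1 z.2) _ _ ⟨z, hz, rfl⟩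
      (by rw [Prod.dist_eq, dist_self]; exact max_le hδ.le hm))
  have hP : IsCompact (Z ×ˢ G.F) := hZ.prod G.F_compact
  have hcd : ContinuousOn (fun w : (P n × E n) × P n => dist (G.pt w.2) (G.ex w.1.1 w.1.2))
      (Z ×ˢ G.F) := by
    have a1 : ContinuousOn (fun w : (P n × E n) × P n => G.pt w.2) (Z ×ˢ G.F) :=
      G.continuousOn_pt.comp continuousOn_snd fun w hw => G.F_sub hw.2
    have a2 : ContinuousOn (fun w : (P n × E n) × P n => G.ex w.1.1 w.1.2) (Z ×ˢ G.F) :=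
      hce.comp continuousOn_fst fun w hw => hw.1
    exact continuous_dist.comp_continuousOn (a1.prodMk a2)
  have hY : IsCompact ((fun w : (P n × E n) × P n => (w.1.1, (w.2, (0 : E n)))) ''
      ((Z ×ˢ G.F) ∩ (fun w : (P n × E n) × P n => dist (G.pt w.2) (G.ex w.1.1 w.1.2)) ⁻¹'
        Iic δ)) :=
    (hP.of_isClosed_subset (hcd.preimage_isClosed_of_isClosed hP.isClosed isClosed_Iic)
      inter_subset_left).image (by fun_prop)
  obtain ⟨r, hr, C, hC, h⟩ := unif_bound hY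
    (Φ := fun z : P n × (P n × E n) => G.lg z.1 (G.ex z.2.1 z.2.2)) 1 (by
      rintro _ ⟨w, ⟨hw, hw'⟩, rfl⟩
      exact (G.contDiffAt_lg (hZI hw.1).1 (G.F_sub hw.2) (hreg _ hw.1 _ hw')).of_le
        (by exact_mod_cast le_top))
  refine ⟨C + 1, by linarith, min δ (min (r / 2) (G.ρ / 2)),
    lt_min hδ (lt_min (half_pos hr) (half_pos G.ρ_pos)), fun z hz m m' hm hm' => ?_⟩
  simp only [le_min_iff] at hm hm'
  refine ⟨hreg z hz m hm.1, ?_⟩
  obtain ⟨b, hb, rfl⟩ := G.exists_frame m'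
  have hd := dist_triangle_right (G.pt b) m (G.ex z.1 z.2)
  obtain ⟨v, hv, rfl⟩ := G.loc_surj b (G.F_sub hb) m (by
    change dist (G.pt b) m ≤ _
    linarith [hm.2.2, hm'.2.2])
  have hv' : dist (G.pt b) (G.ex b v) = ‖v‖ := G.loc_dist b (G.F_sub hb) v hv
  have hw : ‖((0, (0, v)) : P n × (P n × E n))‖ = ‖v‖ := by simp [Prod.norm_def]
  have h1 := taylor0 (Φ := fun z : P n × (P n × E n) => G.lg z.1 (G.ex z.2.1 z.2.2))
    (z := (z.1, (b, 0))) (v := (0, (0, v))) (C := C) (fun t ht => by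
      have := h ((z.1, (b, 0)) + t • (0, (0, v)))
        (mem_cthickening_of_dist_le _ (z.1, (b, 0)) _ _ ⟨(z, b), ⟨⟨hz, hb⟩, hm'.1⟩, rfl⟩ (by
          rw [dist_eq_norm, add_sub_cancel_left, norm_smul, hw, Real.norm_eq_abs,
            abs_of_nonneg ht.1]
          nlinarith [ht.1, ht.2, norm_nonneg v, hm.2.1, hm'.2.1]))
      exact ⟨this.1, this.2 1 le_rfl⟩)
  rw [hw] at h1
  simp only [Prod.mk_add_mk, add_zero, zero_add] at h1
  rw [dist_comm, hv']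
  exact h1.trans (by nlinarith [norm_nonneg v])

end LocGeo

end Crest.Agent.R226
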