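import Crest.Agent.R226.Smooth

/-! Row 226: auxiliary lemmas for `cross_le` and `margin`. -/

set_option autoImplicit false

open Set Filter Metric
open scoped ContDiff Topology InnerProductSpace

namespace Crest.Agent.R226

/-- mixed second differences, second order. -/
theorem Lip2_mixed {X : Type*} [NormedAddCommGroup X] [NormedSpace ℝ X] {Φ : X → ℝ} {z u v : X}
    {C : ℝ} (hC : 0 ≤ C)
    (h : ∀ s ∈ Icc (0 : ℝ) 1, ∀ t ∈ Icc (0 : ℝ) 1, ContDiffAt ℝ 3 Φ (z + s • u + t • v) ∧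
      ‖iteratedFDeriv ℝ 3 Φ (z + s • u + t • v)‖ ≤ C) :
    ‖Φ (z + u + v) - Φ (z + u) - Φ (z + v) + Φ z - (fderiv ℝ Φ (z + v) u - fderiv ℝ Φ z u)‖ ≤
      C * ‖u‖ * ‖v‖ * ‖u‖ := by
  have hd : ∀ s ∈ Icc (0 : ℝ) 1, ∀ t ∈ Icc (0 : ℝ) 1,
      HasDerivAt (fun s : ℝ => Φ (z + s • u + t • v)) (fderiv ℝ Φ (z + s • u + t • v) u) s := by
    intro s hs t ht
    have h1 : HasDerivAt (fun s : ℝ => z + s • u + t • v) u s := by
      simpa using (((hasDerivAt_id s).smul_const u).const_add z).add_const (t • v)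
    exact ((h s hs t ht).1.differentiableAt (by norm_num)).hasFDerivAt.comp_hasDerivAt s h1
  have key := norm_image_sub_le_of_norm_deriv_le_segment_01'
    (f := fun s : ℝ => Φ (z + s • u + (1 : ℝ) • v) - Φ (z + s • u + (0 : ℝ) • v) -
      s * (fderiv ℝ Φ (z + v) u - fderiv ℝ Φ z u))
    (f' := fun s : ℝ => fderiv ℝ Φ (z + s • u + (1 : ℝ) • v) u -
      fderiv ℝ Φ (z + s • u + (0 : ℝ) • v) u - (fderiv ℝ Φ (z + v) u - fderiv ℝ Φ z u))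
    (C := C * ‖u‖ * ‖v‖ * ‖u‖) (fun s hs => ?_) (fun s hs => ?_)
  · refine le_trans (le_of_eq ?_) key
    congr 1
    simp only [one_smul, zero_smul, add_zero, one_mul, zero_mul, sub_zero]
    ring
  · have := ((hd s hs 1 ⟨zero_le_one, le_rfl⟩).sub (hd s hs 0 ⟨le_rfl, zero_le_one⟩)).sub
      ((hasDerivAt_id s).mul_const (fderiv ℝ Φ (z + v) u - fderiv ℝ Φ z u))
    rw [one_mul] at this
    exact this.hasDerivWithinAt
  · have h1 := taylor_cross (Φ := fderiv ℝ Φ) (z := z) (u := s • u) (v := v) (C := C)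
      fun s' hs' t ht => by
        have h2 := h (s' * s) ⟨mul_nonneg hs'.1 hs.1, mul_le_one₀ hs'.2 hs.1 hs.2.le⟩ t ht
        rw [smul_smul, norm_iteratedFDeriv_fderiv]
        exact ⟨h2.1.fderiv_right (m := 2) (by norm_num), h2.2⟩
    have h2 := (fderiv ℝ Φ (z + s • u + v) - fderiv ℝ Φ (z + s • u) - fderiv ℝ Φ (z + v) +
      fderiv ℝ Φ z).le_of_opNorm_le h1 u
    have h3 : ‖s • u‖ ≤ ‖u‖ := by
      rw [norm_smul, Real.norm_of_nonneg hs.1]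
      exact mul_le_of_le_one_left (norm_nonneg _) hs.2.le
    refine le_trans (le_of_eq ?_) (h2.trans (by gcongr))
    congr 1
    simp only [one_smul, zero_smul, add_zero, add_apply, sub_apply]
    ring

theorem Lip2_thick {X : Type*} [NormedAddCommGroup X] [NormedSpace ℝ X] {Z : Set X} {z u v : X}
    {r s t : ℝ} (hz : z ∈ Z) (h : ‖u‖ + ‖v‖ ≤ r) (hs : s ∈ Icc (0 : ℝ) 1)
    (ht : t ∈ Icc (0 : ℝ) 1) : z + s • u + t • v ∈ cthickening r Z := by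
  refine mem_cthickening_of_dist_le _ z r Z hz ?_
  rw [dist_eq_norm, add_assoc, add_sub_cancel_left]
  refine (norm_add_le _ _).trans (le_trans ?_ h)
  rw [norm_smul, norm_smul, Real.norm_of_nonneg hs.1, Real.norm_of_nonneg ht.1]
  exact add_le_add (mul_le_of_le_one_left (norm_nonneg _) hs.2)
    (mul_le_of_le_one_left (norm_nonneg _) ht.2)

namespace LocGeo

variable {n : ℕ} {M : Type*} [MetricSpace M] [CompactSpace M] (G : LocGeo n M)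

theorem Lip2_d1 {a : P n} (ha : a ∈ G.U) {q : E n} (hq : q ∈ G.I a) (ξ : E n) :
    fderiv ℝ G.cc ((a, 0), (a, q)) ((0, ξ), (0, 0)) = -⟪q, ξ⟫_ℝ := by
  have h1 := (G.contDiffAt_cc (p := 0) ha ha (G.reg_of_mem_I ha hq)).differentiableAt (by simp)
  have h2 : HasFDerivAt (fun ξ : E n => (((a, ξ), (a, q)) : (P n × E n) × (P n × E n)))
      ((ContinuousLinearMap.inl ℝ (P n × E n) (P n × E n)).comp
        (ContinuousLinearMap.inr ℝ (P n) (E n))) 0 :=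
    HasFDerivAt.comp (g := fun w : P n × E n => (w, ((a, q) : P n × E n)))
      (f := fun ξ : E n => (a, ξ)) (0 : E n) (hasFDerivAt_prodMk_left _ _)
      (hasFDerivAt_prodMk_right a (0 : E n))
  have h3 := (h1.hasFDerivAt.comp (0 : E n) h2).fderiv
  have h4 := inner_gradient (fun ξ : E n => cst (G.ex a ξ) (G.ex a q)) 0 ξ
  have h5 : gradient (fun ξ : E n => cst (G.ex a ξ) (G.ex a q)) 0 = -q :=
    neg_eq_iff_eq_neg.1 (G.lg_ex ha hq)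
  rw [h5, inner_neg_left] at h4
  rw [h4]
  exact (congrArg (fun L : E n →L[ℝ] ℝ => L ξ) h3).symm

theorem Lip2_cross {Z : Set (M × M)} (hZ : IsCompact Z) (hZR : Z ⊆ G.Reg) :
    ∃ C : ℝ, 1 ≤ C ∧ ∃ r > 0, ∀ z ∈ Z, ∀ x' y' : M, dist z.1 x' ≤ r → dist z.2 y' ≤ r →
      |cst x' y' - cst z.1 y' - cst x' z.2 + cst z.1 z.2| ≤ C * dist z.1 x' * dist z.2 y' := by
  have hF := G.F_compact.prod G.F_compact
  have hpt : ContinuousOn (fun w : P n × P n => (G.pt w.1, G.pt w.2)) (G.F ×ˢ G.F) :=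
    (G.continuousOn_pt.comp continuousOn_fst fun w hw => G.F_sub hw.1).prodMk
      (G.continuousOn_pt.comp continuousOn_snd fun w hw => G.F_sub hw.2)
  have hS := hF.of_isClosed_subset (hpt.preimage_isClosed_of_isClosed hF.isClosed hZ.isClosed)
    inter_subset_left
  have hZ' := hS.image (f := fun w : P n × P n =>
    (((w.1, 0), (w.2, 0)) : (P n × E n) × (P n × E n))) (by fun_prop)
  obtain ⟨r, hr, C, hC, hb⟩ := unif_bound hZ' (Φ := G.cc) 2 (by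
    rintro _ ⟨w, hw, rfl⟩
    exact (G.contDiffAt_cc (G.F_sub hw.1.1) (G.F_sub hw.1.2) (hZR hw.2)).of_le (WithTop.coe_le_coe.2 le_top))
  refine ⟨C + 1, by linarith, min (r / 2) G.ρ, lt_min (half_pos hr) G.ρ_pos, ?_⟩
  rintro ⟨x, y⟩ hz x' y' hx hy
  obtain ⟨a, ha, rfl⟩ := G.exists_frame x
  obtain ⟨b, hb', rfl⟩ := G.exists_frame y
  obtain ⟨ξ, hξ, rfl⟩ := G.loc_surj a (G.F_sub ha) x' (hx.trans (min_le_right _ _))
  obtain ⟨μ, hμ, rfl⟩ := G.loc_surj b (G.F_sub hb') y' (hy.trans (min_le_right _ _))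
  have e1 : dist (G.pt a) (G.ex a ξ) = ‖ξ‖ := G.loc_dist a (G.F_sub ha) ξ hξ
  have e2 : dist (G.pt b) (G.ex b μ) = ‖μ‖ := G.loc_dist b (G.F_sub hb') μ hμ
  simp only [e1, e2] at hx hy ⊢
  have n1 : ‖(((0, ξ), (0, 0)) : (P n × E n) × (P n × E n))‖ = ‖ξ‖ := by simp [Prod.norm_def]
  have n2 : ‖(((0, 0), (0, μ)) : (P n × E n) × (P n × E n))‖ = ‖μ‖ := by simp [Prod.norm_def]
  have := taylor_cross (Φ := G.cc) (z := ((a, 0), (b, 0))) (u := ((0, ξ), (0, 0)))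
    (v := ((0, 0), (0, μ))) (C := C) fun s hs t ht => by
      have := hb _ (Lip2_thick (u := ((0, ξ), (0, 0))) (v := ((0, 0), (0, μ)))
        ⟨(a, b), ⟨⟨ha, hb'⟩, hz⟩, rfl⟩ (by
          rw [n1, n2]; linarith [min_le_left (r / 2) G.ρ]) hs ht)
      exact ⟨this.1, this.2 2 le_rfl⟩
  rw [n1, n2] at this
  simp only [cc, Prod.mk_add_mk, add_zero, zero_add, Real.norm_eq_abs] at this
  refine le_trans (le_of_eq ?_) (this.trans (by gcongr; linarith))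
  congr 1
  simp only [pt]
  ring

theorem Lip2_margin {s₁ : ℝ} (h : s₁ < 1) : ∃ δ > 0, ∃ r > 0, ∀ a ∈ G.F, ∀ p ∈ G.K a,
    ∀ s ∈ Icc (0 : ℝ) s₁, ∀ ξ : E n, ‖ξ‖ ≤ r →
      s * cst (G.ex a ξ) (G.ex a p) ≤
        cst (G.ex a ξ) (G.ex a (s • p)) + s * (1 - s) * ‖p‖ ^ 2 / 2 - δ * ‖ξ‖ ^ 2 := by
  have hW := G.isCompact_KF.prod (isCompact_Icc (a := (0 : ℝ)) (b := s₁))
  have hZ1 := hW.image (f := fun w : (P n × E n) × ℝ =>
    (((w.1.1, 0), (w.1.1, w.2 • w.1.2)) : (P n × E n) × (P n × E n))) (by fun_prop)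
  have hZ2 := hW.image (f := fun w : (P n × E n) × ℝ =>
    (((w.1.1, w.2 • w.1.2), (w.1.1, ((1 + w.2) / 2) • w.1.2)) : (P n × E n) × (P n × E n)))
    (by fun_prop)
  have hZ3 := hW.image (f := fun w : (P n × E n) × ℝ => ((w.1.1, w.2 • w.1.2) : P n × E n))
    (by fun_prop)
  obtain ⟨r₀, hr₀, C, hC, hb⟩ := unif_bound (hZ1.union hZ2) (Φ := G.cc) 3 (by
    rintro _ (⟨w, hw, rfl⟩ | ⟨w, hw, rfl⟩)
    · have ha := G.F_sub hw.1.1
      exact (G.contDiffAt_cc ha ha (G.reg_of_mem_I ha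
        (G.smul_mem_I ha hw.1.2 hw.2.1 (hw.2.2.trans_lt h)))).of_le (WithTop.coe_le_coe.2 le_top)
    · have ha := G.F_sub hw.1.1
      have h0 := hw.2.1
      have h1 := hw.2.2
      refine (G.contDiffAt_cc ha ha (G.reg_of_K ha hw.1.2 ⟨h0, by linarith⟩
        ⟨by linarith, by linarith⟩ (abs_lt.2 ⟨by linarith, by linarith⟩))).of_le (WithTop.coe_le_coe.2 le_top))
  obtain ⟨r₁, hr₁, hI⟩ := hZ3.exists_cthickening_subset_open G.isOpen_IU (by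
    rintro _ ⟨w, hw, rfl⟩
    exact ⟨G.F_sub hw.1.1, G.smul_mem_I (G.F_sub hw.1.1) hw.1.2 hw.2.1 (hw.2.2.trans_lt h)⟩)
  have hs₁ : 0 < 1 - s₁ := by linarith
  obtain ⟨κ, hκ⟩ : ∃ κ : ℝ, κ = 2 / (1 - s₁) := ⟨_, rfl⟩
  have hκ0 : 0 < κ := by rw [hκ]; positivity
  obtain ⟨τ, hτ⟩ : ∃ τ : ℝ, τ = 1 / (4 * ((1 + κ) * C + 1)) := ⟨_, rfl⟩
  have hτ0 : 0 < τ := by rw [hτ]; positivity
  have hτ1 : (1 + κ) * C * τ + τ = 1 / 4 := by rw [hτ]; field_simp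
  have hτ2 : 0 ≤ (1 + κ) * C * τ := by positivity
  refine ⟨τ / 2, half_pos hτ0, min (min (r₀ / 2) r₁) (1 / (4 * (C + 1))),
    lt_min (lt_min (half_pos hr₀) hr₁) (by positivity), fun a haF p hp s hs ξ hξ => ?_⟩
  have ha := G.F_sub haF
  have hξ0 : ‖ξ‖ ≤ r₀ / 2 := hξ.trans ((min_le_left _ _).trans (min_le_left _ _))
  have hξ1 : ‖ξ‖ ≤ r₁ := hξ.trans ((min_le_left _ _).trans (min_le_right _ _))
  have hξ2 : C * ‖ξ‖ ≤ 1 / 4 := by
    have := (le_div_iff₀ (by positivity)).1 (hξ.trans (min_le_right _ _))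
    nlinarith [norm_nonneg ξ]
  have hs0 := hs.1
  have hs1 : s < 1 := hs.2.trans_lt h
  have hw : ((a, p), s) ∈ G.KF ×ˢ Icc (0 : ℝ) s₁ := ⟨⟨haF, hp⟩, hs⟩
  obtain ⟨μ, hμ⟩ : ∃ μ : E n, μ = τ • ξ := ⟨_, rfl⟩
  have hμn : ‖μ‖ = τ * ‖ξ‖ := by rw [hμ, norm_smul, Real.norm_of_nonneg hτ0.le]
  have hμ1 : ‖μ‖ ≤ ‖ξ‖ := by
    rw [hμn]; exact mul_le_of_le_one_left (norm_nonneg _) (by linarith)
  have n1 : ∀ η : E n, ‖(((0, η), (0, 0)) : (P n × E n) × (P n × E n))‖ = ‖η‖ := fun η => by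
    simp [Prod.norm_def]
  have n2 : ‖(((0, 0), (0, μ)) : (P n × E n) × (P n × E n))‖ = ‖μ‖ := by simp [Prod.norm_def]
  have b1 := fun s' hs' t ht => hb _ (Lip2_thick (u := ((0, ξ), (0, 0))) (v := ((0, 0), (0, μ)))
    (s := s') (t := t) (Or.inl ⟨_, hw, rfl⟩) (by rw [n1, n2]; linarith) hs' ht)
  have b2 := fun t ht => hb _ (Lip2_thick (u := 0) (v := ((0, μ), (0, 0)))
    (s := 0) (t := t) (Or.inr ⟨_, hw, rfl⟩) (by rw [n1, norm_zero]; linarith) ⟨le_rfl, zero_le_one⟩ ht)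
  have b3 := fun t ht => b1 0 ⟨le_rfl, zero_le_one⟩ t ht
  simp only [zero_smul, add_zero] at b2 b3
  have t1 := Lip2_mixed hC fun s' hs' t ht => ⟨(b1 s' hs' t ht).1, (b1 s' hs' t ht).2 3 le_rfl⟩
  have t2 := taylor1 fun t ht => ⟨(b2 t ht).1.of_le (by norm_num), (b2 t ht).2 2 (by norm_num)⟩
  have t3 := taylor1 fun t ht => ⟨(b3 t ht).1.of_le (by norm_num), (b3 t ht).2 2 (by norm_num)⟩
  have hI1 : s • p + μ ∈ G.I a := (hI (mem_cthickening_of_dist_le (a, s • p + μ) _ r₁ _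
    ⟨_, hw, rfl⟩ (by simpa [Prod.dist_eq, hr₁.le] using hμ1.trans hξ1))).2
  have d1 := G.Lip2_d1 ha hI1 ξ
  have d2 := G.Lip2_d1 ha (G.smul_mem_I ha hp hs0 hs1) ξ
  have hh : (1 + s) / 2 ∈ Icc (0 : ℝ) 1 := ⟨by linarith, by linarith⟩
  have c0 : cst (G.ex a 0) (G.ex a (s • p)) = s ^ 2 * ‖p‖ ^ 2 / 2 := by
    have := G.cst_K (G.K_smul ha hp ⟨hs0, hs1.le⟩)
    rw [norm_smul, Real.norm_of_nonneg hs0, mul_pow] at this
    exact this
  have c1 : cst (G.ex a (s • p)) (G.ex a (((1 + s) / 2) • p)) = (1 - s) ^ 2 * ‖p‖ ^ 2 / 8 := by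
    rw [cst, G.K_dist ha hp ⟨hs0, hs1.le⟩ hh, mul_pow, sq_abs]; ring
  have c2 : cst (G.ex a (((1 + s) / 2) • p)) (G.ex a p) = (1 - s) ^ 2 * ‖p‖ ^ 2 / 8 := by
    have := G.K_dist ha hp hh ⟨zero_le_one, le_rfl⟩
    rw [one_smul] at this
    rw [cst, this, mul_pow, sq_abs]; ring
  obtain ⟨k, hk⟩ : ∃ k : ℝ, k = s / (1 - s) := ⟨_, rfl⟩
  have hs2 : 0 < 1 - s := by linarith
  have hk0 : 0 ≤ k := by rw [hk]; positivity
  have hk1 : 2 * k ≤ κ := by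
    rw [hk, hκ, ← mul_div_assoc]
    exact div_le_div₀ (by norm_num) (by linarith) hs₁ (by linarith [hs.2])
  have hk2 : k * (1 - s) = s := by rw [hk]; field_simp
  have hk3 : k * ((1 - s) ^ 2 * ‖p‖ ^ 2) = s * (1 - s) * ‖p‖ ^ 2 := by
    rw [← mul_assoc, sq (1 - s), ← mul_assoc, hk2]
  have hint : ∀ x m : M, s * cst x (G.ex a p) ≤ cst x m +
      2 * k * cst m (G.ex a (((1 + s) / 2) • p)) + s * (1 - s) * ‖p‖ ^ 2 / 4 := fun x m => by
    have i1 := cst_interp x m (G.ex a p) hs0 hs1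
    have i2 := cst_le_two m (G.ex a (((1 + s) / 2) • p)) (G.ex a p)
    rw [← hk] at i1
    rw [c2] at i2
    have i3 := mul_le_mul_of_nonneg_left i2 hk0
    linarith
  have hcrit : fderiv ℝ G.cc ((a, 0), (a, s • p)) ((0, 0), (0, μ)) +
      2 * k * fderiv ℝ G.cc ((a, s • p), (a, ((1 + s) / 2) • p)) ((0, μ), (0, 0)) = 0 := by
    have l1 : ∀ z v : (P n × E n) × (P n × E n), ContDiffAt ℝ 3 G.cc (z + (0 : ℝ) • v) →
        HasDerivAt (fun t : ℝ => G.cc (z + t • v)) (fderiv ℝ G.cc z v) 0 := fun z v hz => by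
      have h1 : HasDerivAt (fun t : ℝ => z + t • v) v 0 := by
        simpa using ((hasDerivAt_id (0 : ℝ)).smul_const v).const_add z
      have h2 := (hz.differentiableAt (by norm_num)).hasFDerivAt.comp_hasDerivAt (0 : ℝ) h1
      rwa [zero_smul, add_zero] at h2
    refine IsLocalMin.hasDerivAt_eq_zero ?_ ((l1 _ _ (b3 0 ⟨le_rfl, zero_le_one⟩).1).add
      ((l1 _ _ (b2 0 ⟨le_rfl, zero_le_one⟩).1).const_mul (2 * k)))
    refine Eventually.of_forall fun t => ?_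
    have i1 := hint (G.ex a 0) (G.ex a (s • p + t • μ))
    have i2 : cst (G.ex a 0) (G.ex a p) = ‖p‖ ^ 2 / 2 := G.cst_K hp
    simp only [cc, Pi.add_apply, Prod.smul_mk, Prod.mk_add_mk, smul_zero, add_zero, zero_smul,
      c0, c1]
    rw [i2] at i1
    linarith
  rw [n1, n2] at t1
  rw [n1] at t2
  rw [n2] at t3
  simp only [cc, Prod.mk_add_mk, add_zero, zero_add, Real.norm_eq_abs] at t1 t2 t3
  rw [d1, d2] at t1
  rw [c1] at t2
  have u1 := (abs_le.1 t1).2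
  have u2 := mul_le_mul_of_nonneg_left (abs_le.1 t2).2 (show 0 ≤ 2 * k by linarith)
  have u3 := (abs_le.1 t3).2
  have i1 := hint (G.ex a ξ) (G.ex a (s • p + μ))
  have e1 : ⟪s • p + μ, ξ⟫_ℝ = ⟪s • p, ξ⟫_ℝ + τ * ‖ξ‖ ^ 2 := by
    rw [inner_add_left, hμ, real_inner_smul_left ξ ξ, real_inner_self_eq_norm_sq]
  rw [e1, hμn] at u1
  rw [hμn] at u2 u3
  have hq : 0 ≤ τ * ‖ξ‖ ^ 2 := by positivity
  have v1 : C * ‖ξ‖ * (τ * ‖ξ‖) * ‖ξ‖ ≤ 1 / 4 * (τ * ‖ξ‖ ^ 2) := by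
    have := mul_le_mul_of_nonneg_right hξ2 hq
    linarith
  have v2 : C * (τ * ‖ξ‖) ^ 2 + 2 * k * (C * (τ * ‖ξ‖) ^ 2) ≤ 1 / 4 * (τ * ‖ξ‖ ^ 2) := by
    have w1 := mul_le_mul_of_nonneg_right hk1 (show 0 ≤ C * (τ * ‖ξ‖) ^ 2 by positivity)
    have w2 := mul_le_mul_of_nonneg_right (show (1 + κ) * C * τ ≤ 1 / 4 by linarith) hq
    linarith
  linarith

end LocGeo

end Crest.Agent.R226
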