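import Crest.Agent.R226.Smooth
import Crest.Agent.R226.LipAux2
import Crest.Agent.R226.LipAux1

/-! Row 226: uniform Lipschitz estimates. -/

set_option autoImplicit false

open Set Filter Metric
open scoped ContDiff Topology InnerProductSpace

namespace Crest.Agent.R226

namespace LocGeo

variable {n : ℕ} {M : Type*} [MetricSpace M] [CompactSpace M] (G : LocGeo n M)

omit [CompactSpace M] in
/-- Proof: reduce to `F`; `q ↦ cst (ex a p) (ex a q)` has a zero minimum at `q = p`, so Taylor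
(`unif_bound` on the compact diagonal set) gives the estimate for `‖p - q‖ ≤ r`; subdivide. -/
theorem ex_lip (R : ℝ) : ∃ L : ℝ, 1 ≤ L ∧ ∀ a ∈ G.U, ∀ p q : E n, ‖p‖ ≤ R → ‖q‖ ≤ R →
    dist (G.ex a p) (G.ex a q) ≤ L * ‖p - q‖ :=
  G.lip1_ex R


/-- Proof: on a compact thickening `Z'` of `Z` inside `IU`, `(a, b, v) ↦ lg a (ex b v)` is smooth
on `{(a, b, 0) | (a, q) ∈ Z', b ∈ F, pt b = ex a q}`; write `m = ex b v`, `‖v‖ = dist`. -/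
theorem lg_lip {Z : Set (P n × E n)} (hZ : IsCompact Z) (hZI : Z ⊆ G.IU) :
    ∃ L : ℝ, 1 ≤ L ∧ ∃ r > 0, ∀ z ∈ Z, ∀ m m' : M, dist m (G.ex z.1 z.2) ≤ r →
      dist m' (G.ex z.1 z.2) ≤ r →
      (G.pt z.1, m) ∈ G.Reg ∧ ‖G.lg z.1 m - G.lg z.1 m'‖ ≤ L * dist m m' :=
  G.lip1_lg hZ hZI


/-- cross differences of the cost near a compact set of regular pairs (`taylor_cross`). -/
theorem cross_le {Z : Set (M × M)} (hZ : IsCompact Z) (hZR : Z ⊆ G.Reg) :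
    ∃ C : ℝ, 1 ≤ C ∧ ∃ r > 0, ∀ z ∈ Z, ∀ x' y' : M, dist z.1 x' ≤ r → dist z.2 y' ≤ r →
      |cst x' y' - cst z.1 y' - cst x' z.2 + cst z.1 z.2| ≤ C * dist z.1 x' * dist z.2 y' := by
  exact G.Lip2_cross hZ hZR

/-- local margin in the interpolation inequality.  Proof: with `w = ex a (s p)`,
`Ψ (ξ, μ) = cst (ex a ξ) (ex a (s p + μ)) + s/(1-s) cst (ex a (s p + μ)) (ex a p)` is smooth on a
compact parameter set, `s cst (ex a ξ) (ex a p) ≤ Ψ (ξ, τ ξ)` (`cst_interp`), `∇_μ Ψ (0, 0) = 0`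
(minimum), the mixed derivative is `-Id` (`lg_ex`: `∇_ξ cst (ex a ξ) (ex a m) = -m` at `ξ = 0`),
hence `Ψ (ξ, τ ξ) ≤ Ψ (ξ, 0) - τ/2 ‖ξ‖²` for small `τ`, `ξ`
(`taylor_cross` for `Ψ + ⟪ξ, μ⟫` with third derivatives, `taylor1`). -/
theorem margin {s₁ : ℝ} (h : s₁ < 1) : ∃ δ > 0, ∃ r > 0, ∀ a ∈ G.F, ∀ p ∈ G.K a,
    ∀ s ∈ Icc (0 : ℝ) s₁, ∀ ξ : E n, ‖ξ‖ ≤ r →
      s * cst (G.ex a ξ) (G.ex a p) ≤
        cst (G.ex a ξ) (G.ex a (s • p)) + s * (1 - s) * ‖p‖ ^ 2 / 2 - δ * ‖ξ‖ ^ 2 := by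
  exact G.Lip2_margin h

end LocGeo

end Crest.Agent.R226
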