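import Crest.Agent.R226.Calc

/-! Row 226: nondegenerate local minima depend smoothly on parameters, uniformly on compact sets. -/

set_option autoImplicit false

open Set Filter Metric
open scoped ContDiff Topology InnerProductSpace

namespace Crest.Agent.R226

variable {n : ℕ} {X : Type*} [NormedAddCommGroup X] [NormedSpace ℝ X] [FiniteDimensional ℝ X]

theorem locmin_coerc {A : E n →L[ℝ] E n} (h : ∀ u : E n, u ≠ 0 → 0 < ⟪A u, u⟫_ℝ) :
    ∃ c > 0, ∀ u : E n, c * ‖u‖ ^ 2 ≤ ⟪A u, u⟫_ℝ := by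
  obtain ⟨c, hc, hcs⟩ := (isCompact_sphere (0 : E n) 1).exists_forall_le'
    (f := fun u => ⟪A u, u⟫_ℝ) (by fun_prop) (a := 0)
    fun u hu => h u (ne_of_mem_sphere hu one_ne_zero)
  refine ⟨c, hc, fun u => ?_⟩
  rcases eq_or_ne u 0 with rfl | hu
  · simp
  have hn : 0 < ‖u‖ := norm_pos_iff.2 hu
  have h1 := hcs (‖u‖⁻¹ • u) (by
    rw [mem_sphere_zero_iff_norm, norm_smul, norm_inv, norm_norm, inv_mul_cancel₀ hn.ne'])
  rw [map_smul, real_inner_smul_left, real_inner_smul_right] at h1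
  have h2 := mul_le_mul_of_nonneg_right h1 (sq_nonneg ‖u‖)
  refine h2.trans (le_of_eq ?_)
  field_simp

theorem locmin_convex {f : E n → ℝ} {r θ : ℝ}
    (h : ∀ u : E n, ‖u‖ ≤ r → ContDiffAt ℝ 2 f u ∧ ∀ v, 2 * θ * ‖v‖ ^ 2 ≤ ⟪hess f u v, v⟫_ℝ)
    {x y : E n} (hx : ‖x‖ ≤ r) (hy : ‖y‖ ≤ r) :
    f x + ⟪gradient f x, y - x⟫_ℝ + θ * ‖y - x‖ ^ 2 ≤ f y := by
  obtain ⟨v, hv⟩ : ∃ v, v = y - x := ⟨_, rfl⟩
  rw [← hv]
  have hm : ∀ t ∈ Icc (0 : ℝ) 1, ‖x + t • v‖ ≤ r := fun t ht => by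
    rw [hv, ← mem_closedBall_zero_iff]
    exact (convex_closedBall (0 : E n) r).add_smul_sub_mem (mem_closedBall_zero_iff.2 hx)
      (mem_closedBall_zero_iff.2 hy) ht
  have hl : ∀ t : ℝ, HasDerivAt (fun t : ℝ => x + t • v) v t := fun t => by
    simpa using ((hasDerivAt_id t).smul_const v).const_add x
  have h1 : ∀ t ∈ Icc (0 : ℝ) 1, HasDerivAt
      (fun t : ℝ => ⟪gradient f (x + t • v), v⟫_ℝ - ⟪gradient f x, v⟫_ℝ - 2 * θ * ‖v‖ ^ 2 * t)
      (⟪hess f (x + t • v) v, v⟫_ℝ - 2 * θ * ‖v‖ ^ 2) t := fun t ht => by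
    have a1 := ((hasFDerivAt_gradient (h _ (hm t ht)).1).comp_hasDerivAt t (hl t)).inner ℝ
      (hasDerivAt_const t v)
    have a2 := (a1.sub_const ⟪gradient f x, v⟫_ℝ).sub ((hasDerivAt_id t).const_mul (2 * θ * ‖v‖ ^ 2))
    refine HasDerivAt.congr_deriv a2 ?_
    simp
  have h2 : ∀ t ∈ Icc (0 : ℝ) 1, HasDerivAt
      (fun t : ℝ => f (x + t • v) - ⟪gradient f x, v⟫_ℝ * t - θ * ‖v‖ ^ 2 * t ^ 2)
      (⟪gradient f (x + t • v), v⟫_ℝ - ⟪gradient f x, v⟫_ℝ - 2 * θ * ‖v‖ ^ 2 * t) t := fun t ht => by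
    have a1 := ((h _ (hm t ht)).1.differentiableAt (by norm_num)).hasFDerivAt.comp_hasDerivAt t (hl t)
    have a2 := (a1.sub ((hasDerivAt_id t).const_mul ⟪gradient f x, v⟫_ℝ)).sub
      ((hasDerivAt_pow 2 t).const_mul (θ * ‖v‖ ^ 2))
    rw [inner_gradient f (x + t • v)]
    refine HasDerivAt.congr_deriv a2 ?_
    push_cast
    ring
  have mono : ∀ {φ φ' : ℝ → ℝ}, (∀ t ∈ Icc (0 : ℝ) 1, HasDerivAt φ (φ' t) t) →
      (∀ t ∈ Icc (0 : ℝ) 1, 0 ≤ φ' t) → MonotoneOn φ (Icc 0 1) := fun {φ φ'} a b =>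
    monotoneOn_of_hasDerivWithinAt_nonneg (convex_Icc 0 1)
      (fun t ht => (a t ht).continuousAt.continuousWithinAt)
      (fun t ht => (a t (interior_subset ht)).hasDerivWithinAt) fun t ht => b t (interior_subset ht)
  have m1 := mono h1 fun t ht => sub_nonneg.2 ((h _ (hm t ht)).2 v)
  have m2 := mono h2 fun t ht => by
    have := m1 (left_mem_Icc.2 zero_le_one) ht ht.1
    simpa using this
  have := m2 (left_mem_Icc.2 zero_le_one) (right_mem_Icc.2 zero_le_one) zero_le_one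
  have e : x + v = y := by rw [hv]; abel
  simp only [zero_smul, add_zero, mul_zero, sub_zero, one_smul, e, mul_one, one_pow, ne_eq,
    OfNat.ofNat_ne_zero, not_false_eq_true, zero_pow] at this
  linarith

theorem locmin_exists {f : E n → ℝ} {r θ : ℝ} (hθ : 0 < θ) (hr : 0 < r)
    (h : ∀ u : E n, ‖u‖ ≤ r → ContDiffAt ℝ 2 f u ∧ ∀ v, 2 * θ * ‖v‖ ^ 2 ≤ ⟪hess f u v, v⟫_ℝ)
    (h0 : ‖gradient f 0‖ < θ * r) :
    ∃ m : E n, ‖m‖ < r ∧ gradient f m = 0 ∧ (∀ u, ‖u‖ < r → gradient f u = 0 → u = m) ∧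
      ∀ u, ‖u‖ ≤ r → f m + θ * ‖u - m‖ ^ 2 ≤ f u := by
  obtain ⟨m, hm, hmin⟩ := (isCompact_closedBall (0 : E n) r).exists_isMinOn
    ⟨0, mem_closedBall_self hr.le⟩ (f := f)
    fun u hu => (h u (mem_closedBall_zero_iff.1 hu)).1.continuousAt.continuousWithinAt
  rw [mem_closedBall_zero_iff] at hm
  have h1 : ‖m‖ < r := by
    have a1 := locmin_convex h (x := 0) (by simpa using hr.le) hm
    have a2 : f m ≤ f 0 := hmin (mem_closedBall_self hr.le)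
    have a3 := abs_le.1 (abs_real_inner_le_norm (gradient f 0) m)
    rw [sub_zero] at a1
    by_contra hc
    have hc' : r ≤ ‖m‖ := not_lt.1 hc
    have a4 : ‖gradient f 0‖ * ‖m‖ < θ * r * ‖m‖ := mul_lt_mul_of_pos_right h0 (by linarith)
    have a5 : θ * r * ‖m‖ ≤ θ * ‖m‖ * ‖m‖ := by gcongr
    nlinarith [a3.1]
  have h2 : gradient f m = 0 := by
    have : IsLocalMin f m := hmin.isLocalMin
      (mem_of_superset (isOpen_ball.mem_nhds (mem_ball_zero_iff.2 h1)) ball_subset_closedBall)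
    rw [gradient, this.fderiv_eq_zero, map_zero]
  refine ⟨m, h1, h2, fun u hu hu0 => ?_, fun u hu => ?_⟩
  · have a1 := locmin_convex h hu.le hm
    have a2 : f m ≤ f u := hmin (mem_closedBall_zero_iff.2 hu.le)
    rw [hu0, inner_zero_left] at a1
    have a3 : ‖m - u‖ ^ 2 ≤ 0 := by
      by_contra hc
      have := mul_pos hθ (not_le.1 hc)
      linarith
    have a4 : ‖m - u‖ = 0 := pow_eq_zero_iff (two_ne_zero) |>.1 (le_antisymm a3 (sq_nonneg _))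
    exact (sub_eq_zero.1 (norm_eq_zero.1 a4)).symm
  · have a1 := locmin_convex h hm hu
    rwa [h2, inner_zero_left, add_zero] at a1

theorem locmin_ift {G : X × E n → E n} {l₀ : X} {m : E n} {k : ℕ}
    (hG : ContDiffAt ℝ (k + 1 : ℕ) G (l₀, m)) (h0 : G (l₀, m) = 0)
    (hinj : ∀ v : E n, fderiv ℝ (fun u => G (l₀, u)) m v = 0 → v = 0) :
    ∃ ν : X → E n, ContDiffAt ℝ k ν l₀ ∧ ν l₀ = m ∧ ∀ᶠ l in 𝓝 l₀, G (l, ν l) = 0 := by
  have := FiniteDimensional.complete ℝ X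
  have hk : ((k + 1 : ℕ) : WithTop ℕ∞) ≠ 0 := by exact_mod_cast Nat.succ_ne_zero k
  have hF : ContDiffAt ℝ (k + 1 : ℕ) (fun z : X × E n => (z.1, G z)) (l₀, m) :=
    contDiffAt_fst.prodMk hG
  have hGd := (hG.differentiableAt hk).hasFDerivAt
  obtain ⟨A, hA⟩ : ∃ A : X × E n →L[ℝ] X × E n,
    A = (ContinuousLinearMap.fst ℝ X (E n)).prod (fderiv ℝ G (l₀, m)) := ⟨_, rfl⟩
  have hAi : Function.Injective A := by
    rw [injective_iff_map_eq_zero]
    rintro ⟨a, b⟩ hab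
    rw [hA, ContinuousLinearMap.prod_apply, Prod.mk_eq_zero] at hab
    obtain ⟨rfl, h2⟩ : a = 0 ∧ fderiv ℝ G (l₀, m) (a, b) = 0 := hab
    have := (hGd.comp m (hasFDerivAt_prodMk_right (𝕜 := ℝ) l₀ m)).fderiv
    rw [hinj b (by
      change fderiv ℝ (G ∘ fun u => (l₀, u)) m b = 0
      rw [this]; exact h2)]
    rfl
  let e : (X × E n) ≃L[ℝ] (X × E n) :=
    (LinearEquiv.ofBijective (A : X × E n →ₗ[ℝ] X × E n)
      ⟨hAi, LinearMap.injective_iff_surjective.1 hAi⟩).toContinuousLinearEquiv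
  have he : (e : X × E n →L[ℝ] X × E n) = A := ContinuousLinearMap.ext fun _ => rfl
  have hd : HasFDerivAt (fun z : X × E n => (z.1, G z)) (e : X × E n →L[ℝ] X × E n) (l₀, m) := by
    rw [he, hA]
    exact hasFDerivAt_fst.prodMk hGd
  have h1 := hF.to_localInverse hd hk
  have h2 := hF.localInverse_apply_image hd hk
  have h3 : ∀ᶠ y in 𝓝 ((fun z : X × E n => (z.1, G z)) (l₀, m)),
      (fun z : X × E n => (z.1, G z)) (hF.localInverse hd hk y) = y :=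
    (hF.hasStrictFDerivAt' hd hk).eventually_right_inverse
  simp only [h0] at h1 h2 h3
  generalize hF.localInverse hd hk = Ψ at h1 h2 h3
  have hc : ContDiffAt ℝ (k + 1 : ℕ) (fun l : X => (l, (0 : E n))) l₀ := by fun_prop
  refine ⟨fun l => (Ψ (l, 0)).2, ((h1.comp l₀ hc).snd).of_le (by exact_mod_cast Nat.le_succ k),
    by simp only [h2], ?_⟩
  filter_upwards [hc.continuousAt.tendsto.eventually h3] with l hl
  rw [Prod.mk.injEq] at hl
  have : (l, (Ψ (l, 0)).2) = Ψ (l, 0) := Prod.ext hl.1.symm rfl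
  rw [this]
  exact hl.2

/-- Proof: `Φ` is `C^(k+2)` near `Z × {0}` and the Hessian in `u` is `≥ 4 θ` on
`cthickening ε Z × closedBall 0 r` (compactness); let `μ l` minimise `Φ (l, ·)` on the closed ball;
for `ε` small the gradient at `0` is small, so `‖μ l‖ < r`, `μ l` is the unique critical point,
and the implicit function theorem at `(l, μ l)` gives smoothness. -/
theorem unif_locmin {Z : Set X} (hZ : IsCompact Z) {Φ : X × E n → ℝ} (k : ℕ)
    (hΦ : ∀ l ∈ Z, ContDiffAt ℝ ∞ Φ (l, 0))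
    (hcrit : ∀ l ∈ Z, gradient (fun u => Φ (l, u)) 0 = 0)
    (hpos : ∀ l ∈ Z, ∀ u : E n, u ≠ 0 → 0 < ⟪hess (fun u => Φ (l, u)) 0 u, u⟫_ℝ) :
    ∃ θ > 0, ∃ r > 0, ∃ ε > 0, ∃ μ : X → E n, ∀ l ∈ cthickening ε Z,
      ContDiffAt ℝ k μ l ∧ ContDiffAt ℝ k Φ (l, μ l) ∧ ‖μ l‖ < r ∧
      gradient (fun u => Φ (l, u)) (μ l) = 0 ∧
      (∀ u, ‖u‖ < r → gradient (fun u => Φ (l, u)) u = 0 → u = μ l) ∧
      ∀ u, ‖u‖ ≤ r → Φ (l, μ l) + θ * ‖u - μ l‖ ^ 2 ≤ Φ (l, u) := by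
  classical
  have hle : ∀ j : ℕ, (j : WithTop ℕ∞) ≤ ∞ := fun j => by
    exact_mod_cast (le_top : (j : ℕ∞) ≤ ⊤)
  let Q : ℝ → X × E n → Prop := fun θ z => ContDiffAt ℝ (k + 2 : ℕ) Φ z ∧
    ∀ v, 2 * θ * ‖v‖ ^ 2 ≤ ⟪hess (fun u => Φ (z.1, u)) z.2 v, v⟫_ℝ
  have h1 : ∀ᶠ θ in 𝓝 (0 : ℝ), ∀ l ∈ Z, ∀ᶠ z in 𝓝 (l, (0 : E n)), Q θ z := by
    refine hZ.eventually_forall_of_forall_eventually fun l hl => ?_
    obtain ⟨c, hc, hcs⟩ := locmin_coerc (hpos l hl)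
    have a1 : ∀ᶠ z in 𝓝 (l, (0 : E n)), ContDiffAt ℝ (k + 2 : ℕ) Φ z :=
      ((hΦ l hl).of_le (hle _)).eventually
        fun h => ENat.natCast_ne_top (k + 2) (WithTop.coe_injective h)
    have a2 := Metric.tendsto_nhds.1 (contDiffAt_hess_param (k := 0) (hΦ l hl)
      (by rw [zero_add]; exact hle 2)).continuousAt (c / 2) (by positivity)
    have a3 : ∀ᶠ z in 𝓝 (l, (0 : E n)), Q (c / 4) z := by
      filter_upwards [a1, a2] with z b1 b2
      refine ⟨b1, fun v => ?_⟩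
      rw [dist_eq_norm] at b2
      have b3 := hcs v
      have b4 := abs_le.1 (abs_real_inner_le_norm
        ((hess (fun u => Φ (z.1, u)) z.2 - hess (fun u => Φ (l, u)) 0) v) v)
      have b5 := (hess (fun u => Φ (z.1, u)) z.2 - hess (fun u => Φ (l, u)) 0).le_opNorm v
      have b6 := mul_le_mul_of_nonneg_right b5 (norm_nonneg v)
      have b7 := mul_le_mul_of_nonneg_right b2.le (sq_nonneg ‖v‖)
      have b8 := b4.1
      rw [sub_apply, inner_sub_left] at b8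
      rw [sub_apply] at b6
      nlinarith
    have t1 : Tendsto (fun p : ℝ × X => (p.2, (0 : E n))) (𝓝 (0, l)) (𝓝 (l, 0)) :=
      (by fun_prop : Continuous fun p : ℝ × X => (p.2, (0 : E n))).tendsto' _ _ rfl
    have t2 : ∀ᶠ p : ℝ × X in 𝓝 (0, l), p.1 < c / 4 :=
      continuous_fst.continuousAt.eventually_lt continuousAt_const (by positivity)
    filter_upwards [t1.eventually a3.eventually_nhds, t2] with p b1 b2
    filter_upwards [b1] with z b3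
    refine ⟨b3.1, fun v => le_trans ?_ (b3.2 v)⟩
    gcongr
  obtain ⟨θ, hθ, hQ⟩ := ((show ∀ᶠ θ in 𝓝[>] (0 : ℝ), 0 < θ from self_mem_nhdsWithin).and
    (nhdsWithin_le_nhds h1)).exists
  have hK : IsCompact (Z ×ˢ ({0} : Set (E n))) := hZ.prod isCompact_singleton
  have h2 : {z | Q θ z} ∈ 𝓝ˢ (Z ×ˢ ({0} : Set (E n))) := by
    rw [mem_nhdsSet_iff_forall]
    rintro ⟨l, u⟩ ⟨hl, rfl : u = 0⟩
    exact hQ l hl
  obtain ⟨r, hr, hrQ⟩ := (hasBasis_nhdsSet_cthickening hK).mem_iff.1 h2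
  have h3 : {l | ‖gradient (fun u => Φ (l, u)) 0‖ < θ * r} ∈ 𝓝ˢ Z := by
    rw [mem_nhdsSet_iff_forall]
    intro l hl
    have a1 := (contDiffAt_gradient_param (k := 0) (hΦ l hl)
      (by rw [zero_add]; exact_mod_cast le_top)).continuousAt
    have a2 : ContinuousAt (fun l : X => gradient (fun u => Φ (l, u)) 0) l :=
      ContinuousAt.comp (f := fun l : X => (l, (0 : E n))) a1 (by fun_prop)
    refine a2.norm.eventually_lt continuousAt_const ?_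
    rw [hcrit l hl, norm_zero]
    positivity
  obtain ⟨ε₁, hε₁, hε₁s⟩ := (hasBasis_nhdsSet_thickening hZ).mem_iff.1 h3
  obtain ⟨δ, hδ, hδ1, hδ2⟩ : ∃ δ > 0, δ ≤ r ∧ δ ≤ ε₁ :=
    ⟨min r ε₁, by positivity, min_le_left _ _, min_le_right _ _⟩
  have h4 : ∀ l ∈ thickening δ Z, ∀ u : E n, ‖u‖ ≤ r → Q θ (l, u) := by
    intro l hl u hu
    obtain ⟨l₀, hl₀, hd⟩ := mem_thickening_iff.1 hl
    refine hrQ (mem_cthickening_of_dist_le (l, u) (l₀, 0) r _ ⟨hl₀, rfl⟩ ?_)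
    rw [Prod.dist_eq]
    exact max_le (by linarith) (by simpa using hu)
  have h5 : ∀ l, ∃ m : E n, l ∈ thickening δ Z → ‖m‖ < r ∧
      gradient (fun u => Φ (l, u)) m = 0 ∧
      (∀ u, ‖u‖ < r → gradient (fun u => Φ (l, u)) u = 0 → u = m) ∧
      ∀ u, ‖u‖ ≤ r → Φ (l, m) + θ * ‖u - m‖ ^ 2 ≤ Φ (l, u) := by
    intro l
    by_cases hl : l ∈ thickening δ Z
    swap
    · exact ⟨0, fun h => absurd h hl⟩
    obtain ⟨m, hm⟩ := locmin_exists (f := fun u => Φ (l, u)) hθ hr (fun u hu =>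
      ⟨ContDiffAt.comp (g := Φ) (f := fun u : E n => (l, u)) u
        ((h4 l hl u hu).1.of_le (by exact_mod_cast Nat.le_add_left 2 k)) (by fun_prop),
        (h4 l hl u hu).2⟩) (hε₁s (thickening_mono hδ2 Z hl))
    exact ⟨m, fun _ => hm⟩
  choose μ hμ using h5
  refine ⟨θ, hθ, r, hr, δ / 2, by positivity, μ, fun l hl => ?_⟩
  have hl' : l ∈ thickening δ Z := cthickening_subset_thickening' hδ (by linarith) Z hl
  obtain ⟨b1, b2, b3, b4⟩ := hμ l hl'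
  obtain ⟨q1, q2⟩ := h4 l hl' (μ l) b1.le
  refine ⟨?_, q1.of_le (by exact_mod_cast Nat.le_add_right k 2), b1, b2, b3, b4⟩
  obtain ⟨ν, n1, n2, n3⟩ := locmin_ift
    (G := fun z : X × E n => gradient (fun ξ => Φ (z.1, ξ)) z.2) (k := k)
    (contDiffAt_gradient_param q1 (by exact_mod_cast le_rfl)) b2 fun v hv => by
      have a1 := q2 v
      have a2 : hess (fun u => Φ (l, u)) (μ l) v = 0 := hv
      rw [a2, inner_zero_left] at a1
      by_contra hc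
      have : 0 < ‖v‖ := norm_pos_iff.2 hc
      have : 0 < 2 * θ * ‖v‖ ^ 2 := by positivity
      linarith
  refine n1.congr_of_eventuallyEq ?_
  have n4 : ∀ᶠ l' in 𝓝 l, ‖ν l'‖ < r :=
    n1.continuousAt.norm.eventually_lt continuousAt_const (by rw [n2]; exact b1)
  filter_upwards [n3, n4, isOpen_thickening.mem_nhds hl'] with l' c1 c2 c3
  exact ((hμ l' c3).2.2.1 _ c2 c1).symm

end Crest.Agent.R226
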