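import Crest.Agent.R226.Hess

/-! Row 226: the operator `N = (C - H)⁻¹` extends smoothly to `K`. -/

set_option autoImplicit false

open Set Filter Metric
open scoped ContDiff Topology InnerProductSpace

namespace Crest.Agent.R226

noncomputable section

variable {n : ℕ} {M : Type*} [MetricSpace M]

/-- `N = (C - H)⁻¹` on `I`, smooth up to `K`. -/
structure NData (G : LocGeo n M) where
  C : ℝ
  N : P n × E n → E n →L[ℝ] E n
  C_ge : 2 ≤ C
  smooth : ∀ z ∈ G.KF, ContDiffAt ℝ ∞ N z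
  symm : ∀ z ∈ G.KF, ∀ u v, ⟪N z u, v⟫_ℝ = ⟪u, N z v⟫_ℝ
  nonneg : ∀ z ∈ G.KF, ∀ u, 0 ≤ ⟪N z u, u⟫_ℝ
  le_one : ∀ z ∈ G.KF, ∀ u, ⟪N z u, u⟫_ℝ ≤ ‖u‖ ^ 2
  left_inv : ∀ a ∈ G.F, ∀ p ∈ G.I a, ∀ u, N (a, p) (C • u - G.H (a, p) u) = u
  right_inv : ∀ a ∈ G.F, ∀ p ∈ G.I a, ∀ u, C • N (a, p) u - G.H (a, p) (N (a, p) u) = u
  radial : ∀ z ∈ G.KF, N z z.2 = (C - 1)⁻¹ • z.2
  lower : ∃ c : ℝ, 0 < c ∧ ∀ z ∈ G.KF, ∀ δ ∈ Icc (0 : ℝ) 1, ∀ u,
    c * δ * ‖u‖ ^ 2 ≤ ⟪N (z.1, (1 - δ) • z.2) u, u⟫_ℝ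
  W_pos : ∀ z ∈ G.KF, (∀ u, N z u = 0 → u = 0) → ∀ u, u ≠ 0 → 0 < ⟪G.W z u, u⟫_ℝ
  det_cmp : ∃ c : ℝ, 0 < c ∧ ∀ z ∈ G.KF,
    c * (G.W z).det ≤ (N z).det ∧ c * (N z).det ≤ (G.W z).det

/-- `G = C - H = N⁻¹` on `I`. -/
def NData.Gm {G : LocGeo n M} (D : NData G) (z : P n × E n) : E n →L[ℝ] E n :=
  D.C • ContinuousLinearMap.id ℝ (E n) - G.H z

/-- the pointwise data: `B ≥ 1` and `W ≥ 0` symmetric. -/
structure NdOK (B W : E n →L[ℝ] E n) : Prop where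
  Bs : ∀ u v, ⟪B u, v⟫_ℝ = ⟪u, B v⟫_ℝ
  Ws : ∀ u v, ⟪W u, v⟫_ℝ = ⟪u, W v⟫_ℝ
  Bl : ∀ u, ‖u‖ ^ 2 ≤ ⟪B u, u⟫_ℝ
  Wl : ∀ u, 0 ≤ ⟪W u, u⟫_ℝ

/-- `B W + 4`. -/
def ndT (B W : E n →L[ℝ] E n) : E n →L[ℝ] E n := B * W + (4 : ℝ) • 1

/-- `W (B W + 4)⁻¹`. -/
def ndN (B W : E n →L[ℝ] E n) : E n →L[ℝ] E n := W * Ring.inverse (ndT B W)

theorem ndT_apply (B W : E n →L[ℝ] E n) (u : E n) : ndT B W u = B (W u) + (4 : ℝ) • u := by
  simp [ndT]

namespace NdOK

variable {B W : E n →L[ℝ] E n} (h : NdOK B W)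
include h

theorem inner_T (u v : E n) :
    ⟪W u, ndT B W v⟫_ℝ = ⟪B (W u), W v⟫_ℝ + 4 * ⟪W u, v⟫_ℝ := by
  rw [ndT_apply, inner_add_right, inner_smul_right, h.Bs]

theorem T_inj {u : E n} (hu : ndT B W u = 0) : u = 0 := by
  have h1 := h.inner_T u u
  rw [hu, inner_zero_right] at h1
  have h2 := h.Bl (W u)
  have h3 := h.Wl u
  have h4 : W u = 0 := by
    have : ‖W u‖ ^ 2 ≤ 0 := by linarith
    have : ‖W u‖ = 0 := by nlinarith [norm_nonneg (W u)]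
    exact norm_eq_zero.1 this
  rw [ndT_apply, h4, map_zero, zero_add] at hu
  simpa using hu

theorem T_unit : IsUnit (ndT B W) := by
  rw [ContinuousLinearMap.isUnit_iff_bijective]
  have hi : Function.Injective (ndT B W : E n →ₗ[ℝ] E n) :=
    (injective_iff_map_eq_zero _).2 fun u hu => h.T_inj hu
  exact ⟨hi, LinearMap.injective_iff_surjective.1 hi⟩

theorem T_surj (u : E n) : ∃ v, ndT B W v = u :=
  (ContinuousLinearMap.isUnit_iff_bijective.1 h.T_unit).2 u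

theorem N_mul : ndN B W * ndT B W = W := by
  rw [ndN, mul_assoc, Ring.inverse_mul_cancel _ h.T_unit, mul_one]

theorem N_T (u : E n) : ndN B W (ndT B W u) = W u := by
  rw [← ContinuousLinearMap.mul_apply, h.N_mul]

theorem N_symm (u v : E n) : ⟪ndN B W u, v⟫_ℝ = ⟪u, ndN B W v⟫_ℝ := by
  obtain ⟨u, rfl⟩ := h.T_surj u
  obtain ⟨v, rfl⟩ := h.T_surj v
  rw [h.N_T, h.N_T, real_inner_comm (W v), h.inner_T, h.inner_T, h.Bs, real_inner_comm (B (W v)),
    h.Ws, real_inner_comm (W v) u]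

theorem N_ge (u : E n) : ‖ndN B W (ndT B W u)‖ ^ 2 + 4 * ⟪W u, u⟫_ℝ ≤
    ⟪ndN B W (ndT B W u), ndT B W u⟫_ℝ := by
  rw [h.N_T, h.inner_T]
  linarith [h.Bl (W u)]

theorem N_nonneg (u : E n) : 0 ≤ ⟪ndN B W u, u⟫_ℝ := by
  obtain ⟨u, rfl⟩ := h.T_surj u
  have := h.N_ge u
  have := h.Wl u
  nlinarith [sq_nonneg ‖ndN B W (ndT B W u)‖]

theorem N_le (u : E n) : ⟪ndN B W u, u⟫_ℝ ≤ ‖u‖ ^ 2 := by
  obtain ⟨u, rfl⟩ := h.T_surj u
  have h1 := h.N_ge u
  have h2 := h.Wl u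
  have h3 := real_inner_le_norm (ndN B W (ndT B W u)) (ndT B W u)
  nlinarith [sq_nonneg (‖ndN B W (ndT B W u)‖ - ‖ndT B W u‖)]

theorem W_pos (hN : ∀ u, ndN B W u = 0 → u = 0) (u : E n) (hu : u ≠ 0) : 0 < ⟪W u, u⟫_ℝ := by
  refine lt_of_le_of_ne (h.Wl u) fun h0 => hu ?_
  have hW : W u = 0 := by
    set t : ℝ := 1 / (‖W‖ + 1) with ht
    have hn := norm_nonneg W
    have ht0 : 0 < t := by positivity
    have ht1 : t * ‖W‖ ≤ 1 := by
      rw [ht, div_mul_eq_mul_div, div_le_one (by positivity)]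
      linarith
    have h1 := h.Wl (u - t • W u)
    have h2 : ⟪W (W u), W u⟫_ℝ ≤ ‖W‖ * ‖W u‖ ^ 2 :=
      (real_inner_le_norm _ _).trans (by
        have := mul_le_mul_of_nonneg_right (W.le_opNorm (W u)) (norm_nonneg (W u))
        nlinarith)
    have h3 : ⟪W (W u), u⟫_ℝ = ‖W u‖ ^ 2 := by rw [h.Ws, real_inner_self_eq_norm_sq]
    simp only [map_sub, map_smul, inner_sub_left, inner_sub_right, real_inner_smul_left,
      real_inner_smul_right, ← h0, h3, real_inner_self_eq_norm_sq] at h1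
    have h4 : t * (t * ⟪W (W u), W u⟫_ℝ) ≤ t * ‖W u‖ ^ 2 := by
      refine mul_le_mul_of_nonneg_left ?_ ht0.le
      have := mul_le_mul_of_nonneg_left h2 ht0.le
      nlinarith [sq_nonneg ‖W u‖]
    have h5 : t * ‖W u‖ ^ 2 ≤ 0 := by linarith
    have h6 : ‖W u‖ ^ 2 ≤ 0 := by
      by_contra hc
      push Not at hc
      linarith [mul_pos ht0 hc]
    have : ‖W u‖ = 0 := by nlinarith [norm_nonneg (W u)]
    exact norm_eq_zero.1 this
  exact h.T_inj (hN _ (by rw [h.N_T, hW]))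

theorem det_mul : (ndN B W).det * (ndT B W).det = W.det := by
  conv_rhs => rw [← h.N_mul]
  exact (map_mul LinearMap.det _ _).symm

theorem det_T_ne : (ndT B W).det ≠ 0 := by
  have : IsUnit (ndT B W : E n →ₗ[ℝ] E n) := by
    rw [Module.End.isUnit_iff]
    exact ContinuousLinearMap.isUnit_iff_bijective.1 h.T_unit
  exact (this.map LinearMap.det).ne_zero

end NdOK

theorem nd_det_nonneg {A : E n →L[ℝ] E n} (hs : ∀ u v, ⟪A u, v⟫_ℝ = ⟪u, A v⟫_ℝ)
    (hl : ∀ u, 0 ≤ ⟪A u, u⟫_ℝ) : 0 ≤ A.det := by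
  have hp : (A : E n →ₗ[ℝ] E n).IsPositive := ⟨hs, hl⟩
  have := hp.isSymmetric.det_eq_prod_eigenvalues rfl
  rw [ContinuousLinearMap.det, this]
  exact Finset.prod_nonneg fun i _ => hp.nonneg_eigenvalues rfl i

/-- Proof: `B z = C - 2 H (a, p/2) ≥ 1` with `C = 2 C_H + 2` (`H_le`), `N = W ∘ (B W + 4)⁻¹`
(`Ring.inverse`, `contDiffAt_ringInverse`); `B W + 4` is injective on `K`
(pair with `W u`), `W_schur` and `W_lower` give `C - H = (B W + 4) W⁻¹` on `I`. -/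
theorem exists_nData [CompactSpace M] (G : LocGeo n M) : Nonempty (NData G) := by
  obtain ⟨CH, hCH, hH⟩ := G.H_le
  obtain ⟨cW, hcW, hW⟩ := G.W_lower
  set C : ℝ := 2 * CH + 2 with hC
  let B : P n × E n → E n →L[ℝ] E n := fun z =>
    C • (1 : E n →L[ℝ] E n) - (2 : ℝ) • G.H (z.1, (1 / 2 : ℝ) • z.2)
  have hB : ∀ z u, B z u = C • u - (2 : ℝ) • G.H (z.1, (1 / 2 : ℝ) • z.2) u := fun z u => by
    simp [B]
  have hU : ∀ z ∈ G.KF, z.1 ∈ G.U := fun z hz => G.F_sub hz.1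
  have hhalf : ∀ z ∈ G.KF, (z.1, (1 / 2 : ℝ) • z.2) ∈ G.IU := fun z hz =>
    ⟨hU z hz, G.smul_mem_I (hU z hz) hz.2 (by norm_num) (by norm_num)⟩
  have ok : ∀ z ∈ G.KF, NdOK (B z) (G.W z) := fun z hz =>
    { Bs := fun u v => by
        rw [hB, hB, inner_sub_left, inner_sub_right, real_inner_smul_left, real_inner_smul_left,
          real_inner_smul_right, real_inner_smul_right, G.H_symm (hhalf z hz)]
      Ws := G.W_symm (hU z hz) hz.2
      Bl := fun u => by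
        rw [hB, inner_sub_left, real_inner_smul_left, real_inner_smul_left,
          real_inner_self_eq_norm_sq]
        have := hH _ (hhalf z hz) u
        nlinarith [sq_nonneg ‖u‖]
      Wl := G.W_nonneg (hU z hz) hz.2 }
  have sB : ∀ z ∈ G.KF, ContDiffAt ℝ ∞ B z := fun z hz => by
    refine contDiffAt_const.sub (ContDiffAt.const_smul _ ?_)
    exact (G.contDiffAt_H (hhalf z hz)).comp z
      (f := fun z : P n × E n => (z.1, (1 / 2 : ℝ) • z.2)) (by fun_prop)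
  have sW : ∀ z ∈ G.KF, ContDiffAt ℝ ∞ G.W z := fun z hz => G.contDiffAt_W (hU z hz) hz.2
  have sT : ∀ z ∈ G.KF, ContDiffAt ℝ ∞ (fun z => ndT (B z) (G.W z)) z := fun z hz =>
    ((sB z hz).mul (sW z hz)).add contDiffAt_const
  have sN : ∀ z ∈ G.KF, ContDiffAt ℝ ∞ (fun z => ndN (B z) (G.W z)) z := fun z hz => by
    refine (sW z hz).mul ?_
    obtain ⟨x, hx⟩ := (ok z hz).T_unit
    have := contDiffAt_ringInverse (n := ∞) ℝ x
    rw [hx] at this
    exact this.comp z (sT z hz)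
  have hT : ∀ a ∈ G.F, ∀ p ∈ G.I a, ∀ u,
      C • G.W (a, p) u - G.H (a, p) (G.W (a, p) u) = ndT (B (a, p)) (G.W (a, p)) u := by
    intro a ha p hp u
    have hz : (a, p) ∈ G.KF := ⟨ha, G.I_sub_K (G.F_sub ha) hp⟩
    have h4 : (2 : ℝ) • G.H (a, (1 / 2 : ℝ) • p) (G.W (a, p) u) - G.H (a, p) (G.W (a, p) u) =
        (4 : ℝ) • u := by
      refine ext_inner_right ℝ fun v => ?_
      rw [inner_sub_left, real_inner_smul_left, G.H_symm (hhalf _ hz),
        G.H_symm (z := (a, p)) ⟨G.F_sub ha, hp⟩, ← real_inner_smul_right, ← inner_sub_right,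
        (ok _ hz).Ws, G.W_schur (G.F_sub ha) hp, real_inner_smul_left, real_inner_smul_right]
    rw [ndT_apply, hB, ← h4]
    abel
  have hleft : ∀ a ∈ G.F, ∀ p ∈ G.I a, ∀ u,
      ndN (B (a, p)) (G.W (a, p)) (C • u - G.H (a, p) u) = u := by
    intro a ha p hp u
    have hz : (a, p) ∈ G.KF := ⟨ha, G.I_sub_K (G.F_sub ha) hp⟩
    obtain ⟨v, rfl⟩ : ∃ v, G.W (a, p) v = u := by
      refine ⟨(1 / 4 : ℝ) • ((2 : ℝ) • G.H (a, (1 / 2 : ℝ) • p) u - G.H (a, p) u), ?_⟩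
      rw [map_smul, G.W_schur (G.F_sub ha) hp, smul_smul]
      norm_num
    rw [hT a ha p hp, (ok _ hz).N_T]
  have hcT : ContinuousOn (fun z => ndT (B z) (G.W z)) G.KF := fun z hz =>
    (sT z hz).continuousAt.continuousWithinAt
  refine ⟨{ C := C
            N := fun z => ndN (B z) (G.W z)
            C_ge := by linarith
            smooth := sN
            symm := fun z hz => (ok z hz).N_symm
            nonneg := fun z hz => (ok z hz).N_nonneg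
            le_one := fun z hz => (ok z hz).N_le
            left_inv := hleft
            right_inv := ?_
            radial := ?_
            lower := ?_
            W_pos := fun z hz => (ok z hz).W_pos
            det_cmp := ?_ }⟩
  · intro a ha p hp u
    have hz : (a, p) ∈ G.KF := ⟨ha, G.I_sub_K (G.F_sub ha) hp⟩
    obtain ⟨v, rfl⟩ := (ok _ hz).T_surj u
    rw [(ok _ hz).N_T, hT a ha p hp]
  · rintro ⟨a, p⟩ hz
    have hC1 : C - 1 ≠ 0 := by linarith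
    have hI : ∀ q ∈ G.I a, ndN (B (a, q)) (G.W (a, q)) q = (C - 1)⁻¹ • q := by
      intro q hq
      have h1 := hleft a hz.1 q hq q
      have h2 : G.H (a, q) q = q := G.H_radial (z := (a, q)) ⟨hU (a, p) hz, hq⟩
      rw [h2, show C • q - q = (C - 1) • q by rw [sub_smul, one_smul], map_smul] at h1
      conv_rhs => rw [← h1]
      rw [smul_smul, inv_mul_cancel₀ hC1, one_smul]
    have c0 : ContinuousAt (fun σ : ℝ => ((a, σ • p) : P n × E n)) 1 := by fun_prop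
    have c1 : ContinuousAt (fun σ : ℝ => ndN (B (a, σ • p)) (G.W (a, σ • p)) (σ • p)) 1 := by
      refine ContinuousAt.clm_apply ?_ (by fun_prop)
      exact ContinuousAt.comp_of_eq (sN _ hz).continuousAt c0 (by simp)
    have c2 : ContinuousAt (fun σ : ℝ => (C - 1)⁻¹ • σ • p) 1 := by fun_prop
    have e : (fun σ : ℝ => ndN (B (a, σ • p)) (G.W (a, σ • p)) (σ • p)) =ᶠ[𝓝[<] 1]
        fun σ : ℝ => (C - 1)⁻¹ • σ • p := by
      filter_upwards [Ioo_mem_nhdsLT (zero_lt_one' ℝ)] with σ hσ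
      exact hI _ (G.smul_mem_I (hU _ hz) hz.2 hσ.1.le hσ.2)
    have := tendsto_nhds_unique_of_eventuallyEq (c1.tendsto.mono_left nhdsWithin_le_nhds)
      (c2.tendsto.mono_left nhdsWithin_le_nhds) e
    simpa using this
  · obtain ⟨L, hL⟩ := G.isCompact_KF.exists_bound_of_continuousOn hcT
    have hL1 : 0 < max L 1 := lt_max_of_lt_right one_pos
    refine ⟨4 * cW / max L 1 ^ 2, by positivity, fun z hz δ hδ u => ?_⟩
    have hz' : (z.1, (1 - δ) • z.2) ∈ G.KF :=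
      ⟨hz.1, G.K_smul (hU z hz) hz.2 ⟨by linarith [hδ.2], by linarith [hδ.1]⟩⟩
    obtain ⟨v, rfl⟩ := (ok _ hz').T_surj u
    have h1 := (ok _ hz').N_ge v
    have h2 := hW z hz δ hδ v
    have h3 : ‖ndT (B (z.1, (1 - δ) • z.2)) (G.W (z.1, (1 - δ) • z.2)) v‖ ≤ max L 1 * ‖v‖ :=
      (ContinuousLinearMap.le_opNorm _ _).trans
        (mul_le_mul_of_nonneg_right ((hL _ hz').trans (le_max_left _ _)) (norm_nonneg _))
    have h4 := pow_le_pow_left₀ (norm_nonneg _) h3 2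
    have hδ0 := hδ.1
    have h5 := mul_le_mul_of_nonneg_left h4
      (show 0 ≤ 4 * cW / max L 1 ^ 2 * δ by positivity)
    have h6 : 4 * cW / max L 1 ^ 2 * δ * (max L 1 * ‖v‖) ^ 2 = 4 * (cW * δ * ‖v‖ ^ 2) := by
      field_simp
    refine h5.trans ?_
    rw [h6]
    nlinarith [sq_nonneg ‖ndN (B (z.1, (1 - δ) • z.2)) (G.W (z.1, (1 - δ) • z.2))
      (ndT (B (z.1, (1 - δ) • z.2)) (G.W (z.1, (1 - δ) • z.2)) v)‖]
  · have hcd : ContinuousOn (fun z => (ndT (B z) (G.W z)).det) G.KF :=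
      ContinuousLinearMap.continuous_det.comp_continuousOn hcT
    obtain ⟨L, hL⟩ := G.isCompact_KF.exists_bound_of_continuousOn hcd
    obtain ⟨L', hL'⟩ := G.isCompact_KF.exists_bound_of_continuousOn
      (hcd.inv₀ fun z hz => (ok z hz).det_T_ne)
    have hL1 : 0 < max (max L L') 1 := lt_max_of_lt_right one_pos
    refine ⟨(max (max L L') 1)⁻¹, by positivity, fun z hz => ?_⟩
    have h1 := (ok z hz).det_mul
    have h2 := nd_det_nonneg (ok z hz).N_symm (ok z hz).N_nonneg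
    have h3 := nd_det_nonneg (ok z hz).Ws (ok z hz).Wl
    have h4 : (ndT (B z) (G.W z)).det ≤ max (max L L') 1 :=
      ((le_abs_self _).trans (hL z hz)).trans ((le_max_left _ _).trans (le_max_left _ _))
    have h5 : (ndT (B z) (G.W z)).det⁻¹ ≤ max (max L L') 1 :=
      ((le_abs_self _).trans (hL' z hz)).trans ((le_max_right _ _).trans (le_max_left _ _))
    have h6 : (ndN (B z) (G.W z)).det = (G.W z).det * (ndT (B z) (G.W z)).det⁻¹ := by
      rw [← h1, mul_assoc, mul_inv_cancel₀ (ok z hz).det_T_ne, mul_one]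
    constructor
    · rw [inv_mul_le_iff₀ hL1, ← h1, mul_comm (max _ _)]
      exact mul_le_mul_of_nonneg_left h4 h2
    · rw [inv_mul_le_iff₀ hL1, h6, mul_comm (max _ _)]
      exact mul_le_mul_of_nonneg_left h5 h3

end

end Crest.Agent.R226
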