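import Crest.Agent.R226.OTDual

/-! Row 226: from the growth estimate to bi-Hölder optimal maps (owner: helper94). -/

set_option autoImplicit false

open Set Filter Metric MeasureTheory
open scoped Topology ENNReal

namespace Crest.Agent.R226

open Crest.GeometryTopology.MTW

section Aux

variable {M : Type*} [MetricSpace M]

/-- a one-sided growth estimate gives a Hölder estimate along the contact relation. -/
theorem ot_holder {φ ψ : M → ℝ} {β c D : ℝ} (hβ : 1 ≤ β) (hc : 0 < c) (hD0 : 0 < D)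
    (hD : ∀ x y : M, dist x y ≤ D) (hn : ∀ x y, 0 ≤ Dd φ ψ x y)
    (hg : ∀ x₀ y₀, Dd φ ψ x₀ y₀ = 0 → ∀ x, c * dist x x₀ ^ β ≤ Dd φ ψ x y₀)
    {x₀ y₀ x₁ y₁ : M} (h0 : Dd φ ψ x₀ y₀ = 0) (h1 : Dd φ ψ x₁ y₁ = 0) :
    dist x₁ x₀ ≤ (2 * D / c) ^ (1 / β) * dist y₁ y₀ ^ (1 / β) := by
  have e1 := hg x₀ y₀ h0 x₁
  have e2 := hn x₀ y₁
  have e3 := ot_cst_lip hD y₀ y₁ x₁
  have e4 := ot_cst_lip hD y₁ y₀ x₀
  rw [cst_comm y₀, cst_comm y₁ x₁, dist_comm y₀] at e3
  rw [cst_comm y₁, cst_comm y₀ x₀] at e4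
  have e5 : dist x₁ x₀ ^ β ≤ 2 * D / c * dist y₁ y₀ := by
    rw [div_mul_eq_mul_div, le_div_iff₀ hc]
    unfold Dd at *
    linarith
  have hβ0 : 0 < β := by linarith
  rw [← Real.mul_rpow (by positivity) dist_nonneg]
  calc dist x₁ x₀ = (dist x₁ x₀ ^ β) ^ (1 / β) := by
        rw [one_div, Real.rpow_rpow_inv dist_nonneg hβ0.ne']
    _ ≤ _ := Real.rpow_le_rpow (by positivity) e5 (by positivity)

theorem ot_cont_of_holder {T : M → M} {C α : ℝ} (hα : 0 < α)
    (h : ∀ x x', dist (T x) (T x') ≤ C * dist x x' ^ α) : Continuous T := by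
  refine continuous_iff_continuousAt.2 fun x => ?_
  rw [ContinuousAt, tendsto_iff_dist_tendsto_zero]
  refine squeeze_zero (fun _ => dist_nonneg) (fun x' => h x' x) ?_
  have h1 : Continuous fun x' : M => C * dist x' x ^ α :=
    continuous_const.mul ((continuous_id.dist continuous_const).rpow_const fun _ => Or.inr hα.le)
  simpa [Real.zero_rpow hα.ne'] using h1.tendsto x

variable [MeasurableSpace M]

theorem ot_density_le {ν : Measure M} {ρ : M → ℝ} {lam Lam : ℝ}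
    (h : ∀ᵐ x ∂ν, lam ≤ ρ x ∧ ρ x ≤ Lam) {A : Set M} (hA : MeasurableSet A) :
    ENNReal.ofReal lam * ν A ≤ ν.withDensity (fun x => ENNReal.ofReal (ρ x)) A ∧
      ν.withDensity (fun x => ENNReal.ofReal (ρ x)) A ≤ ENNReal.ofReal Lam * ν A := by
  rw [withDensity_apply _ hA, ← setLIntegral_const, ← setLIntegral_const]
  exact ⟨lintegral_mono_ae (ae_restrict_of_ae (h.mono fun x hx => ENNReal.ofReal_le_ofReal hx.1)),
    lintegral_mono_ae (ae_restrict_of_ae (h.mono fun x hx => ENNReal.ofReal_le_ofReal hx.2))⟩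

theorem ot_vol_le {a b : ℝ≥0∞} {lam Lam : ℝ} (hlam : 0 < lam)
    (h : ENNReal.ofReal lam * a ≤ ENNReal.ofReal Lam * b) : a ≤ ENNReal.ofReal (Lam / lam) * b := by
  have h0 : ENNReal.ofReal lam ≠ 0 := by simpa using hlam
  rw [ENNReal.ofReal_div_of_pos hlam, ENNReal.div_eq_inv_mul, mul_assoc]
  calc a = (ENNReal.ofReal lam)⁻¹ * (ENNReal.ofReal lam * a) := by
        rw [← mul_assoc, ENNReal.inv_mul_cancel h0 ENNReal.ofReal_ne_top, one_mul]
    _ ≤ _ := by gcongr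

variable [BorelSpace M] [CompactSpace M]

/-- a Monge optimal map is concentrated on the contact set of a conjugate pair as soon as some
transport map is. -/
theorem ot_contact {μ₀ μ₁ : Measure M} [IsProbabilityMeasure μ₀] {φ ψ : M → ℝ}
    (h : IsCT univ φ ψ) {S T : M → M} (hS : Measurable S) (hSm : μ₀.map S = μ₁)
    (hS0 : ∀ x, Dd φ ψ x (S x) = 0) (hT : IsMongeOptimal μ₀ μ₁ T) :
    ∀ᵐ x ∂μ₀, Dd φ ψ x (T x) = 0 := by
  obtain ⟨D, hD0, hD⟩ := ot_exists_diam (M := M)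
  obtain ⟨hTm, hTp, hTo⟩ := hT
  have hle := hTo S hS hSm
  have hci : ∀ R : M → M, Measurable R → Integrable (fun x => cst x (R x)) μ₀ := fun R hR => by
    have hm : Measurable fun x => cst x (R x) := by
      unfold cst
      exact ((measurable_id.dist hR).pow_const 2).div_const 2
    refine Integrable.of_bound hm.aestronglyMeasurable (D ^ 2 / 2) (ae_of_all _ fun x => ?_)
    rw [Real.norm_of_nonneg (cst_nonneg _ _)]
    unfold cst
    gcongr
    exact hD _ _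
  haveI : IsProbabilityMeasure μ₁ := hSm ▸ Measure.isProbabilityMeasure_map hS.aemeasurable
  have hψi : ∀ R : M → M, Measurable R → μ₀.map R = μ₁ →
      Integrable (fun x => ψ (R x)) μ₀ ∧ ∫ x, ψ (R x) ∂μ₀ = ∫ y, ψ y ∂μ₁ := fun R hR hRm => by
    refine ⟨?_, ?_⟩
    · have := ot_integrable h.cont μ₁
      rw [← hRm] at this
      exact this.comp_measurable hR
    · rw [← hRm, integral_map hR.aemeasurable h.cont.aestronglyMeasurable]
  have hφi := ot_integrable h.continuous μ₀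
  have hDi : ∀ R : M → M, Measurable R → μ₀.map R = μ₁ →
      Integrable (fun x => Dd φ ψ x (R x)) μ₀ ∧ ∫ x, Dd φ ψ x (R x) ∂μ₀ =
        ∫ x, φ x ∂μ₀ + ∫ y, ψ y ∂μ₁ + ∫ x, cst x (R x) ∂μ₀ := fun R hR hRm => by
    obtain ⟨k1, k2⟩ := hψi R hR hRm
    refine ⟨(hφi.add k1).add (hci R hR), ?_⟩
    unfold Dd
    have k3 : Integrable (fun x => φ x + ψ (R x)) μ₀ := hφi.add k1
    rw [integral_add k3 (hci R hR), integral_add hφi k1, k2]
  simp only [← cst_eq] at hle
  rw [← ofReal_integral_eq_lintegral_ofReal (hci T hTm) (ae_of_all _ fun x => cst_nonneg _ _),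
    ← ofReal_integral_eq_lintegral_ofReal (hci S hS) (ae_of_all _ fun x => cst_nonneg _ _),
    ENNReal.ofReal_le_ofReal_iff (integral_nonneg fun x => cst_nonneg _ _)] at hle
  have e1 := (hDi S hS hSm).2
  simp only [hS0, integral_zero] at e1
  obtain ⟨e2, e3⟩ := hDi T hTm hTp
  have hn : 0 ≤ fun x => Dd φ ψ x (T x) := fun x => h.nonneg x (T x) (mem_univ _)
  exact (integral_eq_zero_iff_of_nonneg hn e2).1
    (le_antisymm (by linarith) (integral_nonneg hn))

end Aux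

theorem ot_of_growth (n : ℕ) (M : Type*) [MetricSpace M] [CompactSpace M] [Nonempty M]
    [MeasurableSpace M] [BorelSpace M] (lam Lam : ℝ) (hlam : 0 < lam) (hle : lam ≤ Lam)
    (hG : Growth (M := M) n (Lam / lam)) :
    ∃ α : ℝ, 0 < α ∧ α ≤ 1 ∧ ∃ C : ℝ, ∀ ρ₀ ρ₁ : M → ℝ, Measurable ρ₀ → Measurable ρ₁ →
      (∀ᵐ x ∂(Measure.hausdorffMeasure (n : ℝ) : Measure M),
        lam ≤ ρ₀ x ∧ ρ₀ x ≤ Lam ∧ lam ≤ ρ₁ x ∧ ρ₁ x ≤ Lam) →
      (∫⁻ x, ENNReal.ofReal (ρ₀ x) ∂(Measure.hausdorffMeasure (n : ℝ) : Measure M)) = 1 →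
      (∫⁻ x, ENNReal.ofReal (ρ₁ x) ∂(Measure.hausdorffMeasure (n : ℝ) : Measure M)) = 1 →
      ∀ T : M → M,
        IsMongeOptimal
          ((Measure.hausdorffMeasure (n : ℝ)).withDensity fun x => ENNReal.ofReal (ρ₀ x))
          ((Measure.hausdorffMeasure (n : ℝ)).withDensity fun x => ENNReal.ofReal (ρ₁ x)) T →
        ∃ Th : M ≃ₜ M,
          (∀ᵐ x ∂((Measure.hausdorffMeasure (n : ℝ)).withDensity
            fun x => ENNReal.ofReal (ρ₀ x)), T x = Th x) ∧
          (∀ x x' : M, dist (Th x) (Th x') ≤ C * dist x x' ^ α) ∧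
          (∀ y y' : M, dist (Th.symm y) (Th.symm y') ≤ C * dist y y' ^ α) := by
  obtain ⟨β, hβ, c, hc, hG⟩ := hG
  obtain ⟨D, hD0, hD⟩ := ot_exists_diam (M := M)
  have hβ0 : 0 < β := by linarith
  refine ⟨1 / β, by positivity, (div_le_one hβ0).2 hβ, (2 * D / c) ^ (1 / β),
    fun ρ₀ ρ₁ _ _ hρ h0 h1 T hT => ?_⟩
  set ν : Measure M := Measure.hausdorffMeasure (n : ℝ) with hν
  set μ₀ := ν.withDensity fun x => ENNReal.ofReal (ρ₀ x) with hμ₀
  set μ₁ := ν.withDensity fun x => ENNReal.ofReal (ρ₁ x) with hμ₁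
  haveI : IsProbabilityMeasure μ₀ :=
    ⟨by rw [hμ₀, withDensity_apply _ MeasurableSet.univ, Measure.restrict_univ, h0]⟩
  haveI : IsProbabilityMeasure μ₁ :=
    ⟨by rw [hμ₁, withDensity_apply _ MeasurableSet.univ, Measure.restrict_univ, h1]⟩
  obtain ⟨φ, ψ, hl, hr, hopt⟩ := ot_exists_dual μ₀ μ₁
  have hφ := hr.cont
  have hψ := hl.cont
  have b0 := fun (A : Set M) (hA : MeasurableSet A) => ot_density_le (ν := ν) (ρ := ρ₀)
    (lam := lam) (Lam := Lam) (hρ.mono fun x hx => ⟨hx.1, hx.2.1⟩) hA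
  have b1 := fun (A : Set M) (hA : MeasurableSet A) => ot_density_le (ν := ν) (ρ := ρ₁)
    (lam := lam) (Lam := Lam) (hρ.mono fun x hx => hx.2.2) hA
  have v0 : ∀ A : Set M, IsClosed A → μ₀ A ≤ μ₁ (Gam φ ψ A) := fun A hA =>
    hopt.symm.measure_le hr hA
  have v1 : ∀ B : Set M, IsClosed B → μ₁ B ≤ μ₀ (Gam ψ φ B) := fun B hB =>
    hopt.measure_le hl hB
  have hP : Pair n (Lam / lam) φ ψ := by
    refine ⟨hl, hr, fun A hA => ot_vol_le hlam ?_, fun B hB => ot_vol_le hlam ?_⟩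
    · exact (b0 A hA.measurableSet).1.trans ((v0 A hA).trans
        (b1 _ (ot_isClosed_Gam hφ hψ hA).measurableSet).2)
    · exact (b1 B hB.measurableSet).1.trans ((v1 B hB).trans
        (b0 _ (ot_isClosed_Gam hψ hφ hB).measurableSet).2)
  have hH1 := fun {x₀ y₀ x₁ y₁ : M} => ot_holder (φ := φ) (ψ := ψ) hβ hc hD0 hD
    (fun x y => hl.nonneg x y (mem_univ _)) (hG φ ψ hP) (x₀ := x₀) (y₀ := y₀) (x₁ := x₁) (y₁ := y₁)
  have hH2 := fun {x₀ y₀ x₁ y₁ : M} => ot_holder (φ := ψ) (ψ := φ) hβ hc hD0 hD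
    (fun x y => hr.nonneg x y (mem_univ _)) (hG ψ φ hP.symm) (x₀ := x₀) (y₀ := y₀) (x₁ := x₁)
    (y₁ := y₁)
  choose S _ hS using hl.attained
  choose S' _ hS' using hr.attained
  replace hS : ∀ x, Dd φ ψ x (S x) = 0 := hS
  replace hS' : ∀ y, Dd ψ φ y (S' y) = 0 := hS'
  have hα : 0 < 1 / β := by positivity
  have u1 : ∀ x y, Dd φ ψ x y = 0 → S x = y := fun x y hxy => by
    have := hH2 (x₀ := y) (y₀ := x) (x₁ := S x) (y₁ := x) (by rw [← Dd_comm]; exact hxy)
      (by rw [← Dd_comm]; exact hS x)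
    rw [dist_self, Real.zero_rpow hα.ne', mul_zero] at this
    exact dist_le_zero.1 this
  have u2 : ∀ x y, Dd φ ψ x y = 0 → S' y = x := fun x y hxy => by
    have := hH1 (x₀ := x) (y₀ := y) (x₁ := S' y) (y₁ := y) hxy (by rw [Dd_comm]; exact hS' y)
    rw [dist_self, Real.zero_rpow hα.ne', mul_zero] at this
    exact dist_le_zero.1 this
  have w1 : ∀ x x', dist (S x) (S x') ≤ (2 * D / c) ^ (1 / β) * dist x x' ^ (1 / β) :=
    fun x x' => hH2 (by rw [← Dd_comm]; exact hS x') (by rw [← Dd_comm]; exact hS x)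
  have w2 : ∀ y y', dist (S' y) (S' y') ≤ (2 * D / c) ^ (1 / β) * dist y y' ^ (1 / β) :=
    fun y y' => hH1 (by rw [Dd_comm]; exact hS' y') (by rw [Dd_comm]; exact hS' y)
  let Th : M ≃ₜ M :=
    { toFun := S
      invFun := S'
      left_inv := fun x => u2 x (S x) (hS x)
      right_inv := fun y => u1 (S' y) y (by rw [Dd_comm]; exact hS' y)
      continuous_toFun := ot_cont_of_holder hα w1
      continuous_invFun := ot_cont_of_holder hα w2 }
  have hSm : Measurable S := Th.continuous.measurable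
  have hmap : μ₀.map S = μ₁ := by
    haveI : IsProbabilityMeasure (μ₀.map S) := Measure.isProbabilityMeasure_map hSm.aemeasurable
    refine ext_of_generate_finite _ ?_ isPiSystem_isClosed (fun B hB => ?_) (by simp)
    · rw [← borel_eq_generateFrom_isClosed]; exact BorelSpace.measurable_eq
    · have hB' : IsClosed B := hB
      rw [Measure.map_apply hSm hB'.measurableSet]
      refine le_antisymm ((v0 _ (hB'.preimage Th.continuous)).trans (measure_mono ?_))
        ((v1 B hB').trans (measure_mono ?_))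
      · rintro y ⟨x, hx, hxy⟩
        rw [← u1 x y hxy]; exact hx
      · rintro x ⟨y, hy, hxy⟩
        rw [← Dd_comm] at hxy
        show S x ∈ B
        rw [u1 x y hxy]; exact hy
  exact ⟨Th, (ot_contact hl hSm hmap hS hT).mono fun x hx => (u1 x _ hx).symm, w1, w2⟩

end Crest.Agent.R226
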