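import Crest.Agent.R226.CoreDefs

/-! Row 226: the dual Kantorovich problem for the cost `d² / 2` on a compact metric space. -/

set_option autoImplicit false

open Set Filter Metric MeasureTheory
open scoped Topology ENNReal BoundedContinuousFunction

namespace Crest.Agent.R226

variable {M : Type*} [MetricSpace M]

/-- the `c`-transform. -/
noncomputable def otCT (ψ : M → ℝ) (x : M) : ℝ := ⨆ y, (-ψ y - cst x y)

theorem ot_cst_cont (x : M) : Continuous fun y : M => cst x y := by
  unfold cst; fun_prop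

theorem ot_cst_lip {D : ℝ} (hD : ∀ x y : M, dist x y ≤ D) (x x' y : M) :
    cst x y - cst x' y ≤ D * dist x x' := by
  unfold cst
  have h1 := hD x y
  have h2 := hD x' y
  have h3 : dist x y - dist x' y ≤ dist x x' := by linarith [dist_triangle x x' y]
  have h4 : 0 ≤ dist x y := dist_nonneg
  have h5 : 0 ≤ dist x' y := dist_nonneg
  have h6 : 0 ≤ dist x x' := dist_nonneg
  nlinarith [mul_le_mul_of_nonneg_left h3 (add_nonneg h4 h5),
    mul_le_mul_of_nonneg_right (add_le_add h1 h2) h6]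

theorem ot_exists_diam [CompactSpace M] : ∃ D : ℝ, 0 < D ∧ ∀ x y : M, dist x y ≤ D := by
  refine ⟨diam (univ : Set M) + 1, by linarith [diam_nonneg (s := (univ : Set M))], fun x y => ?_⟩
  linarith [dist_le_diam_of_mem isCompact_univ.isBounded (mem_univ x) (mem_univ y)]

variable [CompactSpace M] [Nonempty M]

theorem ot_isCT {ψ : M → ℝ} (hψ : Continuous ψ) : IsCT univ (otCT ψ) ψ := by
  have key : ∀ x, ∃ y, otCT ψ x = -ψ y - cst x y ∧ ∀ y', -ψ y' - cst x y' ≤ -ψ y - cst x y := by
    intro x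
    have hc : Continuous fun y => -ψ y - cst x y := hψ.neg.sub (ot_cst_cont x)
    obtain ⟨y, -, hy⟩ := isCompact_univ.exists_isMaxOn univ_nonempty hc.continuousOn
    have hy' : ∀ y', -ψ y' - cst x y' ≤ -ψ y - cst x y := fun y' => hy (mem_univ y')
    refine ⟨y, le_antisymm (ciSup_le hy') ?_, hy'⟩
    exact le_ciSup (f := fun y => -ψ y - cst x y) ⟨_, by rintro _ ⟨y', rfl⟩; exact hy' y'⟩ y
  refine ⟨isClosed_univ, hψ, fun x y _ => ?_, fun x => ?_⟩
  · obtain ⟨y₀, h1, h2⟩ := key x
    linarith [h2 y]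
  · obtain ⟨y₀, h1, -⟩ := key x
    exact ⟨y₀, mem_univ _, by linarith⟩

omit [CompactSpace M] [Nonempty M] in
theorem IsCT.ot_min {φ ψ ψ' : M → ℝ} (h : IsCT univ φ ψ) {x : M} {a : ℝ}
    (ha : ∀ y, 0 ≤ a + ψ' y + cst x y) {b : ℝ} (hb : ∀ y, ψ' y ≤ ψ y + b) : φ x ≤ a + b := by
  obtain ⟨y, -, hy⟩ := h.attained x
  linarith [ha y, hb y]

omit [CompactSpace M] [Nonempty M] in
theorem IsCT.ot_min' {φ ψ : M → ℝ} (h : IsCT univ φ ψ) {x : M} {a : ℝ}
    (ha : ∀ y, 0 ≤ a + ψ y + cst x y) : φ x ≤ a := by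
  simpa using h.ot_min ha (b := 0) (fun y => by simp)

omit [CompactSpace M] [Nonempty M] in
theorem IsCT.ot_nonneg_symm {φ ψ : M → ℝ} (h : IsCT univ φ ψ) (y x : M) :
    0 ≤ ψ y + φ x + cst y x := by
  rw [cst_comm]; linarith [h.nonneg x y (mem_univ _)]

variable [MeasurableSpace M] [BorelSpace M]

omit [Nonempty M] in
theorem ot_integrable {f : M → ℝ} (hf : Continuous f) (μ : Measure M) [IsFiniteMeasure μ] :
    Integrable f μ :=
  (BoundedContinuousFunction.mkOfCompact ⟨f, hf⟩).integrable μ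

/-- optimality of a pair of potentials in the dual problem. -/
def OTOpt (μ₀ μ₁ : Measure M) (φ ψ : M → ℝ) : Prop :=
  ∀ φ' ψ' : M → ℝ, Continuous φ' → Continuous ψ' → (∀ x y, 0 ≤ φ' x + ψ' y + cst x y) →
    ∫ x, φ x ∂μ₀ + ∫ y, ψ y ∂μ₁ ≤ ∫ x, φ' x ∂μ₀ + ∫ y, ψ' y ∂μ₁

omit [CompactSpace M] [Nonempty M] [BorelSpace M] in
theorem OTOpt.symm {μ₀ μ₁ : Measure M} {φ ψ : M → ℝ} (h : OTOpt μ₀ μ₁ φ ψ) :
    OTOpt μ₁ μ₀ ψ φ := fun ψ' φ' h1 h2 h3 => by
  have := h φ' ψ' h2 h1 fun x y => by rw [cst_comm]; linarith [h3 y x]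
  linarith

theorem ot_exists_dual (μ₀ μ₁ : Measure M) [IsProbabilityMeasure μ₀] [IsProbabilityMeasure μ₁] :
    ∃ φ ψ : M → ℝ, IsCT univ φ ψ ∧ IsCT univ ψ φ ∧ OTOpt μ₀ μ₁ φ ψ := by
  obtain ⟨D, hD0, hD⟩ := ot_exists_diam (M := M)
  obtain ⟨x₀⟩ := ‹Nonempty M›
  let A : Set (M →ᵇ ℝ) := {f | (∀ x y, |f x - f y| ≤ D * dist x y) ∧ f x₀ = 0}
  have hev : ∀ x : M, Continuous fun f : M →ᵇ ℝ => f x := fun x =>
    continuous_eval_const x
  have hAc : IsClosed A := by
    have : A = (⋂ x, ⋂ y, {f : M →ᵇ ℝ | |f x - f y| ≤ D * dist x y}) ∩ {f | f x₀ = 0} := by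
      ext f; simp [A]
    rw [this]
    exact (isClosed_iInter fun x => isClosed_iInter fun y =>
      isClosed_le ((hev x).sub (hev y)).abs continuous_const).inter
      (isClosed_eq (hev x₀) continuous_const)
  have hA : IsCompact A := by
    refine BoundedContinuousFunction.arzela_ascoli₂ (Icc (-(D * D)) (D * D)) isCompact_Icc A hAc
      (fun f x hf => ?_) ?_
    · have h1 := hf.1 x x₀
      rw [hf.2, sub_zero] at h1
      exact abs_le.1 (h1.trans (mul_le_mul_of_nonneg_left (hD _ _) hD0.le))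
    · refine Metric.equicontinuous_of_continuity_modulus (fun t => D * t) ?_ _ fun x y f => ?_
      · have : Continuous fun t : ℝ => D * t := by fun_prop
        simpa using this.tendsto 0
      · rw [Real.dist_eq]; exact f.2.1 x y
  let J : (M →ᵇ ℝ) → ℝ := fun f => ∫ x, otCT f x ∂μ₀ + ∫ y, f y ∂μ₁
  have hJ1 : ∀ f g : M →ᵇ ℝ, J f - J g ≤ 2 * dist f g := by
    intro f g
    have hf := ot_isCT f.continuous
    have hg := ot_isCT g.continuous
    have hfg : ∀ y, |f y - g y| ≤ dist f g := fun y => by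
      rw [← Real.dist_eq]; exact BoundedContinuousFunction.dist_coe_le_dist y
    have h1 : ∫ x, otCT f x ∂μ₀ ≤ ∫ x, (otCT g x + dist f g) ∂μ₀ := by
      refine integral_mono (ot_integrable hf.continuous _)
        (ot_integrable (hg.continuous.add continuous_const) _) fun x => ?_
      exact hf.ot_min (fun y => hg.nonneg x y (mem_univ _))
        fun y => by linarith [(abs_le.1 (hfg y)).1]
    have h2 : ∫ y, f y ∂μ₁ ≤ ∫ y, (g y + dist f g) ∂μ₁ :=
      integral_mono (ot_integrable f.continuous _)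
        (ot_integrable (g.continuous.add continuous_const) _) fun y => by
          show f y ≤ g y + dist f g
          linarith [(abs_le.1 (hfg y)).2]
    rw [integral_add (ot_integrable hg.continuous _) (integrable_const _)] at h1
    rw [integral_add (ot_integrable g.continuous _) (integrable_const _)] at h2
    simp only [integral_const, probReal_univ, one_smul] at h1 h2
    simp only [J]
    linarith
  have hJ : Continuous J := by
    refine (LipschitzWith.of_le_add_mul 2 fun f g => ?_).continuous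
    have := hJ1 f g
    push_cast
    linarith
  have h0A : (0 : M →ᵇ ℝ) ∈ A := ⟨fun x y => by simp; positivity, rfl⟩
  obtain ⟨f, -, hf⟩ := hA.exists_isMinOn ⟨0, h0A⟩ hJ.continuousOn
  have h1 := ot_isCT f.continuous
  have h2 := ot_isCT h1.continuous
  have h3 := ot_isCT h2.continuous
  have h21 : ∀ y, otCT (otCT f) y ≤ f y := fun y => h2.ot_min' fun x => h1.ot_nonneg_symm y x
  refine ⟨otCT f, otCT (otCT f), ⟨isClosed_univ, h2.continuous, fun x y _ =>
    h2.ot_nonneg_symm x y, fun x => ?_⟩, h2, fun φ' ψ' hφ' hψ' hadm => ?_⟩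
  · obtain ⟨y, -, hy⟩ := h1.attained x
    exact ⟨y, mem_univ _, le_antisymm (by linarith [h21 y]) (h2.ot_nonneg_symm x y)⟩
  · have k1 := ot_isCT hψ'
    have k2 := ot_isCT k1.continuous
    have k11 : ∀ x, otCT ψ' x ≤ φ' x := fun x => k1.ot_min' fun y => hadm x y
    have k21 : ∀ y, otCT (otCT ψ') y ≤ ψ' y := fun y => k2.ot_min' fun x => k1.ot_nonneg_symm y x
    set b := otCT (otCT ψ') x₀ with hb
    let g : M →ᵇ ℝ := BoundedContinuousFunction.mkOfCompact
      ⟨fun y => otCT (otCT ψ') y - b, k2.continuous.sub continuous_const⟩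
    have hg : ∀ y, g y = otCT (otCT ψ') y - b := fun y => rfl
    have hgA : g ∈ A := by
      refine ⟨fun x y => ?_, by rw [hg, hb, sub_self]⟩
      rw [hg, hg, sub_sub_sub_cancel_right]
      exact k2.lip hD x y
    have k3 := ot_isCT g.continuous
    have k31 : ∀ x, otCT g x ≤ φ' x + b := fun x => k3.ot_min' fun y => by
      rw [hg]; linarith [k2.ot_nonneg_symm x y, k11 x]
    have e1 : ∫ x, otCT g x ∂μ₀ ≤ ∫ x, (φ' x + b) ∂μ₀ :=
      integral_mono (ot_integrable k3.continuous _)
        (ot_integrable (hφ'.add continuous_const) _) k31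
    have e2 : ∫ y, g y ∂μ₁ ≤ ∫ y, (ψ' y - b) ∂μ₁ :=
      integral_mono (ot_integrable g.continuous _)
        (ot_integrable (hψ'.sub continuous_const) _) fun y => by
          show g y ≤ ψ' y - b
          rw [hg]; linarith [k21 y]
    have e3 : ∫ y, otCT (otCT f) y ∂μ₁ ≤ ∫ y, f y ∂μ₁ :=
      integral_mono (ot_integrable h2.continuous _) (ot_integrable f.continuous _) h21
    rw [integral_add (ot_integrable hφ' _) (integrable_const _)] at e1
    rw [integral_sub (ot_integrable hψ' _) (integrable_const _)] at e2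
    simp only [integral_const, probReal_univ, one_smul] at e1 e2
    have e4 : J f ≤ J g := hf hgA
    simp only [J] at e4
    linarith

omit [Nonempty M] [MeasurableSpace M] [BorelSpace M] in
theorem ot_Dd_cont {φ ψ : M → ℝ} (hφ : Continuous φ) (hψ : Continuous ψ) :
    Continuous fun z : M × M => Dd φ ψ z.1 z.2 := by
  unfold Dd cst; fun_prop

omit [Nonempty M] [MeasurableSpace M] [BorelSpace M] in
theorem ot_isClosed_Gam {φ ψ : M → ℝ} (hφ : Continuous φ) (hψ : Continuous ψ) {A : Set M}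
    (hA : IsClosed A) : IsClosed (Gam φ ψ A) := by
  have h1 : IsClosed {z : M × M | z.1 ∈ A ∧ Dd φ ψ z.1 z.2 = 0} :=
    (hA.preimage continuous_fst).inter (isClosed_eq (ot_Dd_cont hφ hψ) continuous_const)
  have h2 := (h1.isCompact.image continuous_snd).isClosed
  convert h2 using 1
  ext y
  simp [Gam]

/-- first variation of the dual functional. -/
theorem OTOpt.measure_le {μ₀ μ₁ : Measure M} [IsProbabilityMeasure μ₀] [IsProbabilityMeasure μ₁]
    {φ ψ : M → ℝ} (hopt : OTOpt μ₀ μ₁ φ ψ) (h : IsCT univ φ ψ) {B : Set M} (hB : IsClosed B) :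
    μ₁ B ≤ μ₀ (Gam ψ φ B) := by
  rw [Set.measure_eq_iInf_isOpen (Gam ψ φ B) μ₀]
  refine le_iInf fun U => le_iInf fun hU => le_iInf fun hUo => ?_
  have hφ := h.continuous
  have hψ := h.cont
  have hc := ot_Dd_cont hφ hψ
  have hK : IsCompact (Uᶜ ×ˢ B) := hUo.isClosed_compl.isCompact.prod hB.isCompact
  obtain ⟨η, hη0, hη⟩ := hK.exists_forall_le' hc.continuousOn (a := 0) (by
    rintro ⟨x, y⟩ ⟨hx, hy⟩
    refine lt_of_le_of_ne (h.nonneg x y (mem_univ _)) fun h0 => hx (hU ⟨y, hy, ?_⟩)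
    rw [← Dd_comm]; exact h0.symm)
  let C : Set M := Prod.snd '' {z : M × M | z.1 ∈ Uᶜ ∧ Dd φ ψ z.1 z.2 ≤ η / 2}
  have hC : IsClosed C :=
    (((hUo.isClosed_compl.preimage continuous_fst).inter
      (isClosed_le hc continuous_const)).isCompact.image continuous_snd).isClosed
  have hCB : Disjoint C B := by
    rw [Set.disjoint_left]
    rintro _ ⟨⟨x, y⟩, ⟨hx, hxy⟩, rfl⟩ hy
    have := hη (x, y) ⟨hx, hy⟩
    simp only at this hxy
    linarith
  obtain ⟨f, hf0, hf1, hf⟩ := exists_continuous_zero_one_of_isClosed hC hB hCB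
  have hψt : Continuous fun y => ψ y - η / 2 * f y := hψ.sub (continuous_const.mul f.continuous)
  have k := ot_isCT hψt
  have k1 : ∀ x, otCT (fun y => ψ y - η / 2 * f y) x ≤ φ x + η / 2 * U.indicator 1 x := by
    intro x
    refine k.ot_min' fun y => ?_
    have hn := h.nonneg x y (mem_univ _)
    have hf' := hf y
    by_cases hx : x ∈ U
    · simp only [indicator_of_mem hx, Pi.one_apply]
      nlinarith [hf'.2]
    · simp only [indicator_of_notMem hx]
      by_cases hy : y ∈ C
      · have : f y = 0 := hf0 hy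
        rw [this]; linarith
      · have : η / 2 < Dd φ ψ x y := not_le.1 fun hle => hy ⟨(x, y), ⟨hx, hle⟩, rfl⟩
        unfold Dd at this
        nlinarith [hf'.2]
  have e0 := hopt _ _ k.continuous hψt fun x y => k.nonneg x y (mem_univ _)
  have hiU : Integrable (U.indicator (1 : M → ℝ)) μ₀ :=
    (integrable_const (1 : ℝ)).indicator hUo.measurableSet
  have e1 := integral_mono (ot_integrable k.continuous μ₀)
    ((ot_integrable hφ μ₀).add (hiU.const_mul (η / 2))) k1
  simp only [Pi.add_apply] at e1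
  rw [integral_add (ot_integrable hφ μ₀) (hiU.const_mul (η / 2)), integral_const_mul,
    integral_indicator_one hUo.measurableSet] at e1
  rw [integral_sub (ot_integrable hψ μ₁) ((ot_integrable f.continuous μ₁).const_mul _),
    integral_const_mul] at e0
  have e2 : μ₁.real B ≤ ∫ y, f y ∂μ₁ := by
    rw [← integral_indicator_one hB.measurableSet]
    refine integral_mono ((integrable_const (1 : ℝ)).indicator hB.measurableSet)
      (ot_integrable f.continuous μ₁) fun y => ?_
    by_cases hy : y ∈ B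
    · have : f y = 1 := hf1 hy
      simp [indicator_of_mem hy, this]
    · simp [indicator_of_notMem hy, (hf y).1]
  have e3 : μ₁.real B ≤ μ₀.real U := by nlinarith
  exact (ENNReal.toReal_le_toReal (measure_ne_top _ _) (measure_ne_top _ _)).1 e3

end Crest.Agent.R226
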