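import Crest.Agent.R226.GLoc
import Crest.Agent.R226.GMet

/-! Row 226: a compact Riemannian manifold carries a `LocGeo` (owner: helper3). -/

set_option autoImplicit false

open Set Filter Metric Bundle
open scoped ContDiff Topology Manifold Bundle

namespace Crest.Agent.R226

open Crest.GeometryTopology.MTW

/-- radial curves are locally distance realising. -/
theorem LocGeo.riem_locmin {n : ℕ} {M : Type*} [MetricSpace M] (Γ : LocGeo n M) {a : P n}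
    (ha : a ∈ Γ.U) (p : E n) :
    ∃ ε : ℝ, 0 < ε ∧ ∀ s₁ s₂ : ℝ, |s₁ - s₂| ≤ ε →
      dist (Γ.ex a (s₁ • p)) (Γ.ex a (s₂ • p)) = ‖p‖ * |s₁ - s₂| := by
  refine ⟨Γ.ρ / (‖p‖ + 1), div_pos Γ.ρ_pos (by positivity), fun s₁ s₂ hs => ?_⟩
  obtain ⟨b, hb, hb0⟩ := Γ.surj (Γ.ex a (s₁ • p))
  obtain ⟨q, hq, hq'⟩ := Γ.flow a ha b (Γ.F_sub hb) p s₁ hb0
  have h1 : ‖(s₂ - s₁) • q‖ = ‖p‖ * |s₁ - s₂| := by
    rw [norm_smul, hq, Real.norm_eq_abs, abs_sub_comm, mul_comm]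
  have h2 : ‖(s₂ - s₁) • q‖ ≤ Γ.ρ := by
    rw [h1]
    rw [le_div_iff₀ (by positivity)] at hs
    nlinarith [abs_nonneg (s₁ - s₂), norm_nonneg p]
  have h3 := Γ.loc_dist b (Γ.F_sub hb) _ h2
  rw [hb0, hq', h1, add_sub_cancel] at h3
  exact h3

open G Crest.Agent.R244 in
/-- the frame as a linear isometry onto the tangent space. -/
theorem riem_isometry {n : ℕ} {M : Type*} [TopologicalSpace M] [ChartedSpace (E n) M]
    [IsManifold (𝓡 n) ∞ M] [RiemannianBundle (fun p : M => TangentSpace (𝓡 n) p)]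
    [IsContMDiffRiemannianBundle (𝓡 n) ∞ (E n) (fun p : M => TangentSpace (𝓡 n) p)]
    (Φ : Frames (mAtlas n M)) {k : Fin Φ.N} {y : E n} (hy : y ∈ Φ.W k) {x : M}
    (hx : x = (chartAt (E n) (M := M) (Φ.ch k)).symm y) :
    ∃ A : E n ≃ₗᵢ[ℝ] TangentSpace (𝓡 n) x, ∀ p,
      (A p : E n) = mfderiv (𝓡 n) (𝓡 n) (chartAt (E n) (M := M) (Φ.ch k)).symm y (Φ.L k y p) := by
  subst hx
  let D : E n →L[ℝ] TangentSpace (𝓡 n) ((chartAt (E n) (M := M) (Φ.ch k)).symm y) :=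
    mfderiv (𝓡 n) (𝓡 n) (chartAt (E n) (M := M) (Φ.ch k)).symm y
  let f : E n →ₗ[ℝ] TangentSpace (𝓡 n) ((chartAt (E n) (M := M) (Φ.ch k)).symm y) :=
    (D : E n →ₗ[ℝ] _) ∘ₗ (Φ.L k y : E n →ₗ[ℝ] E n)
  have hf : ∀ u v, inner ℝ (f u) (f v) = inner ℝ u v := fun u v =>
    (mG_bil (M := M) (Φ.ch k) y _ _).symm.trans (Φ.L_iso k y hy u v)
  have hs : Function.Surjective (f.isometryOfInner hf) := by
    have h1 := (mdifferentiable_chart (I := 𝓡 n) (M := M) (Φ.ch k)).symm.mfderiv_surjective (Φ.W_sub k hy)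
    exact h1.comp (Φ.L_surj hy)
  exact ⟨LinearIsometryEquiv.ofSurjective _ hs, fun p => rfl⟩

open G in
/-- the exponential maps of a compact Riemannian manifold in smooth orthonormal frames. -/
theorem exists_locGeo (n : ℕ) (M : Type*) [MetricSpace M] [ChartedSpace (E n) M]
    [IsManifold (𝓡 n) ∞ M] [RiemannianBundle (fun p : M => TangentSpace (𝓡 n) p)]
    [IsContMDiffRiemannianBundle (𝓡 n) ∞ (E n) (fun p : M => TangentSpace (𝓡 n) p)]
    [IsRiemannianManifold (𝓡 n) M] [CompactSpace M] [Nonempty M] :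
    ∃ G : LocGeo n M, ∀ a ∈ G.U, ∃ A : E n ≃ₗᵢ[ℝ] TangentSpace (𝓡 n) (G.pt a),
      IsExpMapAt n (G.pt a) (fun v => G.ex a (A.symm v)) := by
  obtain ⟨Φ⟩ := exists_frames (mAtlas n M)
  obtain ⟨Γ, hΓ⟩ := exists_locGeo_atlas Φ met_mAtlas
  refine ⟨Γ, fun a ha => ?_⟩
  obtain ⟨k, hk, he⟩ := hΓ a ha
  have hpt : Γ.pt a = (chartAt (E n) (M := M) (Φ.ch k)).symm a.2 := (he 0).trans (Φ.e_zero hk)
  obtain ⟨A, hA⟩ := riem_isometry Φ hk hpt
  refine ⟨A, fun w => ?_⟩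
  obtain ⟨p, rfl⟩ := A.surjective w
  have hc : (fun t : ℝ => Γ.ex a (A.symm (t • A p))) = fun t : ℝ => Φ.e k (a.2, t • p) := by
    funext t
    rw [map_smul, A.symm_apply_apply, he]
  have hg := Φ.e_geo hk p
  have hs := geo_contMDiff hg
  refine ⟨?_, ?_, ?_⟩
  · rw [hc]
    refine ⟨hs, ‖p‖, norm_nonneg _, fun t => ?_, fun t => ?_⟩
    · have h1 := gm_speed (hs.mdifferentiable (by simp) t) (mem_chart_source (E n) _)
      have h2 := Φ.e_speed hk p t (j := Φ.e k (a.2, t • p)) (mem_chart_source (E n) _)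
      exact (pow_left_inj₀ (norm_nonneg _) (norm_nonneg _) two_ne_zero).1 (h1.trans h2)
    · obtain ⟨ε, hε, h⟩ := Γ.riem_locmin ha p
      refine ⟨ε / 2, half_pos hε, fun s₁ h₁ s₂ h₂ => ?_⟩
      have h3 := h s₁ s₂ (abs_le.2 ⟨by linarith [h₁.1, h₂.2], by linarith [h₁.2, h₂.1]⟩)
      rwa [he, he] at h3
  · change Γ.ex a (A.symm ((0 : ℝ) • A p)) = Γ.ex a 0
    rw [zero_smul, map_zero]
  · have h0 : Φ.e k (a.2, (0 : ℝ) • p) = (chartAt (E n) (M := M) (Φ.ch k)).symm a.2 := by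
      rw [zero_smul]; exact Φ.e_zero hk
    have hT : a.2 ∈ (chartAt (E n) (M := M) (Φ.ch k)).target := Φ.W_sub k hk
    have hj : Φ.e k (a.2, (0 : ℝ) • p) ∈ (chartAt (E n) (M := M) (Φ.ch k)).source := by
      rw [h0]; exact (chartAt (E n) (M := M) (Φ.ch k)).map_target hT
    have h1 := gm_vel (hs.mdifferentiable (by simp) 0) hj
    have h2 : chartAt (E n) (M := M) (Φ.ch k) (Φ.e k (a.2, (0 : ℝ) • p)) = a.2 := by
      rw [h0]; exact (chartAt (E n) (M := M) (Φ.ch k)).right_inv hT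
    have h3 : deriv (fun s : ℝ => chartAt (E n) (M := M) (Φ.ch k) (Φ.e k (a.2, s • p))) 0 =
        Φ.L k a.2 p := Φ.e_vel hk p
    have h4 : ∀ y z : E n, y = z → ∀ v : E n,
        (mfderiv (𝓡 n) (𝓡 n) (chartAt (E n) (M := M) (Φ.ch k)).symm y v : E n) =
          mfderiv (𝓡 n) (𝓡 n) (chartAt (E n) (M := M) (Φ.ch k)).symm z v := by
      rintro y z rfl v; rfl
    have h5 : ∀ γ γ' : ℝ → M, γ = γ' → (curveVel n γ 0 : E n) = curveVel n γ' 0 := by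
      rintro γ γ' rfl; rfl
    refine (h5 _ _ hc).trans (h1.trans ((h4 _ _ h2 _).trans ?_))
    exact (congrArg _ h3).trans (hA p).symm

end Crest.Agent.R226
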