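import Crest.Agent.R226.Smooth0
import Crest.Agent.R226.LocMin

/-! Row 226: the cost is smooth away from the cut locus. -/

set_option autoImplicit false

open Set Filter Metric
open scoped ContDiff Topology InnerProductSpace

namespace Crest.Agent.R226

namespace LocGeo

variable {n : ℕ} {M : Type*} [MetricSpace M] [CompactSpace M] (G : LocGeo n M) {a b : P n}
  {p q : E n} {x y : M}

/-- doubling step.  Proof: `b₀` a frame at `y = ex a p`, `q̄ ∈ K b₀` the reversed velocity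
(`exists_cont`); `Φ (l, u) = 2 cst (ex a' p') (ex b₀ (q̄/2 + u)) + 2 cst (ex b₀ (q̄/2 + u)) (ex b' q')`
with `l = ((a',p'),(b',q'))`; `quad_growth` + `Sm.eventually_K` + `le_hess_of_le` give the
hypotheses of `unif_locmin` (`Z` a point, every `k`); `eventually_midpoint`, `Sm.eventually_lg'`
and `cst_le_two` give `cc l = Φ (l, μ l)` near the point. -/
theorem sm_step (ha : a ∈ G.U) (hp : p ∈ G.I a)
    (h1 : G.Sm (G.pt a) (G.ex a ((1 / 2 : ℝ) • p)))
    (h2 : G.Sm (G.ex a ((1 / 2 : ℝ) • p)) (G.ex a p)) : G.Sm (G.pt a) (G.ex a p) := by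
  have hpK := G.I_sub_K ha hp
  obtain ⟨b₀, hb₀F, hb₀⟩ := G.exists_frame (G.ex a p)
  have hb := G.F_sub hb₀F
  obtain ⟨q₀, hq₀, hq₁⟩ := G.exists_cont (p := p) (s := 1) ha hb (by rw [hb₀, one_smul])
  have hq₂ : ∀ t : ℝ, G.ex b₀ (t • -q₀) = G.ex a ((1 - t) • p) := fun t => by
    rw [smul_neg, ← neg_smul, hq₁, sub_eq_add_neg]
  have e1 : G.ex b₀ (-q₀) = G.pt a := by simpa [pt] using hq₂ 1
  have e2 : G.ex b₀ ((1 / 2 : ℝ) • -q₀) = G.ex a ((1 / 2 : ℝ) • p) := by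
    rw [hq₂]; norm_num
  have hqK : -q₀ ∈ G.K b₀ := by
    change dist _ _ = _
    rw [e1, hb₀, dist_comm, norm_neg, hq₀]
    exact hpK
  have hq2K : (1 / 2 : ℝ) • -q₀ ∈ G.K b₀ := G.K_smul hb hqK ⟨by norm_num, by norm_num⟩
  have h3 : G.Sm (G.pt b₀) (G.ex b₀ ((1 / 2 : ℝ) • -q₀)) := by rw [hb₀, e2]; exact h2.symm
  obtain ⟨c, hc, hqg⟩ := G.quad_growth
  obtain ⟨s, hs, hsp⟩ := id hp
  have hδ : 0 < min (s - 1) 1 := lt_min (by linarith) one_pos
  have hδ1 : min (s - 1) 1 ≤ 1 := min_le_right _ _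
  have hδ2 : min (s - 1) 1 ≤ s - 1 := min_le_left _ _
  generalize min (s - 1) 1 = δ at hδ hδ1 hδ2
  have hδK : (1 + δ) • p ∈ G.K a := by
    have := G.K_smul ha hsp (t := (1 + δ) / s)
      ⟨by positivity, by rw [div_le_one (by linarith)]; linarith⟩
    rwa [smul_smul, div_mul_cancel₀ _ (by linarith)] at this
  have hg := hqg b₀ hb _ hqK δ hδ hδ1 (by
    rw [e1, ← neg_smul, hq₂, sub_neg_eq_add, norm_neg, hq₀, hδK.out, norm_smul,
      Real.norm_of_nonneg (by linarith)])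
  rw [e1, hb₀] at hg
  have e3 : 2 * cst (G.pt a) (G.ex a ((1 / 2 : ℝ) • p)) +
      2 * cst (G.ex a ((1 / 2 : ℝ) • p)) (G.ex a p) = cst (G.pt a) (G.ex a p) := by
    have d1 := G.K_dist ha hpK (s := 0) (t := 1 / 2) ⟨le_rfl, zero_le_one⟩ ⟨by norm_num, by norm_num⟩
    have d2 := G.K_dist ha hpK (s := 1 / 2) (t := 1) ⟨by norm_num, by norm_num⟩ ⟨zero_le_one, le_rfl⟩
    rw [zero_smul, show |(0 : ℝ) - 1 / 2| = 1 / 2 by rw [zero_sub, abs_neg, abs_of_pos one_half_pos]]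
      at d1
    rw [one_smul, show |(1 / 2 : ℝ) - 1| = 1 / 2 by rw [abs_of_neg (by norm_num)]; norm_num] at d2
    rw [G.cst_K hpK, cst, cst, pt, d1, d2]
    ring
  intro a' ha' b' hb' p' q' hx hy
  let Φ : ((P n × E n) × (P n × E n)) × E n → ℝ := fun z =>
    2 * G.cc (z.1.1, (b₀, (1 / 2 : ℝ) • -q₀ + z.2)) + 2 * G.cc ((b₀, (1 / 2 : ℝ) • -q₀ + z.2), z.1.2)
  have hΦ : ContDiffAt ℝ ∞ Φ (((a', p'), (b', q')), 0) := by
    refine (contDiffAt_const.mul (ContDiffAt.comp (g := G.cc) _ ?_ (by fun_prop))).add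
      (contDiffAt_const.mul (ContDiffAt.comp (g := G.cc) _ ?_ (by fun_prop)))
    · simpa only [add_zero] using h1 a' ha' b₀ hb p' _ hx e2
    · simpa only [add_zero] using h2 b₀ hb b' hb' _ q' e2 hy
  have hmin := le_hess_of_le (f := fun u => Φ (((a', p'), (b', q')), u)) (x := 0) (g := 0)
    (θ := c * δ) ((hΦ.comp 0 (contDiffAt_const.prodMk contDiffAt_id)).of_le 
      (WithTop.coe_le_coe.2 le_top)) (by
      have hc' : Tendsto (fun u : E n => (b₀, (1 / 2 : ℝ) • -q₀ + u)) (𝓝 0)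
          (𝓝 (b₀, (1 / 2 : ℝ) • -q₀)) :=
        Continuous.tendsto' (by fun_prop) _ _ (by simp)
      filter_upwards [hc'.eventually (h3.eventually_K hb hq2K)] with u hu
      have h4 := hg _ hu
      simp only [Φ, cc, hx, hy, add_zero, e2, e3, inner_zero_left, sub_zero]
      rwa [add_sub_cancel_left] at h4)
  refine contDiffAt_infty.2 fun k => ?_
  obtain ⟨θ, hθ, r, hr, ε, hε, μ, hμ⟩ := unif_locmin (isCompact_singleton (x := ((a', p'), (b', q'))))
    (Φ := Φ) k (by rintro _ rfl; exact hΦ) (by rintro _ rfl; exact hmin.1) (by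
      rintro _ rfl u hu
      have : 0 < ‖u‖ := norm_pos_iff.2 hu
      exact lt_of_lt_of_le (by positivity) (hmin.2 u))
  have hn : cthickening ε {((a', p'), (b', q'))} ∈ 𝓝 ((a', p'), (b', q')) := by
    rw [cthickening_singleton _ hε.le]
    exact closedBall_mem_nhds _ hε
  obtain ⟨hμ1, hμ2, -⟩ := hμ _ (mem_of_mem_nhds hn)
  refine (ContDiffAt.comp (f := fun l => (l, μ l)) _ hμ2
    (contDiffAt_id.prodMk hμ1)).congr_of_eventuallyEq ?_
  obtain ⟨hl1, hl2⟩ := h3.eventually_lg' hb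
  have hl3 := hl1.eventually (closedBall_mem_nhds _ hr)
  rw [h3.lg_eq hb hq2K] at hl3
  obtain ⟨ε', hε', hl4⟩ := Metric.eventually_nhds_iff.1 (hl2.and hl3)
  have ht : Tendsto (fun l : (P n × E n) × (P n × E n) => (G.ex l.1.1 l.1.2, G.ex l.2.1 l.2.2))
      (𝓝 ((a', p'), (b', q'))) (𝓝 (G.pt a, G.ex a p)) := by
    rw [← hx, ← hy]
    exact ((G.continuousAt_ex ha' p').comp_of_eq continuousAt_fst rfl).prodMk
      ((G.continuousAt_ex hb' q').comp_of_eq continuousAt_snd rfl)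
  filter_upwards [hn, ht.eventually (eventually_midpoint ha hp hε')] with l hl ⟨m, hm1, hm2⟩
  obtain ⟨⟨-, h4⟩, h5⟩ := hl4 (e2 ▸ hm1)
  have h6 := (hμ l hl).2.2.2.2.2 (G.lg b₀ m - (1 / 2 : ℝ) • -q₀) (by rwa [← dist_eq_norm])
  have h7 : Φ (l, G.lg b₀ m - (1 / 2 : ℝ) • -q₀) = G.cc l := by
    simp only [Φ, cc, add_sub_cancel, h4]
    exact hm2
  have h8 : G.cc l ≤ Φ (l, μ l) := cst_le_two _ _ _
  have h9 : 0 ≤ θ * ‖G.lg b₀ m - (1 / 2 : ℝ) • -q₀ - μ l‖ ^ 2 := by positivity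
  change G.cc l = Φ (l, μ l)
  linarith

/-- induction on `k` with `dist x y < 2 ^ k * ρ`. -/
theorem sm_of_reg (h : (x, y) ∈ G.Reg) : G.Sm x y := by
  have key : ∀ k : ℕ, ∀ x y : M, (x, y) ∈ G.Reg → dist x y < 2 ^ k * G.ρ → G.Sm x y := by
    intro k
    induction k with
    | zero => intro x y _ hd; exact sm_of_lt (by simpa using hd)
    | succ k ih =>
      rintro x y ⟨a, ha, p, hp, he⟩ hd
      obtain ⟨rfl, rfl⟩ := Prod.mk.inj he
      have hpK := G.I_sub_K ha hp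
      obtain ⟨s, hs, hsK⟩ := id hp
      have hs0 : 0 < s := by linarith
      have hn : dist (G.pt a) (G.ex a p) = ‖p‖ := hpK
      have e1 : (1 / (2 * s)) • s • p = (1 / 2 : ℝ) • p := by
        rw [smul_smul]; congr 1; field_simp
      have e2 : (1 / s) • s • p = p := by
        rw [smul_smul, one_div, inv_mul_cancel₀ hs0.ne', one_smul]
      have hlt : 1 / s < 1 := (div_lt_one hs0).2 hs
      have hle : 1 / (2 * s) ≤ 1 / s := one_div_le_one_div_of_le hs0 (by linarith)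
      have r1 := G.reg_of_lt ha hsK (s := 0) (t := 1 / (2 * s)) le_rfl (by positivity)
        (hle.trans_lt hlt)
      have r2 := G.reg_of_lt ha hsK (s := 1 / (2 * s)) (t := 1 / s) (by positivity) hle hlt
      rw [e1, zero_smul] at r1
      rw [e1, e2] at r2
      have d1 := G.K_dist ha hpK (s := 0) (t := 1 / 2) ⟨le_rfl, zero_le_one⟩
        ⟨by norm_num, by norm_num⟩
      have d2 := G.K_dist ha hpK (s := 1 / 2) (t := 1) ⟨by norm_num, by norm_num⟩
        ⟨zero_le_one, le_rfl⟩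
      rw [zero_smul] at d1
      rw [one_smul] at d2
      rw [hn, pow_succ] at hd
      have a1 : |(0 : ℝ) - 1 / 2| = 1 / 2 := by norm_num [abs_of_nonpos]
      have a2 : |(1 / 2 : ℝ) - 1| = 1 / 2 := by norm_num [abs_of_nonpos]
      refine G.sm_step ha hp (ih _ _ r1 ?_) (ih _ _ r2 ?_)
      · rw [pt, d1, a1]; linarith
      · rw [d2, a2]; linarith
  obtain ⟨k, hk⟩ := pow_unbounded_of_one_lt (dist x y / G.ρ) (by norm_num : (1 : ℝ) < 2)
  exact key k x y h ((div_lt_iff₀ G.ρ_pos).1 hk)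

theorem contDiffAt_cc (ha : a ∈ G.U) (hb : b ∈ G.U) (h : (G.ex a p, G.ex b q) ∈ G.Reg) :
    ContDiffAt ℝ ∞ G.cc ((a, p), (b, q)) :=
  G.sm_of_reg h a ha b hb p q rfl rfl

omit [CompactSpace M] in
theorem reg_of_mem_I (ha : a ∈ G.U) (hp : p ∈ G.I a) : (G.pt a, G.ex a p) ∈ G.Reg :=
  ⟨a, ha, p, hp, rfl⟩

theorem isOpen_IU : IsOpen G.IU := by
  refine isOpen_iff_mem_nhds.2 ?_
  rintro ⟨a, p⟩ ⟨ha, hp⟩
  exact (G.sm_of_reg (G.reg_of_mem_I ha hp)).eventually_I ha (G.I_sub_K ha hp)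

theorem isOpen_I (ha : a ∈ G.U) : IsOpen (G.I a) := by
  have e : G.I a = (fun p : E n => (a, p)) ⁻¹' G.IU := by
    ext p; exact ⟨fun h => ⟨ha, h⟩, fun h => h.2⟩
  rw [e]
  exact G.isOpen_IU.preimage (by fun_prop)

theorem reg_symm (h : (x, y) ∈ G.Reg) : (y, x) ∈ G.Reg := by
  have hs := (G.sm_of_reg h).symm
  obtain ⟨b, hbF, rfl⟩ := G.exists_frame y
  have hb := G.F_sub hbF
  obtain ⟨q, hq, rfl⟩ := G.exists_min hb x
  exact G.reg_of_mem_I hb (hs.eventually_I hb hq).self_of_nhds.2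

theorem isOpen_Reg : IsOpen G.Reg := by
  have hc : IsCompact (G.KF \ G.IU) := G.isCompact_KF.diff G.isOpen_IU
  have hf : ContinuousOn (fun z : P n × E n => (G.pt z.1, G.ex z.1 z.2)) (G.KF \ G.IU) := by
    rintro ⟨a, p⟩ hz
    have ha : a ∈ G.U := G.F_sub hz.1.1
    refine ContinuousAt.continuousWithinAt (ContinuousAt.prodMk ?_ (G.continuousAt_ex ha p))
    exact ContinuousAt.comp (f := Prod.fst) (x := (a, p))
      (G.continuousOn_pt.continuousAt (G.U_open.mem_nhds ha)) continuousAt_fst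
  have e : G.Regᶜ = (fun z : P n × E n => (G.pt z.1, G.ex z.1 z.2)) '' (G.KF \ G.IU) := by
    ext ⟨x, y⟩
    constructor
    · intro h
      obtain ⟨a, haF, rfl⟩ := G.exists_frame x
      have ha := G.F_sub haF
      obtain ⟨p, hp, rfl⟩ := G.exists_min ha y
      exact ⟨(a, p), ⟨⟨haF, hp⟩, fun hI => h (G.reg_of_mem_I ha hI.2)⟩, rfl⟩
    · rintro ⟨⟨a, p⟩, ⟨⟨haF, hp⟩, hI⟩, he⟩ h
      have ha := G.F_sub haF
      rw [← he] at h
      exact hI ⟨ha, G.mem_I_of_reg ha hp h⟩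
  rw [← isClosed_compl_iff, e]
  exact (hc.image_of_continuousOn hf).isClosed

theorem reg_of_K (ha : a ∈ G.U) (hp : p ∈ G.K a) {s t : ℝ} (hs : s ∈ Icc (0 : ℝ) 1)
    (ht : t ∈ Icc (0 : ℝ) 1) (h : |s - t| < 1) :
    (G.ex a (s • p), G.ex a (t • p)) ∈ G.Reg := by
  wlog hst : s ≤ t generalizing s t
  · exact G.reg_symm (this ht hs (by rwa [abs_sub_comm]) (le_of_not_ge hst))
  rcases ht.2.lt_or_eq with h1 | rfl
  · exact G.reg_of_lt ha hp hs.1 hst h1
  · have hs0 : 0 < s := by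
      rw [abs_lt] at h; linarith [h.1]
    obtain ⟨b, hbF, hby⟩ := G.exists_frame (G.ex a ((1 : ℝ) • p))
    have hb := G.F_sub hbF
    obtain ⟨q, hq, hf⟩ := G.exists_cont ha hb hby
    have hqK : -q ∈ G.K b := by
      have e := hf (-1)
      rw [neg_one_smul, add_neg_cancel, zero_smul] at e
      change dist (G.pt b) (G.ex b (-q)) = ‖-q‖
      rw [e, hby, one_smul, dist_comm, norm_neg, hq]
      exact hp
    have r := G.reg_of_lt hb hqK (s := 0) (t := 1 - s) le_rfl (by linarith) (by linarith)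
    have e1 : G.ex b ((1 - s) • -q) = G.ex a (s • p) := by
      rw [smul_neg, ← neg_smul, hf]; congr 2; ring
    rw [e1, zero_smul] at r
    rw [← hby]
    exact G.reg_symm r

theorem lg_ex (ha : a ∈ G.U) (hp : p ∈ G.I a) : G.lg a (G.ex a p) = p :=
  (G.sm_of_reg (G.reg_of_mem_I ha hp)).lg_eq ha (G.I_sub_K ha hp)

theorem lg_mem_I (ha : a ∈ G.U) (h : (G.pt a, y) ∈ G.Reg) : G.lg a y ∈ G.I a := by
  obtain ⟨p, hp, rfl⟩ := G.exists_min ha y
  have hI := G.mem_I_of_reg ha hp h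
  rwa [G.lg_ex ha hI]

theorem ex_lg (ha : a ∈ G.U) (h : (G.pt a, y) ∈ G.Reg) : G.ex a (G.lg a y) = y := by
  obtain ⟨p, hp, rfl⟩ := G.exists_min ha y
  rw [G.lg_ex ha (G.mem_I_of_reg ha hp h)]

theorem contDiffAt_lg (ha : a ∈ G.U) (hb : b ∈ G.U) (h : (G.pt a, G.ex b q) ∈ G.Reg) :
    ContDiffAt ℝ ∞ (fun z : P n × (P n × E n) => G.lg z.1 (G.ex z.2.1 z.2.2)) (a, (b, q)) :=
  (G.sm_of_reg h).contDiffAt_lg ha hb

theorem injOn_ex_I (ha : a ∈ G.U) : InjOn (G.ex a) (G.I a) := fun _ hp _ hq h =>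
  G.eq_of_mem_I ha hp (G.I_sub_K ha hq) h

theorem interior_K (ha : a ∈ G.U) : interior (G.K a) = G.I a := by
  refine Subset.antisymm ?_ (interior_maximal (G.I_sub_K ha) (G.isOpen_I ha))
  intro p hp
  have hc : ContinuousAt (fun s : ℝ => s • p) 1 := by fun_prop
  have h1 : ∀ᶠ s : ℝ in 𝓝 1, s • p ∈ G.K a := by
    refine hc.eventually_mem ?_
    rw [one_smul]; exact mem_interior_iff_mem_nhds.1 hp
  obtain ⟨s, hs1, hs2⟩ :=
    ((h1.filter_mono (nhdsWithin_le_nhds (s := Ioi (1 : ℝ)))).and self_mem_nhdsWithin).exists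
  exact ⟨s, hs2, hs1⟩

end LocGeo

end Crest.Agent.R226
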