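import Crest.Agent.R226.Cut

/-! Row 226: consequences of smoothness of the cost at a pair of points. -/

set_option autoImplicit false

open Set Filter Metric
open scoped ContDiff Topology InnerProductSpace

namespace Crest.Agent.R226

namespace LocGeo

variable {n : ℕ} {M : Type*} [MetricSpace M] [CompactSpace M] (G : LocGeo n M) {a b : P n}
  {p q : E n} {x y : M}

/-- the cost is smooth at `(x, y)` in all frames. -/
def Sm (x y : M) : Prop :=
  ∀ a ∈ G.U, ∀ b ∈ G.U, ∀ p q, G.ex a p = x → G.ex b q = y →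
    ContDiffAt ℝ ∞ G.cc ((a, p), (b, q))

variable {G}

omit [CompactSpace M] in
theorem Sm.symm (h : G.Sm x y) : G.Sm y x := by
  intro a ha b hb p q hp hq
  have h1 := h b hb a ha q p hq hp
  have e : G.cc = fun z => G.cc (z.2, z.1) := by
    funext z
    exact cst_comm _ _
  rw [e]
  exact ContDiffAt.comp (g := G.cc) (f := fun z : (P n × E n) × (P n × E n) => (z.2, z.1))
    ((a, p), (b, q)) h1 (by fun_prop)

omit [CompactSpace M] in
theorem sm_of_lt (h : dist x y < G.ρ) : G.Sm x y := by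
  intro a ha b hb p q hp hq
  exact G.contDiffAt_cc_of_lt ha hb (by rwa [hp, hq])

omit [CompactSpace M] in
theorem Sm.lg_eq (ha : a ∈ G.U) (hp : p ∈ G.K a) (h : G.Sm (G.pt a) (G.ex a p)) :
    G.lg a (G.ex a p) = p := by
  refine G.lg_eq_of_differentiableAt ha hp ?_
  have h1 := (h a ha a ha 0 p rfl rfl).differentiableAt (by simp)
  exact DifferentiableAt.comp (g := G.cc) (f := fun ξ : E n => ((a, ξ), (a, p))) 0 h1
    (by fun_prop)

omit [CompactSpace M] in
theorem Sm.contDiffAt_lg (ha : a ∈ G.U) (hb : b ∈ G.U) (h : G.Sm (G.pt a) (G.ex b q)) :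
    ContDiffAt ℝ ∞ (fun z : P n × (P n × E n) => G.lg z.1 (G.ex z.2.1 z.2.2)) (a, (b, q)) := by
  have h1 := h a ha b hb 0 q rfl rfl
  have h2 : ContDiffAt ℝ ∞ (fun w : (P n × (P n × E n)) × E n => G.cc ((w.1.1, w.2), w.1.2))
      ((a, (b, q)), 0) :=
    ContDiffAt.comp (g := G.cc) (f := fun w : (P n × (P n × E n)) × E n => ((w.1.1, w.2), w.1.2))
      _ h1 (by fun_prop)
  have h3 := contDiffAt_gradient_param (k := ∞) h2 (by simp)
  have h4 := ContDiffAt.comp (f := fun z : P n × (P n × E n) => (z, (0 : E n))) (a, (b, q)) h3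
    (by fun_prop)
  exact h4.neg

/-- near a smooth pair the logarithm is the (unique) minimiser (`exists_min`,
`lg_eq_of_differentiableAt`, `ContDiffAt.eventually` for `C¹`). -/
theorem Sm.eventually_lg (ha : a ∈ G.U) (hb : b ∈ G.U) (h : G.Sm (G.pt a) (G.ex b q)) :
    ∀ᶠ z : P n × (P n × E n) in 𝓝 (a, (b, q)), G.lg z.1 (G.ex z.2.1 z.2.2) ∈ G.K z.1 ∧
      G.ex z.1 (G.lg z.1 (G.ex z.2.1 z.2.2)) = G.ex z.2.1 z.2.2 ∧
      ∀ p ∈ G.K z.1, G.ex z.1 p = G.ex z.2.1 z.2.2 → p = G.lg z.1 (G.ex z.2.1 z.2.2) := by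
  have h1 : ContDiffAt ℝ 1 G.cc ((a, 0), (b, q)) :=
    (h a ha b hb 0 q rfl rfl).of_le (by simp)
  have h2 : ∀ᶠ z : P n × (P n × E n) in 𝓝 (a, (b, q)), ContDiffAt ℝ 1 G.cc ((z.1, 0), z.2) := by
    have hc : ContinuousAt (fun z : P n × (P n × E n) => ((z.1, (0 : E n)), z.2)) (a, (b, q)) := by
      fun_prop
    exact hc.eventually (h1.eventually (by simp))
  have h3 : ∀ᶠ z : P n × (P n × E n) in 𝓝 (a, (b, q)), z.1 ∈ G.U :=
    continuousAt_fst.eventually (G.U_open.mem_nhds ha)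
  filter_upwards [h2, h3] with z hz hU
  have hd : DifferentiableAt ℝ (fun ξ : E n => cst (G.ex z.1 ξ) (G.ex z.2.1 z.2.2)) 0 :=
    DifferentiableAt.comp (g := G.cc) (f := fun ξ : E n => ((z.1, ξ), z.2)) 0
      (hz.differentiableAt (by simp)) (by fun_prop)
  have key : ∀ p ∈ G.K z.1, G.ex z.1 p = G.ex z.2.1 z.2.2 →
      p = G.lg z.1 (G.ex z.2.1 z.2.2) := fun p hp e => by
    rw [← e] at hd ⊢
    exact (G.lg_eq_of_differentiableAt hU hp hd).symm
  obtain ⟨p, hp, e⟩ := G.exists_min hU (G.ex z.2.1 z.2.2)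
  have e' := key p hp e
  exact ⟨e' ▸ hp, e' ▸ e, key⟩

/-- the same in terms of points of `M` (write `m = ex b v` with `‖v‖ = dist y m`). -/
theorem Sm.eventually_lg' (ha : a ∈ G.U) (h : G.Sm (G.pt a) y) :
    ContinuousAt (G.lg a) y ∧ ∀ᶠ m in 𝓝 y, G.lg a m ∈ G.K a ∧ G.ex a (G.lg a m) = m := by
  obtain ⟨b, hbF, rfl⟩ := G.exists_frame y
  have hb := G.F_sub hbF
  have hle : 𝓝 (G.pt b) ≤ map (G.ex b) (𝓝 0) := by
    intro s hs
    obtain ⟨ε, hε, hsub⟩ := Metric.mem_nhds_iff.1 (mem_map.1 hs)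
    refine mem_of_superset (ball_mem_nhds _ hε) fun m hm => ?_
    obtain ⟨v, hv, rfl⟩ := G.exists_min hb m
    refine hsub ?_
    rw [mem_ball_zero_iff, ← show dist (G.pt b) (G.ex b v) = ‖v‖ from hv, dist_comm]
    exact hm
  have hc : ContinuousAt (fun v : E n => (a, (b, v))) 0 := by fun_prop
  have h' : G.Sm (G.pt a) (G.ex b 0) := h
  constructor
  · have h1 : ContinuousAt (fun v : E n => G.lg a (G.ex b v)) 0 :=
      ContinuousAt.comp (g := fun z : P n × (P n × E n) => G.lg z.1 (G.ex z.2.1 z.2.2))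
        (f := fun v : E n => (a, (b, v))) (h'.contDiffAt_lg ha hb).continuousAt hc
    have h2 : Tendsto (G.lg a) (map (G.ex b) (𝓝 0)) (𝓝 (G.lg a (G.pt b))) := h1
    exact h2.mono_left hle
  · refine Eventually.filter_mono hle ?_
    rw [eventually_map]
    exact (hc.eventually (h'.eventually_lg ha hb)).mono fun v hv => ⟨hv.1, hv.2.1⟩

/-- Proof: `b` a frame at `ex a p`; `S (a', v) = (a', lg a' (ex b v))` has the smooth left inverse
`T (a', p') = (a', lg b (ex a' p'))`, so its derivative is invertible and `S` is open at `(a, 0)`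
(`HasStrictFDerivAt.map_nhds_eq_of_equiv`). -/
theorem Sm.eventually_K (ha : a ∈ G.U) (hp : p ∈ G.K a) (h : G.Sm (G.pt a) (G.ex a p)) :
    ∀ᶠ z : P n × E n in 𝓝 (a, p), z.2 ∈ G.K z.1 := by
  obtain ⟨b, hbF, hb0⟩ := G.exists_frame (G.ex a p)
  have hb : b ∈ G.U := G.F_sub hbF
  have hb0' : G.ex b 0 = G.ex a p := hb0
  have h' : G.Sm (G.pt a) (G.ex b 0) := by rw [hb0']; exact h
  have h'' : G.Sm (G.pt b) (G.ex a p) := sm_of_lt (by rw [hb0, dist_self]; exact G.ρ_pos)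
  set S : P n × E n → P n × E n := fun z => (z.1, G.lg z.1 (G.ex b z.2)) with hS
  set T : P n × E n → P n × E n := fun z => (z.1, G.lg b (G.ex z.1 z.2)) with hT
  have i1 : ContDiffAt ℝ ∞ (fun z : P n × E n => (z.1, (b, z.2))) (a, 0) := by fun_prop
  have i2 : ContDiffAt ℝ ∞ (fun z : P n × E n => (b, z)) (a, p) := by fun_prop
  have hSd : ContDiffAt ℝ ∞ S (a, 0) := by
    have := ContDiffAt.comp ((a, 0) : P n × E n) (f := fun z : P n × E n => (z.1, (b, z.2)))
      (h'.contDiffAt_lg ha hb) i1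
    exact contDiffAt_fst.prodMk this
  have hTd : ContDiffAt ℝ ∞ T (a, p) :=
    contDiffAt_fst.prodMk ((h''.contDiffAt_lg hb ha).comp ((a, p) : P n × E n) i2)
  have hS0 : S (a, 0) = (a, p) := by simp only [hS, hb0', h.lg_eq ha hp]
  have hev := i1.continuousAt.eventually (h'.eventually_lg ha hb)
  have hsm : ∀ᶠ z : P n × E n in 𝓝 (a, 0), ‖z.2‖ < G.ρ :=
    (continuous_snd.norm.tendsto _).eventually (gt_mem_nhds (by simpa using G.ρ_pos))
  have hTS : (T ∘ S) =ᶠ[𝓝 (a, 0)] id := by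
    filter_upwards [hev, hsm] with z h1 h2
    simp only [hS, hT, Function.comp, id, h1.2.1, G.lg_ex_of_lt hb h2]
  have hS1 := hSd.hasStrictFDerivAt (by simp)
  have hT1 : HasFDerivAt T (fderiv ℝ T (a, p)) (S (a, 0)) := by
    rw [hS0]; exact (hTd.differentiableAt (by simp)).hasFDerivAt
  have hid : (fderiv ℝ T (a, p)).comp (fderiv ℝ S (a, 0)) = ContinuousLinearMap.id ℝ _ :=
    ((hT1.comp _ hS1.hasFDerivAt).congr_of_eventuallyEq hTS.symm).unique (hasFDerivAt_id _)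
  have hinj : Function.Injective (fderiv ℝ S (a, 0)) := fun u v huv => by
    have hu := ContinuousLinearMap.ext_iff.1 hid u
    have hv := ContinuousLinearMap.ext_iff.1 hid v
    simp only [ContinuousLinearMap.comp_apply, ContinuousLinearMap.id_apply] at hu hv
    rw [← hu, ← hv, huv]
  have hsurj : LinearMap.range (fderiv ℝ S (a, 0)).toLinearMap = ⊤ :=
    LinearMap.range_eq_top.2 (LinearMap.injective_iff_surjective.1 hinj)
  rw [← hS0, ← hS1.map_nhds_eq_of_surj hsurj, eventually_map]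
  exact hev.mono fun z hz => hz.1

theorem Sm.eventually_I (ha : a ∈ G.U) (hp : p ∈ G.K a) (h : G.Sm (G.pt a) (G.ex a p)) :
    ∀ᶠ z : P n × E n in 𝓝 (a, p), z ∈ G.IU := by
  have hU : ∀ᶠ z : P n × E n in 𝓝 (a, p), z.1 ∈ G.U :=
    (continuous_fst.tendsto _).eventually (G.U_open.mem_nhds ha)
  filter_upwards [hU, (h.eventually_K ha hp).eventually_nhds] with z h1 h2
  have hc : Tendsto (fun s : ℝ => (z.1, s • z.2)) (𝓝 1) (𝓝 z) := by
    have : Continuous fun s : ℝ => (z.1, s • z.2) := by fun_prop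
    simpa using this.tendsto 1
  obtain ⟨s, h3, h4⟩ := (((hc.eventually h2).filter_mono
    (nhdsWithin_le_nhds (s := Ioi 1))).and self_mem_nhdsWithin).exists
  exact ⟨h1, s, h4, h3⟩

/-- midpoints converge to the unique midpoint. -/
theorem eventually_midpoint (ha : a ∈ G.U) (hp : p ∈ G.I a) {ε : ℝ} (hε : 0 < ε) :
    ∀ᶠ z : M × M in 𝓝 (G.pt a, G.ex a p), ∃ m, dist m (G.ex a ((1 / 2 : ℝ) • p)) < ε ∧
      2 * cst z.1 m + 2 * cst m z.2 = cst z.1 z.2 := by
  set S : Set ((M × M) × M) := {w | dist w.1.1 w.2 = 1 / 2 * dist w.1.1 w.1.2 ∧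
    dist w.2 w.1.2 = (1 - 1 / 2) * dist w.1.1 w.1.2 ∧
    ε ≤ dist w.2 (G.ex a ((1 / 2 : ℝ) • p))} with hS
  have hcl : IsClosed S := by
    refine IsClosed.and (isClosed_eq ?_ ?_) (IsClosed.and (isClosed_eq ?_ ?_) (isClosed_le ?_ ?_))
    all_goals fun_prop
  have hcl' : IsClosed (Prod.fst '' S) := isClosedMap_fst_of_compactSpace S hcl
  have hhalf : (1 / 2 : ℝ) ∈ Icc (0 : ℝ) 1 := by constructor <;> norm_num
  have hn : (G.pt a, G.ex a p) ∈ (Prod.fst '' S)ᶜ := by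
    rintro ⟨⟨z, m⟩, ⟨h1, h2, h3⟩, hz⟩
    obtain rfl : z = (G.pt a, G.ex a p) := hz
    obtain ⟨p', hp', e1, e2⟩ := G.exists_min_through ha hhalf h1 h2
    have e3 := G.eq_of_mem_I ha hp hp' e1.symm
    rw [← e3] at e2
    simp only [e2, dist_self] at h3
    exact absurd hε (not_lt.2 h3)
  filter_upwards [hcl'.isOpen_compl.mem_nhds hn] with z hz
  obtain ⟨m, h1, h2⟩ := G.inter z.1 z.2 (1 / 2) hhalf
  refine ⟨m, not_le.1 fun h3 => hz ⟨(z, m), ⟨h1, h2, h3⟩, rfl⟩, ?_⟩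
  unfold cst
  rw [h1, h2]
  ring

end LocGeo

end Crest.Agent.R226
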