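import Crest.Agent.R226.TStep

/-! Row 226, `core`: counting. -/

set_option autoImplicit false

open Set Filter Metric MeasureTheory
open scoped Topology InnerProductSpace ENNReal

namespace Crest.Agent.R226

/-- the potential `m ω^b / h^a` does not decrease until `h > δ ω₀`.  Induction on `k`:
for every state with `ω₀ ≤ ω` and `δ ω₀ < 2^k h` the potential is `≤ V W^b / (δ ω₀)^a`. -/
theorem count {St : ℝ → ℝ → ℝ → Prop} {a b : ℕ} {δ W V : ℝ} (hδ : 0 < δ)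
    (hpos : ∀ h ω m, St h ω m → 0 < h ∧ 0 < ω ∧ 0 < m)
    (hbdd : ∀ h ω m, St h ω m → ω ≤ W ∧ m ≤ V)
    (hstep : ∀ h ω m, St h ω m → h ≤ δ * ω → ∃ h' ω' m', St h' ω' m' ∧ 2 * h ≤ h' ∧ ω ≤ ω' ∧
      m * ω ^ b / h ^ a ≤ m' * ω' ^ b / h' ^ a) :
    ∀ h ω m, St h ω m → m * ω ^ b / h ^ a ≤ V * W ^ b / (δ * ω) ^ a := by
  intro h₀ ω₀ m₀ H₀
  obtain ⟨hh₀, hω₀, -⟩ := hpos _ _ _ H₀
  have base : ∀ h ω m, St h ω m → δ * ω₀ < h → m * ω ^ b / h ^ a ≤ V * W ^ b / (δ * ω₀) ^ a := by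
    intro h ω m H hlt
    obtain ⟨hh, hω, hm⟩ := hpos _ _ _ H
    obtain ⟨hW, hV⟩ := hbdd _ _ _ H
    have hV0 : 0 ≤ V := hm.le.trans hV
    have hW0 : 0 ≤ W := hω.le.trans hW
    gcongr
  have key : ∀ k : ℕ, ∀ h ω m, St h ω m → ω₀ ≤ ω → δ * ω₀ < 2 ^ k * h →
      m * ω ^ b / h ^ a ≤ V * W ^ b / (δ * ω₀) ^ a := by
    intro k
    induction k with
    | zero => intro h ω m H _ hlt; exact base h ω m H (by simpa using hlt)
    | succ k ih =>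
      intro h ω m H hω hlt
      rcases lt_or_ge (δ * ω₀) h with h1 | h1
      · exact base h ω m H h1
      · obtain ⟨h', ω', m', H', e1, e2, e3⟩ := hstep h ω m H (h1.trans (by gcongr))
        refine e3.trans (ih h' ω' m' H' (hω.trans e2) (hlt.trans_le ?_))
        calc (2 : ℝ) ^ (k + 1) * h = 2 ^ k * (2 * h) := by ring
          _ ≤ 2 ^ k * h' := by gcongr
  obtain ⟨k, hk⟩ := pow_unbounded_of_one_lt (δ * ω₀ / h₀) (one_lt_two (α := ℝ))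
  exact key k h₀ ω₀ m₀ H₀ le_rfl ((div_lt_iff₀ hh₀).1 hk)

/-- a rise does not decrease the potential: with `ρ = ω'/ω ≥ 1 + ε`, `h' ≤ C ρ h`,
`m ≤ C ρ² m'` and `C^(a+1) ≤ (1+ε)^j ≤ ρ^j`. -/
theorem rise_potential {ε C h ω m h' ω' m' : ℝ} {a j : ℕ} (hε : 0 < ε) (hC : 1 ≤ C)
    (hj : C ^ (a + 1) ≤ (1 + ε) ^ j) (hh : 0 < h) (hω : 0 < ω) (hh' : 0 < h') (hm' : 0 < m')
    (h1 : (1 + ε) * ω ≤ ω') (h2 : h' * ω ≤ C * ω' * h) (h3 : m * ω ^ 2 ≤ C * m' * ω' ^ 2) :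
    m * ω ^ (a + 2 + j) / h ^ a ≤ m' * ω' ^ (a + 2 + j) / h' ^ a := by
  obtain ⟨ρ, rfl⟩ : ∃ ρ, ω' = ρ * ω := ⟨ω' / ω, by field_simp⟩
  have hρ : 1 + ε ≤ ρ := le_of_mul_le_mul_right h1 hω
  have hρ0 : 0 < ρ := by linarith
  have hC0 : 0 < C := by linarith
  have e1 : h' ≤ C * ρ * h := le_of_mul_le_mul_right (by linarith) hω
  have e2 : m ≤ C * ρ ^ 2 * m' := le_of_mul_le_mul_right (by linarith) (pow_pos hω 2)
  have e3 : C ^ (a + 1) ≤ ρ ^ j := hj.trans (by gcongr)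
  rw [div_le_div_iff₀ (by positivity) (by positivity)]
  calc m * ω ^ (a + 2 + j) * h' ^ a ≤ C * ρ ^ 2 * m' * ω ^ (a + 2 + j) * (C * ρ * h) ^ a := by gcongr
    _ = C ^ (a + 1) * (ρ ^ (a + 2) * m' * ω ^ (a + 2 + j) * h ^ a) := by ring
    _ ≤ ρ ^ j * (ρ ^ (a + 2) * m' * ω ^ (a + 2 + j) * h ^ a) := by gcongr
    _ = m' * (ρ * ω) ^ (a + 2 + j) * h ^ a := by ring

namespace LocGeo

variable {n : ℕ} {M : Type*} [MetricSpace M] [CompactSpace M] [MeasurableSpace M] [BorelSpace M]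
  {G : LocGeo n M}

/-- `step` with `N ≥ 1` such that `(10^16)^(n+1) ≤ c N`, `j` from `pow_unbounded_of_one_lt`,
`a = n + 1`, `b = a + 2 + j`; `rise_potential`, `count` (`St.pos`, `St.bdd`), `β = a + b`. -/
theorem osc_bound (hM : G.MTW) {κ : ℝ} (hκ : 1 ≤ κ) : ∃ β : ℕ, 1 ≤ β ∧ ∃ C > 0,
    ∀ φ ψ : M → ℝ, Pair n κ φ ψ → ∀ h ω m, G.St φ ψ h ω m → m * ω ^ β ≤ C * h ^ (n + 1) := by
  obtain ⟨c, hc, hstep⟩ := step hM hκ
  obtain ⟨N₀, hN₀⟩ := exists_nat_ge (((10 : ℝ) ^ 16) ^ (n + 1) / c)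
  obtain ⟨δ, hδ, ε, hε, C, hC, hst⟩ := hstep (N₀ + 1) (by omega)
  have hN : ((10 : ℝ) ^ 16) ^ (n + 1) ≤ c * ((N₀ + 1 : ℕ) : ℝ) := by
    rw [div_le_iff₀ hc] at hN₀
    push_cast; nlinarith
  obtain ⟨j, hj⟩ := pow_unbounded_of_one_lt (C ^ (n + 1 + 1)) (show (1 : ℝ) < 1 + ε by linarith)
  obtain ⟨W, V, hWV⟩ := St.bdd G
  refine ⟨n + 1 + (n + 1 + 2 + j), by omega, max (V * W ^ (n + 1 + 2 + j) / δ ^ (n + 1)) 1,
    lt_max_of_lt_right one_pos, fun φ ψ hp h ω m H => ?_⟩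
  have hc := count (St := G.St φ ψ) (a := n + 1) (b := n + 1 + 2 + j) hδ (fun _ _ _ H => H.pos)
    (hWV φ ψ hp.left) ?_ h ω m H
  · obtain ⟨hh, hω, hm⟩ := H.pos
    rw [div_le_div_iff₀ (by positivity) (by positivity)] at hc
    calc m * ω ^ (n + 1 + (n + 1 + 2 + j))
        = m * ω ^ (n + 1 + 2 + j) * (δ * ω) ^ (n + 1) / δ ^ (n + 1) := by
          rw [mul_pow, pow_add ω (n + 1)]; field_simp
      _ ≤ V * W ^ (n + 1 + 2 + j) * h ^ (n + 1) / δ ^ (n + 1) := by gcongr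
      _ = V * W ^ (n + 1 + 2 + j) / δ ^ (n + 1) * h ^ (n + 1) := by ring
      _ ≤ _ := by gcongr; exact le_max_left _ _
  · intro h ω m H hle
    obtain ⟨hh, hω, hm⟩ := H.pos
    rcases hst φ ψ hp h ω m H hle with H' | ⟨h', ω', m', H', e1, e2, e3, e4⟩
    · refine ⟨_, _, _, H', by linarith, le_rfl, ?_⟩
      rw [div_le_div_iff₀ (by positivity) (by positivity), mul_pow]
      calc m * ω ^ (n + 1 + 2 + j) * ((10 ^ 16) ^ (n + 1) * h ^ (n + 1))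
          ≤ m * ω ^ (n + 1 + 2 + j) * (c * ((N₀ + 1 : ℕ) : ℝ) * h ^ (n + 1)) := by gcongr
        _ = _ := by ring
    · obtain ⟨hh', -, hm'⟩ := H'.pos
      exact ⟨h', ω', m', H', e2, by nlinarith,
        rise_potential hε hC hj.le hh hω hh' hm' e1 e3 e4⟩

/-- `x₁, x₂` minimum and maximum points of `φ` on the compact section `{Dd · y ≤ h}`,
`ω = φ x₂ - φ x₁`, `dist x x' ² ≤ 8 (ω + h)` (`exists_min`, `diam_sec`, `dist_ex_le_norm`).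
If `6·10^5 h ≤ ω`: `init`, `osc_bound` give `c hⁿ ω^β ≤ C (3h)^(n+1)`, so `ω^β ≤ C' h` and
`dist² ≤ 16 ω`.  Otherwise `dist² ≤ C h` and `dist^(2β) ≤ D^(2β-2) dist²` (`exists_diam`). -/
theorem sec_bound (hM : G.MTW) {κ : ℝ} (hκ : 1 ≤ κ) : ∃ β : ℕ, 1 ≤ β ∧ ∃ C > 0,
    ∀ φ ψ : M → ℝ, Pair n κ φ ψ → ∀ (y x x' : M) (h : ℝ), 0 < h → Dd φ ψ x y ≤ h →
      Dd φ ψ x' y ≤ h → dist x x' ^ (2 * β) ≤ C * h := by
  obtain ⟨β, hβ, C, hC, hosc⟩ := osc_bound hM hκ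
  obtain ⟨c, hc, hinit⟩ := init hM
  obtain ⟨D, hD1, hD⟩ := exists_diam M
  refine ⟨β, hβ, 16 ^ β * (C * 3 ^ (n + 1) / c) + D ^ (2 * (β - 1)) * (8 * (6 * 10 ^ 5 + 1)),
    by positivity, fun φ ψ hP y x x' h hh hx hx' => ?_⟩
  have hφ := hP.left
  have hcl : IsCompact {z | Dd φ ψ z y ≤ h} :=
    (isClosed_le (hφ.continuous_Dd.comp (continuous_id.prodMk continuous_const))
      continuous_const).isCompact
  obtain ⟨x₁, h1, hmin⟩ := hcl.exists_isMinOn ⟨x, hx⟩ hφ.continuous.continuousOn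
  obtain ⟨x₂, h2, hmax⟩ := hcl.exists_isMaxOn ⟨x, hx⟩ hφ.continuous.continuousOn
  have hb : ∀ z, Dd φ ψ z y ≤ h → φ x₁ ≤ φ z ∧ φ z ≤ φ x₂ := fun z hz => ⟨hmin hz, hmax hz⟩
  have hd : dist x x' ^ 2 ≤ 8 * (φ x₂ - φ x₁ + h) := by
    obtain ⟨b, hbF, hby⟩ := G.surj y
    have hbU := G.F_sub hbF
    obtain rfl : G.pt b = y := hby
    obtain ⟨q, hq, rfl⟩ := G.exists_min hbU x
    obtain ⟨q', hq', rfl⟩ := G.exists_min hbU x'
    refine le_trans (pow_le_pow_left₀ dist_nonneg (dist_ex_le_norm hM hbU hq' q) 2)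
      (diam_sec hM hφ hbU (fun z z' hz hz' => ?_) hq hq' hx hx')
    linarith [(hb z hz).2, (hb z' hz').1]
  have p1 : 0 ≤ 16 ^ β * (C * 3 ^ (n + 1) / c) * h := by positivity
  have p2 : 0 ≤ D ^ (2 * (β - 1)) * (8 * (6 * 10 ^ 5 + 1)) * h := by positivity
  rw [add_mul]
  by_cases hω : 6 * 10 ^ 5 * h ≤ φ x₂ - φ x₁
  · have h3 := hosc φ ψ hP _ _ _ (hinit φ ψ hφ y x₁ x₂ h hh h1 h2 hb hω)
    generalize φ x₂ - φ x₁ = ω at *
    have h4 : ω ^ β ≤ C * 3 ^ (n + 1) / c * h := by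
      rw [div_mul_eq_mul_div, le_div_iff₀ hc]
      refine le_of_mul_le_mul_right ?_ (pow_pos hh n)
      calc ω ^ β * c * h ^ n = c * h ^ n * ω ^ β := by ring
        _ ≤ _ := h3
        _ = _ := by ring
    have h5 : dist x x' ^ (2 * β) ≤ 16 ^ β * (C * 3 ^ (n + 1) / c) * h := by
      calc dist x x' ^ (2 * β) = (dist x x' ^ 2) ^ β := pow_mul _ _ _
        _ ≤ (16 * ω) ^ β := pow_le_pow_left₀ (by positivity) (by linarith) β
        _ = 16 ^ β * ω ^ β := mul_pow _ _ _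
        _ ≤ 16 ^ β * (C * 3 ^ (n + 1) / c * h) := by gcongr
        _ = _ := by ring
    linarith
  · have h5 : dist x x' ^ (2 * β) ≤ D ^ (2 * (β - 1)) * (8 * (6 * 10 ^ 5 + 1)) * h := by
      calc dist x x' ^ (2 * β) = dist x x' ^ (2 * (β - 1)) * dist x x' ^ 2 := by
            rw [← pow_add]; congr 1; omega
        _ ≤ D ^ (2 * (β - 1)) * (8 * (6 * 10 ^ 5 + 1) * h) :=
            mul_le_mul (pow_le_pow_left₀ dist_nonneg (hD x x') _) (by linarith) (by positivity)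
              (by positivity)
        _ = _ := by ring
    linarith

end LocGeo

end Crest.Agent.R226
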