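import Crest.Agent.R226.CoreDefs
import Crest.Agent.R226.Harn
import Crest.Agent.R226.Hinge

/-! Row 226, `core`: definitions (helper73).

Conventions.  `Dd φ ψ x y = φ x + ψ y + cst x y ≥ 0`.  A frame `b` sits at the *second* argument
`y = pt b`, velocities `r ∈ K b` lift the *first* argument `x = ex b r`; `sg r = ‖r‖²/2 = cst x y`. -/

set_option autoImplicit false

open Set Filter Metric MeasureTheory
open scoped Topology InnerProductSpace ENNReal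

namespace Crest.Agent.R226

noncomputable section

variable {n : ℕ} {M : Type*} [MetricSpace M]

/-- Hausdorff volume as a real number. -/
def vol (n : ℕ) {M : Type*} [MetricSpace M] [MeasurableSpace M] [BorelSpace M] (A : Set M) : ℝ :=
  (μH[n] A).toReal

/-- the level `‖p‖² / 2`. -/
def sg (p : E n) : ℝ := ‖p‖ ^ 2 / 2

/-- homothety of centre `z` and ratio `t`. -/
def hom (z : E n) (t : ℝ) (r : E n) : E n := z + t • (r - z)

/-- radial sweep. -/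
def sw (τ : ℝ) (S : Set (E n)) : Set (E n) :=
  (fun z : ℝ × E n => (1 - z.1) • z.2) '' (Icc 0 τ ×ˢ S)

theorem sg_nonneg (p : E n) : 0 ≤ sg p := by unfold sg; positivity

theorem continuous_sg : Continuous (sg : E n → ℝ) := by unfold sg; fun_prop

theorem continuous_hom (z : E n) (t : ℝ) : Continuous (hom z t) := by unfold hom; fun_prop

theorem hom_eq (z : E n) (t : ℝ) (r : E n) : hom z t r = (1 - t) • z + t • r := by
  unfold hom; module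

theorem hom_sub (z : E n) (t : ℝ) (r w : E n) :
    hom z t r - w = (1 - t) • (z - w) + t • (r - w) := by
  unfold hom; module

theorem sg_smul (t : ℝ) (p : E n) : sg (t • p) = t ^ 2 * sg p := by
  unfold sg; rw [norm_smul, mul_pow, Real.norm_eq_abs, sq_abs]; ring

theorem inner_sub_eq (r z : E n) : ⟪r, z - r⟫_ℝ = sg z - sg r - ‖z - r‖ ^ 2 / 2 := by
  unfold sg
  rw [norm_sub_sq_real, inner_sub_right, real_inner_self_eq_norm_sq, real_inner_comm]; ring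

theorem sg_hom (z : E n) (t : ℝ) (r : E n) :
    sg (hom z t r) = (1 - t) * sg z + t * sg r - t * (1 - t) * ‖r - z‖ ^ 2 / 2 := by
  have h := inner_sub_eq z r
  unfold sg hom at *
  rw [norm_add_sq_real, inner_smul_right, norm_smul, mul_pow, Real.norm_eq_abs, sq_abs, h]; ring

theorem inner_hom (z : E n) (s : ℝ) (r : E n) :
    ⟪z + s • (r - z), r - z⟫_ℝ = sg r - sg z + (s - 1 / 2) * ‖r - z‖ ^ 2 := by
  rw [inner_add_left, inner_smul_left, real_inner_self_eq_norm_sq, inner_sub_eq]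
  simp only [conj_trivial]; ring

theorem hom_mem {S : Set (E n)} (hS : Convex ℝ S) {z r : E n} (hz : z ∈ S) (hr : r ∈ S) {t : ℝ}
    (h0 : 0 ≤ t) (h1 : t ≤ 1) : hom z t r ∈ S := by
  rw [hom_eq]; exact hS hz hr (by linarith) h0 (by ring)

theorem qc_hom {S : Set (E n)} {f : E n → ℝ} (hf : QuasiconvexOn ℝ S f) {z r : E n} (hz : z ∈ S)
    (hr : r ∈ S) {t : ℝ} (h0 : 0 ≤ t) (h1 : t ≤ 1) : f (hom z t r) ≤ max (f z) (f r) := by
  rw [hom_eq]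
  exact ((hf (max (f z) (f r))) ⟨hz, le_max_left _ _⟩ ⟨hr, le_max_right _ _⟩ (by linarith) h0
    (by ring)).2

theorem isCompact_sw (τ : ℝ) {S : Set (E n)} (hS : IsCompact S) : IsCompact (sw τ S) :=
  (isCompact_Icc.prod hS).image (by fun_prop)

theorem mem_sw {τ : ℝ} {S : Set (E n)} {q : E n} :
    q ∈ sw τ S ↔ ∃ t ∈ Icc (0 : ℝ) τ, ∃ p ∈ S, q = (1 - t) • p := by
  constructor
  · rintro ⟨⟨t, p⟩, ⟨ht, hp⟩, rfl⟩; exact ⟨t, ht, p, hp, rfl⟩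
  · rintro ⟨t, ht, p, hp, rfl⟩; exact ⟨(t, p), ⟨ht, hp⟩, rfl⟩

theorem sw_zero (S : Set (E n)) : sw 0 S = S := by
  ext q; rw [mem_sw]
  constructor
  · rintro ⟨t, ht, p, hp, rfl⟩
    have : t = 0 := le_antisymm ht.2 ht.1
    simpa [this] using hp
  · intro hq; exact ⟨0, by simp, q, hq, by simp⟩

namespace LocGeo

variable (G : LocGeo n M)

/-- minimising lifts of a set. -/
def lift (a : P n) (A : Set M) : Set (E n) := {p | p ∈ G.K a ∧ G.ex a p ∈ A}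

/-- the defect at `y = pt b` tilted towards `ex b q`:
`tw x = Dd x y + (cst x y* / (1 - s) + s ‖q‖²/2 - cst x y)`, `y* = ex b (s • q)`. -/
def tw (φ ψ : M → ℝ) (b : P n) (q : E n) (s : ℝ) (x : M) : ℝ :=
  φ x + ψ (G.pt b) + cst x (G.ex b (s • q)) / (1 - s) + s * sg q

/-- a tilted defect read in a frame at the tilt point. -/
def wf (φ : M → ℝ) (b : P n) (k e : ℝ) (r : E n) : ℝ := φ (G.ex b r) + (1 + k) * sg r + e

/-- pre-state: centre `y = pt b`, top `x₁ = ex b q₁`, bottom `x₂ = ex b q₂`, height `h`,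
oscillation `ω`, tilt `s`, mass `A`. -/
structure Pre (φ ψ : M → ℝ) (b : P n) (q₁ q₂ : E n) (h ω s : ℝ) (A : Set M) : Prop where
  hb : b ∈ G.F
  hq₁ : q₁ ∈ G.K b
  hq₂ : q₂ ∈ G.K b
  h_pos : 0 < h
  ω_pos : 0 < ω
  ω_eq : ω = φ (G.ex b q₂) - φ (G.ex b q₁)
  D₁ : Dd φ ψ (G.ex b q₁) (G.pt b) ≤ h
  D₂ : Dd φ ψ (G.ex b q₂) (G.pt b) ≤ h
  close : ‖q₁ - q₂‖ ^ 2 ≤ 17 * ω
  s_ge : 10 ^ 5 * h ≤ s * ω
  compact : IsCompact A
  wA : ∀ x ∈ A, G.tw φ ψ b q₁ s x ≤ h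
  φA : ∀ x ∈ A, |φ x - φ (G.ex b q₁)| ≤ ω / 10 ^ 5

/-- a pre-state read in a frame `b` at the tilt point; `y` is the old centre. -/
structure Tilt (φ ψ : M → ℝ) (y : M) (b : P n) (r₁ r₂ : E n) (k e h ω s : ℝ) (A : Set M) :
    Prop where
  hb : b ∈ G.F
  hr₁ : r₁ ∈ G.K b
  hr₂ : r₂ ∈ G.K b
  h_pos : 0 < h
  ω_pos : 0 < ω
  s_ge : 10 ^ 5 * h ≤ s * ω
  s_le : s ≤ 1 / 40
  k_ge : s ≤ k
  k_le : 3 * k ≤ 4 * s
  lower : ∀ r ∈ G.K b, Dd φ ψ (G.ex b r) y + k / 2 * ‖r - r₁‖ ^ 2 ≤ G.wf φ b k e r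
  w₁ : G.wf φ b k e r₁ = Dd φ ψ (G.ex b r₁) y
  w₁_le : G.wf φ b k e r₁ ≤ h
  w₂_le : G.wf φ b k e r₂ ≤ 9 * s * ω
  close : ‖r₁ - r₂‖ ^ 2 ≤ 17 * ω
  lev_ge : ω / 2 ≤ sg r₁ - sg r₂
  lev_le : sg r₁ - sg r₂ ≤ 2 * ω
  compact : IsCompact A
  onA : ∀ r ∈ G.lift b A, G.wf φ b k e r ≤ h ∧ ‖r - r₁‖ ^ 2 ≤ 2 * ω / 10 ^ 5 ∧
    |sg r - sg r₁| ≤ 2 * ω / 10 ^ 5

variable [MeasurableSpace M] [BorelSpace M]

/-- a state of height `h`, oscillation `ω` and mass at least `m > 0`. -/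
def St (φ ψ : M → ℝ) (h ω m : ℝ) : Prop :=
  ∃ b q₁ q₂ A, G.Pre φ ψ b q₁ q₂ h ω (10 ^ 5 * h / ω) A ∧ 0 < m ∧ m ≤ vol n A

/-- there is a new state with a definitely larger oscillation. -/
def Rise (φ ψ : M → ℝ) (ε C h ω m : ℝ) : Prop :=
  ∃ h' ω' m', G.St φ ψ h' ω' m' ∧ (1 + ε) * ω ≤ ω' ∧ 2 * h ≤ h' ∧ h' * ω ≤ C * ω' * h ∧
    m * ω ^ 2 ≤ C * m' * ω' ^ 2

/-- output of the `x`-step, lifted to a frame `a` at the top point `x₁ = pt a`. -/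
structure XD (φ ψ : M → ℝ) (a : P n) (x₂ : M) (h ω : ℝ) (S : Set (E n)) : Prop where
  ha : a ∈ G.F
  h_pos : 0 < h
  ω_pos : 0 < ω
  ω_eq : ω = φ x₂ - φ (G.pt a)
  compact : IsCompact S
  sub : S ⊆ G.K a
  pos : 0 < vol n (G.ex a '' S)
  D₁ : ∀ p ∈ S, Dd φ ψ (G.pt a) (G.ex a p) ≤ 4 * 10 ^ 6 * h
  D₂ : ∀ p ∈ S, Dd φ ψ x₂ (G.ex a p) ≤ 4 * 10 ^ 6 * h
  contact : ∀ p ∈ S, ∃ x', Dd φ ψ x' (G.ex a p) = 0 ∧ φ (G.pt a) + ω / 16000 ≤ φ x'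

end LocGeo

end

end Crest.Agent.R226
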