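import Crest.Agent.R226.TDefs

/-! Row 226, `core`: tilting, the three point lemma, the triangle inequality for the defect. -/

set_option autoImplicit false

open Set Filter Metric MeasureTheory
open scoped Topology InnerProductSpace ENNReal

namespace Crest.Agent.R226

variable {n : ℕ} {M : Type*} [MetricSpace M]

/-- the bottom point of a compact convex set (`norm_eq_iInf_iff_real_inner_le_zero` or directly:
`sg_hom` with `t → 0`). -/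
theorem exists_bottom {S : Set (E n)} (hc : IsCompact S) (hS : Convex ℝ S) (hne : S.Nonempty) :
    ∃ z ∈ S, ∀ p ∈ S, ‖p - z‖ ^ 2 / 2 ≤ sg p - sg z := by
  obtain ⟨z, hz, hmin⟩ := hc.exists_isMinOn hne continuous_sg.continuousOn
  refine ⟨z, hz, fun p hp => ?_⟩
  by_contra hlt
  push Not at hlt
  have h0 : sg z ≤ sg p := hmin hp
  have hd : 0 < ‖p - z‖ ^ 2 := by linarith
  generalize hD : ‖p - z‖ ^ 2 = D at hlt hd
  have ht0 : 0 < (D / 2 - (sg p - sg z)) / D := div_pos (by linarith) hd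
  have ht1 : (D / 2 - (sg p - sg z)) / D ≤ 1 := by rw [div_le_one hd]; linarith
  have ht2 : (D / 2 - (sg p - sg z)) / D * D = D / 2 - (sg p - sg z) := div_mul_cancel₀ _ hd.ne'
  generalize (D / 2 - (sg p - sg z)) / D = t at ht0 ht1 ht2
  have h1 : sg z ≤ sg (hom z t p) := hmin (hom_mem hS hz hp ht0.le ht1)
  rw [sg_hom, hD] at h1
  have h2 : 0 ≤ t * (sg p - sg z - (1 - t) * D / 2) := by linarith
  have h3 := (mul_nonneg_iff_of_pos_left ht0).1 h2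
  nlinarith

/-- `‖u + v‖² ≤ (1 + μ) ‖u‖² + (1 + 1/μ) ‖v‖²`. -/
theorem norm_add_sq_le_mu (u v : E n) {μ : ℝ} (hμ : 0 < μ) :
    ‖u + v‖ ^ 2 ≤ (1 + μ) * ‖u‖ ^ 2 + (1 + 1 / μ) * ‖v‖ ^ 2 := by
  have h1 : ‖u + v‖ ^ 2 ≤ (‖u‖ + ‖v‖) ^ 2 := pow_le_pow_left₀ (norm_nonneg _) (norm_add_le u v) 2
  have h2 : 0 ≤ (μ * ‖u‖ - ‖v‖) ^ 2 / μ := div_nonneg (sq_nonneg _) hμ.le
  have h3 : (μ * ‖u‖ - ‖v‖) ^ 2 / μ = μ * ‖u‖ ^ 2 - 2 * ‖u‖ * ‖v‖ + 1 / μ * ‖v‖ ^ 2 := by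
    field_simp
    ring
  nlinarith

theorem IsCT.Dd_nonneg {φ ψ : M → ℝ} (h : IsCT univ φ ψ) (x y : M) : 0 ≤ Dd φ ψ x y :=
  h.nonneg x y (mem_univ _)

theorem IsCT.exists_contact {φ ψ : M → ℝ} (h : IsCT univ φ ψ) (x : M) : ∃ y, Dd φ ψ x y = 0 := by
  obtain ⟨y, -, hy⟩ := h.attained x; exact ⟨y, hy⟩

theorem IsCT.continuous_Dd [CompactSpace M] {φ ψ : M → ℝ} (h : IsCT univ φ ψ) :
    Continuous fun z : M × M => Dd φ ψ z.1 z.2 :=
  ((h.continuous.comp continuous_fst).add (h.cont.comp continuous_snd)).add continuous_cst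

namespace LocGeo

variable [CompactSpace M] {G : LocGeo n M} {a b : P n} {φ ψ : M → ℝ}

omit [CompactSpace M] in
theorem Dd_K {r : E n} (hr : r ∈ G.K b) :
    Dd φ ψ (G.ex b r) (G.pt b) = G.wf φ b 0 (ψ (G.pt b)) r := by
  unfold Dd wf sg; rw [cst_comm, G.cst_K hr]; ring

omit [CompactSpace M] in
theorem cst_K' {r : E n} (hr : r ∈ G.K b) : cst (G.ex b r) (G.pt b) = sg r := by
  rw [cst_comm, G.cst_K hr]; rfl

/-- `φ x = max_y (-ψ y - cst x y)` and `dasm_kappa`: a maximum of quasiconvex functions. -/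
theorem qc_wf (hM : G.MTW) (hφ : IsCT univ φ ψ) (hb : b ∈ G.U) {k : ℝ} (hk : 0 ≤ k) (e : ℝ) :
    QuasiconvexOn ℝ (G.K b) (G.wf φ b k e) := by
  refine quasiconvexOn_iff_le_max.2 ⟨convex_K hM hb, fun p₀ h₀ p₁ h₁ s t hs ht hst => ?_⟩
  obtain ⟨y, hy⟩ := hφ.exists_contact (G.ex b (s • p₀ + t • p₁))
  have h := (quasiconvexOn_iff_le_max.1 (dasm_kappa hM hb hk y)).2 h₀ h₁ hs ht hst
  have a0 := hφ.Dd_nonneg (G.ex b p₀) y
  have a1 := hφ.Dd_nonneg (G.ex b p₁) y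
  unfold Dd at hy a0 a1
  rw [cst_comm] at hy a0 a1
  unfold wf sg
  rcases le_max_iff.1 h with h | h
  · exact le_max_of_le_left (by linarith)
  · exact le_max_of_le_right (by linarith)

/-- sublevel sets of the defect are compact and convex in the frame at the centre. -/
theorem sublevel (hM : G.MTW) (hφ : IsCT univ φ ψ) (hb : b ∈ G.U) (h : ℝ) :
    IsCompact {r | r ∈ G.K b ∧ Dd φ ψ (G.ex b r) (G.pt b) ≤ h} ∧
      Convex ℝ {r | r ∈ G.K b ∧ Dd φ ψ (G.ex b r) (G.pt b) ≤ h} := by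
  constructor
  · exact (G.isCompact_K hb).inter_right (isClosed_le
      (hφ.continuous_Dd.comp ((G.continuous_ex hb).prodMk continuous_const)) continuous_const)
  · have h1 := qc_wf hM hφ hb le_rfl (ψ (G.pt b)) h
    convert h1 using 1
    ext r
    exact and_congr_right fun hr => by rw [Dd_K hr]

/-- three point lemma.  `F r = wf r - Dd (ex r) y' - κ sg r = (1 + k - κ) sg r - cst y' (ex r) +
const` is quasiconvex (`dasm_kappa`, `k - κ ≥ 0`); `F r' ≥ -κ sg r' > B - κ sg r₂ ≥ F r₂`, hence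
`F r₀ ≥ F r'`. -/
theorem three_point (hM : G.MTW) (hφ : IsCT univ φ ψ) (hb : b ∈ G.U) {k e κ B t : ℝ}
    {r₀ r₂ : E n} (h₀ : r₀ ∈ G.K b) (h₂ : r₂ ∈ G.K b) (ht0 : 0 ≤ t) (ht1 : t ≤ 1) {y' : M}
    (hy : Dd φ ψ (G.ex b (hom r₀ t r₂)) y' = 0) (hw : 0 ≤ G.wf φ b k e (hom r₀ t r₂))
    (hB : G.wf φ b k e r₂ ≤ B) (hκ : κ ≤ k) (hlt : B < κ * (sg r₂ - sg (hom r₀ t r₂))) :
    Dd φ ψ (G.ex b r₀) y' ≤ G.wf φ b k e r₀ + κ * (sg (hom r₀ t r₂) - sg r₀) := by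
  have h := qc_hom (dasm_kappa hM hb (sub_nonneg.2 hκ) y') h₀ h₂ ht0 ht1
  have a2 := hφ.Dd_nonneg (G.ex b r₂) y'
  unfold Dd at hy a2 ⊢
  rw [cst_comm] at hy a2 ⊢
  unfold wf sg at *
  rcases le_max_iff.1 h with h | h
  · linarith
  · linarith

/-- `cst_interp` with `m = ex b (s q)` (`K_dist` or `K_smul`, `cst_K`). -/
theorem Dd_le_tw (hb : b ∈ G.U) {q : E n} (hq : q ∈ G.K b) {s : ℝ} (h0 : 0 < s) (h1 : s < 1)
    (x : M) : Dd φ ψ x (G.pt b) ≤ G.tw φ ψ b q s x := by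
  have h := cst_interp x (G.ex b (s • q)) (G.pt b) (s := 1 - s) (by linarith) (by linarith)
  rw [cst_K' (G.K_smul hb hq ⟨h0.le, h1.le⟩), sg_smul] at h
  have e : (1 - s) / (1 - (1 - s)) * (s ^ 2 * sg q) = (1 - s) * (s * sg q) := by
    rw [sub_sub_cancel]
    field_simp
  rw [e] at h
  have h2 : cst x (G.pt b) - s * sg q ≤ cst x (G.ex b (s • q)) / (1 - s) := by
    rw [le_div_iff₀ (by linarith)]
    linarith
  unfold Dd tw
  linarith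

/-- `K_dist` with the times `1` and `s`. -/
theorem tw_self (hb : b ∈ G.U) {q : E n} (hq : q ∈ G.K b) {s : ℝ} (h0 : 0 < s) (h1 : s < 1) :
    G.tw φ ψ b q s (G.ex b q) = Dd φ ψ (G.ex b q) (G.pt b) := by
  have h := G.K_dist hb hq (s := 1) (t := s) ⟨zero_le_one, le_rfl⟩ ⟨h0.le, h1.le⟩
  rw [one_smul, abs_of_pos (by linarith : 0 < 1 - s)] at h
  have h2 : (1 - s) ≠ 0 := by linarith
  unfold Dd tw
  rw [cst_K' hq]
  unfold cst sg
  rw [h]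
  field_simp
  ring

/-- `hinge` at `pt b`: `cst (ex p) (ex (s q)) ≤ ‖p - s q‖²/2`. -/
theorem tw_le (hM : G.MTW) (hb : b ∈ G.U) {q p : E n} (hq : q ∈ G.K b) (hp : p ∈ G.K b) {s : ℝ}
    (h0 : 0 < s) (h1 : s < 1) :
    G.tw φ ψ b q s (G.ex b p) ≤ Dd φ ψ (G.ex b p) (G.pt b) + s / (1 - s) / 2 * ‖p - q‖ ^ 2 := by
  have h := G.hinge hM hb (G.K_smul hb hq ⟨h0.le, h1.le⟩) p
  have h2 : (1 - s) ≠ 0 := by linarith
  have e : ‖p - s • q‖ ^ 2 / 2 / (1 - s) + s * sg q = sg p + s / (1 - s) / 2 * ‖p - q‖ ^ 2 := by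
    unfold sg
    rw [norm_sub_sq_real, norm_sub_sq_real, inner_smul_right, norm_smul, mul_pow,
      Real.norm_eq_abs, sq_abs]
    field_simp
    ring
  have h3 : cst (G.ex b p) (G.ex b (s • q)) / (1 - s) ≤ ‖p - s • q‖ ^ 2 / 2 / (1 - s) :=
    div_le_div_of_nonneg_right h (by linarith)
  unfold Dd tw
  rw [cst_K' hp]
  linarith

omit [CompactSpace M] in
theorem tw_eq_wf {q r : E n} {s : ℝ} (h1 : s < 1) {c : P n} (hc : G.pt c = G.ex b (s • q))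
    (hr : r ∈ G.K c) :
    G.tw φ ψ b q s (G.ex c r) = G.wf φ c (s / (1 - s)) (ψ (G.pt b) + s * sg q) r := by
  have : (1 - s) ≠ 0 := by linarith
  unfold tw wf; rw [← hc, cst_K' hr]; field_simp; ring

omit [CompactSpace M] in
/-- the tilted defect in terms of the defect at the tilt point. -/
theorem tw_sub (q : E n) {s : ℝ} (h1 : s < 1) (x x' : M) :
    G.tw φ ψ b q s x - G.tw φ ψ b q s x' =
      (1 + s / (1 - s)) * (Dd φ ψ x (G.ex b (s • q)) - Dd φ ψ x' (G.ex b (s • q))) +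
        s / (1 - s) * (φ x' - φ x) := by
  have : (1 - s) ≠ 0 := by linarith
  unfold tw Dd; field_simp; ring

/-- the frame at the tilt point.  `exists_cont` gives `v`, `‖v‖ = ‖q‖`,
`ex c (t v) = ex b ((s + t) q)`; `r₁ = (1 - s) v ∈ K c` (`K_dist`), `pt b = ex c (-s v)`;
`hinge` at `pt c`: `cst (pt b) (ex c r) ≤ ‖r + s v‖²/2`, then `tw_eq_wf` and algebra
(`‖r‖²/(2(1-s)) + s‖v‖²/2 - ‖r + s v‖²/2 = s/(1-s)/2 ‖r - (1-s) v‖²`). -/
theorem exists_tilt (hM : G.MTW) (hb : b ∈ G.U) {q : E n} (hq : q ∈ G.K b) {s : ℝ} (h0 : 0 < s)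
    (h1 : s < 1) : ∃ c ∈ G.F, G.pt c = G.ex b (s • q) ∧ ∃ r₁ ∈ G.K c, G.ex c r₁ = G.ex b q ∧
      ∀ φ ψ : M → ℝ, ∀ r ∈ G.K c, Dd φ ψ (G.ex c r) (G.pt b) + s / (1 - s) / 2 * ‖r - r₁‖ ^ 2 ≤
        G.tw φ ψ b q s (G.ex c r) := by
  obtain ⟨c, hc, hpt⟩ := G.exists_frame (G.ex b (s • q))
  obtain ⟨v, hv, hv'⟩ := G.exists_cont hb (G.F_sub hc) hpt
  have e1 : G.ex c ((1 - s) • v) = G.ex b q := by rw [hv', add_sub_cancel, one_smul]
  have e0 : G.ex c ((-s) • v) = G.pt b := by rw [hv', add_neg_cancel, zero_smul]; rfl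
  have h2 : (1 - s) ≠ 0 := by linarith
  refine ⟨c, hc, hpt, (1 - s) • v, ?_, e1, fun φ ψ r hr => ?_⟩
  · have h := G.K_dist hb hq (s := s) (t := 1) ⟨h0.le, h1.le⟩ ⟨zero_le_one, le_rfl⟩
    rw [one_smul, abs_sub_comm] at h
    show dist (G.pt c) (G.ex c ((1 - s) • v)) = ‖(1 - s) • v‖
    rw [hpt, e1, h, norm_smul, Real.norm_eq_abs, hv]
  · have h := G.hinge hM (G.F_sub hc) hr ((-s) • v)
    rw [e0, cst_comm] at h
    have e : ‖(-s) • v - r‖ ^ 2 / 2 + s / (1 - s) / 2 * ‖r - (1 - s) • v‖ ^ 2 =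
        sg r / (1 - s) + s * sg q := by
      unfold sg
      rw [norm_sub_sq_real, norm_sub_sq_real, inner_smul_right, real_inner_smul_left, norm_smul,
        norm_smul, mul_pow, mul_pow, Real.norm_eq_abs, Real.norm_eq_abs, sq_abs, sq_abs, hv,
        real_inner_comm]
      field_simp
      ring
    unfold Dd tw
    rw [← hpt, cst_K' hr]
    linarith

/-- the reversed geodesic (`exists_cont` with `s = 1`, `q = -v`). -/
theorem exists_rev (ha : a ∈ G.U) {p : E n} (hp : p ∈ G.K a) :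
    ∃ b ∈ G.F, G.pt b = G.ex a p ∧ ∃ q ∈ G.K b, ∀ s : ℝ, G.ex b (s • q) = G.ex a ((1 - s) • p) := by
  obtain ⟨b, hb, hpt⟩ := G.exists_frame (G.ex a p)
  obtain ⟨v, hv, hv'⟩ := G.exists_cont ha (G.F_sub hb) (s := 1) (p := p)
    (by rw [one_smul]; exact hpt)
  have e : ∀ s : ℝ, G.ex b (s • -v) = G.ex a ((1 - s) • p) := fun s => by
    rw [smul_neg, ← neg_smul, hv', sub_eq_add_neg]
  refine ⟨b, hb, hpt, -v, ?_, e⟩
  have e1 := e 1
  rw [one_smul, sub_self, zero_smul] at e1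
  show dist (G.pt b) (G.ex b (-v)) = ‖-v‖
  rw [hpt, e1, norm_neg, hv, dist_comm]
  exact hp

/-- radial thinness.  With `y_τ = ex a ((1-τ) p)`, `cst_interp` gives
`Dd x' y_τ - Dd x₁ y_τ ≥ (1-τ) (Dd x' y' - Dd x₁ y') + τ (φ x' - φ x₁)`, `x₁ = pt a`, `y' = ex a p`
(use `cst x' y' ≤ cst x' y_τ / (1-τ) + cst y_τ y' / τ`, i.e. `cst_interp x' y_τ y'` with
`s = 1 - τ`, `cst y_τ y' = τ²‖p‖²/2`, `cst x₁ y_τ = (1-τ)²‖p‖²/2`). -/
theorem thin (hφ : IsCT univ φ ψ) (ha : a ∈ G.U) {p : E n} (hp : p ∈ G.K a) {τ B lam : ℝ}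
    (h0 : 0 < τ) (h1 : τ < 1) (hB : Dd φ ψ (G.pt a) (G.ex a p) ≤ B) {x' : M}
    (hx : Dd φ ψ x' (G.ex a ((1 - τ) • p)) = 0) (hlam : φ (G.pt a) + lam ≤ φ x') :
    τ * lam ≤ B := by
  have hτ : 1 - τ ∈ Icc (0 : ℝ) 1 := ⟨by linarith, by linarith⟩
  have c1 : cst (G.ex a ((1 - τ) • p)) (G.ex a p) = τ ^ 2 * sg p := by
    have := G.K_dist ha hp hτ (right_mem_Icc.2 zero_le_one)
    rw [one_smul] at this
    unfold cst sg
    rw [this, mul_pow, sq_abs]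
    ring
  have c2 : cst (G.pt a) (G.ex a ((1 - τ) • p)) = (1 - τ) ^ 2 * sg p := by
    rw [G.cst_K (G.K_smul ha hp hτ), ← sg_smul]; rfl
  have c3 : cst (G.pt a) (G.ex a p) = sg p := G.cst_K hp
  have c4 := cst_interp x' (G.ex a ((1 - τ) • p)) (G.ex a p) hτ.1 (by linarith)
  have c5 : (1 - τ) / (1 - (1 - τ)) * (τ ^ 2 * sg p) = (1 - τ) * τ * sg p := by
    rw [sub_sub_cancel]
    field_simp
  rw [c1, c5] at c4
  have a1 := hφ.Dd_nonneg (G.pt a) (G.ex a ((1 - τ) • p))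
  have a2 := hφ.Dd_nonneg x' (G.ex a p)
  have a3 := hφ.Dd_nonneg (G.pt a) (G.ex a p)
  unfold Dd at hB hx a1 a2 a3
  rw [c2] at a1
  rw [c3] at hB a3
  have a4 := mul_nonneg hτ.1 a2
  have a5 := mul_le_mul_of_nonneg_left hB hτ.1
  have a6 := mul_le_mul_of_nonneg_left hlam h0.le
  have a7 := mul_nonneg h0.le (a3.trans hB)
  linarith

/-- the diameter of a section: the midpoint `hom q (1/2) q'` lies in the section (`sublevel`) and
`sg = Dd - φ - ψ` oscillates by at most `ω + h` (`sg_hom`, `Dd_K`). -/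
theorem diam_sec (hM : G.MTW) (hφ : IsCT univ φ ψ) (hb : b ∈ G.U) {h ω : ℝ}
    (hω : ∀ x x', Dd φ ψ x (G.pt b) ≤ h → Dd φ ψ x' (G.pt b) ≤ h → φ x - φ x' ≤ ω)
    {q q' : E n} (hq : q ∈ G.K b) (hq' : q' ∈ G.K b) (hD : Dd φ ψ (G.ex b q) (G.pt b) ≤ h)
    (hD' : Dd φ ψ (G.ex b q') (G.pt b) ≤ h) : ‖q - q'‖ ^ 2 ≤ 8 * (ω + h) := by
  have hm := hom_mem (sublevel hM hφ hb h).2 ⟨hq, hD⟩ ⟨hq', hD'⟩ (t := 1 / 2) (by norm_num)
    (by norm_num)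
  have h1 := hω _ _ hm.2 hD
  have h2 := hω _ _ hm.2 hD'
  have h3 := hφ.Dd_nonneg (G.ex b (hom q (1 / 2) q')) (G.pt b)
  have h4 := sg_hom q (1 / 2) q'
  unfold Dd at hD hD' h3
  rw [cst_K' hq] at hD
  rw [cst_K' hq'] at hD'
  rw [cst_K' hm.1] at h3
  rw [norm_sub_rev]
  linarith

/-- reading a pre-state at the tilt point: `c, r₁` from `exists_tilt`, `r₂` from `exists_min`,
`k = s/(1-s)`, `e = ψ y + s sg q₁`, `wf = tw` (`tw_eq_wf`).  `w₂_le`: `tw_le`,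
`h ≤ s ω / 10^5`, `k/2 * 17 ≤ 8.72 s`.  `close`: `k/2 ‖r₂ - r₁‖² ≤ tw - Dd ≤ k/2 ‖q₂ - q₁‖²`.
Levels: `(1 + k) (sg r - sg r') = wf r - wf r' - (φ (ex r) - φ (ex r'))` and `0 ≤ wf`. -/
theorem Pre.tilt (hM : G.MTW) (hφ : IsCT univ φ ψ) {q₁ q₂ : E n} {h ω s : ℝ} {A : Set M}
    (H : G.Pre φ ψ b q₁ q₂ h ω s A) (hs : s ≤ 1 / 40) :
    ∃ c r₁ r₂ k e, G.pt c = G.ex b (s • q₁) ∧ G.ex c r₁ = G.ex b q₁ ∧ G.ex c r₂ = G.ex b q₂ ∧
      G.Tilt φ ψ (G.pt b) c r₁ r₂ k e h ω s A := by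
  have hb := G.F_sub H.hb
  have hh := H.h_pos
  have hω := H.ω_pos
  have hsg := H.s_ge
  have h0 : 0 < s := (pos_iff_pos_of_mul_pos (by linarith : 0 < s * ω)).2 hω
  have h1 : s < 1 := by linarith
  obtain ⟨c, hc, hpt, r₁, hr₁, he₁, hlow⟩ := exists_tilt hM hb H.hq₁ h0 h1
  obtain ⟨r₂, hr₂, he₂⟩ := G.exists_min (G.F_sub hc) (G.ex b q₂)
  have hw := fun r (hr : r ∈ G.K c) => tw_eq_wf (φ := φ) (ψ := ψ) h1 hpt hr
  have hle := tw_le (φ := φ) (ψ := ψ) hM hb H.hq₁ H.hq₂ h0 h1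
  have hk1 : s ≤ s / (1 - s) := by
    rw [le_div_iff₀ (by linarith)]
    nlinarith
  have hk2 : s / (1 - s) ≤ 40 / 39 * s := by
    rw [div_le_iff₀ (by linarith)]
    nlinarith
  refine ⟨c, r₁, r₂, s / (1 - s), ψ (G.pt b) + s * sg q₁, hpt, he₁, he₂, ?_⟩
  generalize s / (1 - s) = k at *
  generalize ψ (G.pt b) + s * sg q₁ = e at *
  have hk0 : 0 < k := h0.trans_le hk1
  have lower : ∀ r ∈ G.K c, Dd φ ψ (G.ex c r) (G.pt b) + k / 2 * ‖r - r₁‖ ^ 2 ≤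
      G.wf φ c k e r := fun r hr => (hlow φ ψ r hr).trans_eq (hw r hr)
  have hnn : ∀ r ∈ G.K c, k / 2 * ‖r - r₁‖ ^ 2 ≤ G.wf φ c k e r := fun r hr =>
    (le_add_of_nonneg_left (hφ.Dd_nonneg _ _)).trans (lower r hr)
  have hnn' : ∀ r ∈ G.K c, 0 ≤ G.wf φ c k e r := fun r hr => le_trans (by positivity) (hnn r hr)
  have w₁ : G.wf φ c k e r₁ = Dd φ ψ (G.ex c r₁) (G.pt b) := by
    rw [← hw r₁ hr₁, he₁, tw_self hb H.hq₁ h0 h1]
  have w₁' : G.wf φ c k e r₁ ≤ h := by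
    rw [w₁, he₁]
    exact H.D₁
  have hsω : s * ω ≤ 1 / 40 * ω := mul_le_mul_of_nonneg_right hs hω.le
  rw [← he₂, hw r₂ hr₂, norm_sub_rev] at hle
  have w₂ : G.wf φ c k e r₂ ≤ 9 * s * ω := by
    have a1 := mul_le_mul hk2 H.close (sq_nonneg _) (by positivity)
    have a2 := H.D₂
    rw [← he₂] at a2
    have := mul_pos h0 hω
    linarith
  have lev : ∀ r r', (1 + k) * (sg r - sg r') =
      G.wf φ c k e r - G.wf φ c k e r' - (φ (G.ex c r) - φ (G.ex c r')) := fun r r' => by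
    unfold wf
    ring
  have habs : ∀ {x B : ℝ}, (1 + k) * x ≤ B → 0 ≤ B → x ≤ B := fun {x B} a1 a2 => by
    by_contra hx
    nlinarith [mul_pos hk0 (a2.trans_lt (not_le.1 hx))]
  have l12 := lev r₁ r₂
  rw [he₁, he₂, ← neg_sub (φ (G.ex b q₂)), ← H.ω_eq] at l12
  refine ⟨hc, hr₁, hr₂, hh, hω, hsg, hs, hk1, by linarith, lower, w₁, w₁', w₂, ?_, ?_,
    habs (by linarith [hnn' r₂ hr₂]) (by positivity), H.compact, fun r hr => ?_⟩
  · have a1 := lower r₂ hr₂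
    rw [norm_sub_rev] at a1
    exact (le_of_mul_le_mul_left (by linarith) (half_pos hk0)).trans H.close
  · by_contra hx
    have a1 := mul_lt_mul_of_pos_left (not_le.1 hx) (by linarith : 0 < 1 + k)
    have a2 := mul_le_mul_of_nonneg_right (by linarith : k ≤ 1 / 39) hω.le
    linarith [hnn' r₁ hr₁]
  · have a1 : G.wf φ c k e r ≤ h := (hw r hr.1).symm.trans_le (H.wA _ hr.2)
    have a2 := abs_le.1 (H.φA _ hr.2)
    have a3 := lev r r₁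
    have a4 := lev r₁ r
    rw [he₁] at a3 a4
    refine ⟨a1, le_of_mul_le_mul_left ?_ (half_pos hk0), abs_sub_le_iff.2
      ⟨habs (by linarith [hnn' r₁ hr₁, a2.1]) (by positivity),
        habs (by linarith [hnn' r hr.1, a2.2]) (by positivity)⟩⟩
    have a5 := mul_le_mul_of_nonneg_right hk1 hω.le
    linarith [hnn r hr.1]

/-- the first move (towards the bottom by the fraction `θ = 1/1000`): `qc_wf`, `qc_hom`,
`hom_sub`, `norm_add_sq_le_mu` (`μ = 1`: `≤ 2·2ω/10^5 + 2θ²·17ω`), `sg_hom`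
(`‖r - r₂‖² ≤ 18 ω` with `μ = 1/100`). -/
theorem Tilt.first (hM : G.MTW) (hφ : IsCT univ φ ψ) {y : M} {r₁ r₂ : E n} {k e h ω s : ℝ}
    {A : Set M} (T : G.Tilt φ ψ y b r₁ r₂ k e h ω s A) {r : E n} (hr : r ∈ G.lift b A) :
    sg r₂ ≤ sg r ∧ hom r₂ (999 / 1000) r ∈ G.K b ∧
      G.wf φ b k e (hom r₂ (999 / 1000) r) ≤ 9 * s * ω ∧
      ‖hom r₂ (999 / 1000) r - r₁‖ ^ 2 ≤ 74 / 10 ^ 6 * ω ∧
      48 / 10 ^ 5 * ω ≤ sg r₁ - sg (hom r₂ (999 / 1000) r) ∧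
      sg r₁ - sg (hom r₂ (999 / 1000) r) ≤ 12 / 10 ^ 3 * ω := by
  have hb := G.F_sub T.hb
  obtain ⟨a1, a2, a3⟩ := T.onA r hr
  obtain ⟨a4, a5⟩ := abs_le.1 a3
  have hω := T.ω_pos
  have hh := T.h_pos
  have hsg := T.s_ge
  have h0 : 0 < s := (pos_iff_pos_of_mul_pos (by linarith : 0 < s * ω)).2 hω
  have l1 := T.lev_ge
  have l2 := T.lev_le
  have hcl := T.close
  have b1 := norm_add_sq_le_mu (r₁ - r₂) (r - r₁) (by norm_num : (0 : ℝ) < 1 / 100)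
  rw [sub_add_sub_cancel'] at b1
  have b2 := norm_add_sq_le_mu ((1 - 999 / 1000 : ℝ) • (r₂ - r₁)) ((999 / 1000 : ℝ) • (r - r₁))
    one_pos
  rw [← hom_sub, norm_smul, norm_smul, norm_sub_rev r₂, mul_pow, mul_pow, Real.norm_eq_abs,
    Real.norm_eq_abs, sq_abs, sq_abs] at b2
  have b3 := sg_hom r₂ (999 / 1000) r
  have b4 := sq_nonneg ‖r - r₂‖
  refine ⟨by linarith, hom_mem (G.convex_K hM hb) T.hr₂ hr.1 (by norm_num) (by norm_num),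
    (qc_hom (qc_wf hM hφ hb (h0.le.trans T.k_ge) e) T.hr₂ hr.1 (by norm_num) (by norm_num)).trans
      (max_le T.w₂_le (by linarith)), by linarith, by linarith, by linarith⟩

end LocGeo

end Crest.Agent.R226
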