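import Crest.Agent.R226.TVol
import Crest.Agent.R226.TTilt

/-! Row 226, `core`: localisation: from mass in a section to a new state. -/

set_option autoImplicit false

open Set Filter Metric MeasureTheory
open scoped Topology InnerProductSpace ENNReal

namespace Crest.Agent.R226

namespace LocGeo

variable {n : ℕ} {M : Type*} [MetricSpace M] [CompactSpace M] [MeasurableSpace M] [BorelSpace M]
  {G : LocGeo n M}

omit [CompactSpace M] in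
theorem St.mono {φ ψ : M → ℝ} {h ω m m' : ℝ} (H : G.St φ ψ h ω m) (h0 : 0 < m') (h1 : m' ≤ m) :
    G.St φ ψ h ω m' := by
  obtain ⟨b, q₁, q₂, A, hP, -, hm⟩ := H
  exact ⟨b, q₁, q₂, A, hP, h0, h1.trans hm⟩

omit [CompactSpace M] in
theorem St.pos {φ ψ : M → ℝ} {h ω m : ℝ} (H : G.St φ ψ h ω m) : 0 < h ∧ 0 < ω ∧ 0 < m := by
  obtain ⟨b, q₁, q₂, A, hP, h0, -⟩ := H
  exact ⟨hP.h_pos, hP.ω_pos, h0⟩

/-- `ω ≤ D²` by `IsCT.lip`, `exists_diam`; `m ≤ vol univ` (`vol_mono`). -/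
theorem St.bdd (G : LocGeo n M) : ∃ W V : ℝ, ∀ φ ψ : M → ℝ, IsCT univ φ ψ → ∀ h ω m,
    G.St φ ψ h ω m → ω ≤ W ∧ m ≤ V := by
  obtain ⟨D, hD1, hD⟩ := exists_diam M
  refine ⟨D * D, vol n (univ : Set M), ?_⟩
  rintro φ ψ hφ h ω m ⟨b, q₁, q₂, A, hP, -, hm⟩
  refine ⟨?_, hm.trans (G.vol_mono (subset_univ A))⟩
  rw [hP.ω_eq]
  exact (le_abs_self _).trans ((hφ.lip hD _ _).trans
    (mul_le_mul_of_nonneg_left (hD _ _) (by linarith)))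

omit [CompactSpace M] in
theorem Rise.mono {φ ψ : M → ℝ} {ε C h ω m ε' C' h' m' lam : ℝ} (H : G.Rise φ ψ ε C h ω m)
    (hω : 0 < ω) (hε0 : 0 ≤ ε') (hε : ε' ≤ ε) (hh0 : 0 ≤ h') (hh : h' ≤ h) (hh' : h ≤ lam * h')
    (hm : m' ≤ lam * m) (hC0 : 0 ≤ C) (hlam : 0 ≤ lam) (hC : lam * C ≤ C') :
    G.Rise φ ψ ε' C' h' ω m' := by
  obtain ⟨h₁, ω₁, m₁, hS, a1, a2, a3, a4⟩ := H
  obtain ⟨-, p2, p3⟩ := hS.pos
  refine ⟨h₁, ω₁, m₁, hS, le_trans (by gcongr) a1, by linarith, a3.trans ?_, ?_⟩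
  · calc C * ω₁ * h ≤ C * ω₁ * (lam * h') := by gcongr
      _ = lam * C * ω₁ * h' := by ring
      _ ≤ _ := by gcongr
  · calc m' * ω ^ 2 ≤ lam * m * ω ^ 2 := by gcongr
      _ = lam * (m * ω ^ 2) := by ring
      _ ≤ lam * (C * m₁ * ω₁ ^ 2) := by gcongr
      _ = lam * C * m₁ * ω₁ ^ 2 := by ring
      _ ≤ _ := by gcongr

/-- Localisation.  `b ∈ F` a frame at `y`, `q₂` = `exists_bottom` of the sublevel set
`Z = {r ∈ K b | Dd ≤ h}` (`sublevel`; it contains a lift `q'` of `x'`, `exists_min`).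
`g x = cst x y - sg q₂ ≥ cst x y - cst x' y = Dd x y - Dd x' y + φ x' - φ x ≥ ω₁ - h =: g₀` on `A`.
`heavy_class` gives `i` and `A_i`, `γ = 2^i g₀`; `heavy_piece` (`θ = 1/(4·10^5)`, `e = ex b`,
`S = lift b A_i`, `z = q₂`, `l = sg q₂`, `‖p - q₂‖² ≤ 2 g ≤ 4γ`) gives `Q ∋ q₁`; the new mass is
`ex b '' Q`, `m' = vol (ex b '' Q) > 0`.  `ω' = φ (ex q₂) - φ (ex q₁) = g(q₁) + Dd₂ - Dd₁`, so
`γ - h ≤ ω'`, `g(q₁) ≤ ω' + h`, `ω' ≥ ω₁ - 2h ≥ ω₁/2 ≥ 8·10^5 h`, `γ ≤ 2ω'`,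
`‖q₁ - q₂‖² ≤ 2(ω' + h) ≤ 17 ω'`, `s = 2·10^5 h/ω' ≤ 1/4`,
`tw ≤ h + (2/3) s θ γ ≤ 2h` (`tw_le`), `|φ x - φ x₁| ≤ θ γ + h ≤ ω'/10^5`,
`2^i ≤ γ / g₀ ≤ 4 ω'/ω₁`. -/
theorem loc (hM : G.MTW) : ∃ c > 0, ∀ φ ψ : M → ℝ, IsCT univ φ ψ → ∀ (y x' : M) (A : Set M)
    (h ω₁ : ℝ), IsCompact A → 0 < vol n A → 0 < h → 16 * 10 ^ 5 * h ≤ ω₁ → Dd φ ψ x' y ≤ h →
    (∀ x ∈ A, Dd φ ψ x y ≤ h ∧ φ x + ω₁ ≤ φ x') →
    ∃ ω' m', G.St φ ψ (2 * h) ω' m' ∧ ω₁ - 2 * h ≤ ω' ∧ c * ω₁ * vol n A ≤ m' * ω' := by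
  obtain ⟨c₀, hc₀, hpiece⟩ := G.heavy_piece (θ := 1 / (4 * 10 ^ 5)) (by norm_num)
  refine ⟨c₀ / 8, by positivity, fun φ ψ hφ y x' A h ω₁ hA hvA hh hω hx' hAx => ?_⟩
  obtain ⟨b, hbF, rfl⟩ := G.exists_frame y
  have hb := G.F_sub hbF
  have hD : ∀ r ∈ G.K b, Dd φ ψ (G.ex b r) (G.pt b) = φ (G.ex b r) + ψ (G.pt b) + sg r :=
    fun r hr => by rw [Dd, cst_K' hr]
  obtain ⟨hZc, hZv⟩ := sublevel hM hφ hb h
  obtain ⟨q', hq', rfl⟩ := G.exists_min hb x'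
  obtain ⟨q₂, ⟨hq₂, hD₂⟩, hbot⟩ := exists_bottom hZc hZv ⟨q', hq', hx'⟩
  have hq'₂ : sg q₂ ≤ sg q' := by
    have := hbot q' ⟨hq', hx'⟩
    nlinarith [sq_nonneg ‖q' - q₂‖]
  have hg₀ : 0 < ω₁ - h := by linarith
  have hgc : Continuous fun x : M => cst x (G.pt b) - sg q₂ := by
    unfold cst; fun_prop
  obtain ⟨i, hi⟩ := G.heavy_class (A := A) hgc hg₀ fun x hx => by
    have h1 := hAx x hx
    have h2 := hφ.Dd_nonneg x (G.pt b)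
    have h3 := hD q' hq'
    unfold Dd at h2
    linarith [h1.2]
  set Ai := A ∩ {x | 2 ^ i * (ω₁ - h) ≤ cst x (G.pt b) - sg q₂ ∧
    cst x (G.pt b) - sg q₂ ≤ 2 ^ (i + 1) * (ω₁ - h)} with hAi
  have hAic : IsCompact Ai :=
    hA.inter_right ((isClosed_le continuous_const hgc).inter (isClosed_le hgc continuous_const))
  have h2i : (1 : ℝ) ≤ 2 ^ i := one_le_pow₀ one_le_two
  have hvi : 0 < vol n Ai := by
    by_contra h0
    have : (2 : ℝ) ^ (i + 1) * vol n Ai ≤ 0 :=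
      mul_nonpos_of_nonneg_of_nonpos (by positivity) (not_lt.1 h0)
    linarith
  obtain ⟨γ, hγ⟩ : ∃ γ : ℝ, γ = 2 ^ i * (ω₁ - h) := ⟨_, rfl⟩
  have hγ1 : ω₁ - h ≤ γ := by rw [hγ]; nlinarith
  have hS : ∀ p ∈ G.lift b Ai, p ∈ G.K b ∧ Dd φ ψ (G.ex b p) (G.pt b) ≤ h ∧
      γ ≤ sg p - sg q₂ ∧ sg p - sg q₂ ≤ 2 * γ ∧ ‖p - q₂‖ ^ 2 / 2 ≤ sg p - sg q₂ := by
    rintro p ⟨hp, hpA, h1, h2⟩
    rw [cst_K' hp] at h1 h2
    refine ⟨hp, (hAx _ hpA).1, hγ ▸ h1, ?_, hbot p ⟨hp, (hAx _ hpA).1⟩⟩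
    rw [hγ]; rw [pow_succ] at h2; linarith
  have hSne : (G.lift b Ai).Nonempty := by
    have := nonempty_of_vol_pos hvi
    rw [← G.image_lift hb Ai] at this
    exact this.of_image
  obtain ⟨Q, hQS, hQc, ⟨q₁, hq₁Q⟩, hQv, hQ⟩ := hpiece (G.ex b) (G.lift b Ai) q₂ γ (sg q₂)
    (G.isCompact_lift hb hAic) hSne (by linarith) fun p hp => by
      obtain ⟨-, -, h1, h2, h3⟩ := hS p hp
      exact ⟨by linarith, by linarith, by linarith⟩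
  rw [G.image_lift hb] at hQv
  obtain ⟨hq₁, hD₁, l1, -, l3⟩ := hS q₁ (hQS hq₁Q)
  obtain ⟨ω', hω'⟩ : ∃ ω' : ℝ, ω' = φ (G.ex b q₂) - φ (G.ex b q₁) := ⟨_, rfl⟩
  have e₁ := hD q₁ hq₁
  have e₂ := hD q₂ hq₂
  have n₁ := hφ.Dd_nonneg (G.ex b q₁) (G.pt b)
  have n₂ := hφ.Dd_nonneg (G.ex b q₂) (G.pt b)
  have w1 : γ - h ≤ ω' := by linarith
  have w2 : sg q₁ - sg q₂ ≤ ω' + h := by linarith
  have w3 : 8 * 10 ^ 5 * h ≤ ω' := by linarith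
  have w0 : 0 < ω' := by linarith
  have w4 : γ ≤ 2 * ω' := by linarith
  obtain ⟨s, hs⟩ : ∃ s : ℝ, s = 10 ^ 5 * (2 * h) / ω' := ⟨_, rfl⟩
  have s1 : s * ω' = 10 ^ 5 * (2 * h) := by rw [hs]; field_simp
  have s0 : 0 < s := by rw [hs]; positivity
  have s2 : s ≤ 1 / 4 := by rw [hs, div_le_iff₀ w0]; linarith
  have hm' : 0 < vol n (G.ex b '' Q) := (mul_pos hc₀ hvi).trans_le hQv
  refine ⟨ω', vol n (G.ex b '' Q), ⟨b, q₁, q₂, G.ex b '' Q, ?_, hm', le_rfl⟩, by linarith, ?_⟩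
  · rw [← hs]
    refine ⟨hbF, hq₁, hq₂, by linarith, w0, hω', by linarith, by linarith, by linarith, s1.ge,
      hQc.image (G.continuous_ex hb), ?_, ?_⟩
    · rintro _ ⟨p, hp, rfl⟩
      obtain ⟨hpK, hDp, -⟩ := hS p (hQS hp)
      have t1 := tw_le (φ := φ) (ψ := ψ) hM hb hq₁ hpK s0 (by linarith)
      have t2 := (hQ p hp q₁ hq₁Q).1
      have t3 : s / (1 - s) / 2 ≤ s := by
        rw [div_div, div_le_iff₀ (by linarith)]; nlinarith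
      have t4 : s / (1 - s) / 2 * ‖p - q₁‖ ^ 2 ≤ s * (1 / (4 * 10 ^ 5) * (2 * ω')) :=
        mul_le_mul t3 (by linarith) (sq_nonneg _) s0.le
      linarith
    · rintro _ ⟨p, hp, rfl⟩
      obtain ⟨hpK, hDp, -⟩ := hS p (hQS hp)
      have t1 := abs_le.1 (hQ p hp q₁ hq₁Q).2
      have t2 := hD p hpK
      have t3 := hφ.Dd_nonneg (G.ex b p) (G.pt b)
      rw [abs_le]
      constructor <;> linarith [t1.1, t1.2]
  · have v1 : 2 ^ i * ω₁ ≤ 4 * ω' := by nlinarith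
    have v2 : 0 < ω₁ := by linarith
    calc c₀ / 8 * ω₁ * vol n A ≤ c₀ / 8 * ω₁ * (2 ^ (i + 1) * vol n Ai) := by gcongr
      _ = (2 ^ i * ω₁) / 4 * (c₀ * vol n Ai) := by ring
      _ ≤ ω' * vol n (G.ex b '' Q) := by
        refine mul_le_mul (by linarith) hQv (by positivity) w0.le
      _ = _ := mul_comm _ _

/-- mass which has risen.  `heavy_class` with `g x = φ x₁ - φ x`, `g₀ = ω/(4R)`; on the class `i`,
`Dd x y ≤ tw x ≤ (2/3) h + (4/3) s 2^(i+1) ω/(4R) = (2/3) h + 2^(i+1) h/3 ≤ 2^(i+1) h`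
(`Dd_le_tw`; `0 < s ≤ 1/(2·10^7)`); `loc` with height `2^(i+1) h`, `x' = x₂`,
`ω₁ = ω + 2^i ω/(4R)`; then `ω' ≥ ω + 2^i ω/(8R)`, so `2^i ω ≤ 8 R ω'`. -/
theorem rise_high (hM : G.MTW) : ∃ C ≥ (1 : ℝ), ∀ φ ψ : M → ℝ, IsCT univ φ ψ → ∀ R : ℝ,
    10 ^ 5 ≤ R → ∀ b ∈ G.F, ∀ q₁ ∈ G.K b, ∀ (x₂ : M) (h ω s : ℝ) (A : Set M), 0 < h →
    ω = φ x₂ - φ (G.ex b q₁) → s * ω = R * h → 2 * 10 ^ 7 * R * h ≤ ω →
    Dd φ ψ x₂ (G.pt b) ≤ h → IsCompact A → 0 < vol n A →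
    (∀ x ∈ A, ω / (4 * R) ≤ φ (G.ex b q₁) - φ x ∧
      G.tw φ ψ b q₁ s x ≤ 2 / 3 * h + 4 / 3 * s * (φ (G.ex b q₁) - φ x)) →
    G.Rise φ ψ (1 / (8 * R)) (C * R) h ω (vol n A) := by
  obtain ⟨c, hc, hloc⟩ := loc hM
  have hc' : 0 < 16 / c := by positivity
  refine ⟨32 + 16 / c, by linarith, ?_⟩
  intro φ ψ hφ R hR b hb q₁ hq₁ x₂ h ω s A hh hω hs hbig hD hA hv hx
  have hR0 : 0 < R := by linarith
  have hRh : 0 < R * h := mul_pos hR0 hh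
  have hω0 : 0 < ω := by linarith
  have hs0 : 0 < s := by
    by_contra h0
    nlinarith [mul_nonneg (neg_nonneg.2 (not_lt.1 h0)) hω0.le]
  have hs1 : s < 1 := by
    by_contra h0
    nlinarith [mul_nonneg (sub_nonneg.2 (not_lt.1 h0)) hω0.le]
  obtain ⟨g, hg⟩ : ∃ g, g = ω / (4 * R) := ⟨_, rfl⟩
  have hgR : 4 * R * g = ω := by rw [hg]; field_simp
  have hg0 : 0 < g := by rw [hg]; positivity
  have hsg : 4 * s * g = h := by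
    apply mul_left_cancel₀ hR0.ne'
    linear_combination s * hgR + hs
  have hgh : 5 * 10 ^ 6 * h ≤ g := by
    refine le_of_mul_le_mul_left ?_ hR0
    linarith
  rw [← hg] at hx
  have hcont : Continuous fun x => φ (G.ex b q₁) - φ x := continuous_const.sub hφ.continuous
  obtain ⟨i, hi⟩ := G.heavy_class hcont hg0 fun x hxA => (hx x hxA).1
  rw [pow_succ] at hi
  have hp : (1 : ℝ) ≤ 2 ^ i := one_le_pow₀ (by norm_num)
  generalize (2 : ℝ) ^ i = p at hi hp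
  have hph : h ≤ p * h := le_mul_of_one_le_left hh.le hp
  have hpg : p * (5 * 10 ^ 6 * h) ≤ p * g := mul_le_mul_of_nonneg_left hgh (by linarith)
  have hAi : IsCompact (A ∩ {x | p * g ≤ φ (G.ex b q₁) - φ x ∧ φ (G.ex b q₁) - φ x ≤ p * 2 * g}) :=
    hA.inter_right ((isClosed_le continuous_const hcont).inter (isClosed_le hcont continuous_const))
  have hvi : 0 < vol n (A ∩ {x | p * g ≤ φ (G.ex b q₁) - φ x ∧
      φ (G.ex b q₁) - φ x ≤ p * 2 * g}) :=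
    (mul_pos_iff_of_pos_left (by linarith)).1 (hv.trans_le hi)
  obtain ⟨ω', m', hS, a1, a2⟩ := hloc φ ψ hφ (G.pt b) x₂ _ (2 * (p * h)) (ω + p * g) hAi hvi
    (by linarith) (by linarith) (by linarith) fun x hxA => by
      refine ⟨(Dd_le_tw (G.F_sub hb) hq₁ hs0 hs1 x).trans ((hx x hxA.1).2.trans ?_), ?_⟩
      · have := mul_le_mul_of_nonneg_left hxA.2.2 hs0.le
        have e : s * (p * 2 * g) = p * h / 2 := by rw [← hsg]; ring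
        linarith
      · linarith [hxA.2.1]
  obtain ⟨-, p2, p3⟩ := hS.pos
  generalize vol n (A ∩ {x | p * g ≤ φ (G.ex b q₁) - φ x ∧
      φ (G.ex b q₁) - φ x ≤ p * 2 * g}) = v at hi hvi a2
  have hgp : g ≤ p * g := le_mul_of_one_le_left hg0.le hp
  have b1 : ω + p * g / 2 ≤ ω' := by linarith
  have b2 : p * ω ≤ 8 * R * ω' := by
    rw [← hgR]
    nlinarith
  refine ⟨_, ω', m', hS, ?_, by linarith, ?_, ?_⟩
  · have : 1 / (8 * R) * ω = g / 2 := by rw [hg]; field_simp; ring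
    linarith
  · have b3 := mul_le_mul_of_nonneg_left b2 hh.le
    have b4 : 0 ≤ 16 / c * R * ω' * h := by positivity
    linarith
  · have b3 : ω * v ≤ m' * ω' / c := by
      rw [le_div_iff₀ hc]
      nlinarith [mul_pos (mul_pos hc hg0) hvi, mul_nonneg (mul_pos hc hvi).le (sub_nonneg.2 hgp)]
    have b4 : p * ω * (ω * v) ≤ 8 * R * ω' * (m' * ω' / c) :=
      mul_le_mul b2 b3 (by positivity) (by positivity)
    have b5 := mul_le_mul_of_nonneg_right hi (sq_nonneg ω)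
    have b6 : 0 ≤ R * m' * ω' ^ 2 := by positivity
    calc vol n A * ω ^ 2 ≤ 2 * (p * ω * (ω * v)) := by linarith
      _ ≤ 2 * (8 * R * ω' * (m' * ω' / c)) := by linarith
      _ = 16 / c * R * m' * ω' ^ 2 := by ring
      _ ≤ _ := by linarith

/-- a much lower bottom.  The midpoint `hom q₁ (1/2) q₂` lies in the sublevel set (`sublevel`) and
`φ (mid) ≥ φ x₂ + ω` (`sg_hom`, `Dd_K`, `sg q₁ - sg q₂ ≤ ω + h`); `loc` with `ω₁ = 3ω/2`. -/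
theorem rise_drop (hM : G.MTW) : ∃ C ≥ (1 : ℝ), ∀ φ ψ : M → ℝ, IsCT univ φ ψ →
    ∀ b ∈ G.F, ∀ q₁ ∈ G.K b, ∀ q₂ ∈ G.K b, ∀ (h ω : ℝ) (A : Set M), 0 < h →
    ω = φ (G.ex b q₂) - φ (G.ex b q₁) → 2 * 10 ^ 7 * h ≤ ω →
    Dd φ ψ (G.ex b q₁) (G.pt b) ≤ h → Dd φ ψ (G.ex b q₂) (G.pt b) ≤ h →
    17 * ω ≤ ‖q₁ - q₂‖ ^ 2 → IsCompact A → 0 < vol n A →
    (∀ x ∈ A, Dd φ ψ x (G.pt b) ≤ h ∧ φ x - φ (G.ex b q₁) ≤ ω / 2) →
    G.Rise φ ψ (1 / 4) C h ω (vol n A) := by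
  obtain ⟨c, hc, H⟩ := loc hM
  refine ⟨2 + 1 / c, by have := one_div_pos.2 hc; linarith, ?_⟩
  intro φ ψ hφ b hb q₁ hq₁ q₂ hq₂ h ω A hh hω hωh hD₁ hD₂ hq hA hv hx
  have hbU := G.F_sub hb
  have hmid := hom_mem (sublevel hM hφ hbU h).2 (z := q₁) (r := q₂) ⟨hq₁, hD₁⟩ ⟨hq₂, hD₂⟩
    (t := 1 / 2) (by norm_num) (by norm_num)
  have h0 := hφ.Dd_nonneg (G.ex b (hom q₁ (1 / 2) q₂)) (G.pt b)
  have hφm : φ (G.ex b q₂) + ω ≤ φ (G.ex b (hom q₁ (1 / 2) q₂)) := by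
    have e := sg_hom q₁ (1 / 2) q₂
    rw [norm_sub_rev] at e
    unfold Dd at h0 hD₁ hD₂
    rw [cst_K' hmid.1] at h0
    rw [cst_K' hq₁] at hD₁
    rw [cst_K' hq₂] at hD₂
    linarith
  obtain ⟨ω', m', hS, h1, h2⟩ := H φ ψ hφ (G.pt b) (G.ex b (hom q₁ (1 / 2) q₂)) A h (3 * ω / 2) hA hv
    hh (by linarith) hmid.2 fun x hxA => ⟨(hx x hxA).1, by linarith [(hx x hxA).2]⟩
  have hm' := hS.pos.2.2
  have hω0 : 0 < ω := by linarith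
  have hωω : ω ≤ ω' := by linarith
  have hc' := one_div_pos.2 hc
  refine ⟨2 * h, ω', m', hS, by linarith, le_rfl, ?_, ?_⟩
  · have : 0 ≤ 1 / c * ω' * h := by have := hω0.trans_le hωω; positivity
    nlinarith
  · have h3 : c * (vol n A * ω) ≤ m' * ω' := by nlinarith [mul_pos hc (mul_pos hv hω0)]
    have h4 : vol n A * ω ≤ 1 / c * (m' * ω') := by
      rw [one_div, le_inv_mul_iff₀ hc]
      exact h3
    have h5 : 0 < m' * ω' := mul_pos hm' (hω0.trans_le hωω)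
    calc vol n A * ω ^ 2 = vol n A * ω * ω := by ring
      _ ≤ 1 / c * (m' * ω') * ω' := by gcongr
      _ ≤ (2 + 1 / c) * (m' * ω') * ω' := by
        have := hω0.trans_le hωω
        gcongr
        linarith
      _ = _ := by ring

/-- Split `A` into the compact sets `A₁ = A ∩ {ω/(4R) ≤ φ x₁ - φ x}` and
`A₂ = A ∩ {φ x₁ - φ x ≤ ω/(4R)}` (`vol_union_le`).  If `vol A ≤ 2 vol A₁`: `rise_high`,
`Rise.mono`.  Otherwise on `A₂`: `tw ≤ (2/3) h + (4/3) s ω/(4R) = h`, `|φ - φ x₁| ≤ ω/10^5`;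
either `rise_drop` (`Dd_le_tw`) or `A₂` gives a pre-state. -/
theorem post (hM : G.MTW) : ∃ C ≥ (1 : ℝ), ∀ φ ψ : M → ℝ, IsCT univ φ ψ → ∀ R : ℝ,
    10 ^ 5 ≤ R → ∀ b ∈ G.F, ∀ q₁ ∈ G.K b, ∀ q₂ ∈ G.K b, ∀ (h ω s : ℝ) (A : Set M), 0 < h →
    ω = φ (G.ex b q₂) - φ (G.ex b q₁) → s * ω = R * h → 2 * 10 ^ 7 * R * h ≤ ω →
    Dd φ ψ (G.ex b q₁) (G.pt b) ≤ h → Dd φ ψ (G.ex b q₂) (G.pt b) ≤ h →
    IsCompact A → 0 < vol n A →
    (∀ x ∈ A, φ x - φ (G.ex b q₁) ≤ ω / 10 ^ 5 ∧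
      G.tw φ ψ b q₁ s x ≤ 2 / 3 * h + 4 / 3 * s * max (φ (G.ex b q₁) - φ x) 0) →
    G.Rise φ ψ (1 / (8 * R)) (C * R) h ω (vol n A) ∨
      ∃ A', vol n A ≤ 2 * vol n A' ∧ G.Pre φ ψ b q₁ q₂ h ω s A' := by
  obtain ⟨C₁, hC₁, H₁⟩ := rise_high hM
  obtain ⟨C₂, hC₂, H₂⟩ := rise_drop hM
  refine ⟨2 * (C₁ + C₂), by linarith, ?_⟩
  intro φ ψ hφ R hR b hb q₁ hq₁ q₂ hq₂ h ω s A hh hω hs hωh hD₁ hD₂ hA hv hx
  have hbU := G.F_sub hb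
  have hR0 : 0 < R := by linarith
  have hRh : 10 ^ 5 * h ≤ R * h := by gcongr
  have hω0 : 0 < ω := by nlinarith
  have hs0 : 0 < s := by
    refine pos_of_mul_pos_right (a := ω) ?_ hω0.le
    rw [mul_comm, hs]
    positivity
  have hs1 : s < 1 := by
    refine lt_of_mul_lt_mul_right (a := ω) ?_ hω0.le
    nlinarith
  have hε : 0 ≤ 1 / (8 * R) := by positivity
  have hcont : Continuous fun x => φ (G.ex b q₁) - φ x := continuous_const.sub hφ.continuous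
  set A₁ := A ∩ {x | ω / (4 * R) ≤ φ (G.ex b q₁) - φ x} with hA₁
  set A₂ := A ∩ {x | φ (G.ex b q₁) - φ x ≤ ω / (4 * R)} with hA₂
  have cA₁ : IsCompact A₁ := hA.inter_right (isClosed_le continuous_const hcont)
  have cA₂ : IsCompact A₂ := hA.inter_right (isClosed_le hcont continuous_const)
  have hvol : vol n A ≤ vol n A₁ + vol n A₂ := by
    refine (G.vol_mono fun x hxA => ?_).trans (G.vol_union_le A₁ A₂)
    rcases le_total (ω / (4 * R)) (φ (G.ex b q₁) - φ x) with h' | h'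
    · exact Or.inl ⟨hxA, h'⟩
    · exact Or.inr ⟨hxA, h'⟩
  have hq0 : 0 < ω / (4 * R) := by positivity
  by_cases h1 : vol n A ≤ 2 * vol n A₁
  · left
    refine (H₁ φ ψ hφ R hR b hb q₁ hq₁ (G.ex b q₂) h ω s A₁ hh hω hs hωh hD₂ cA₁ (by linarith)
      fun x hxA => ⟨hxA.2, ?_⟩).mono (lam := 2) hω0 hε le_rfl hh.le le_rfl (by linarith) h1
      (by positivity) (by norm_num) (by nlinarith)
    have := (hx x hxA.1).2
    rwa [max_eq_left (hq0.le.trans hxA.2)] at this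
  have h2 : vol n A ≤ 2 * vol n A₂ := by linarith
  have hw : ∀ x ∈ A₂, G.tw φ ψ b q₁ s x ≤ h := fun x hxA => by
    have h3 : max (φ (G.ex b q₁) - φ x) 0 ≤ ω / (4 * R) := max_le hxA.2 hq0.le
    have h4 : s * (ω / (4 * R)) = h / 4 := by
      rw [← mul_div_assoc, hs]
      field_simp
    have h5 := mul_le_mul_of_nonneg_left h3 hs0.le
    linarith [(hx x hxA.1).2]
  by_cases hq : ‖q₁ - q₂‖ ^ 2 ≤ 17 * ω
  · right
    refine ⟨A₂, h2, hb, hq₁, hq₂, hh, hω0, hω, hD₁, hD₂, hq, by linarith, cA₂, hw, fun x hxA => ?_⟩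
    have h3 : ω / (4 * R) ≤ ω / 10 ^ 5 := by
      gcongr
      linarith
    have h4 : φ (G.ex b q₁) - φ x ≤ ω / (4 * R) := hxA.2
    rw [abs_le]
    constructor <;> linarith [(hx x hxA.1).1]
  · left
    refine (H₂ φ ψ hφ b hb q₁ hq₁ q₂ hq₂ h ω A₂ hh hω (by nlinarith) hD₁ hD₂ (le_of_not_ge hq) cA₂
      (by linarith) fun x hxA => ⟨(Dd_le_tw hbU hq₁ hs0 hs1 x).trans (hw x hxA), ?_⟩).mono (lam := 2)
      hω0 hε ?_ hh.le le_rfl (by linarith) h2 (by linarith) (by norm_num) (by nlinarith)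
    · linarith [(hx x hxA.1).1]
    · gcongr
      linarith

/-- the initial state.  `D` from `exists_diam`, `A = closedBall x₁ (h / (5 D²))` (radius `≤ 1`
because `6·10^5 h ≤ ω ≤ D²`), `b ∈ F` at `y`, lifts by `exists_min`, `diam_sec`;
`s = 3·10^5 h/ω ≤ 1/2`; `tw x - tw x₁ ≤ D d + 2 D d` (`IsCT.lip`, `abs_cst_sub_le`), `tw_self`,
`vol_ball'`. -/
theorem init (hM : G.MTW) : ∃ c > 0, ∀ φ ψ : M → ℝ, IsCT univ φ ψ → ∀ (y x₁ x₂ : M) (h : ℝ),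
    0 < h → Dd φ ψ x₁ y ≤ h → Dd φ ψ x₂ y ≤ h →
    (∀ x, Dd φ ψ x y ≤ h → φ x₁ ≤ φ x ∧ φ x ≤ φ x₂) → 6 * 10 ^ 5 * h ≤ φ x₂ - φ x₁ →
    G.St φ ψ (3 * h) (φ x₂ - φ x₁) (c * h ^ n) := by
  obtain ⟨D, hD1, hD⟩ := exists_diam M
  obtain ⟨c, hc, hv⟩ := G.vol_ball'
  have hD0 : 0 < D := by linarith
  refine ⟨c * (1 / (5 * D ^ 2)) ^ n, by positivity, ?_⟩
  intro φ ψ hφ y x₁ x₂ h h0 h1 h2 hx hω
  obtain ⟨b, hbF, rfl⟩ := G.exists_frame y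
  have hb := G.F_sub hbF
  obtain ⟨q₁, hq₁, rfl⟩ := G.exists_min hb x₁
  obtain ⟨q₂, hq₂, rfl⟩ := G.exists_min hb x₂
  set ω := φ (G.ex b q₂) - φ (G.ex b q₁) with hωe
  have hω0 : 0 < ω := by linarith
  have hωD : ω ≤ D ^ 2 := by
    have a1 := (abs_le.1 (hφ.lip hD (G.ex b q₂) (G.ex b q₁))).2
    have a2 := mul_le_mul_of_nonneg_left (hD (G.ex b q₂) (G.ex b q₁)) hD0.le
    linarith
  have hd0 : 0 < h / (5 * D ^ 2) := by positivity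
  have hd1 : h / (5 * D ^ 2) ≤ 1 := by
    rw [div_le_one (by positivity)]; linarith
  have hDd : D * (h / (5 * D ^ 2)) ≤ h / 5 := by
    rw [← mul_div_assoc, div_le_div_iff₀ (by positivity) (by norm_num)]
    nlinarith [mul_pos h0 hD0]
  have hs0 : 0 < 10 ^ 5 * (3 * h) / ω := by positivity
  have hs1 : 10 ^ 5 * (3 * h) / ω ≤ 1 / 2 := by
    rw [div_le_iff₀ hω0]; linarith
  have hlip : ∀ x ∈ closedBall (G.ex b q₁) (h / (5 * D ^ 2)), D * dist x (G.ex b q₁) ≤ h / 5 :=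
    fun x hx => (mul_le_mul_of_nonneg_left (mem_closedBall.1 hx) hD0.le).trans hDd
  refine ⟨b, q₁, q₂, closedBall (G.ex b q₁) (h / (5 * D ^ 2)),
    ⟨hbF, hq₁, hq₂, by linarith, hω0, rfl, by linarith, by linarith, ?_, ?_,
      isClosed_closedBall.isCompact, ?_, ?_⟩, by positivity, ?_⟩
  · have := diam_sec hM hφ hb (h := h) (ω := ω)
      (fun x x' a1 a2 => by linarith [(hx x a1).2, (hx x' a2).1]) hq₁ hq₂ h1 h2
    linarith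
  · rw [div_mul_cancel₀ _ hω0.ne']
  · intro x hxA
    generalize 10 ^ 5 * (3 * h) / ω = s at hs0 hs1
    have e := tw_self (φ := φ) (ψ := ψ) hb hq₁ hs0 (by linarith)
    have a1 := (abs_le.1 (hφ.lip hD x (G.ex b q₁))).2
    have a2 := (abs_le.1 (abs_cst_sub_le hD x (G.ex b q₁) (G.ex b (s • q₁)))).2
    have a3 := hlip x hxA
    have a4 : (cst x (G.ex b (s • q₁)) - cst (G.ex b q₁) (G.ex b (s • q₁))) / (1 - s) ≤
        2 * (h / 5) := by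
      rw [div_le_iff₀ (by linarith)]
      nlinarith
    rw [sub_div] at a4
    unfold tw at e ⊢
    linarith
  · intro x hxA
    have a1 := hφ.lip hD x (G.ex b q₁)
    have a3 := hlip x hxA
    rw [le_div_iff₀ (by norm_num)]
    linarith
  · refine le_trans (le_of_eq ?_) (hv _ _ hd0 hd1)
    rw [mul_assoc, ← mul_pow]
    congr 2
    ring

end LocGeo

end Crest.Agent.R226
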