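import Crest.Agent.R226.TVol
import Crest.Agent.R226.TTilt

/-! Row 226, `core`: moving a small set towards an anchor point. -/

set_option autoImplicit false

open Set Filter Metric MeasureTheory
open scoped Topology InnerProductSpace ENNReal

namespace Crest.Agent.R226

namespace LocGeo

variable {n : ℕ} {M : Type*} [MetricSpace M] [CompactSpace M] [MeasurableSpace M] [BorelSpace M]
  {G : LocGeo n M}

/-- The anchor `pa` is definitely lower than the small set `B`.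
Tilt at `pt a` towards `ex a pc` with `s = 10^7 H / g ≤ 10^-4`, `k = s/(1-s)`: `c, rc` from
`exists_tilt`, `w = tw φ ψ a pc s = wf φ c k e` on `K c` (`tw_eq_wf`), and
`Ex x = w x - Dd x (pt a) = (1+k) cst x (pt c) - cst x (pt a) + s sg pc`.  By `exists_tilt` and
`tw_le`, `k/2 ‖r - rc‖² ≤ Ex (ex c r) ≤ k/2 ‖p - pc‖²` if `ex c r = ex a p` (`r ∈ K c`, `p ∈ K a`).
So on `B`: `Ex ≤ 0.51 H`, `w ≤ 2H`, `‖r - rc‖² ≤ g/10^7`; at the anchor (`ra` from `exists_min`):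
`Ex ≤ 13.6·10^7 H ≤ 0.00136 g`, `‖ra - rc‖² ≤ 27 g`.  Levels:
`(1+k) sg r = sg p + Ex - s sg pc`, hence `g/40 ≤ sg r - sg ra ≤ 5.01 g` for `r ∈ lift c (ex a '' B)`.
`Y = ex c '' (hom ra (1 - 10^-4) '' lift c (ex a '' B))` (`move_down`, `image_lift`).
For `r'' = hom ra (1-θ) r`, `θ = 10^-4`: `θ g/40 ≤ sg r - sg r'' ≤ θ (5.01 + 14.1) g` (`sg_hom`,
`‖r - ra‖² ≤ 28.2 g`).  `three_point` with `r₀ = ra`, end point `r`, `B = 2H`,
`κ = 256·10^4 H / g ≤ k` gives `Dd (ex ra) z ≤ w ra + κ · 5.01 g`, and `w ra = Dd + Ex`.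
Level of `x = ex c r''`: `cst x (pt a) - sg pa = (1+k)(sg r'' - sg ra) - Ex x + Ex (ex a pa)` with
`0 ≤ Ex x ≤ max (..) ≤ 0.00136 g` because `r ↦ Ex (ex c r)` is quasiconvex (`dasm_kappa`, `qc_hom`). -/
theorem ol (hM : G.MTW) : ∃ c > 0, ∀ φ ψ : M → ℝ, IsCT univ φ ψ → ∀ a ∈ G.F, ∀ H g : ℝ, 0 < H →
    10 ^ 11 * H ≤ g → ∀ pa ∈ G.K a, ∀ pc ∈ G.K a, ∀ B ⊆ G.K a, IsCompact B →
    g / 32 ≤ sg pc - sg pa → sg pc - sg pa ≤ 5 * g → ‖pa - pc‖ ^ 2 ≤ 27 * g →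
    (∀ p ∈ B, Dd φ ψ (G.ex a p) (G.pt a) ≤ H ∧ ‖p - pc‖ ^ 2 ≤ g / 10 ^ 7 ∧
      |sg p - sg pc| ≤ g / 10 ^ 7) →
    ∃ Y : Set M, IsCompact Y ∧ c * vol n (G.ex a '' B) ≤ vol n Y ∧ ∀ x ∈ Y,
      g / 256 ≤ cst x (G.pt a) - sg pa ∧ cst x (G.pt a) - sg pa ≤ 9 * g ∧
      ∀ z, Dd φ ψ x z = 0 →
        Dd φ ψ (G.ex a pa) z ≤ Dd φ ψ (G.ex a pa) (G.pt a) + 2 * 10 ^ 8 * H := by
  obtain ⟨c₀, hc₀, hmove⟩ := move_down hM
  refine ⟨c₀, hc₀, fun φ ψ hφ a ha H g hH hg pa hpa pc hpc B hBK hBc h1 h2 h3 hB => ?_⟩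
  have haU := G.F_sub ha
  have hg0 : 0 < g := lt_of_lt_of_le (by positivity) hg
  set s : ℝ := 10 ^ 7 * H / g with hs
  have hs0 : 0 < s := by positivity
  have hsg : s * g = 10 ^ 7 * H := by rw [hs]; field_simp
  have hs1 : s ≤ 1 / 10 ^ 4 := by rw [hs, div_le_iff₀ hg0]; linarith
  have hs2 : s < 1 := by linarith
  obtain ⟨c, hc, hptc, rc, hrc, hrce, hlow⟩ := exists_tilt hM haU hpc hs0 hs2
  have hcU := G.F_sub hc
  set k : ℝ := s / (1 - s) with hk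
  have hsk : s ≤ k := by rw [hk, le_div_iff₀ (by linarith)]; nlinarith
  have hk1 : k ≤ 1.0002 * s := by rw [hk, div_le_iff₀ (by linarith)]; nlinarith
  have hk0 : 0 < k := hs0.trans_le hsk
  have hkg : k * g ≤ 1.0002 * (10 ^ 7 * H) := by rw [← hsg]; nlinarith
  set e : ℝ := ψ (G.pt a) + s * sg pc with he
  set Ex : E n → ℝ := fun r => (1 + k) * sg r + s * sg pc - cst (G.ex c r) (G.pt a) with hEx
  have hwf : ∀ r, G.wf φ c k e r = Dd φ ψ (G.ex c r) (G.pt a) + Ex r := fun r => by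
    simp only [hEx, he, wf, Dd]; ring
  have hEl : ∀ r ∈ G.K c, k / 2 * ‖r - rc‖ ^ 2 ≤ Ex r := fun r hr => by
    have := hlow φ ψ r hr
    rw [tw_eq_wf hs2 hptc hr, ← hk, ← he, hwf] at this
    linarith
  have hEu : ∀ r ∈ G.K c, ∀ p ∈ G.K a, G.ex a p = G.ex c r →
      Ex r ≤ k / 2 * ‖p - pc‖ ^ 2 ∧ ‖r - rc‖ ^ 2 ≤ ‖p - pc‖ ^ 2 ∧
        (1 + k) * sg r = sg p + Ex r - s * sg pc := fun r hr p hp hpr => by
    have h4 := tw_le (φ := φ) (ψ := ψ) hM haU hpc hp hs0 hs2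
    rw [hpr, tw_eq_wf hs2 hptc hr, ← hk, ← he, hwf] at h4
    have h5 := hEl r hr
    refine ⟨by linarith, le_of_mul_le_mul_left (a := k / 2) (by linarith) (by positivity), ?_⟩
    simp only [hEx]
    rw [← hpr, cst_K' hp]; ring
  have hE0 : ∀ r ∈ G.K c, 0 ≤ Ex r := fun r hr => le_trans (by positivity) (hEl r hr)
  obtain ⟨ra, hra, hrae⟩ := G.exists_min hcU (G.ex a pa)
  obtain ⟨a1, a2, a3⟩ := hEu ra hra pa hpa hrae.symm
  have a4 : Ex ra ≤ 13.6 * 10 ^ 7 * H := by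
    have : k / 2 * ‖pa - pc‖ ^ 2 ≤ k / 2 * (27 * g) := by gcongr
    linarith
  have a5 := hE0 ra hra
  have hS : ∀ r ∈ G.lift c (G.ex a '' B), r ∈ G.K c ∧ G.wf φ c k e r ≤ 2 * H ∧ Ex r ≤ H ∧
      ‖r - ra‖ ^ 2 ≤ 28.2 * g ∧ g / 40 ≤ sg r - sg ra ∧ sg r - sg ra ≤ 5.01 * g := by
    rintro r ⟨hr, p, hp, hpr⟩
    obtain ⟨b1, b2, b3⟩ := hEu r hr p (hBK hp) hpr
    obtain ⟨b4, b5, b6⟩ := hB p hp
    obtain ⟨b7, b8⟩ := abs_le.1 b6
    have b9 : Ex r ≤ 0.51 * H := by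
      have : k / 2 * ‖p - pc‖ ^ 2 ≤ k / 2 * (g / 10 ^ 7) := by gcongr
      linarith
    have b10 := hE0 r hr
    have b11 := norm_add_sq_le_mu (rc - ra) (r - rc) (μ := 1 / 100) (by norm_num)
    rw [show rc - ra + (r - rc) = r - ra by abel, norm_sub_rev rc ra] at b11
    have b12 : (1 + k) * (sg r - sg ra) = sg p - sg pa + Ex r - Ex ra := by linarith
    have b13 : 0 ≤ sg r - sg ra := by
      by_contra h
      have := mul_neg_of_pos_of_neg (show 0 < 1 + k by linarith) (not_le.1 h)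
      linarith
    refine ⟨hr, by rw [hwf, ← hpr]; linarith, by linarith, by linarith, ?_, ?_⟩
    · have : (1 + k) * (sg r - sg ra) ≤ 1.001 * (sg r - sg ra) := by gcongr; linarith
      linarith
    · have : 0 ≤ k * (sg r - sg ra) := by positivity
      linarith
  have hSc : IsCompact (G.lift c (G.ex a '' B)) :=
    G.isCompact_lift hcU (hBc.image (G.continuous_ex haU))
  have hm := hmove c hc ra hra _ (fun r hr => (hS r hr).1) hSc (1 - 1 / 10 ^ 4)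
    ⟨by norm_num, by norm_num⟩ fun r hr => by linarith [(hS r hr).2.2.2.2.1]
  rw [G.image_lift hcU] at hm
  refine ⟨_, (hSc.image (continuous_hom _ _)).image (G.continuous_ex hcU), hm, ?_⟩
  rintro _ ⟨_, ⟨r, hr, rfl⟩, rfl⟩
  obtain ⟨hrK, d1, d2, d3, d4, d5⟩ := hS r hr
  have hr'' : hom ra (1 - 1 / 10 ^ 4) r ∈ G.K c :=
    hom_mem (convex_K hM hcU) hra hrK (by norm_num) (by norm_num)
  have e1 := sg_hom ra (1 - 1 / 10 ^ 4) r
  have e2 := qc_hom (dasm_kappa hM hcU hk0.le (G.pt a)) hra hrK (t := 1 - 1 / 10 ^ 4)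
    (by norm_num) (by norm_num)
  set r'' := hom ra (1 - 1 / 10 ^ 4) r with hr''d
  have e3 : Ex r'' ≤ 13.6 * 10 ^ 7 * H := by
    have i1 : ∀ q, (1 + k) * (‖q‖ ^ 2 / 2) - cst (G.pt a) (G.ex c q) = Ex q - s * sg pc :=
      fun q => by simp only [hEx, sg]; rw [cst_comm]; ring
    simp only [i1] at e2
    rcases le_max_iff.1 e2 with h | h <;> linarith
  have e4 := hE0 r'' hr''
  have e5 : cst (G.ex c r'') (G.pt a) - sg pa = (1 + k) * (sg r'' - sg ra) - Ex r'' + Ex ra := by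
    have : Ex r'' = (1 + k) * sg r'' + s * sg pc - cst (G.ex c r'') (G.pt a) := rfl
    linarith
  have e6 : 0.0235 * g ≤ sg r'' - sg ra := by linarith
  have e7 : sg r'' - sg ra ≤ 5.01 * g := by nlinarith [sq_nonneg ‖r - ra‖]
  have e8 : g / (40 * 10 ^ 4) ≤ sg r - sg r'' := by nlinarith [sq_nonneg ‖r - ra‖]
  have e9 : 0 ≤ k * (sg r'' - sg ra) := mul_nonneg hk0.le (by linarith)
  have e10 : k * (sg r'' - sg ra) ≤ 1 / 1000 * (5.01 * g) := by gcongr <;> linarith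
  refine ⟨by linarith, by linarith, fun z hz => ?_⟩
  have hκ : 256 * 10 ^ 4 * H / g * g = 256 * 10 ^ 4 * H := by field_simp
  have hκ0 : 0 < 256 * 10 ^ 4 * H / g := by positivity
  have f1 := three_point hM hφ hcU (k := k) (e := e) (κ := 256 * 10 ^ 4 * H / g) (B := 2 * H)
    hra hrK (t := 1 - 1 / 10 ^ 4) (by norm_num) (by norm_num) hz
    (by rw [hwf]; exact add_nonneg (hφ.Dd_nonneg _ _) e4) d1
    (le_trans (by rw [hs]; gcongr; norm_num) hsk)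
    (by
      have := mul_le_mul_of_nonneg_left e8 hκ0.le
      rw [← hr''d]
      linarith)
  rw [← hr''d, hwf, hrae] at f1
  have f2 := mul_le_mul_of_nonneg_left e7 hκ0.le
  linarith

theorem h79_margin {g s : ℝ} (hg : 0 < g) (hs0 : 0 ≤ s) (hs : s ≤ 1 / 4) {pf pc p : E n}
    (h1 : s * ‖pc‖ ^ 2 ≤ g / 14) (h2 : 13 / 14 * g ≤ sg pc - sg pf)
    (h3 : ‖p - pc‖ ^ 2 ≤ g / 10 ^ 7) (h4 : |sg p - sg pc| ≤ g / 10 ^ 7)
    (h5 : ‖p - pf‖ ^ 2 / 2 ≤ sg p - sg pf) :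
    5 / 8 * ‖hom pf (1 / 2) p - (1 - s) • pc‖ ^ 2 + g / 50 ≤
      sg ((1 - s) • pc) - sg (hom pf (1 / 2) p) := by
  have e1 : hom pf (1 / 2) p - (1 - s) • pc = (-(1 / 2) : ℝ) • (p - pf) + (s • pc + (p - pc)) := by
    unfold hom; module
  have a1 := norm_add_sq_le_mu ((-(1 / 2) : ℝ) • (p - pf)) (s • pc + (p - pc)) one_pos
  have a2 := norm_add_sq_le_mu (s • pc) (p - pc) (μ := 1 / 100) (by norm_num)
  rw [norm_smul, mul_pow, Real.norm_eq_abs, sq_abs] at a1 a2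
  have a3 : s ^ 2 * ‖pc‖ ^ 2 ≤ g / 56 := by
    nlinarith [mul_nonneg hs0 (sq_nonneg ‖pc‖)]
  have a4 : sg pc - g / 14 ≤ (1 - s) ^ 2 * sg pc := by
    unfold sg
    nlinarith [mul_nonneg (sq_nonneg s) (sq_nonneg ‖pc‖)]
  have a5 := abs_le.1 h4
  rw [e1, sg_hom, sg_smul]
  linarith [a5.1, a5.2]

/-- The anchor `pa = (1 - s) pc ∈ K a` (`K_smul`) is almost at the level of `B`, which is
definitely above the bottom point `pf`.  No tilt: `w = wf φ a 0 (ψ (pt a)) = Dd` (`Dd_K`).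
`m = hom pf (1/2) p` (`move_bot`; `w m ≤ H` by `qc_wf`, `qc_hom`), `p'' = hom pa (1/2) m`
(`move_up`, `u₀ = 1/8`, `t₁ = 1/2`), `Y = ex a '' (..)`.
Margin `(5/8) ‖m - pa‖² + g/50 ≤ Δ := sg pa - sg m`: with `ζ = p - pf`, `γ = sg p - sg pf ≥ ‖ζ‖²/2`,
`γ ≥ (13/14 - 10^-7) g`, `Δ = (sg pa - sg p) + γ/2 + ‖ζ‖²/8`, `sg pa - sg p ≥ -(1/14 + 10^-7) g`
(`sg_smul`: `sg pc - sg pa = s(1 - s/2)‖pc‖² ≤ g/14`), `pa - m = ζ/2 + (pa - p)`,
`‖pa - m‖² ≤ ‖ζ‖²/2 + 2‖pa - p‖²`, `‖pa - pc‖² = s²‖pc‖² ≤ g/56`, `‖pa - p‖² ≤ 0.0182 g`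
(`norm_add_sq_le_mu`, `μ = 1/100`).
`three_point` with `r₀ = pa`, end point `m`, `t = 1/2`, `B = H`, `k = 0`, `κ = -4H/Δ`:
`sg p'' - sg m = Δ/2 - ‖m - pa‖²/8 ≥ 0.3 Δ`, `sg pa - sg p'' ≤ 0.7 Δ`. -/
theorem ol0 (hM : G.MTW) : ∃ c > 0, ∀ φ ψ : M → ℝ, IsCT univ φ ψ → ∀ a ∈ G.F, ∀ H g s : ℝ,
    0 < H → 0 < g → 0 ≤ s → s ≤ 1 / 4 → ∀ pf ∈ G.K a, ∀ pc ∈ G.K a, ∀ B ⊆ G.K a, IsCompact B →
    Dd φ ψ (G.ex a pf) (G.pt a) ≤ H → s * ‖pc‖ ^ 2 ≤ g / 14 → 13 / 14 * g ≤ sg pc - sg pf →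
    (∀ p ∈ B, Dd φ ψ (G.ex a p) (G.pt a) ≤ H ∧ ‖p - pc‖ ^ 2 ≤ g / 10 ^ 7 ∧
      |sg p - sg pc| ≤ g / 10 ^ 7 ∧ ‖p - pf‖ ^ 2 / 2 ≤ sg p - sg pf) →
    ∃ Y : Set M, IsCompact Y ∧ c * vol n (G.ex a '' B) ≤ vol n Y ∧ ∀ x ∈ Y,
      ∀ z, Dd φ ψ x z = 0 →
        Dd φ ψ (G.ex a ((1 - s) • pc)) z ≤ Dd φ ψ (G.ex a ((1 - s) • pc)) (G.pt a) + 3 * H := by
  obtain ⟨c₁, hc₁, h₁⟩ := move_bot hM
  obtain ⟨c₂, hc₂, h₂⟩ := move_up hM (u₀ := 1 / 8) (t₁ := 1 / 2) (by norm_num) (by norm_num)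
  refine ⟨c₂ * c₁, mul_pos hc₂ hc₁,
    fun φ ψ hφ a ha H g s hH hg hs0 hs pf hpf pc hpc B hB hBc hDf h1 h2 hp => ?_⟩
  have haU := G.F_sub ha
  have hK := LocGeo.convex_K hM haU
  have hpa : (1 - s) • pc ∈ G.K a := G.K_smul haU hpc ⟨by linarith, by linarith⟩
  have hm : ∀ p ∈ B, hom pf (1 / 2) p ∈ G.K a := fun p h =>
    hom_mem hK hpf (hB h) (by norm_num) (by norm_num)
  have hmar := fun p (h : p ∈ B) =>
    h79_margin hg hs0 hs h1 h2 (hp p h).2.1 (hp p h).2.2.1 (hp p h).2.2.2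
  have hc1 : IsCompact (hom pf (1 / 2) '' B) := hBc.image (continuous_hom _ _)
  refine ⟨G.ex a '' (hom ((1 - s) • pc) (1 / 2) '' (hom pf (1 / 2) '' B)),
    (hc1.image (continuous_hom _ _)).image (G.continuous_ex haU), ?_, ?_⟩
  · have v1 := h₁ a ha pf hpf B hB hBc (1 / 2) ⟨le_rfl, by norm_num⟩ fun p h => (hp p h).2.2.2
    have v2 := h₂ a ha _ hpa (hom pf (1 / 2) '' B) (by rintro _ ⟨p, h, rfl⟩; exact hm p h) hc1
      (1 / 2) ⟨le_rfl, by norm_num⟩ (by rintro _ ⟨p, h, rfl⟩; linarith [hmar p h])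
    rw [mul_assoc]
    exact (mul_le_mul_of_nonneg_left v1 hc₂.le).trans v2
  · rintro _ ⟨_, ⟨_, ⟨p, h, rfl⟩, rfl⟩, rfl⟩ z hz
    have hmK := hm p h
    have hΔ := hmar p h
    have hw : G.wf φ a 0 (ψ (G.pt a)) (hom pf (1 / 2) p) ≤ H := by
      refine (qc_hom (qc_wf hM hφ haU le_rfl _) hpf (hB h) (by norm_num) (by norm_num)).trans ?_
      rw [← Dd_K hpf, ← Dd_K (hB h)]
      exact max_le hDf (hp p h).1
    generalize hom pf (1 / 2) p = m at *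
    generalize (1 - s) • pc = pa at *
    have hW := sq_nonneg ‖m - pa‖
    have hΔ0 : 0 < sg pa - sg m := by linarith
    obtain ⟨u, hu, huH⟩ : ∃ u, 0 < u ∧ H = u * (sg pa - sg m) :=
      ⟨H / (sg pa - sg m), div_pos hH hΔ0, (div_mul_cancel₀ _ hΔ0.ne').symm⟩
    have hs' := sg_hom pa (1 / 2) m
    have hb := mul_le_mul_of_nonneg_left hΔ hu.le
    have hug := mul_pos hu hg
    have key := three_point hM hφ haU (κ := -(4 * u)) hpa hmK (by norm_num) (by norm_num) hz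
      (by
        rw [← Dd_K (hom_mem hK hpa hmK (by norm_num) (by norm_num))]
        exact hφ.Dd_nonneg _ _) hw (by linarith) (by rw [hs']; linarith)
    rw [← Dd_K hpa, hs'] at key
    linarith

end LocGeo

end Crest.Agent.R226
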