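import Crest.Agent.R226.TLoc

/-! Row 226, `core`: raising the top. -/

set_option autoImplicit false

open Set Filter Metric MeasureTheory
open scoped Topology InnerProductSpace ENNReal

namespace Crest.Agent.R226

namespace LocGeo

variable {n : ℕ} {M : Type*} [MetricSpace M] [CompactSpace M] [MeasurableSpace M] [BorelSpace M]
  {G : LocGeo n M}

omit [MeasurableSpace M] [BorelSpace M] in
/-- a point above the top.  Let `x_s` be a contact point of `pt b` (`hψ.exists_contact`,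
`Dd_comm`), `r_s ∈ K b` a lift, `ζ = r_s - r₁`.  As `wf r = Dd (ex r) (pt b) + k sg r + const`
(`Dd_K`), `k/2 ‖ζ‖² ≤ wf r_s = wf r₁ - Dd (ex r₁) (pt b) + k (sg r_s - sg r₁)
≤ -s ε ω + k (⟪r₁, ζ⟫ + ‖ζ‖²/2)`, so `⟪r₁, ζ⟫ ≥ (3/4) ε ω`.  Intermediate value theorem for
`u ↦ sg (hom r₁ u r_s) - sg r₁ = u ⟪r₁, ζ⟫ + u² ‖ζ‖²/2` on `[0, 1]`;
`Dd (ex ·) (pt b)` is quasiconvex (`qc_wf` with `k = 0`, `Dd_K`). -/
theorem Tilt.exists_up (hM : G.MTW) {φ ψ : M → ℝ} (hφ : IsCT univ φ ψ) (hψ : IsCT univ ψ φ)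
    {y : M} {b : P n} {r₁ r₂ : E n} {k e h ω s ε : ℝ} {A : Set M}
    (T : G.Tilt φ ψ y b r₁ r₂ k e h ω s A) (hε : 0 < ε)
    (hup : Dd φ ψ (G.ex b r₁) y + s * ε * ω ≤ Dd φ ψ (G.ex b r₁) (G.pt b)) :
    ∃ u ∈ G.K b, sg u - sg r₁ = ε * ω / 2 ∧ ‖u - r₁‖ ^ 2 ≤ ε * ω ∧
      G.wf φ b k e u ≤ G.wf φ b k e r₁ + k * (ε * ω / 2) := by
  have hb := G.F_sub T.hb
  have hω := T.ω_pos
  have hs : 0 < s := by
    have h1 := T.s_ge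
    have h2 := T.h_pos
    by_contra h3
    nlinarith [mul_nonneg (neg_nonneg.2 (not_lt.1 h3)) hω.le]
  have hk : 0 < k := lt_of_lt_of_le hs T.k_ge
  obtain ⟨x, hx⟩ := hψ.exists_contact (G.pt b)
  rw [← Dd_comm] at hx
  obtain ⟨r, hr, rfl⟩ := G.exists_min hb x
  have hw : ∀ p ∈ G.K b, G.wf φ b k e p =
      Dd φ ψ (G.ex b p) (G.pt b) + k * sg p + (e - ψ (G.pt b)) := by
    intro p hp
    rw [Dd_K hp, wf, wf]; ring
  have h1 := T.lower r hr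
  have h2 := hφ.Dd_nonneg (G.ex b r) y
  have h3 := T.w₁
  have h4 := hw r hr
  have h5 := hw r₁ T.hr₁
  have hεω : 0 < ε * ω := mul_pos hε hω
  have h6 : 3 / 4 * (ε * ω) ≤ sg r - sg r₁ - ‖r - r₁‖ ^ 2 / 2 := by
    have e1 : k * (3 / 4 * (ε * ω)) ≤ s * ε * ω := by
      nlinarith [mul_le_mul_of_nonneg_right T.k_le hεω.le]
    have e2 : s * ε * ω ≤ k * (sg r - sg r₁ - ‖r - r₁‖ ^ 2 / 2) := by linarith
    exact le_of_mul_le_mul_left (e1.trans e2) hk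
  have hc : ContinuousOn (fun t : ℝ => sg (hom r₁ t r) - sg r₁) (Icc 0 1) := by
    simp only [sg_hom]; fun_prop
  obtain ⟨t, ht, ht'⟩ := intermediate_value_Icc zero_le_one hc (show ε * ω / 2 ∈ _ from ⟨by
    simp only [sg_hom]; linarith, by
    simp only [sg_hom]; nlinarith [sq_nonneg ‖r - r₁‖]⟩)
  simp only at ht'
  have hu := hom_mem (convex_K hM hb) T.hr₁ hr ht.1 ht.2
  refine ⟨hom r₁ t r, hu, ht', ?_, ?_⟩
  · rw [hom_sub, sub_self, smul_zero, zero_add, norm_smul, mul_pow, Real.norm_eq_abs, sq_abs]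
    rw [sg_hom] at ht'
    nlinarith [mul_le_mul_of_nonneg_left h6 ht.1, mul_nonneg ht.1 hεω.le]
  · have h7 := qc_hom (qc_wf hM hφ hb le_rfl (ψ (G.pt b))) T.hr₁ hr ht.1 ht.2
    rw [← Dd_K (φ := φ) hu, ← Dd_K (φ := φ) T.hr₁, ← Dd_K (φ := φ) hr, hx,
      max_eq_left (hφ.Dd_nonneg _ _)] at h7
    rw [hw _ hu, h5, ← ht']
    linarith

omit [MeasurableSpace M] [BorelSpace M] in
/-- pointwise part.  `r' = hom r₂ (999/1000) r` (`Tilt.first`), `r'' = hom r₁ t r'`, `t = 2ε`: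
`96 ε ω/10^5 ≤ sg r₁ - sg r'' ≤ t (12/10^3 + 37/10^6) ω ≤ ε ω/40` (`sg_hom`),
`‖r'' - r₁‖² = t² ‖r' - r₁‖² ≤ 296 ε² ω/10^6`; `norm_add_sq_le_mu` with `μ = 1/2000`:
`‖r'' - u‖² ≤ (1 + 1/2000) ε ω + 2001 · 296 ε² ω/10^6 ≤ 1.0006 ε ω` (`ε ≤ 10^-4`), hence the
margin `(1/2 + 1/2000) ‖r'' - u‖² ≤ 0.50081 ε ω ≤ sg u - sg r''`.  For `r''' = hom u (1/4) r''`:
`sg r''' - sg r₁ ≥ (3/8 - 1/160 - (3/32)·1.0006) ε ω ≥ ε ω/4`, `wf r''' ≤ 9 s ω` (`qc_hom`;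
`wf u ≤ h + (2/3) s ε ω`), `φ (ex r''') - φ (ex r₁) = wf r''' - wf r₁ - (1+k)(sg r''' - sg r₁)
≤ 9 s ω - ε ω/4`. -/
theorem Tilt.raise_pt (hM : G.MTW) {φ ψ : M → ℝ} (hφ : IsCT univ φ ψ) {y : M} {b : P n}
    {r₁ r₂ : E n} {k e h ω s ε : ℝ} {A : Set M} (T : G.Tilt φ ψ y b r₁ r₂ k e h ω s A)
    (hε : 0 < ε) (hε1 : ε ≤ 1 / 10 ^ 4) (hs : s ≤ ε / 100) {u : E n} (hu : u ∈ G.K b)
    (hu1 : sg u - sg r₁ = ε * ω / 2) (hu2 : ‖u - r₁‖ ^ 2 ≤ ε * ω)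
    (hu3 : G.wf φ b k e u ≤ G.wf φ b k e r₁ + k * (ε * ω / 2)) {r : E n} (hr : r ∈ G.lift b A) :
    hom r₁ (2 * ε) (hom r₂ (999 / 1000) r) ∈ G.K b ∧
      (1 / 2 + 1 / 2000) * ‖hom r₁ (2 * ε) (hom r₂ (999 / 1000) r) - u‖ ^ 2 ≤
        sg u - sg (hom r₁ (2 * ε) (hom r₂ (999 / 1000) r)) ∧
      Dd φ ψ (G.ex b (hom u (1 / 4) (hom r₁ (2 * ε) (hom r₂ (999 / 1000) r)))) y ≤ 9 * s * ω ∧
      φ (G.ex b (hom u (1 / 4) (hom r₁ (2 * ε) (hom r₂ (999 / 1000) r)))) + ε * ω / 8 ≤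
        φ (G.ex b r₁) := by
  obtain ⟨-, hK, hw, hN, hL1, hL2⟩ := T.first hM hφ hr
  generalize hom r₂ (999 / 1000) r = r' at hK hw hN hL1 hL2 ⊢
  have hb := G.F_sub T.hb
  have hC := LocGeo.convex_K hM hb
  have hω := T.ω_pos
  have hh := T.h_pos
  have hsω : 0 < s * ω := by linarith [T.s_ge]
  have hs0 : 0 < s := (mul_pos_iff_of_pos_right hω).1 hsω
  have hk : 0 ≤ k := hs0.le.trans T.k_ge
  have hq := qc_wf hM hφ hb hk e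
  have hεω : 0 < ε * ω := mul_pos hε hω
  have t0 : 0 ≤ 2 * ε := by linarith
  have t1 : 2 * ε ≤ 1 := by linarith
  have hK2 := hom_mem hC T.hr₁ hK t0 t1
  have hw2 := qc_hom hq T.hr₁ hK t0 t1
  have hs2 := sg_hom r₁ (2 * ε) r'
  have hN2 : ‖hom r₁ (2 * ε) r' - r₁‖ ^ 2 = (2 * ε) ^ 2 * ‖r' - r₁‖ ^ 2 := by
    rw [hom, add_sub_cancel_left, norm_smul, mul_pow, Real.norm_eq_abs, sq_abs]
  have hN0 : 0 ≤ ‖r' - r₁‖ ^ 2 := sq_nonneg _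
  generalize hom r₁ (2 * ε) r' = r'' at hK2 hw2 hs2 hN2 ⊢
  have a1 : ε * ‖r' - r₁‖ ^ 2 ≤ 74 / 10 ^ 6 * (ε * ω) := by nlinarith
  have a2 : 48 / 10 ^ 5 * (ε * ω) ≤ ε * (sg r₁ - sg r') := by nlinarith
  have a3 : ε * (sg r₁ - sg r') ≤ 12 / 10 ^ 3 * (ε * ω) := by nlinarith
  have a0 : 0 ≤ ε * ‖r' - r₁‖ ^ 2 := mul_nonneg hε.le hN0
  have a4 : 0 ≤ ε * (ε * ‖r' - r₁‖ ^ 2) := mul_nonneg hε.le a0
  have a5 : ε * (ε * ‖r' - r₁‖ ^ 2) ≤ 1 / 10 ^ 4 * (ε * ‖r' - r₁‖ ^ 2) :=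
    mul_le_mul_of_nonneg_right hε1 a0
  have b1 : 96 / 10 ^ 5 * (ε * ω) ≤ sg r₁ - sg r'' := by nlinarith
  have b2 : sg r₁ - sg r'' ≤ ε * ω / 40 := by nlinarith
  have b3 : ‖r'' - r₁‖ ^ 2 ≤ 296 / 10 ^ 10 * (ε * ω) := by nlinarith
  have b4 : ‖r'' - u‖ ^ 2 ≤ 10006 / 10000 * (ε * ω) := by
    have h1 := norm_add_sq_le_mu (r₁ - u) (r'' - r₁) (μ := 1 / 2000) (by norm_num)
    rw [show r₁ - u + (r'' - r₁) = r'' - u by abel, norm_sub_rev r₁ u] at h1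
    norm_num at h1
    linarith
  have q0 : (0 : ℝ) ≤ 1 / 4 := by norm_num
  have q1 : (1 / 4 : ℝ) ≤ 1 := by norm_num
  have hK3 := hom_mem hC hu hK2 q0 q1
  have hw3 := qc_hom hq hu hK2 q0 q1
  have hs3 := sg_hom u (1 / 4) r''
  have hl := T.lower _ hK3
  have hN3 : 0 ≤ k / 2 * ‖hom u (1 / 4) r'' - r₁‖ ^ 2 := by positivity
  generalize hom u (1 / 4) r'' = r3 at hK3 hw3 hs3 hl hN3 ⊢
  have c1 : ε * ω / 4 ≤ sg r3 - sg r₁ := by linarith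
  have c0 : k * (ε * ω / 2) ≤ s * ω := by
    have h1 : k * (ε * ω / 2) ≤ 4 / 3 * s * (ε * ω / 2) :=
      mul_le_mul_of_nonneg_right (by linarith [T.k_le]) (by linarith)
    have h2 : ε * (s * ω) ≤ 1 / 10 ^ 4 * (s * ω) := mul_le_mul_of_nonneg_right hε1 hsω.le
    linarith
  have c2 : G.wf φ b k e r3 ≤ 9 * s * ω := by
    refine hw3.trans (max_le ?_ (hw2.trans (max_le ?_ hw)))
    · linarith [T.w₁_le, T.s_ge]
    · linarith [T.w₁_le, T.s_ge]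
  refine ⟨hK2, by linarith, by linarith, ?_⟩
  have d0 : 0 ≤ G.wf φ b k e r₁ := T.w₁ ▸ hφ.Dd_nonneg _ _
  have d1 : s * ω ≤ ε / 100 * ω := mul_le_mul_of_nonneg_right hs hω.le
  have d2 : 0 ≤ k * (sg r3 - sg r₁) := mul_nonneg hk (by linarith)
  unfold wf at c2 d0
  linarith

/-- `Pre.tilt`, `Tilt.exists_up`; three moves: `move_down` (towards `r₂`), `move_up` (`u₀ = 1`,
`t₁ = 2ε`, towards `r₁`, `Tilt.first`), `move_up` (`u₀ = 1/2000`, `t₁ = 1/4`, towards `u`,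
`Tilt.raise_pt`).  Then `loc` with height `9 s ω`, `x' = ex b q₂` (`h ≤ s ω`),
`ω₁ = (1 + ε/8) ω`: `ω' ≥ ω₁ - 18 s ω ≥ (1 + ε/16) ω`, `h' = 18 s ω = 18 R h`. -/
theorem raise (hM : G.MTW) {ε R : ℝ} (hε : 0 < ε) (hε1 : ε ≤ 1 / 10 ^ 6) (hR : 10 ^ 5 ≤ R) :
    ∃ C ≥ (1 : ℝ), ∀ φ ψ : M → ℝ, IsCT univ φ ψ → IsCT univ ψ φ → ∀ (b : P n) (q₁ q₂ : E n)
      (h ω s : ℝ) (A : Set M), G.Pre φ ψ b q₁ q₂ h ω s A → 0 < vol n A → s * ω = R * h →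
      s ≤ ε / 300 →
      Dd φ ψ (G.ex b q₁) (G.pt b) + s * ε * ω ≤ Dd φ ψ (G.ex b q₁) (G.ex b (s • q₁)) →
      G.Rise φ ψ (ε / 16) C h ω (vol n A) := by
  obtain ⟨c₁, hc₁, m₁⟩ := move_down hM
  obtain ⟨c₂, hc₂, m₂⟩ := move_up hM (u₀ := 1) (t₁ := 2 * ε) one_pos (by linarith)
  obtain ⟨c₃, hc₃, m₃⟩ := move_up hM (u₀ := 1 / 2000) (t₁ := 1 / 4) (by norm_num) (by norm_num)
  obtain ⟨c₄, hc₄, hloc⟩ := loc hM
  have hcc : 0 < c₄ * c₃ * c₂ * c₁ := by positivity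
  have hcc' : 0 < 1 / (c₄ * c₃ * c₂ * c₁) := by positivity
  refine ⟨18 * R + 1 / (c₄ * c₃ * c₂ * c₁), by linarith, ?_⟩
  intro φ ψ hφ hψ b q₁ q₂ h ω s A H hA hsR hs hup
  have hω := H.ω_pos
  have hh := H.h_pos
  have hsω : 0 < s * ω := lt_of_lt_of_le (by positivity) H.s_ge
  obtain ⟨c, r₁, r₂, k, e, e0, e1, e2, T⟩ := H.tilt hM hφ (by linarith)
  have hc := G.F_sub T.hb
  obtain ⟨u, hu, hu1, hu2, hu3⟩ := T.exists_up hM hφ hψ hε (by rw [e0, e1]; exact hup)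
  have hpt := fun r hr => T.raise_pt hM hφ hε (by linarith) (by linarith) hu hu1 hu2 hu3 (r := r) hr
  have hfi := fun r hr => T.first hM hφ (r := r) hr
  set S₀ := G.lift c A with hS₀
  set S₁ := hom r₂ (999 / 1000) '' S₀ with hS₁
  set S₂ := hom r₁ (2 * ε) '' S₁ with hS₂
  set S₃ := hom u (1 / 4) '' S₂ with hS₃
  have k₀ : IsCompact S₀ := G.isCompact_lift hc T.compact
  have k₁ : IsCompact S₁ := k₀.image (continuous_hom _ _)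
  have k₂ : IsCompact S₂ := k₁.image (continuous_hom _ _)
  have k₃ : IsCompact S₃ := k₂.image (continuous_hom _ _)
  have v₁ := m₁ c T.hb r₂ T.hr₂ S₀ (fun r hr => hr.1) k₀ (999 / 1000) ⟨by norm_num, by norm_num⟩
    fun r hr => (hfi r hr).1
  rw [hS₀, G.image_lift hc] at v₁
  have v₂ := m₂ c T.hb r₁ T.hr₁ S₁ (by rintro _ ⟨r, hr, rfl⟩; exact (hfi r hr).2.1) k₁ (2 * ε)
    ⟨le_rfl, by linarith⟩ (by
      rintro _ ⟨r, hr, rfl⟩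
      obtain ⟨-, -, -, a1, a2, -⟩ := hfi r hr
      linarith)
  have v₃ := m₃ c T.hb u hu S₂ (by rintro _ ⟨_, ⟨r, hr, rfl⟩, rfl⟩; exact (hpt r hr).1) k₂ (1 / 4)
    ⟨le_rfl, by norm_num⟩ (by rintro _ ⟨_, ⟨r, hr, rfl⟩, rfl⟩; exact (hpt r hr).2.1)
  have v₄ : c₃ * c₂ * c₁ * vol n A ≤ vol n (G.ex c '' S₃) := by
    calc c₃ * c₂ * c₁ * vol n A = c₃ * (c₂ * (c₁ * vol n A)) := by ring
      _ ≤ c₃ * (c₂ * vol n (G.ex c '' S₁)) := by gcongr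
      _ ≤ c₃ * vol n (G.ex c '' S₂) := by gcongr
      _ ≤ _ := v₃
  have hs' : s * ω ≤ ε / 300 * ω := mul_le_mul_of_nonneg_right hs hω.le
  have hε' : ε * ω ≤ 1 / 10 ^ 6 * ω := mul_le_mul_of_nonneg_right hε1 hω.le
  have hεω : 0 < ε * ω := mul_pos hε hω
  obtain ⟨ω', m', hSt, a1, a2⟩ := hloc φ ψ hφ (G.pt b) (G.ex b q₂) (G.ex c '' S₃) (9 * s * ω)
    ((1 + ε / 8) * ω) (k₃.image (G.continuous_ex hc)) (lt_of_lt_of_le (by positivity) v₄)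
    (by linarith) (by linarith) (by linarith [H.D₂, H.s_ge]) (by
      rintro _ ⟨_, ⟨_, ⟨_, ⟨r, hr, rfl⟩, rfl⟩, rfl⟩, rfl⟩
      obtain ⟨-, -, b1, b2⟩ := hpt r hr
      rw [e1] at b2
      exact ⟨b1, by linarith [H.ω_eq]⟩)
  have a3 : (1 + ε / 16) * ω ≤ ω' := by linarith
  have a4 : ω ≤ ω' := by linarith
  have hω' : 0 < ω' := lt_of_lt_of_le hω a4
  have hm' := hSt.pos.2.2
  have hRh : 10 ^ 5 * h ≤ R * h := mul_le_mul_of_nonneg_right hR hh.le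
  refine ⟨_, ω', m', hSt, a3, by linarith, ?_, ?_⟩
  · calc 2 * (9 * s * ω) * ω = 18 * R * ω * h := by linear_combination 18 * ω * hsR
      _ ≤ _ := by
        have : 0 < R := by linarith
        gcongr
        linarith
  · have b1 : c₄ * c₃ * c₂ * c₁ * (vol n A * ω) ≤ m' * ω' := by
      calc _ = c₄ * ω * (c₃ * c₂ * c₁ * vol n A) := by ring
        _ ≤ c₄ * ((1 + ε / 8) * ω) * vol n (G.ex c '' S₃) := by
            gcongr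
            linarith
        _ ≤ _ := a2
    have b2 : vol n A * ω ≤ 1 / (c₄ * c₃ * c₂ * c₁) * (m' * ω') := by
      rw [one_div, ← div_eq_inv_mul, le_div_iff₀' hcc]; exact b1
    calc vol n A * ω ^ 2 = vol n A * ω * ω := by ring
      _ ≤ (18 * R + 1 / (c₄ * c₃ * c₂ * c₁)) * (m' * ω') * ω' := by
        refine mul_le_mul (b2.trans ?_) a4 hω.le (by positivity)
        gcongr
        linarith
      _ = _ := by ring

end LocGeo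

end Crest.Agent.R226
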