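import Crest.Agent.R226.TOL

/-! Row 226, `core`: the `y`-step. -/

set_option autoImplicit false

open Set Filter Metric MeasureTheory
open scoped Topology InnerProductSpace ENNReal

namespace Crest.Agent.R226

namespace LocGeo

variable {n : ℕ} {M : Type*} [MetricSpace M] [CompactSpace M] [MeasurableSpace M] [BorelSpace M]
  {G : LocGeo n M}

/-- a heavy piece of a class and its radial sweep.  `heavy_piece` with `θ = 10^-8`, `z = pf`,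
`l = sg pf` (the points of `T` lie in the sublevel set, so `‖p - pf‖²/2 ≤ sg p - sg pf ≤ 4g`);
`B = sw (τ/10^10) Q`, `pc ∈ Q`.  For `q = (1-t) p`, `p ∈ Q`, `0 ≤ t ≤ τ/10^10`: `q` lies on the
segment from `p` to `(1-τ) p`, hence in the sublevel set (`sublevel`, `K_smul`);
`τ ‖p‖²/2 ≤ sg p - sg ((1-τ) p) ≤ sg p - sg pf ≤ 4 g` (`sg_smul`, bottom property for `(1-τ) p`),
so `t ‖p‖² ≤ 8g/10^10`, `‖q - p‖² = t²‖p‖² ≤ t‖p‖²`, `0 ≤ sg p - sg q ≤ t ‖p‖²`. -/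
theorem ylem_class (hM : G.MTW) : ∃ c > 0, ∀ φ ψ : M → ℝ, IsCT univ φ ψ → ∀ a ∈ G.F,
    ∀ H g τ N : ℝ, 0 < g → 0 ≤ τ → τ ≤ 1 → 0 ≤ N → ∀ pf : E n,
    (∀ p ∈ G.K a, Dd φ ψ (G.ex a p) (G.pt a) ≤ H → ‖p - pf‖ ^ 2 / 2 ≤ sg p - sg pf) →
    ∀ T ⊆ G.K a, IsCompact T → T.Nonempty →
    (∀ p ∈ T, Dd φ ψ (G.ex a p) (G.pt a) ≤ H ∧ Dd φ ψ (G.ex a ((1 - τ) • p)) (G.pt a) ≤ H ∧
      sg p - sg pf ≤ 4 * g) →
    (∀ Q ⊆ T, IsCompact Q → N * vol n (G.ex a '' Q) ≤ vol n (G.ex a '' sw (τ / 10 ^ 10) Q)) →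
    ∃ pc ∈ T, ∃ B ⊆ G.K a, IsCompact B ∧ c * N * vol n (G.ex a '' T) ≤ vol n (G.ex a '' B) ∧
      ∀ p ∈ B, Dd φ ψ (G.ex a p) (G.pt a) ≤ H ∧ ‖p - pc‖ ^ 2 ≤ g / 10 ^ 7 ∧
        |sg p - sg pc| ≤ g / 10 ^ 7 := by
  obtain ⟨c, hc, hp⟩ := G.heavy_piece (θ := 1 / 10 ^ 8) (by positivity)
  refine ⟨c, hc, fun φ ψ hφ a ha H g τ N hg hτ0 hτ1 hN pf hbot T hTK hT hne hTp hsw => ?_⟩
  have hU := G.F_sub ha
  obtain ⟨Q, hQT, hQ, ⟨pc, hpc⟩, hv, hsm⟩ := hp (G.ex a) T pf g (sg pf) hT hne hg fun p hp => by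
    have h1 := hbot p (hTK hp) (hTp p hp).1
    have h2 := (hTp p hp).2.2
    have h3 := sq_nonneg ‖p - pf‖
    refine ⟨by linarith, by linarith, by linarith⟩
  have key : ∀ q ∈ sw (τ / 10 ^ 10) Q, (q ∈ G.K a ∧ Dd φ ψ (G.ex a q) (G.pt a) ≤ H) ∧
      ‖q - pc‖ ^ 2 ≤ g / 10 ^ 7 ∧ |sg q - sg pc| ≤ g / 10 ^ 7 := by
    intro q hq
    obtain ⟨t, ⟨ht0, ht⟩, p, hpQ, rfl⟩ := mem_sw.1 hq
    have hpK := hTK (hQT hpQ)
    obtain ⟨d1, d2, d3⟩ := hTp p (hQT hpQ)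
    have hK2 : (1 - τ) • p ∈ G.K a := G.K_smul hU hpK ⟨by linarith, by linarith⟩
    have htτ : t ≤ τ := by linarith
    have ht1 : t ≤ 1 := htτ.trans hτ1
    obtain ⟨u, hu0, hu1, hu⟩ : ∃ u : ℝ, 0 ≤ u ∧ u ≤ 1 ∧ t = u * τ := by
      rcases hτ0.lt_or_eq with h | h
      · exact ⟨t / τ, by positivity, (div_le_one h).2 htτ, by field_simp⟩
      · exact ⟨0, le_rfl, zero_le_one, by linarith⟩
    have e : (1 - t) • p = hom p u ((1 - τ) • p) := by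
      rw [hom_eq, hu]
      module
    have b1 := hbot _ hK2 d2
    have b2 := sq_nonneg ‖(1 - τ) • p - pf‖
    rw [sg_smul] at b1
    have hP : 0 ≤ sg p := sg_nonneg p
    have b3 : τ * sg p ≤ 4 * g := by nlinarith [mul_nonneg (mul_nonneg hτ0 (sub_nonneg.2 hτ1)) hP]
    have b4 : t * sg p ≤ 4 * g / 10 ^ 10 := by
      have := mul_le_mul_of_nonneg_right ht hP
      linarith
    have b5 : t ^ 2 * sg p ≤ t * sg p := by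
      nlinarith [mul_nonneg (mul_nonneg ht0 (sub_nonneg.2 ht1)) hP]
    have b6 : 0 ≤ t ^ 2 * sg p := mul_nonneg (sq_nonneg t) hP
    have b7 : 0 ≤ t * sg p := mul_nonneg ht0 hP
    obtain ⟨s1, s2⟩ := hsm p hpQ pc hpc
    refine ⟨?_, ?_, ?_⟩
    · rw [e]
      exact hom_mem (sublevel hM hφ hU H).2 ⟨hpK, d1⟩ ⟨hK2, d2⟩ hu0 hu1
    · have e2 : (1 - t) • p - pc = (p - pc) + (-t) • p := by module
      have e3 : ‖(-t) • p‖ ^ 2 = 2 * (t ^ 2 * sg p) := by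
        have := sg_smul (-t) p
        unfold sg at this ⊢
        linarith
      have := norm_add_sq_le_mu (p - pc) ((-t) • p) one_pos
      rw [e2]
      rw [e3] at this
      linarith
    · rw [sg_smul, abs_le] at *
      constructor <;> linarith [s2.1, s2.2]
  refine ⟨pc, hQT hpc, sw (τ / 10 ^ 10) Q, fun q hq => (key q hq).1.1, isCompact_sw _ hQ, ?_,
    fun q hq => ⟨(key q hq).1.2, (key q hq).2⟩⟩
  refine le_trans ?_ (hsw Q hQT hQ)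
  rw [mul_comm c N, mul_assoc]
  exact mul_le_mul_of_nonneg_left hv hN

theorem h72_sg_smul (s : ℝ) (p : E n) : sg p - sg ((1 - s) • p) = s * ‖p‖ ^ 2 * (1 - s / 2) := by
  rw [sg_smul, sg]
  ring

theorem h72_norm_smul (s : ℝ) (p : E n) : ‖(1 - s) • p - p‖ ^ 2 = s * (s * ‖p‖ ^ 2) := by
  have : (1 - s) • p - p = (-s) • p := by module
  rw [this, norm_smul, mul_pow, Real.norm_eq_abs, sq_abs]
  ring

theorem h72_vol {c₁ c₂ c N T B Y : ℝ} (h₁ : 0 < c₁) (hc : c ≤ c₂) (hc0 : 0 < c) (hB : 0 ≤ B)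
    (h1 : c₁ * N * T ≤ B) (h2 : c₂ * B ≤ Y) : c₁ * c * N * T ≤ Y := by
  have a1 := mul_le_mul_of_nonneg_left h1 hc0.le
  have a2 := mul_le_mul_of_nonneg_right hc hB
  have _ := h₁
  linarith

theorem h72_high {g s nc n0 σc σ0 σf σa u v w d : ℝ} (hg : 0 < g) (hs0 : 0 ≤ s) (hs1 : s ≤ 1 / 4)
    (hc : 0 ≤ nc) (h0 : 0 ≤ n0) (ec : σc = nc / 2) (e0 : σ0 = n0 / 2) (a2 : g ≤ σc - σf + s * nc)
    (a3 : σc - σf + s * nc ≤ 4 * g) (hg₀ : σ0 - σf + s * n0 ≤ g / 4) (a4 : w ^ 2 / 2 ≤ σc - σf)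
    (a5 : v ^ 2 / 2 ≤ σ0 - σf) (a6 : σ0 - σa = s * n0 * (1 - s / 2)) (a7 : u ^ 2 = s * (s * n0))
    (b7 : d ≤ (u + v + w) ^ 2) : g / 32 ≤ σc - σa ∧ σc - σa ≤ 5 * g ∧ d ≤ 27 * g := by
  have b1 : 0 ≤ s * nc := mul_nonneg hs0 hc
  have b2 : 0 ≤ s * n0 := mul_nonneg hs0 h0
  have hv := sq_nonneg v
  have b3 : s * n0 ≤ g / 4 := by linarith
  have b4 : 3 * g / 4 ≤ (1 + 2 * s) * (σc - σ0) := by
    have e1 : s * nc = 2 * s * σc := by rw [ec]; ring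
    have e2 : s * n0 = 2 * s * σ0 := by rw [e0]; ring
    linarith
  have b5 : g / 2 ≤ σc - σ0 := by
    by_contra hc
    rw [not_le] at hc
    nlinarith
  generalize s * n0 = t at *
  have b8 : s * t ≤ g / 16 := by nlinarith
  have b9 : 0 ≤ s * t := mul_nonneg hs0 b2
  have b10 : s * t ≤ t := by nlinarith
  refine ⟨by linarith, by linarith, ?_⟩
  nlinarith [sq_nonneg (u - v), sq_nonneg (u - w), sq_nonneg (v - w)]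

/-- class `0`: here `gh p = sg p - sg pf + s ‖p‖² ∈ [g, 4g]` on `T`.  `ylem_class`, anchor
`(1 - s) pc`.  If `s ‖pc‖² ≤ g/14` use `ol0`; otherwise `ol` with `pa = (1-s) pc`:
`sg pc - sg pa = s (1 - s/2) ‖pc‖² ∈ [g/16, 4g]`, `‖pa - pc‖² = s²‖pc‖² ≤ g`. -/
theorem ylem_zero (hM : G.MTW) : ∃ c > 0, ∀ φ ψ : M → ℝ, IsCT univ φ ψ → ∀ a ∈ G.F,
    ∀ H g s τ N : ℝ, 0 < H → 10 ^ 11 * H ≤ g → 0 ≤ s → s ≤ 1 / 4 → 0 ≤ τ → τ ≤ 1 → 0 ≤ N →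
    ∀ pf ∈ G.K a, Dd φ ψ (G.ex a pf) (G.pt a) ≤ H →
    (∀ p ∈ G.K a, Dd φ ψ (G.ex a p) (G.pt a) ≤ H → ‖p - pf‖ ^ 2 / 2 ≤ sg p - sg pf) →
    ∀ T ⊆ G.K a, IsCompact T → T.Nonempty →
    (∀ p ∈ T, Dd φ ψ (G.ex a p) (G.pt a) ≤ H ∧ Dd φ ψ (G.ex a ((1 - τ) • p)) (G.pt a) ≤ H ∧
      g ≤ sg p - sg pf + s * ‖p‖ ^ 2 ∧ sg p - sg pf + s * ‖p‖ ^ 2 ≤ 4 * g) →
    (∀ Q ⊆ T, IsCompact Q → N * vol n (G.ex a '' Q) ≤ vol n (G.ex a '' sw (τ / 10 ^ 10) Q)) →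
    ∃ p₀ ∈ T, ∃ Y : Set M, IsCompact Y ∧ c * N * vol n (G.ex a '' T) ≤ vol n Y ∧ ∀ x ∈ Y,
      ∀ z, Dd φ ψ x z = 0 → Dd φ ψ (G.ex a ((1 - s) • p₀)) z ≤
        Dd φ ψ (G.ex a ((1 - s) • p₀)) (G.pt a) + 2 * 10 ^ 8 * H := by
  obtain ⟨c₁, hc₁, h₁⟩ := ylem_class hM
  obtain ⟨c₂, hc₂, h₂⟩ := ol0 hM
  obtain ⟨c₃, hc₃, h₃⟩ := ol hM
  refine ⟨c₁ * min c₂ c₃, mul_pos hc₁ (lt_min hc₂ hc₃), fun φ ψ hφ a ha H g s τ N hH hg hs0 hs1 hτ0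
    hτ1 hN pf hpf hDf hbot T hTK hTc hTne hT hsw => ?_⟩
  have hg0 : 0 < g := by linarith
  obtain ⟨pc, hpc, B, hBK, hBc, hvol, hB⟩ := h₁ φ ψ hφ a ha H g τ N hg0 hτ0 hτ1 hN pf hbot T hTK hTc
    hTne (fun p hp => ⟨(hT p hp).1, (hT p hp).2.1, by
      linarith [(hT p hp).2.2.2, mul_nonneg hs0 (sq_nonneg ‖p‖)]⟩) hsw
  obtain ⟨a1, -, a2, a3⟩ := hT pc hpc
  refine ⟨pc, hpc, ?_⟩
  rcases le_total (s * ‖pc‖ ^ 2) (g / 14) with hcase | hcase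
  · obtain ⟨Y, hY, hv, hx⟩ := h₂ φ ψ hφ a ha H g s hH hg0 hs0 hs1 pf hpf pc (hTK hpc) B hBK hBc hDf
      hcase (by linarith) fun p hp => ⟨(hB p hp).1, (hB p hp).2.1, (hB p hp).2.2,
        hbot p (hBK hp) (hB p hp).1⟩
    refine ⟨Y, hY, h72_vol hc₁ (min_le_left _ _) (lt_min hc₂ hc₃) (vol_nonneg _) hvol hv,
      fun x hxY z hz => ?_⟩
    linarith [hx x hxY z hz]
  · have a4 := hbot pc (hTK hpc) a1
    have a5 : s * ‖pc‖ ^ 2 ≤ 4 * g := by nlinarith [sq_nonneg ‖pc - pf‖]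
    have a6 := h72_sg_smul s pc
    have a7 := h72_norm_smul s pc
    generalize s * ‖pc‖ ^ 2 = u at *
    obtain ⟨Y, hY, hv, hx⟩ := h₃ φ ψ hφ a ha H g hH hg ((1 - s) • pc)
      (G.K_smul (G.F_sub ha) (hTK hpc) ⟨by linarith, by linarith⟩) pc (hTK hpc) B hBK hBc
      (by rw [a6]; nlinarith) (by rw [a6]; nlinarith) (by rw [a7]; nlinarith) hB
    exact ⟨Y, hY, h72_vol hc₁ (min_le_right _ _) (lt_min hc₂ hc₃) (vol_nonneg _) hvol hv,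
      fun x hxY => (hx x hxY).2.2⟩

/-- a higher class: `gh p₀ ≤ g/4`, `gh ∈ [g, 4g]` on `T`.  If `T = ∅` take `Y = ∅`; else
`ylem_class` and `ol` with `pa = (1-s) p₀`.  As `gh p = (1+2s)(sg p - sg pf) + 2s sg pf`,
`(1+2s)(sg pc - sg p₀) = gh pc - gh p₀ ≥ 3g/4`, so `g/2 ≤ sg pc - sg p₀ ≤ sg pc - sg pa ≤ 4g + g/4`;
`‖pc - pf‖² ≤ 8g`, `‖p₀ - pf‖² ≤ g/2`, `‖pa - p₀‖² = s²‖p₀‖² ≤ g/16`, three-term Cauchy–Schwarz
`‖pa - pc‖² ≤ 3 (8 + 1/2 + 1/16) g ≤ 27 g`. -/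
theorem ylem_high (hM : G.MTW) : ∃ c > 0, ∀ φ ψ : M → ℝ, IsCT univ φ ψ → ∀ a ∈ G.F,
    ∀ H g s τ N : ℝ, 0 < H → 10 ^ 11 * H ≤ g → 0 ≤ s → s ≤ 1 / 4 → 0 ≤ τ → τ ≤ 1 → 0 ≤ N →
    ∀ pf : E n,
    (∀ p ∈ G.K a, Dd φ ψ (G.ex a p) (G.pt a) ≤ H → ‖p - pf‖ ^ 2 / 2 ≤ sg p - sg pf) →
    ∀ p₀ ∈ G.K a, Dd φ ψ (G.ex a p₀) (G.pt a) ≤ H → sg p₀ - sg pf + s * ‖p₀‖ ^ 2 ≤ g / 4 →
    ∀ T ⊆ G.K a, IsCompact T →
    (∀ p ∈ T, Dd φ ψ (G.ex a p) (G.pt a) ≤ H ∧ Dd φ ψ (G.ex a ((1 - τ) • p)) (G.pt a) ≤ H ∧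
      g ≤ sg p - sg pf + s * ‖p‖ ^ 2 ∧ sg p - sg pf + s * ‖p‖ ^ 2 ≤ 4 * g) →
    (∀ Q ⊆ T, IsCompact Q → N * vol n (G.ex a '' Q) ≤ vol n (G.ex a '' sw (τ / 10 ^ 10) Q)) →
    ∃ Y : Set M, IsCompact Y ∧ c * N * vol n (G.ex a '' T) ≤ vol n Y ∧ ∀ x ∈ Y,
      g / 256 ≤ cst x (G.pt a) - sg ((1 - s) • p₀) ∧ cst x (G.pt a) - sg ((1 - s) • p₀) ≤ 9 * g ∧
      ∀ z, Dd φ ψ x z = 0 → Dd φ ψ (G.ex a ((1 - s) • p₀)) z ≤
        Dd φ ψ (G.ex a ((1 - s) • p₀)) (G.pt a) + 2 * 10 ^ 8 * H := by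
  obtain ⟨c₁, hc₁, h₁⟩ := ylem_class hM
  obtain ⟨c₃, hc₃, h₃⟩ := ol hM
  refine ⟨c₁ * c₃, mul_pos hc₁ hc₃, fun φ ψ hφ a ha H g s τ N hH hg hs0 hs1 hτ0
    hτ1 hN pf hbot p₀ hp₀ hD₀ hg₀ T hTK hTc hT hsw => ?_⟩
  rcases T.eq_empty_or_nonempty with rfl | hTne
  · exact ⟨∅, isCompact_empty, by simp [vol], fun x hx => hx.elim⟩
  have hg0 : 0 < g := by linarith
  obtain ⟨pc, hpc, B, hBK, hBc, hvol, hB⟩ := h₁ φ ψ hφ a ha H g τ N hg0 hτ0 hτ1 hN pf hbot T hTK hTc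
    hTne (fun p hp => ⟨(hT p hp).1, (hT p hp).2.1, by
      linarith [(hT p hp).2.2.2, mul_nonneg hs0 (sq_nonneg ‖p‖)]⟩) hsw
  obtain ⟨a1, -, a2, a3⟩ := hT pc hpc
  have a4 := hbot pc (hTK hpc) a1
  have a5 := hbot p₀ hp₀ hD₀
  have a6 := h72_sg_smul s p₀
  have a7 := h72_norm_smul s p₀
  have b6 : ‖(1 - s) • p₀ - pc‖ ≤ ‖(1 - s) • p₀ - p₀‖ + ‖p₀ - pf‖ + ‖pc - pf‖ := by
    have e : (1 - s) • p₀ - pc = ((1 - s) • p₀ - p₀) + (p₀ - pf) - (pc - pf) := by abel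
    rw [e]
    exact (norm_sub_le _ _).trans (add_le_add (norm_add_le _ _) le_rfl)
  obtain ⟨d1, d2, d3⟩ := h72_high hg0 hs0 hs1 (sq_nonneg ‖pc‖) (sq_nonneg ‖p₀‖) rfl rfl a2 a3 hg₀ a4
    a5 a6 a7 (pow_le_pow_left₀ (norm_nonneg _) b6 2)
  obtain ⟨Y, hY, hv, hx⟩ := h₃ φ ψ hφ a ha H g hH hg ((1 - s) • p₀)
    (G.K_smul (G.F_sub ha) hp₀ ⟨by linarith, by linarith⟩) pc (hTK hpc) B hBK hBc d1 d2 d3 hB
  exact ⟨Y, hY, h72_vol hc₁ le_rfl hc₃ (vol_nonneg _) hvol hv, hx⟩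

/-- The `y`-lemma.  `pf` = `exists_bottom` of the sublevel set (`sublevel`),
`gh p = sg p - sg pf + s ‖p‖²`, `p₀` a minimum point of `gh` on `S`, `g₀ = gh p₀ ≥ 10^11 H`;
classes `T i = S ∩ {4^i g₀ ≤ gh ≤ 4^(i+1) g₀}`, `i < I`, cover `S`, so
`vol (ex '' S) ≤ ∑ i < I, vol (ex '' T i)` (`vol_biUnion_le`).  Either `T 0` carries `1/7` of it
(`ylem_zero`, `p₀ ∈ T 0`) or the classes `1 ≤ i < I`, `i % 6 = j` do for some `j < 6`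
(`Finset.sum_fiberwise`-type splitting); then `Y = ⋃ Y i` with `Y i` from `ylem_high`
(`g = 4^i g₀`); the `Y i` are pairwise disjoint since their levels lie in
`[4^i g₀/256, 9·4^i g₀]` and `4^6 / 256 = 16 > 9` (`vol_biUnion_eq`). -/
theorem ylem (hM : G.MTW) : ∃ c > 0, ∀ φ ψ : M → ℝ, IsCT univ φ ψ → ∀ a ∈ G.F,
    ∀ H s τ N : ℝ, 0 < H → 0 ≤ s → s ≤ 1 / 4 → 0 ≤ τ → τ ≤ 1 → 0 ≤ N →
    ∀ S ⊆ G.K a, IsCompact S → S.Nonempty →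
    (∀ p ∈ S, Dd φ ψ (G.ex a p) (G.pt a) ≤ H ∧ Dd φ ψ (G.ex a ((1 - τ) • p)) (G.pt a) ≤ H ∧
      10 ^ 11 * H ≤ s * ‖p‖ ^ 2) →
    (∀ Q ⊆ S, IsCompact Q → N * vol n (G.ex a '' Q) ≤ vol n (G.ex a '' sw (τ / 10 ^ 10) Q)) →
    ∃ p₀ ∈ S, ∃ Y : Set M, IsCompact Y ∧ c * N * vol n (G.ex a '' S) ≤ vol n Y ∧ ∀ x ∈ Y,
      ∀ z, Dd φ ψ x z = 0 → Dd φ ψ (G.ex a ((1 - s) • p₀)) z ≤
        Dd φ ψ (G.ex a ((1 - s) • p₀)) (G.pt a) + 2 * 10 ^ 8 * H := by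
  obtain ⟨c₀, hc₀, h0⟩ := ylem_zero hM
  obtain ⟨c₁, hc₁, h1⟩ := ylem_high hM
  refine ⟨min c₀ c₁ / 7, by positivity,
    fun φ ψ hφ a ha H s τ N hH hs0 hs1 hτ0 hτ1 hN S hSK hS hne hSp hsw => ?_⟩
  have hU := G.F_sub ha
  obtain ⟨pf, ⟨hpfK, hpfD⟩, hbot'⟩ := exists_bottom (sublevel hM hφ hU H).1
    (sublevel hM hφ hU H).2 (hne.mono fun p hp => ⟨hSK hp, (hSp p hp).1⟩)
  have hbot : ∀ p ∈ G.K a, Dd φ ψ (G.ex a p) (G.pt a) ≤ H → ‖p - pf‖ ^ 2 / 2 ≤ sg p - sg pf :=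
    fun p h1 h2 => hbot' p ⟨h1, h2⟩
  obtain ⟨gh, hgh⟩ : ∃ gh : E n → ℝ, ∀ p, gh p = sg p - sg pf + s * ‖p‖ ^ 2 := ⟨_, fun _ => rfl⟩
  have hghc : Continuous gh := by
    have e : gh = fun p => sg p - sg pf + s * ‖p‖ ^ 2 := funext hgh
    rw [e]
    exact (continuous_sg.sub continuous_const).add (continuous_const.mul (continuous_norm.pow 2))
  obtain ⟨p₀, hp₀, hmin⟩ := hS.exists_isMinOn hne hghc.continuousOn
  obtain ⟨p₁, hp₁, hmax⟩ := hS.exists_isMaxOn hne hghc.continuousOn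
  obtain ⟨g₀, hg₀e⟩ : ∃ g₀, g₀ = gh p₀ := ⟨_, rfl⟩
  have hg₀ : 10 ^ 11 * H ≤ g₀ := by
    have a1 := hbot p₀ (hSK hp₀) (hSp p₀ hp₀).1
    have a2 := (hSp p₀ hp₀).2.2
    have a3 := sq_nonneg ‖p₀ - pf‖
    rw [hg₀e, hgh]
    linarith
  have hpos : 0 < g₀ := lt_of_lt_of_le (by positivity) hg₀
  obtain ⟨I, hI⟩ : ∃ I : ℕ, gh p₁ / g₀ < 4 ^ I := pow_unbounded_of_one_lt _ (by norm_num)
  obtain ⟨T, hT⟩ : ∃ T : ℕ → Set (E n),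
      ∀ i, T i = S ∩ {p | 4 ^ i * g₀ ≤ gh p ∧ gh p ≤ 4 * (4 ^ i * g₀)} := ⟨_, fun _ => rfl⟩
  have hTS : ∀ i, T i ⊆ S := fun i => by rw [hT]; exact inter_subset_left
  have hTc : ∀ i, IsCompact (T i) := fun i => by
    rw [hT]
    exact hS.inter_right ((isClosed_le continuous_const hghc).inter
      (isClosed_le hghc continuous_const))
  have hTp : ∀ i, ∀ p ∈ T i, Dd φ ψ (G.ex a p) (G.pt a) ≤ H ∧
      Dd φ ψ (G.ex a ((1 - τ) • p)) (G.pt a) ≤ H ∧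
      4 ^ i * g₀ ≤ sg p - sg pf + s * ‖p‖ ^ 2 ∧
      sg p - sg pf + s * ‖p‖ ^ 2 ≤ 4 * (4 ^ i * g₀) := fun i p hp => by
    have hp' := hp
    rw [hT] at hp'
    obtain ⟨hpS, b1, b2⟩ := hp'
    rw [hgh] at b1 b2
    exact ⟨(hSp p hpS).1, (hSp p hpS).2.1, b1, b2⟩
  have hTg : ∀ i : ℕ, 10 ^ 11 * H ≤ 4 ^ i * g₀ := fun i =>
    hg₀.trans (le_mul_of_one_le_left hpos.le (one_le_pow₀ (by norm_num)))
  have hcov : G.ex a '' S ⊆ ⋃ i ∈ Finset.range I, G.ex a '' T i := by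
    rintro _ ⟨p, hp, rfl⟩
    have b0 : g₀ ≤ gh p := hg₀e ▸ hmin hp
    have b1 : gh p ≤ gh p₁ := hmax hp
    obtain ⟨i, hi1, hi2⟩ := exists_nat_pow_near (x := gh p / g₀) (y := 4)
      ((one_le_div hpos).2 b0) (by norm_num)
    have hiI : i < I := by
      have : (4 : ℝ) ^ i < 4 ^ I :=
        lt_of_le_of_lt (hi1.trans (div_le_div_of_nonneg_right b1 hpos.le)) hI
      exact (pow_lt_pow_iff_right₀ (by norm_num)).1 this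
    refine mem_biUnion (Finset.mem_coe.2 (Finset.mem_range.2 hiI)) ⟨p, ?_, rfl⟩
    rw [hT]
    refine ⟨hp, (le_div_iff₀ hpos).1 hi1, ?_⟩
    have := (div_lt_iff₀ hpos).1 hi2
    rw [pow_succ] at this
    linarith
  have hsum : vol n (G.ex a '' S) ≤ ∑ i ∈ Finset.range I, vol n (G.ex a '' T i) :=
    (G.vol_mono hcov).trans (G.vol_biUnion_le _ _)
  have hV := vol_nonneg (n := n) (G.ex a '' S)
  have hm0 : 0 < min c₀ c₁ := lt_min hc₀ hc₁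
  by_cases hz : vol n (G.ex a '' S) / 7 ≤ vol n (G.ex a '' T 0)
  · have hp₀T : p₀ ∈ T 0 := by
      rw [hT]
      refine ⟨hp₀, ?_, ?_⟩ <;> rw [← hg₀e] <;> simp only [pow_zero] <;> linarith
    obtain ⟨q, hq, Y, hY, hv, hy⟩ := h0 φ ψ hφ a ha H (4 ^ 0 * g₀) s τ N hH (hTg 0) hs0 hs1 hτ0 hτ1
      hN pf hpfK hpfD hbot (T 0) ((hTS 0).trans hSK) (hTc 0) ⟨p₀, hp₀T⟩ (hTp 0)
      fun Q hQ => hsw Q (hQ.trans (hTS 0))
    refine ⟨q, hTS 0 hq, Y, hY, le_trans ?_ hv, hy⟩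
    calc min c₀ c₁ / 7 * N * vol n (G.ex a '' S)
        = min c₀ c₁ * N * (vol n (G.ex a '' S) / 7) := by ring
      _ ≤ c₀ * N * vol n (G.ex a '' T 0) :=
        mul_le_mul (mul_le_mul_of_nonneg_right (min_le_left _ _) hN) hz (by positivity)
          (by positivity)
  · obtain ⟨j, hj⟩ : ∃ j : ℕ, vol n (G.ex a '' S) / 7 ≤
        ∑ i ∈ ((Finset.range I).filter (1 ≤ ·)).filter (· % 6 = j), vol n (G.ex a '' T i) := by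
      by_contra hcon
      push Not at hcon hz
      have e1 := Finset.sum_fiberwise_of_maps_to (s := (Finset.range I).filter (1 ≤ ·))
        (t := Finset.range 6) (g := (· % 6))
        (fun i _ => Finset.mem_range.2 (Nat.mod_lt i (by norm_num)))
        (fun i => vol n (G.ex a '' T i))
      have e2 : ∑ i ∈ Finset.range I, vol n (G.ex a '' T i) ≤
          ∑ i ∈ insert 0 ((Finset.range I).filter (1 ≤ ·)), vol n (G.ex a '' T i) := by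
        refine Finset.sum_le_sum_of_subset_of_nonneg (fun i hi => ?_) fun i _ _ => vol_nonneg _
        rw [Finset.mem_insert, Finset.mem_filter]
        rcases Nat.eq_zero_or_pos i with h | h
        · exact Or.inl h
        · exact Or.inr ⟨hi, h⟩
      rw [Finset.sum_insert (by simp), ← e1] at e2
      have e3 := Finset.sum_le_card_nsmul (Finset.range 6) _ (vol n (G.ex a '' S) / 7)
        fun j _ => (hcon j).le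
      rw [Finset.card_range, nsmul_eq_mul] at e3
      push_cast at e3
      linarith
    obtain ⟨J, hJ⟩ : ∃ J : Finset ℕ, J = ((Finset.range I).filter (1 ≤ ·)).filter (· % 6 = j) :=
      ⟨_, rfl⟩
    rw [← hJ] at hj
    have hJm : ∀ i ∈ J, 1 ≤ i ∧ i % 6 = j := fun i hi => by
      rw [hJ, Finset.mem_filter, Finset.mem_filter] at hi
      exact ⟨hi.1.2, hi.2⟩
    have hex : ∀ i : ℕ, ∃ Y : Set M, 1 ≤ i → IsCompact Y ∧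
        c₁ * N * vol n (G.ex a '' T i) ≤ vol n Y ∧ ∀ x ∈ Y,
        4 ^ i * g₀ / 256 ≤ cst x (G.pt a) - sg ((1 - s) • p₀) ∧
        cst x (G.pt a) - sg ((1 - s) • p₀) ≤ 9 * (4 ^ i * g₀) ∧
        ∀ z, Dd φ ψ x z = 0 → Dd φ ψ (G.ex a ((1 - s) • p₀)) z ≤
          Dd φ ψ (G.ex a ((1 - s) • p₀)) (G.pt a) + 2 * 10 ^ 8 * H := fun i => by
      by_cases hi : 1 ≤ i
      · have b : sg p₀ - sg pf + s * ‖p₀‖ ^ 2 ≤ 4 ^ i * g₀ / 4 := by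
          have : (4 : ℝ) ^ 1 ≤ 4 ^ i := pow_le_pow_right₀ (by norm_num) hi
          rw [← hgh, ← hg₀e]
          nlinarith
        obtain ⟨Y, hY⟩ := h1 φ ψ hφ a ha H (4 ^ i * g₀) s τ N hH (hTg i) hs0 hs1 hτ0 hτ1 hN pf hbot
          p₀ (hSK hp₀) (hSp p₀ hp₀).1 b (T i) ((hTS i).trans hSK) (hTc i) (hTp i)
          fun Q hQ => hsw Q (hQ.trans (hTS i))
        exact ⟨Y, fun _ => hY⟩
      · exact ⟨∅, fun h => absurd h hi⟩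
    choose Y hY using hex
    have hlt : ∀ i ∈ J, ∀ k ∈ J, i < k → Disjoint (Y i) (Y k) := fun i hi k hk hik => by
      rw [Set.disjoint_left]
      intro x hx hx'
      have b1 := ((hY i (hJm i hi).1).2.2 x hx).2.1
      have b2 := ((hY k (hJm k hk).1).2.2 x hx').1
      have hik' : i + 6 ≤ k := by
        have := (hJm i hi).2
        have := (hJm k hk).2
        omega
      have b3 : (4 : ℝ) ^ (i + 6) ≤ 4 ^ k := pow_le_pow_right₀ (by norm_num) hik'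
      rw [pow_add] at b3
      have b4 : (0 : ℝ) < 4 ^ i * g₀ := by positivity
      have b5 := mul_le_mul_of_nonneg_right b3 hpos.le
      nlinarith
    have hdis : (J : Set ℕ).PairwiseDisjoint Y := fun i hi k hk hik => by
      rcases lt_or_gt_of_ne hik with h | h
      · exact hlt i hi k hk h
      · exact (hlt k hk i hi h).symm
    refine ⟨p₀, hp₀, ⋃ i ∈ J, Y i, J.isCompact_biUnion fun i hi => (hY i (hJm i hi).1).1, ?_, ?_⟩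
    · rw [G.vol_biUnion_eq J Y (fun i hi => (hY i (hJm i hi).1).1) hdis]
      calc min c₀ c₁ / 7 * N * vol n (G.ex a '' S)
          = min c₀ c₁ * N * (vol n (G.ex a '' S) / 7) := by ring
        _ ≤ c₁ * N * ∑ i ∈ J, vol n (G.ex a '' T i) :=
          mul_le_mul (mul_le_mul_of_nonneg_right (min_le_right _ _) hN) hj (by positivity)
            (by positivity)
        _ = ∑ i ∈ J, c₁ * N * vol n (G.ex a '' T i) := Finset.mul_sum _ _ _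
        _ ≤ ∑ i ∈ J, vol n (Y i) := Finset.sum_le_sum fun i hi => (hY i (hJm i hi).1).2.1
    · intro x hx
      obtain ⟨i, hi, hxi⟩ := mem_iUnion₂.1 hx
      exact ((hY i (hJm i hi).1).2.2 x hxi).2.2

end LocGeo

end Crest.Agent.R226
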