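import Crest.Agent.R226.TX
import Crest.Agent.R226.TY
import Crest.Agent.R226.TRaise

/-! Row 226, `core`: one step of the iteration. -/

set_option autoImplicit false

open Set Filter Metric MeasureTheory
open scoped Topology InnerProductSpace ENNReal

namespace Crest.Agent.R226

namespace LocGeo

variable {n : ℕ} {M : Type*} [MetricSpace M] [CompactSpace M] [MeasurableSpace M] [BorelSpace M]
  {G : LocGeo n M}

/-- back to the `x`-side.  `b, q₁` from `exists_rev` (`s = 1` gives `ex b q₁ = pt a`), `q₂` from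
`exists_min`, `A = Gam ψ φ Y` (`pair_vol` for `Pair.symm`).  For `x ∈ A`, `y* = ex b (s q₁)`:
`Dd x y* - Dd x₁ y* ≤ 16·10^14 h` (`Dd_comm`), `tw x₁ = Dd x₁ y ≤ 4·10^6 h` (`tw_self`),
`tw_sub` with `k = s/(1-s) ∈ [s, (4/3) s]`, `1 + k ≤ 4/3`; and `0 ≤ Dd ≤ tw x` (`Dd_le_tw`) gives
`k (φ x - φ x₁) ≤ 4·10^6 h + (4/3)·16·10^14 h ≤ 10^16 h ≤ s ω/10^5`. -/
theorem ypost {κ : ℝ} (hκ : 1 ≤ κ) {φ ψ : M → ℝ} (hp : Pair n κ φ ψ) {a : P n} {x₂ : M}
    {h ω s : ℝ} {S : Set (E n)} (X : G.XD φ ψ a x₂ h ω S) {p₀ : E n} (hp₀ : p₀ ∈ S)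
    (hs : 10 ^ 21 * h ≤ s * ω) (hs1 : s ≤ 1 / 4) {Y : Set M} (hY : IsCompact Y)
    (hc : ∀ y ∈ Y, ∀ z, Dd ψ φ y z = 0 → Dd ψ φ (G.ex a ((1 - s) • p₀)) z ≤
      Dd ψ φ (G.ex a ((1 - s) • p₀)) (G.pt a) + 2 * 10 ^ 8 * (8 * 10 ^ 6 * h)) :
    ∃ b ∈ G.F, ∃ q₁ ∈ G.K b, ∃ q₂ ∈ G.K b, ∃ A : Set M, G.pt b = G.ex a p₀ ∧
      G.ex b q₁ = G.pt a ∧ G.ex b q₂ = x₂ ∧ G.ex b (s • q₁) = G.ex a ((1 - s) • p₀) ∧
      IsCompact A ∧ vol n Y ≤ κ * vol n A ∧ ∀ x ∈ A, φ x - φ (G.ex b q₁) ≤ ω / 10 ^ 5 ∧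
        G.tw φ ψ b q₁ s x ≤ 2 / 3 * (10 ^ 16 * h) + 4 / 3 * s * max (φ (G.ex b q₁) - φ x) 0 := by
  have hh := X.h_pos
  have hω := X.ω_pos
  have hs0 : 0 < s := (mul_pos_iff_of_pos_right hω).1 (lt_of_lt_of_le (by positivity) hs)
  have hs' : s < 1 := by linarith
  obtain ⟨b, hb, hpt, q₁, hq₁, hq⟩ := exists_rev (G.F_sub X.ha) (X.sub hp₀)
  have hbU := G.F_sub hb
  obtain ⟨q₂, hq₂, e₂⟩ := G.exists_min hbU x₂
  have e₁ : G.ex b q₁ = G.pt a := by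
    have := hq 1
    rwa [one_smul, sub_self, zero_smul] at this
  obtain ⟨hA, hv⟩ := G.pair_vol hκ hp.symm hY
  refine ⟨b, hb, q₁, hq₁, q₂, hq₂, _, hpt, e₁, e₂, hq s, hA, hv, ?_⟩
  rintro x ⟨y, hy, hxy⟩
  have h1 := hc y hy x hxy
  rw [← Dd_comm φ ψ x, ← Dd_comm φ ψ (G.pt a), ← hq s, ← e₁] at h1
  have h2 : G.tw φ ψ b q₁ s (G.ex b q₁) ≤ 4 * 10 ^ 6 * h := by
    rw [tw_self hbU hq₁ hs0 hs', e₁, hpt]
    exact X.D₁ p₀ hp₀
  have h3 := tw_sub (G := G) (φ := φ) (ψ := ψ) (b := b) q₁ hs' x (G.ex b q₁)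
  have h4 := (hp.left.Dd_nonneg x (G.pt b)).trans (Dd_le_tw hbU hq₁ hs0 hs' x)
  have k1 : s ≤ s / (1 - s) := le_div_self hs0.le (by linarith) (by linarith)
  have k2 : s / (1 - s) ≤ 4 / 3 * s := by
    rw [div_le_iff₀ (by linarith)]
    nlinarith
  generalize s / (1 - s) = k at h3 k1 k2
  generalize G.tw φ ψ b q₁ s (G.ex b q₁) = t₁ at h2 h3
  generalize G.tw φ ψ b q₁ s x = t at h3 h4 ⊢
  generalize φ (G.ex b q₁) = f₁ at h3 ⊢
  have h5 : (1 + k) * (Dd φ ψ x (G.ex b (s • q₁)) - Dd φ ψ (G.ex b q₁) (G.ex b (s • q₁))) ≤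
      4 / 3 * (16 * 10 ^ 14 * h) :=
    calc _ ≤ (1 + k) * (16 * 10 ^ 14 * h) := mul_le_mul_of_nonneg_left (by linarith) (by linarith)
      _ ≤ _ := mul_le_mul_of_nonneg_right (by linarith) (by positivity)
  constructor
  · refine le_of_mul_le_mul_left (a := k) ?_ (by linarith)
    have h6 := mul_le_mul_of_nonneg_right k1 hω.le
    linarith
  · have h6 : k * (f₁ - φ x) ≤ 4 / 3 * s * max (f₁ - φ x) 0 :=
      (mul_le_mul_of_nonneg_left (le_max_left _ _) (by linarith)).trans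
        (mul_le_mul_of_nonneg_right k2 (le_max_right _ _))
    linarith

/-- the good case.  `sweep` with `τ* = 64·10^9 h/ω` (`XD.thin`; `2 N τ* = τ/10^10` for
`τ = 128·10^19 N h/ω ≤ 1`), `ylem` for the pair `(ψ, φ)` (`Dd_comm`) with `H = 8·10^6 h`,
`s = 10^21 h/ω`, `N := c N` (`XD.le_norm`), `ypost`, `post` with `R = 10^5` and height `10^16 h`;
`Rise.mono` (use `N ≥ 1`) or a state. -/
theorem step_good (hM : G.MTW) {κ : ℝ} (hκ : 1 ≤ κ) : ∃ c > 0, ∃ C ≥ (1 : ℝ), ∀ N : ℕ, 1 ≤ N →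
    ∀ φ ψ : M → ℝ, Pair n κ φ ψ → ∀ a x₂ h ω S, G.XD φ ψ a x₂ h ω S →
      10 ^ 39 * (N : ℝ) ^ 2 * h ≤ ω →
      (∀ p ∈ S, Dd φ ψ (G.pt a) (G.ex a ((1 - 128 * 10 ^ 19 * N * h / ω) • p)) ≤ 8 * 10 ^ 6 * h) →
      G.St φ ψ (10 ^ 16 * h) ω (c * N * vol n (G.ex a '' S)) ∨
        G.Rise φ ψ (1 / 10 ^ 6) C h ω (vol n (G.ex a '' S)) := by
  obtain ⟨cs, hcs, Hs⟩ := sweep hM
  obtain ⟨cy, hcy, Hy⟩ := ylem hM
  obtain ⟨Cp, hCp, Hp⟩ := post hM
  have hκ0 : 0 < κ := by linarith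
  have hl0 : 0 < κ / (cy * cs) := by positivity
  refine ⟨cy * cs / (2 * κ), by positivity, (10 ^ 16 + κ / (cy * cs)) * (Cp * 10 ^ 5),
    by nlinarith, fun N hN φ ψ hp a x₂ h ω S X hsm hgood => ?_⟩
  have hh := X.h_pos
  have hω := X.ω_pos
  have hN1 : (1 : ℝ) ≤ N := by exact_mod_cast hN
  have hNh : (N : ℝ) * h ≤ (N : ℝ) ^ 2 * h := by nlinarith [mul_nonneg (by linarith : (0:ℝ) ≤ N - 1) hh.le]
  have hh1 : h ≤ N * h := by nlinarith
  have hsm1 : 10 ^ 39 * (N * h) ≤ ω := by nlinarith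
  have hNorm := X.le_norm hp.left (by nlinarith)
  have hτ : (128 * 10 ^ 19 * N * h / ω) / 10 ^ 10 = 2 * N * (64 * 10 ^ 9 * h / ω) := by
    field_simp; ring
  have hsw : ∀ Q ⊆ S, IsCompact Q → cs * N * vol n (G.ex a '' Q) ≤
      vol n (G.ex a '' sw ((128 * 10 ^ 19 * N * h / ω) / 10 ^ 10) Q) := by
    rw [hτ]
    refine Hs a X.ha S X.sub _ N (by positivity) ?_ (X.thin hp.left)
    rw [← hτ, div_div, div_le_iff₀ (by positivity)]
    nlinarith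
  have hs4 : 10 ^ 21 * h / ω ≤ 1 / 4 := by
    rw [div_le_iff₀ hω]; nlinarith
  have hsω : 10 ^ 21 * h / ω * ω = 10 ^ 21 * h := by field_simp
  obtain ⟨p₀, hp₀, Y, hY, hvY, hc⟩ := Hy ψ φ hp.right a X.ha (8 * 10 ^ 6 * h) (10 ^ 21 * h / ω)
    (128 * 10 ^ 19 * N * h / ω) (cs * N) (by positivity) (by positivity) hs4 (by positivity)
    (by rw [div_le_one hω]; nlinarith) (by positivity) S X.sub X.compact
    (image_nonempty.1 (nonempty_of_vol_pos X.pos))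
    (fun p hpS => ⟨by rw [← Dd_comm]; linarith [X.D₁ p hpS], by rw [← Dd_comm]; exact hgood p hpS, by
      have h1 : 10 ^ 21 * h / ω * ω ≤ 10 ^ 21 * h / ω * ‖p‖ ^ 2 :=
        mul_le_mul_of_nonneg_left (hNorm p hpS) (by positivity)
      nlinarith⟩) hsw
  obtain ⟨b, hb, q₁, hq₁, q₂, hq₂, A, hpt, he₁, he₂, -, hA, hvA, hAx⟩ :=
    ypost hκ hp X hp₀ hsω.ge hs4 hY hc
  have hv := X.pos
  set v := vol n (G.ex a '' S)
  have hvA' : cy * cs * N * v ≤ κ * vol n A := by linarith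
  have hA0 : 0 < vol n A := by
    have : 0 < κ * vol n A := lt_of_lt_of_le (by positivity) hvA'
    exact (mul_pos_iff_of_pos_left hκ0).1 this
  rcases Hp φ ψ hp.left (10 ^ 5) le_rfl b hb q₁ hq₁ q₂ hq₂ (10 ^ 16 * h) ω (10 ^ 21 * h / ω) A
    (by positivity) (by rw [he₁, he₂]; exact X.ω_eq) (by rw [hsω]; ring) (by nlinarith)
    (by rw [he₁, hpt]; linarith [X.D₁ p₀ hp₀]) (by rw [he₂, hpt]; linarith [X.D₂ p₀ hp₀]) hA hA0 hAx
    with hR | ⟨A', hvA2, hP⟩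
  · right
    refine hR.mono (lam := 10 ^ 16 + κ / (cy * cs)) hω (by norm_num) (by norm_num) hh.le
      (by nlinarith) (by nlinarith [mul_pos hl0 hh]) ?_ (by positivity) (by positivity) le_rfl
    have h1 : v ≤ κ / (cy * cs) * vol n A := by
      rw [div_mul_eq_mul_div, le_div_iff₀ (by positivity)]
      have : cy * cs * v ≤ cy * cs * N * v := by
        have := mul_pos (mul_pos hcy hcs) hv
        nlinarith
      linarith
    nlinarith
  · left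
    refine ⟨b, q₁, q₂, A', ?_, by positivity, ?_⟩
    · convert hP using 1; ring
    · rw [div_mul_eq_mul_div, div_mul_eq_mul_div, div_le_iff₀ (by positivity)]
      nlinarith

/-- the bad case.  `ylem` for `(ψ, φ)` with `H = 8·10^6 h`, `s = 128·10^19 N h/ω`, `τ = 0`,
`N := 1` (`sw_zero`), `ypost`, `post` with `R = 128000 N` and height `10^16 h`; then either
`Rise.mono` or `raise` with `ε₀ = 1/(32·10^13 N)`: `s ε₀ ω = 4·10^6 h`, `s ≤ ε₀/300`. -/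
theorem step_bad (hM : G.MTW) {κ : ℝ} (hκ : 1 ≤ κ) (N : ℕ) (hN : 1 ≤ N) :
    ∃ ε > 0, ∃ C ≥ (1 : ℝ), ∀ φ ψ : M → ℝ, Pair n κ φ ψ → ∀ a x₂ h ω S, G.XD φ ψ a x₂ h ω S →
      10 ^ 39 * (N : ℝ) ^ 2 * h ≤ ω →
      (∀ p ∈ S, 8 * 10 ^ 6 * h ≤ Dd φ ψ (G.pt a) (G.ex a ((1 - 128 * 10 ^ 19 * N * h / ω) • p))) →
      G.Rise φ ψ ε C h ω (vol n (G.ex a '' S)) := by
  have hN1 : (1 : ℝ) ≤ N := by exact_mod_cast hN
  obtain ⟨cy, hcy, Hy⟩ := ylem hM
  obtain ⟨Cp, hCp, Hp⟩ := post hM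
  have hε₀ : (0 : ℝ) < 1 / (32 * 10 ^ 13 * N) := by positivity
  obtain ⟨Cr, hCr, Hr⟩ := raise hM (ε := 1 / (32 * 10 ^ 13 * N)) (R := 128000 * N) hε₀
    (one_div_le_one_div_of_le (by norm_num) (by nlinarith)) (by nlinarith)
  have hκ0 : 0 < κ := by linarith
  have hl0 : 0 < 2 * κ / cy := by positivity
  have hC1 : 1 ≤ Cp * (128000 * N) + Cr := by nlinarith
  refine ⟨1 / (32 * 10 ^ 13 * N) / 16, by positivity,
    (10 ^ 16 + 2 * κ / cy) * (Cp * (128000 * N) + Cr), by nlinarith,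
    fun φ ψ hp a x₂ h ω S X hsm hbad => ?_⟩
  have hh := X.h_pos
  have hω := X.ω_pos
  have hNh : (N : ℝ) * h ≤ (N : ℝ) ^ 2 * h := by nlinarith [mul_nonneg (by linarith : (0:ℝ) ≤ N - 1) hh.le]
  have hh1 : h ≤ N * h := by nlinarith
  have hsm1 : 10 ^ 39 * (N * h) ≤ ω := by nlinarith
  have hNorm := X.le_norm hp.left (by nlinarith)
  have hs4 : 128 * 10 ^ 19 * N * h / ω ≤ 1 / 4 := by
    rw [div_le_iff₀ hω]; nlinarith
  have hsω : 128 * 10 ^ 19 * N * h / ω * ω = 128 * 10 ^ 19 * N * h := by field_simp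
  obtain ⟨p₀, hp₀, Y, hY, hvY, hc⟩ := Hy ψ φ hp.right a X.ha (8 * 10 ^ 6 * h)
    (128 * 10 ^ 19 * N * h / ω) 0 1 (by positivity) (by positivity) hs4 le_rfl zero_le_one
    zero_le_one S X.sub X.compact (image_nonempty.1 (nonempty_of_vol_pos X.pos))
    (fun p hpS => ⟨by rw [← Dd_comm]; linarith [X.D₁ p hpS],
      by rw [← Dd_comm, sub_zero, one_smul]; linarith [X.D₁ p hpS], by
      have h1 : 128 * 10 ^ 19 * N * h / ω * ω ≤ 128 * 10 ^ 19 * N * h / ω * ‖p‖ ^ 2 :=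
        mul_le_mul_of_nonneg_left (hNorm p hpS) (by positivity)
      nlinarith⟩) (fun Q _ _ => by rw [zero_div, sw_zero, one_mul])
  obtain ⟨b, hb, q₁, hq₁, q₂, hq₂, A, hpt, he₁, he₂, hes, hA, hvA, hAx⟩ :=
    ypost hκ hp X hp₀ (by rw [hsω]; nlinarith) hs4 hY hc
  have hv := X.pos
  set v := vol n (G.ex a '' S)
  have hvA' : cy * v ≤ κ * vol n A := by linarith
  have hA0 : 0 < vol n A := by
    have : 0 < κ * vol n A := lt_of_lt_of_le (by positivity) hvA'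
    exact (mul_pos_iff_of_pos_left hκ0).1 this
  have h1 : v ≤ κ / cy * vol n A := by
    rw [div_mul_eq_mul_div, le_div_iff₀ hcy]; linarith
  have h2 : 2 * κ / cy = 2 * (κ / cy) := by ring
  have h3 : 0 < κ / cy := by positivity
  have hsR : 128 * 10 ^ 19 * N * h / ω * ω = 128000 * N * (10 ^ 16 * h) := by rw [hsω]; ring
  rcases Hp φ ψ hp.left (128000 * N) (by nlinarith) b hb q₁ hq₁ q₂ hq₂ (10 ^ 16 * h) ω
    (128 * 10 ^ 19 * N * h / ω) A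
    (by positivity) (by rw [he₁, he₂]; exact X.ω_eq) hsR (by nlinarith)
    (by rw [he₁, hpt]; linarith [X.D₁ p₀ hp₀]) (by rw [he₂, hpt]; linarith [X.D₂ p₀ hp₀]) hA hA0 hAx
    with hR | ⟨A', hvA2, hP⟩
  · refine hR.mono (lam := 10 ^ 16 + 2 * κ / cy) hω (by positivity) ?_ hh.le
      (by nlinarith) (by nlinarith [mul_pos hl0 hh]) (by nlinarith [mul_pos h3 hA0])
      (by positivity) (by positivity) (by gcongr; linarith)
    rw [div_div]
    exact one_div_le_one_div_of_le (by positivity) (by nlinarith)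
  · have hA'0 : 0 < vol n A' := by linarith
    have hR := Hr φ ψ hp.left hp.right b q₁ q₂ _ ω _ A' hP hA'0 hsR ?_ ?_
    · refine hR.mono (lam := 10 ^ 16 + 2 * κ / cy) hω (by positivity) le_rfl hh.le
        (by nlinarith) (by nlinarith [mul_pos hl0 hh]) (by nlinarith [mul_pos h3 hA'0])
        (by linarith) (by positivity) (by gcongr; nlinarith)
    · rw [div_div, div_le_div_iff₀ hω (by positivity)]
      nlinarith
    · have h4 : 128 * 10 ^ 19 * N * h / ω * (1 / (32 * 10 ^ 13 * N)) * ω = 4 * 10 ^ 6 * h := by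
        field_simp; ring
      rw [h4, hes, he₁, hpt]
      linarith [X.D₁ p₀ hp₀, hbad p₀ hp₀]

/-- `xstep`; split `S` into the two compact sets of `step_good` and `step_bad`; one of them
carries half of the volume (`image_union`, `vol_union_le`, `XD.mono`); `St.mono`, `Rise.mono`. -/
theorem step (hM : G.MTW) {κ : ℝ} (hκ : 1 ≤ κ) : ∃ c > 0, ∀ N : ℕ, 1 ≤ N → ∃ δ > 0, ∃ ε > 0,
    ∃ C ≥ (1 : ℝ), ∀ φ ψ : M → ℝ, Pair n κ φ ψ → ∀ h ω m, G.St φ ψ h ω m → h ≤ δ * ω →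
      G.St φ ψ (10 ^ 16 * h) ω (c * N * m) ∨ G.Rise φ ψ ε C h ω m := by
  obtain ⟨cx, hcx, hx⟩ := xstep hM hκ
  obtain ⟨cg, hcg, Cg, hCg, hg⟩ := step_good hM hκ
  refine ⟨cg * cx / 2, by positivity, fun N hN => ?_⟩
  obtain ⟨εb, hεb, Cb, hCb, hb⟩ := step_bad hM hκ N hN
  have hN1 : (1 : ℝ) ≤ N := by exact_mod_cast hN
  have hl : 0 < 2 / cx := by positivity
  refine ⟨1 / (10 ^ 39 * (N : ℝ) ^ 2), by positivity, min (1 / 10 ^ 6) εb, by positivity,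
    (1 + 2 / cx) * (Cg + Cb), one_le_mul_of_one_le_of_one_le (by linarith) (by linarith),
    fun φ ψ hp h ω m st hδ => ?_⟩
  obtain ⟨hh, hω, hm⟩ := st.pos
  have h1 : 10 ^ 39 * (N : ℝ) ^ 2 * h ≤ ω := by
    rw [one_div, le_inv_mul_iff₀ (by positivity)] at hδ
    exact hδ
  have h2 : 4 * 10 ^ 6 * h ≤ ω := by
    refine le_trans (mul_le_mul_of_nonneg_right ?_ hh.le) h1
    have := one_le_pow₀ (n := 2) hN1
    linarith
  obtain ⟨a, x₂, S, X, hv⟩ := hx φ ψ hp h ω m st h2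
  set f : E n → ℝ := fun p =>
    Dd φ ψ (G.pt a) (G.ex a ((1 - 128 * 10 ^ 19 * N * h / ω) • p)) with hf
  have hfc : Continuous f := hp.left.continuous_Dd.comp (continuous_const.prodMk
    ((G.continuous_ex (G.F_sub X.ha)).comp (continuous_const_smul _)))
  have hS : S = S ∩ {p | f p ≤ 8 * 10 ^ 6 * h} ∪ S ∩ {p | 8 * 10 ^ 6 * h ≤ f p} := by
    rw [← inter_union_distrib_left]
    exact (inter_eq_left.2 fun p _ => le_total (f p) _).symm
  have hu := G.vol_union_le (G.ex a '' (S ∩ {p | f p ≤ 8 * 10 ^ 6 * h}))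
    (G.ex a '' (S ∩ {p | 8 * 10 ^ 6 * h ≤ f p}))
  rw [← image_union, ← hS] at hu
  have hcm : 0 < cx * m := by positivity
  have hc1 : IsCompact (S ∩ {p | f p ≤ 8 * 10 ^ 6 * h}) :=
    X.compact.inter_right (isClosed_le hfc continuous_const)
  have hc2 : IsCompact (S ∩ {p | 8 * 10 ^ 6 * h ≤ f p}) :=
    X.compact.inter_right (isClosed_le continuous_const hfc)
  have key : ∀ {v ε C : ℝ}, cx * m ≤ 2 * v → min (1 / 10 ^ 6) εb ≤ ε → 0 ≤ C → C ≤ Cg + Cb →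
      G.Rise φ ψ ε C h ω v → G.Rise φ ψ (min (1 / 10 ^ 6) εb) ((1 + 2 / cx) * (Cg + Cb)) h ω m := by
    intro v ε C a1 a2 a3 a4 H
    refine H.mono hω (by positivity) a2 hh.le le_rfl
      (le_mul_of_one_le_left hh.le (by linarith)) ?_ a3 (by linarith)
      (mul_le_mul_of_nonneg_left a4 (by linarith))
    have a5 : m ≤ 2 / cx * v := by
      rw [div_mul_eq_mul_div, le_div_iff₀ hcx]
      linarith
    linarith
  rcases le_total (vol n (G.ex a '' (S ∩ {p | 8 * 10 ^ 6 * h ≤ f p})))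
    (vol n (G.ex a '' (S ∩ {p | f p ≤ 8 * 10 ^ 6 * h}))) with hle | hle
  · have X' := X.mono inter_subset_left hc1 (by linarith)
    rcases hg N hN φ ψ hp a x₂ h ω _ X' h1 (fun p hp => hp.2) with H | H
    · refine Or.inl (H.mono (by positivity) ?_)
      have := mul_le_mul_of_nonneg_left (show cx * m ≤
        2 * vol n (G.ex a '' (S ∩ {p | f p ≤ 8 * 10 ^ 6 * h})) by linarith)
        (by positivity : 0 ≤ cg * N / 2)
      exact (le_of_eq (by ring)).trans (this.trans (le_of_eq (by ring)))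
    · exact Or.inr (key (by linarith) (min_le_left _ _) (by linarith) (by linarith) H)
  · have X' := X.mono inter_subset_left hc2 (by linarith)
    exact Or.inr (key (by linarith) (min_le_right _ _) (by linarith) (by linarith)
      (hb φ ψ hp a x₂ h ω _ X' h1 fun p hp => hp.2))

end LocGeo

end Crest.Agent.R226
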