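import Crest.Agent.R226.TDefs

/-! Row 226, `core`: volume lemmas, lifts, moves, pigeonhole principles. -/

set_option autoImplicit false

open Set Filter Metric MeasureTheory
open scoped Topology InnerProductSpace ENNReal

namespace Crest.Agent.R226

variable {n : ℕ} {M : Type*} [MetricSpace M] [CompactSpace M] [MeasurableSpace M] [BorelSpace M]

omit [CompactSpace M] in
theorem vol_nonneg (A : Set M) : 0 ≤ vol n A := ENNReal.toReal_nonneg

omit [CompactSpace M] in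
@[simp] theorem vol_empty : vol n (∅ : Set M) = 0 := by simp [vol]

omit [CompactSpace M] in
theorem nonempty_of_vol_pos {A : Set M} (h : 0 < vol n A) : A.Nonempty := by
  rcases A.eq_empty_or_nonempty with rfl | h'
  · simp at h
  · exact h'

namespace LocGeo

variable (G : LocGeo n M) {a : P n}

include G in
theorem tv_ne_top (A : Set M) : μH[n] A ≠ ⊤ :=
  ((measure_mono (subset_univ A)).trans_lt G.vol_univ_lt_top).ne

include G in
theorem vol_mono {A B : Set M} (h : A ⊆ B) : vol n A ≤ vol n B := by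
  exact ENNReal.toReal_mono (G.tv_ne_top B) (measure_mono h)

include G in
theorem vol_union_le (A B : Set M) : vol n (A ∪ B) ≤ vol n A + vol n B := by
  unfold vol
  rw [← ENNReal.toReal_add (G.tv_ne_top A) (G.tv_ne_top B)]
  exact ENNReal.toReal_mono (ENNReal.add_ne_top.2 ⟨G.tv_ne_top A, G.tv_ne_top B⟩)
    (measure_union_le A B)

include G in
theorem vol_biUnion_le {ι : Type*} (T : Finset ι) (A : ι → Set M) :
    vol n (⋃ i ∈ T, A i) ≤ ∑ i ∈ T, vol n (A i) := by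
  unfold vol
  rw [← ENNReal.toReal_sum fun i _ => G.tv_ne_top (A i)]
  exact ENNReal.toReal_mono (ENNReal.sum_ne_top.2 fun i _ => G.tv_ne_top (A i))
    (measure_biUnion_finset_le T A)

include G in
theorem vol_biUnion_eq {ι : Type*} (T : Finset ι) (A : ι → Set M)
    (hc : ∀ i ∈ T, IsCompact (A i)) (hd : (T : Set ι).PairwiseDisjoint A) :
    vol n (⋃ i ∈ T, A i) = ∑ i ∈ T, vol n (A i) := by
  unfold vol
  rw [← ENNReal.toReal_sum fun i _ => G.tv_ne_top (A i),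
    measure_biUnion_finset hd fun i hi => (hc i hi).isClosed.measurableSet]

include G in
theorem vol_ball' : ∃ c : ℝ, 0 < c ∧ ∀ x : M, ∀ r, 0 < r → r ≤ 1 →
    c * r ^ n ≤ vol n (closedBall x r) := by
  obtain ⟨c, hc, h⟩ := G.vol_ball
  exact ⟨c, hc, fun x r hr hr1 =>
    (ENNReal.ofReal_le_iff_le_toReal (G.tv_ne_top _)).1 (h x r hr hr1)⟩

include G in
/-- `Gam` of a compact set is compact and the volume does not shrink too much. -/
theorem pair_vol {κ : ℝ} (hκ : 1 ≤ κ) {φ ψ : M → ℝ} (h : Pair n κ φ ψ) {A : Set M}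
    (hA : IsCompact A) : IsCompact (Gam φ ψ A) ∧ vol n A ≤ κ * vol n (Gam φ ψ A) := by
  constructor
  · have hc : Continuous fun z : M × M => Dd φ ψ z.1 z.2 := by
      unfold Dd
      exact ((h.right.cont.comp continuous_fst).add (h.left.cont.comp continuous_snd)).add
        continuous_cst
    have h1 : IsCompact ((A ×ˢ (univ : Set M)) ∩ {z : M × M | Dd φ ψ z.1 z.2 = 0}) :=
      (hA.prod isCompact_univ).inter_right (isClosed_eq hc continuous_const)
    have h2 := h1.image continuous_snd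
    refine (Set.ext fun y => ?_ : _ = Gam φ ψ A) ▸ h2
    constructor
    · rintro ⟨⟨x, y'⟩, ⟨⟨hx, -⟩, h0⟩, rfl⟩
      exact ⟨x, hx, h0⟩
    · rintro ⟨x, hx, h0⟩
      exact ⟨(x, y), ⟨⟨hx, mem_univ _⟩, h0⟩, rfl⟩
  · have h1 := ENNReal.toReal_mono
      (ENNReal.mul_ne_top ENNReal.ofReal_ne_top (G.tv_ne_top _)) (h.volL A hA.isClosed)
    rwa [ENNReal.toReal_mul, ENNReal.toReal_ofReal (zero_le_one.trans hκ)] at h1

omit [MeasurableSpace M] [BorelSpace M] in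
theorem isCompact_lift (ha : a ∈ G.U) {A : Set M} (hA : IsCompact A) : IsCompact (G.lift a A) := by
  exact (G.isCompact_K ha).inter_right (hA.isClosed.preimage (G.continuous_ex ha))

omit [MeasurableSpace M] [BorelSpace M] in
theorem image_lift (ha : a ∈ G.U) (A : Set M) : G.ex a '' G.lift a A = A := by
  ext y
  constructor
  · rintro ⟨p, hp, rfl⟩
    exact hp.2
  · intro hy
    obtain ⟨p, hp, rfl⟩ := G.exists_min ha y
    exact ⟨p, ⟨hp, hy⟩, rfl⟩

include G in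
/-- dyadic pigeonhole: `A` is covered by finitely many classes (`g` is bounded) and
`∑ 2^{-(i+1)} < 1`; if `vol A = 0` take `i = 0`. -/
theorem heavy_class {A : Set M} {g : M → ℝ} (hg : Continuous g) {g₀ : ℝ} (h₀ : 0 < g₀)
    (hA : ∀ x ∈ A, g₀ ≤ g x) :
    ∃ i : ℕ, vol n A ≤ 2 ^ (i + 1) * vol n (A ∩ {x | 2 ^ i * g₀ ≤ g x ∧ g x ≤ 2 ^ (i + 1) * g₀}) := by
  by_contra hcon
  push Not at hcon
  have hv : 0 < vol n A := lt_of_le_of_lt (mul_nonneg (by positivity) (vol_nonneg _)) (hcon 0)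
  obtain ⟨B, hB⟩ := (isCompact_univ.image hg).bddAbove
  obtain ⟨N, hN⟩ := pow_unbounded_of_one_lt (B / g₀) (one_lt_two (α := ℝ))
  have hcov : A ⊆ ⋃ i ∈ Finset.range N,
      A ∩ {x | 2 ^ i * g₀ ≤ g x ∧ g x ≤ 2 ^ (i + 1) * g₀} := by
    intro x hx
    obtain ⟨i, h1, h2⟩ := exists_nat_pow_near ((one_le_div h₀).2 (hA x hx)) (one_lt_two (α := ℝ))
    have h3 : g x / g₀ ≤ B / g₀ := by gcongr; exact hB ⟨x, mem_univ _, rfl⟩
    have hi : i < N := (pow_lt_pow_iff_right₀ (one_lt_two (α := ℝ))).1 (h1.trans_lt (h3.trans_lt hN))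
    exact mem_iUnion₂.2 ⟨i, Finset.mem_range.2 hi, hx, (le_div_iff₀ h₀).1 h1,
      ((div_lt_iff₀ h₀).1 h2).le⟩
  have h1 := (G.vol_mono hcov).trans (G.vol_biUnion_le _ _)
  have h2 : ∀ k : ℕ, ∑ i ∈ Finset.range k,
      vol n (A ∩ {x | 2 ^ i * g₀ ≤ g x ∧ g x ≤ 2 ^ (i + 1) * g₀}) ≤ vol n A - vol n A / 2 ^ k := by
    intro k
    induction k with
    | zero => simp
    | succ k ih =>
      rw [Finset.sum_range_succ]
      have h3 : vol n (A ∩ {x | 2 ^ k * g₀ ≤ g x ∧ g x ≤ 2 ^ (k + 1) * g₀}) ≤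
          vol n A / 2 ^ (k + 1) := by
        rw [le_div_iff₀ (by positivity), mul_comm]; exact (hcon k).le
      have h4 : vol n A / 2 ^ k = 2 * (vol n A / 2 ^ (k + 1)) := by
        rw [pow_succ]; field_simp
      linarith
  have h5 : 0 < vol n A / 2 ^ N := by positivity
  linarith [h2 N]

include G in
/-- a heavy small piece.  Proof: cover the compact set `closedBall 0 3 ×ˢ Icc 0 4 ⊆ E n × ℝ` by
finitely many (`T.card`, depending only on `n, θ`) closed balls of radius `min (√θ) θ / 2` (sup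
metric); pull the cover back by `p ↦ ((√g)⁻¹ • (p - z), (sg p - l) / g)`; one of the (compact)
pieces has `vol ≥ vol / card` (`vol_biUnion_le`); if that piece is empty then `vol (e '' S) = 0`
and a singleton works. -/
theorem heavy_piece {θ : ℝ} (hθ : 0 < θ) : ∃ c > 0, ∀ (e : E n → M) (S : Set (E n)) (z : E n)
    (g l : ℝ), IsCompact S → S.Nonempty → 0 < g →
    (∀ p ∈ S, ‖p - z‖ ^ 2 ≤ 8 * g ∧ l ≤ sg p ∧ sg p ≤ l + 4 * g) →
    ∃ Q ⊆ S, IsCompact Q ∧ Q.Nonempty ∧ c * vol n (e '' S) ≤ vol n (e '' Q) ∧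
      ∀ p ∈ Q, ∀ p' ∈ Q, ‖p - p'‖ ^ 2 ≤ θ * g ∧ |sg p - sg p'| ≤ θ * g := by
  have hρ : 0 < min (Real.sqrt θ) θ / 2 := by
    have := Real.sqrt_pos.2 hθ
    positivity
  obtain ⟨T₀, -, hT₀, hcov⟩ := finite_cover_balls_of_compact
    ((isCompact_closedBall (0 : E n) 3).prod (isCompact_Icc (a := (0 : ℝ)) (b := 4))) hρ
  set T := hT₀.toFinset with hT
  refine ⟨1 / (T.card + 1), by positivity, ?_⟩
  intro e S z g l hS hne hg hb
  have hsg : 0 < Real.sqrt g := Real.sqrt_pos.2 hg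
  set Φ : E n → E n × ℝ := fun p => ((Real.sqrt g)⁻¹ • (p - z), (sg p - l) / g) with hΦ
  have hΦc : Continuous Φ := by
    have := continuous_sg (n := n)
    rw [hΦ]; fun_prop
  set Q : E n × ℝ → Set (E n) := fun y => S ∩ Φ ⁻¹' closedBall y (min (Real.sqrt θ) θ / 2) with hQ
  have hmem : ∀ p ∈ S, ∃ y ∈ T, p ∈ Q y := by
    intro p hp
    obtain ⟨h1, h2, h3⟩ := hb p hp
    have : Φ p ∈ closedBall (0 : E n) 3 ×ˢ Icc (0 : ℝ) 4 := by
      refine ⟨?_, ?_, ?_⟩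
      · rw [mem_closedBall_zero_iff]
        change ‖(Real.sqrt g)⁻¹ • (p - z)‖ ≤ 3
        rw [norm_smul, Real.norm_eq_abs, abs_of_pos (inv_pos.2 hsg), inv_mul_le_iff₀ hsg]
        refine (abs_le_of_sq_le_sq' ?_ (by positivity)).2
        rw [mul_pow, Real.sq_sqrt hg.le]; linarith
      · change 0 ≤ (sg p - l) / g
        exact div_nonneg (by linarith) hg.le
      · change (sg p - l) / g ≤ 4
        rw [div_le_iff₀ hg]; linarith
    obtain ⟨y, hy, hy'⟩ := mem_iUnion₂.1 (hcov this)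
    exact ⟨y, hT₀.mem_toFinset.2 hy, hp, ball_subset_closedBall hy'⟩
  obtain ⟨p₀, hp₀⟩ := hne
  obtain ⟨y₀, hy₀, -⟩ := hmem p₀ hp₀
  obtain ⟨y, hy, hmax⟩ := T.exists_max_image (fun y => vol n (e '' Q y)) ⟨y₀, hy₀⟩
  have hvol : vol n (e '' S) ≤ T.card * vol n (e '' Q y) := by
    calc vol n (e '' S) ≤ vol n (⋃ y ∈ T, e '' Q y) := by
          refine G.vol_mono ?_
          rintro _ ⟨p, hp, rfl⟩
          obtain ⟨y, hy, hpy⟩ := hmem p hp
          exact mem_iUnion₂.2 ⟨y, hy, p, hpy, rfl⟩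
      _ ≤ ∑ y ∈ T, vol n (e '' Q y) := G.vol_biUnion_le T _
      _ ≤ T.card * vol n (e '' Q y) := by
          simpa using Finset.sum_le_card_nsmul T _ _ hmax
  have hvol' : 1 / ((T.card : ℝ) + 1) * vol n (e '' S) ≤ vol n (e '' Q y) := by
    rw [one_div, inv_mul_le_iff₀ (by positivity)]
    have := vol_nonneg (n := n) (e '' Q y)
    linarith
  rcases (Q y).eq_empty_or_nonempty with h0 | h0
  · refine ⟨{p₀}, singleton_subset_iff.2 hp₀, isCompact_singleton, singleton_nonempty _, ?_, ?_⟩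
    · rw [h0, image_empty, vol_empty] at hvol'
      exact hvol'.trans (vol_nonneg _)
    · rintro p rfl p' rfl
      have : 0 ≤ θ * g := by positivity
      simpa using this
  · refine ⟨Q y, inter_subset_left, hS.inter_right (isClosed_closedBall.preimage hΦc), h0, hvol', ?_⟩
    intro p hp p' hp'
    have hd : dist (Φ p) (Φ p') ≤ min (Real.sqrt θ) θ := by
      have h1 : dist (Φ p) y ≤ min (Real.sqrt θ) θ / 2 := hp.2
      have h2 : dist (Φ p') y ≤ min (Real.sqrt θ) θ / 2 := hp'.2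
      linarith [dist_triangle_right (Φ p) (Φ p') y]
    rw [Prod.dist_eq, max_le_iff] at hd
    obtain ⟨h1, h2⟩ := hd
    constructor
    · have h3 : ‖(Real.sqrt g)⁻¹ • (p - z) - (Real.sqrt g)⁻¹ • (p' - z)‖ ≤ Real.sqrt θ := by
        rw [← dist_eq_norm]; exact h1.trans (min_le_left _ _)
      rw [← smul_sub, sub_sub_sub_cancel_right, norm_smul, Real.norm_eq_abs,
        abs_of_pos (inv_pos.2 hsg), inv_mul_le_iff₀ hsg] at h3
      calc ‖p - p'‖ ^ 2 ≤ (Real.sqrt g * Real.sqrt θ) ^ 2 := by gcongr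
        _ = θ * g := by rw [mul_pow, Real.sq_sqrt hg.le, Real.sq_sqrt hθ.le, mul_comm]
    · have h3 : |(sg p - l) / g - (sg p' - l) / g| ≤ θ := by
        rw [← Real.dist_eq]; exact h2.trans (min_le_right _ _)
      rwa [← sub_div, sub_sub_sub_cancel_right, abs_div, abs_of_pos hg, div_le_iff₀ hg] at h3

variable {G}

/-- `exists_nData`, `vol_le`, `NData.move`, `vol_ge_K` (the image lies in `K a` by `hom_mem`,
`convex_K`; all volumes are finite by `vol_univ_lt_top`). -/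
theorem movev (hM : G.MTW) {u₀ t₁ : ℝ} (hu : 0 < u₀) (ht : 0 < t₁) :
    ∃ c > 0, ∀ a ∈ G.F, ∀ z ∈ G.K a, ∀ S ⊆ G.K a, IsCompact S → ∀ t ∈ Icc t₁ 1,
      (∀ r ∈ S, ∀ s ∈ Icc t 1, u₀ * ‖r - z‖ ^ 2 ≤ |⟪z + s • (r - z), r - z⟫_ℝ|) →
      c * vol n (G.ex a '' S) ≤ vol n (G.ex a '' (hom z t '' S)) := by
  obtain ⟨D⟩ := exists_nData G
  obtain ⟨C₁, hC₁, h₁⟩ := D.vol_le
  obtain ⟨c, hc, h₂⟩ := D.move hM hu ht
  obtain ⟨C₃, hC₃, h₃⟩ := vol_ge_K hM D
  refine ⟨c / (C₁ * C₃), by positivity, fun a ha z hz S hS hSc t ht' hst => ?_⟩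
  have hK : hom z t '' S ⊆ G.K a := by
    rintro _ ⟨r, hr, rfl⟩
    exact hom_mem (convex_K hM (G.F_sub ha)) hz (hS hr) (ht.le.trans ht'.1) ht'.2
  have a1 := h₁ a ha S hS hSc.measurableSet
  have a2 : ENNReal.ofReal c * D.m a S ≤ D.m a (hom z t '' S) :=
    h₂ a ha z hz S hS hSc.measurableSet t ht' hst
  have a3 := h₃ a ha _ hK (hSc.image (continuous_hom z t)).measurableSet
  have a4 : ENNReal.ofReal c * μH[n] (G.ex a '' S) ≤
      ENNReal.ofReal (C₁ * C₃) * μH[n] (G.ex a '' (hom z t '' S)) := by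
    calc ENNReal.ofReal c * μH[n] (G.ex a '' S)
        ≤ ENNReal.ofReal c * (ENNReal.ofReal C₁ * D.m a S) := by gcongr
      _ = ENNReal.ofReal C₁ * (ENNReal.ofReal c * D.m a S) := mul_left_comm _ _ _
      _ ≤ ENNReal.ofReal C₁ * (ENNReal.ofReal C₃ * μH[n] (G.ex a '' (hom z t '' S))) := by
          exact mul_le_mul_right (a2.trans a3) _
      _ = _ := by rw [ENNReal.ofReal_mul (by positivity), mul_assoc]
  have hfin : μH[n] (G.ex a '' (hom z t '' S)) ≠ ⊤ :=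
    ((measure_mono (subset_univ _)).trans_lt G.vol_univ_lt_top).ne
  have a5 := ENNReal.toReal_mono (ENNReal.mul_ne_top ENNReal.ofReal_ne_top hfin) a4
  rw [ENNReal.toReal_mul, ENNReal.toReal_mul, ENNReal.toReal_ofReal hc.le,
    ENNReal.toReal_ofReal (by positivity)] at a5
  rw [div_mul_eq_mul_div, div_le_iff₀ (by positivity), mul_comm _ (C₁ * C₃)]
  exact a5

/-- moving down by at most a quarter (`inner_hom`, margin `1/4`). -/
theorem move_down (hM : G.MTW) : ∃ c > 0, ∀ a ∈ G.F, ∀ z ∈ G.K a, ∀ S ⊆ G.K a, IsCompact S →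
    ∀ t ∈ Icc (3 / 4 : ℝ) 1, (∀ r ∈ S, sg z ≤ sg r) →
      c * vol n (G.ex a '' S) ≤ vol n (G.ex a '' (hom z t '' S)) := by
  obtain ⟨c, hc, h⟩ := movev hM (u₀ := 1 / 4) (t₁ := 3 / 4) (by norm_num) (by norm_num)
  refine ⟨c, hc, fun a ha z hz S hS hSc t ht hr => h a ha z hz S hS hSc t ht fun r hrS s hs => ?_⟩
  refine le_trans ?_ (le_abs_self _)
  rw [inner_hom]
  have h1 := hr r hrS
  have h2 := mul_nonneg (sub_nonneg.2 (ht.1.trans hs.1)) (sq_nonneg ‖r - z‖)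
  linarith

/-- moving towards a bottom point (`inner_hom`, margin `1/2`). -/
theorem move_bot (hM : G.MTW) : ∃ c > 0, ∀ a ∈ G.F, ∀ z ∈ G.K a, ∀ S ⊆ G.K a, IsCompact S →
    ∀ t ∈ Icc (1 / 2 : ℝ) 1, (∀ r ∈ S, ‖r - z‖ ^ 2 / 2 ≤ sg r - sg z) →
      c * vol n (G.ex a '' S) ≤ vol n (G.ex a '' (hom z t '' S)) := by
  obtain ⟨c, hc, h⟩ := movev hM (u₀ := 1 / 2) (t₁ := 1 / 2) (by norm_num) (by norm_num)
  refine ⟨c, hc, fun a ha z hz S hS hSc t ht hr => h a ha z hz S hS hSc t ht fun r hrS s hs => ?_⟩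
  refine le_trans ?_ (le_abs_self _)
  rw [inner_hom]
  have h1 := hr r hrS
  have h2 := mul_nonneg (sub_nonneg.2 (ht.1.trans hs.1)) (sq_nonneg ‖r - z‖)
  linarith

/-- moving up (`inner_hom`: the inner product is `≤ -u₀ ‖r - z‖²` for all `s ≤ 1`). -/
theorem move_up (hM : G.MTW) {u₀ t₁ : ℝ} (hu : 0 < u₀) (ht : 0 < t₁) :
    ∃ c > 0, ∀ a ∈ G.F, ∀ z ∈ G.K a, ∀ S ⊆ G.K a, IsCompact S → ∀ t ∈ Icc t₁ 1,
      (∀ r ∈ S, (1 / 2 + u₀) * ‖r - z‖ ^ 2 ≤ sg z - sg r) →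
      c * vol n (G.ex a '' S) ≤ vol n (G.ex a '' (hom z t '' S)) := by
  obtain ⟨c, hc, h⟩ := movev hM hu ht
  refine ⟨c, hc, fun a ha z hz S hS hSc t ht hr => h a ha z hz S hS hSc t ht fun r hrS s hs => ?_⟩
  refine le_trans ?_ (neg_le_abs _)
  rw [inner_hom]
  have h1 := hr r hrS
  have h2 := mul_nonneg (sub_nonneg.2 hs.2) (sq_nonneg ‖r - z‖)
  linarith

/-- `N` disjoint radial copies of a radially thin set.  Proof: `τ_j = 2 j τ`, `j = 1..N`,
`Q_j = hom 0 (1 - τ_j) '' Q ⊆ sw (2 N τ) Q`, `move_bot` with `z = 0`; the images `ex a '' Q_j`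
are pairwise disjoint: if `ex a ((1-τ_j) p) = ex a ((1-τ_k) p')`, `k < j`, then (`smul_mem_I`,
`K_smul`, `eq_of_mem_I`) `p' = (1 - t) p` with `t = (τ_j - τ_k) / (1 - τ_k) ∈ [2τ, 1)`;
`vol_biUnion_eq`. -/
theorem sweep (hM : G.MTW) : ∃ c > 0, ∀ a ∈ G.F, ∀ S ⊆ G.K a, ∀ (τ : ℝ) (N : ℕ), 0 < τ →
    2 * N * τ ≤ 1 / 2 → (∀ p ∈ S, ∀ t, τ < t → t < 1 → (1 - t) • p ∉ S) →
    ∀ Q ⊆ S, IsCompact Q → c * N * vol n (G.ex a '' Q) ≤ vol n (G.ex a '' sw (2 * N * τ) Q) := by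
  obtain ⟨c, hc, H⟩ := move_bot hM
  refine ⟨c, hc, ?_⟩
  intro a ha S hS τ N hτ hN hthin Q hQ hQc
  have haU := G.F_sub ha
  have h0 : (0 : E n) ∈ G.K a := by simp [K, pt]
  have hhom : ∀ (t : ℝ) (r : E n), hom 0 t r = t • r := fun t r => by simp [hom]
  have hj : ∀ j ∈ Finset.range N, 0 < 2 * ((j : ℝ) + 1) * τ ∧ 2 * ((j : ℝ) + 1) * τ ≤ 2 * N * τ := by
    intro j hj
    have h1 : (j : ℝ) + 1 ≤ N := by exact_mod_cast Finset.mem_range.1 hj
    exact ⟨by positivity, by gcongr⟩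
  set A : ℕ → Set M := fun j => G.ex a '' (hom 0 (1 - 2 * ((j : ℝ) + 1) * τ) '' Q) with hA
  have key : ∀ j ∈ Finset.range N, ∀ k ∈ Finset.range N, k < j → Disjoint (A j) (A k) := by
    intro j hjN k hkN hkj
    rw [Set.disjoint_left]
    rintro _ ⟨_, ⟨p, hp, rfl⟩, rfl⟩ ⟨_, ⟨p', hp', rfl⟩, he⟩
    obtain ⟨j1, j2⟩ := hj j hjN
    obtain ⟨k1, k2⟩ := hj k hkN
    have hkj' : (k : ℝ) + 1 ≤ j := by exact_mod_cast hkj
    rw [hhom, hhom] at he
    set tj := 2 * ((j : ℝ) + 1) * τ with htj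
    set tk := 2 * ((k : ℝ) + 1) * τ with htk
    have hd : 2 * τ ≤ tj - tk := by rw [htj, htk]; nlinarith
    have e1 := G.eq_of_mem_I haU
      (G.smul_mem_I haU (hS (hQ hp)) (t := 1 - tj) (by linarith) (by linarith))
      (G.K_smul haU (hS (hQ hp')) (t := 1 - tk) ⟨by linarith, by linarith⟩) he.symm
    have hk0 : 0 < 1 - tk := by linarith
    have e2 : p' = (1 - (tj - tk) / (1 - tk)) • p := by
      have : (1 - (tj - tk) / (1 - tk)) = (1 - tk)⁻¹ * (1 - tj) := by field_simp; ring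
      rw [this, mul_smul, e1, inv_smul_smul₀ hk0.ne']
    refine hthin p (hQ hp) ((tj - tk) / (1 - tk)) ?_ ?_ (e2 ▸ hQ hp')
    · rw [lt_div_iff₀ hk0]; nlinarith
    · rw [div_lt_one hk0]; linarith
  have hdisj : ((Finset.range N : Finset ℕ) : Set ℕ).PairwiseDisjoint A := by
    intro j hjN k hkN hne
    rcases lt_or_gt_of_ne hne with h | h
    · exact (key k hkN j hjN h).symm
    · exact key j hjN k hkN h
  have hcomp : ∀ j ∈ Finset.range N, IsCompact (A j) := fun j _ =>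
    (hQc.image (continuous_hom _ _)).image (G.continuous_ex haU)
  have hlow : ∀ j ∈ Finset.range N, c * vol n (G.ex a '' Q) ≤ vol n (A j) := by
    intro j hjN
    obtain ⟨j1, j2⟩ := hj j hjN
    refine H a ha 0 h0 Q (hQ.trans hS) hQc _ ⟨by linarith, by linarith⟩ fun r _ => ?_
    simp [sg]
  calc c * N * vol n (G.ex a '' Q) = ∑ _j ∈ Finset.range N, c * vol n (G.ex a '' Q) := by
        simp; ring
    _ ≤ ∑ j ∈ Finset.range N, vol n (A j) := Finset.sum_le_sum hlow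
    _ = vol n (⋃ j ∈ Finset.range N, A j) := (G.vol_biUnion_eq _ _ hcomp hdisj).symm
    _ ≤ _ := by
        refine G.vol_mono (iUnion₂_subset fun j hjN => image_mono ?_)
        obtain ⟨j1, j2⟩ := hj j hjN
        rintro _ ⟨p, hp, rfl⟩
        exact mem_sw.2 ⟨_, ⟨j1.le, j2⟩, p, hp, hhom _ _⟩

end LocGeo

end Crest.Agent.R226
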