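import Crest.Agent.R226.TVol
import Crest.Agent.R226.TTilt

/-! Row 226, `core`: the `x`-step. -/

set_option autoImplicit false

open Set Filter Metric MeasureTheory
open scoped Topology InnerProductSpace ENNReal

namespace Crest.Agent.R226

namespace LocGeo

variable {n : ℕ} {M : Type*} [MetricSpace M] [CompactSpace M] [MeasurableSpace M] [BorelSpace M]
  {G : LocGeo n M}

omit [MeasurableSpace M] [BorelSpace M] in
/-- pointwise part.  Let `r' = hom r₂ (999/1000) r` (`Tilt.first`), `r'' = hom r₁ (1/2) r'`,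
`Δ = sg r₁ - sg r' ≥ 48ω/10^5 ≥ 6 ‖r' - r₁‖²`, `s ω = 10^5 h`, `0 ≤ wf` on `K b` (`lower`).
(1) `three_point` with `r₀ = r₁`, end point `r'`, `t = 1/2`, `B = 9 s ω`, `κ = -28 s ω / Δ < 0 ≤ k`:
`sg r'' - sg r' = Δ/2 - ‖r' - r₁‖²/8 ≥ 0.47 Δ`, so `Dd ≤ h + 28 s ω · 0.53`.
(2) `three_point` with `r₀ = r₂`, end point `m = hom r₁ (999/1999) r` (`wf m ≤ h` by `qc_hom`),
`r'' = hom r₂ (1999/2000) m` (`module`/`ext; simp; ring`), `B = h`, `κ = 16000 h / ω ≤ s ≤ k`: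
`sg m ≥ sg r₁ - 2.25 ω/10^5`, `sg m - sg r'' ≥ (sg m - sg r₂)/2000 ≥ 0.49 ω/2000`,
`sg r'' - sg r₂ ≤ sg m - sg r₂ ≤ 2.01 ω`, so `Dd ≤ 9·10^5 h + 32200 h`.
(3) `φ (ex r'') - φ (ex r₁) = wf r'' - wf r₁ + (1 + k)(sg r₁ - sg r'') ≥ -h + Δ/2`,
`h ≤ ω/(40·10^5)`. -/
theorem Tilt.xpt (hM : G.MTW) {φ ψ : M → ℝ} (hφ : IsCT univ φ ψ) {y : M} {b : P n}
    {r₁ r₂ : E n} {k e h ω s : ℝ} {A : Set M} (T : G.Tilt φ ψ y b r₁ r₂ k e h ω s A)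
    (hs : s * ω = 10 ^ 5 * h) {r : E n} (hr : r ∈ G.lift b A) {y' : M}
    (hy : Dd φ ψ (G.ex b (hom r₁ (1 / 2) (hom r₂ (999 / 1000) r))) y' = 0) :
    Dd φ ψ (G.ex b r₁) y' ≤ 4 * 10 ^ 6 * h ∧ Dd φ ψ (G.ex b r₂) y' ≤ 4 * 10 ^ 6 * h ∧
      φ (G.ex b r₁) + ω / 16000 ≤ φ (G.ex b (hom r₁ (1 / 2) (hom r₂ (999 / 1000) r))) := by
  have hb : b ∈ G.U := G.F_sub T.hb
  have hK := G.convex_K hM hb
  have hh := T.h_pos
  have hω := T.ω_pos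
  have hs0 : 0 < s := by
    by_contra h0
    have : s * ω ≤ 0 := mul_nonpos_of_nonpos_of_nonneg (not_lt.1 h0) hω.le
    linarith
  have hk0 : 0 ≤ k := hs0.le.trans T.k_ge
  have hw0 : ∀ p ∈ G.K b, 0 ≤ G.wf φ b k e p := fun p hp =>
    le_trans (add_nonneg (hφ.Dd_nonneg _ _) (by positivity)) (T.lower p hp)
  obtain ⟨-, f1, f2, f3, f4, -⟩ := T.first hM hφ hr
  obtain ⟨a1, a2, a3⟩ := T.onA r hr
  have e2 : hom r₁ (1 / 2) (hom r₂ (999 / 1000) r) =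
      hom r₂ (1999 / 2000) (hom r₁ (999 / 1999) r) := by
    unfold hom; module
  have hm : hom r₁ (999 / 1999) r ∈ G.K b := hom_mem hK T.hr₁ hr.1 (by norm_num) (by norm_num)
  have hwm : G.wf φ b k e (hom r₁ (999 / 1999) r) ≤ h :=
    (qc_hom (qc_wf hM hφ hb hk0 e) T.hr₁ hr.1 (by norm_num) (by norm_num)).trans
      (max_le T.w₁_le a1)
  have sm := sg_hom r₁ (999 / 1999) r
  have s2 := sg_hom r₂ (1999 / 2000) (hom r₁ (999 / 1999) r)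
  rw [← e2] at s2
  generalize hom r₂ (999 / 1000) r = r' at *
  have hr'' : hom r₁ (1 / 2) r' ∈ G.K b := hom_mem hK T.hr₁ f1 (by norm_num) (by norm_num)
  have s1 := sg_hom r₁ (1 / 2) r'
  have n1 : 0 ≤ ‖r' - r₁‖ ^ 2 := by positivity
  have n2 : 0 ≤ ‖r - r₁‖ ^ 2 := by positivity
  have n3 : 0 ≤ ‖hom r₁ (999 / 1999) r - r₂‖ ^ 2 := by positivity
  have hΔ : 0 < sg r₁ - sg r' := by linarith
  have w1 := T.w₁_le
  have w2 := T.w₂_le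
  have l1 := T.lev_ge
  have l2 := T.lev_le
  have a4 := abs_le.1 a3
  refine ⟨?_, ?_, ?_⟩
  · obtain ⟨c, hc0, hc⟩ : ∃ c : ℝ, 0 < c ∧ c * (sg r₁ - sg r') = 28 * 10 ^ 5 * h :=
      ⟨28 * 10 ^ 5 * h / (sg r₁ - sg r'), by positivity, div_mul_cancel₀ _ hΔ.ne'⟩
    have b1 : c * (48 / 100 * (sg r₁ - sg r')) ≤ c * (sg (hom r₁ (1 / 2) r') - sg r') :=
      mul_le_mul_of_nonneg_left (by linarith) hc0.le
    have b2 : c * (sg r₁ - sg (hom r₁ (1 / 2) r')) ≤ c * (52 / 100 * (sg r₁ - sg r')) :=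
      mul_le_mul_of_nonneg_left (by linarith) hc0.le
    have := three_point hM hφ hb (κ := -c) T.hr₁ f1 (by norm_num) (by norm_num) hy (hw0 _ hr'') f2
      (by linarith) (by linarith)
    linarith
  · obtain ⟨c, hc0, hc⟩ : ∃ c : ℝ, 0 < c ∧ c * ω = 16000 * h :=
      ⟨16000 * h / ω, by positivity, div_mul_cancel₀ _ hω.ne'⟩
    have hcs : c ≤ s := le_of_mul_le_mul_right (by linarith) hω
    have b1 : c * (49 / 200000 * ω) ≤ c * (sg (hom r₁ (999 / 1999) r) - sg (hom r₁ (1 / 2) r')) :=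
      mul_le_mul_of_nonneg_left (by linarith [a4.1]) hc0.le
    have b2 : c * (sg (hom r₁ (1 / 2) r') - sg r₂) ≤ c * (3 * ω) :=
      mul_le_mul_of_nonneg_left (by linarith [a4.2]) hc0.le
    have := three_point hM hφ hb (κ := c) (t := 1999 / 2000) T.hr₂ hm (by norm_num) (by norm_num)
      (e2 ▸ hy) (e2 ▸ hw0 _ hr'') hwm (hcs.trans T.k_ge) (by rw [← e2]; linarith)
    rw [← e2] at this
    linarith
  · have b0 := hw0 _ hr''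
    have b1 : 0 ≤ k * (sg r₁ - sg (hom r₁ (1 / 2) r')) := mul_nonneg hk0 (by linarith)
    have b2 : s * ω ≤ 1 / 40 * ω := mul_le_mul_of_nonneg_right T.s_le hω.le
    unfold wf at b0 w1
    linarith

/-- `Pre.tilt`; `S₁ = hom r₂ (999/1000) '' lift c A` (`move_down`), `S₂ = hom r₁ (1/2) '' S₁`
(`move_up` with `u₀ = 1`, `t₁ = 1/2`, by `Tilt.first`), `S₀ = Gam φ ψ (ex c '' S₂)` (`pair_vol`),
`a` a frame at `ex b q₁` (`exists_frame`), `S = lift a S₀` (`image_lift`), `Tilt.xpt`. -/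
theorem xstep (hM : G.MTW) {κ : ℝ} (hκ : 1 ≤ κ) : ∃ c > 0, ∀ φ ψ : M → ℝ, Pair n κ φ ψ →
    ∀ h ω m, G.St φ ψ h ω m → 4 * 10 ^ 6 * h ≤ ω →
      ∃ a x₂ S, G.XD φ ψ a x₂ h ω S ∧ c * m ≤ vol n (G.ex a '' S) := by
  obtain ⟨c₁, hc₁, H₁⟩ := move_down hM
  obtain ⟨c₂, hc₂, H₂⟩ := move_up hM (u₀ := 1) (t₁ := 1 / 2) one_pos (by norm_num)
  have hκ0 : 0 < κ := by linarith
  refine ⟨c₂ * c₁ / κ, by positivity, ?_⟩
  rintro φ ψ hP h ω m ⟨b, q₁, q₂, A, H, hm, hmA⟩ hω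
  have hh := H.h_pos
  have hω0 := H.ω_pos
  have hs : 10 ^ 5 * h / ω ≤ 1 / 40 := by
    rw [div_le_iff₀ hω0]; linarith
  have hs' : 10 ^ 5 * h / ω * ω = 10 ^ 5 * h := by field_simp
  obtain ⟨c, r₁, r₂, k, e, -, e₁, e₂, T⟩ := H.tilt hM hP.left hs
  have hcU := G.F_sub T.hb
  have hL : IsCompact (G.lift c A) := G.isCompact_lift hcU T.compact
  have hLK : G.lift c A ⊆ G.K c := fun r hr => hr.1
  have v₁ := H₁ c T.hb r₂ T.hr₂ (G.lift c A) hLK hL (999 / 1000) ⟨by norm_num, by norm_num⟩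
    (fun r hr => (T.first hM hP.left hr).1)
  rw [G.image_lift hcU] at v₁
  have hS₁ : IsCompact (hom r₂ (999 / 1000) '' G.lift c A) := hL.image (continuous_hom _ _)
  have hS₁K : hom r₂ (999 / 1000) '' G.lift c A ⊆ G.K c := by
    rintro _ ⟨r, hr, rfl⟩
    exact (T.first hM hP.left hr).2.1
  have v₂ := H₂ c T.hb r₁ T.hr₁ _ hS₁K hS₁ (1 / 2) ⟨le_rfl, by norm_num⟩ (by
    rintro _ ⟨r, hr, rfl⟩
    obtain ⟨-, -, -, f₁, f₂, -⟩ := T.first hM hP.left hr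
    nlinarith)
  have hS₂ : IsCompact (G.ex c '' (hom r₁ (1 / 2) '' (hom r₂ (999 / 1000) '' G.lift c A))) :=
    (hS₁.image (continuous_hom _ _)).image (G.continuous_ex hcU)
  obtain ⟨hS₀, v₃⟩ := G.pair_vol hκ hP hS₂
  obtain ⟨a, ha, hpa⟩ := G.exists_frame (G.ex b q₁)
  have haU := G.F_sub ha
  have key : ∀ p ∈ G.lift a
      (Gam φ ψ (G.ex c '' (hom r₁ (1 / 2) '' (hom r₂ (999 / 1000) '' G.lift c A)))),
      Dd φ ψ (G.pt a) (G.ex a p) ≤ 4 * 10 ^ 6 * h ∧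
        Dd φ ψ (G.ex b q₂) (G.ex a p) ≤ 4 * 10 ^ 6 * h ∧
        ∃ x', Dd φ ψ x' (G.ex a p) = 0 ∧ φ (G.pt a) + ω / 16000 ≤ φ x' := by
    rintro p ⟨-, _, ⟨_, ⟨_, ⟨r, hr, rfl⟩, rfl⟩, rfl⟩, hy⟩
    obtain ⟨g₁, g₂, g₃⟩ := T.xpt hM hP.left hs' hr hy
    rw [hpa, ← e₁, ← e₂]
    exact ⟨g₁, g₂, _, hy, g₃⟩
  have hvol : c₂ * c₁ / κ * m ≤ vol n (G.ex a '' G.lift a
      (Gam φ ψ (G.ex c '' (hom r₁ (1 / 2) '' (hom r₂ (999 / 1000) '' G.lift c A))))) := by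
    rw [G.image_lift haU, div_mul_eq_mul_div, div_le_iff₀ hκ0]
    have w₁ : c₁ * m ≤ c₁ * vol n A := mul_le_mul_of_nonneg_left hmA hc₁.le
    have w₂ := mul_le_mul_of_nonneg_left (w₁.trans v₁) hc₂.le
    calc c₂ * c₁ * m = c₂ * (c₁ * m) := by ring
      _ ≤ _ := (w₂.trans v₂).trans v₃
      _ = _ := mul_comm _ _
  refine ⟨a, G.ex b q₂, _, ⟨ha, hh, hω0, ?_, G.isCompact_lift haU hS₀, fun p hp => hp.1,
    lt_of_lt_of_le (by positivity) hvol, fun p hp => (key p hp).1, fun p hp => (key p hp).2.1,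
    fun p hp => (key p hp).2.2⟩, hvol⟩
  rw [hpa]
  exact H.ω_eq

omit [CompactSpace M] in
/-- `Dd x₁ y' - Dd x₂ y' = -ω + cst x₁ y' - cst x₂ y'`. -/
theorem XD.le_norm {φ ψ : M → ℝ} (hφ : IsCT univ φ ψ) {a : P n} {x₂ : M} {h ω : ℝ}
    {S : Set (E n)} (X : G.XD φ ψ a x₂ h ω S) (hs : 8 * 10 ^ 6 * h ≤ ω) :
    ∀ p ∈ S, ω ≤ ‖p‖ ^ 2 := by
  intro p hp
  have h1 := hφ.Dd_nonneg (G.pt a) (G.ex a p)
  have h2 := X.D₂ p hp
  have h3 := G.cst_K (X.sub hp)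
  have h4 := cst_nonneg x₂ (G.ex a p)
  have h5 := X.ω_eq
  unfold Dd at h1 h2
  linarith

/-- `thin` with `B = 4·10^6 h`, `lam = ω/16000`. -/
theorem XD.thin {φ ψ : M → ℝ} (hφ : IsCT univ φ ψ) {a : P n} {x₂ : M} {h ω : ℝ}
    {S : Set (E n)} (X : G.XD φ ψ a x₂ h ω S) :
    ∀ p ∈ S, ∀ t, 64 * 10 ^ 9 * h / ω < t → t < 1 → (1 - t) • p ∉ S := by
  intro p hp t ht ht1 hq
  have hh := X.h_pos
  have hω := X.ω_pos
  have ht0 : 0 < t := lt_trans (by positivity) ht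
  obtain ⟨x', hx, hl⟩ := X.contact _ hq
  have := LocGeo.thin hφ (G.F_sub X.ha) (X.sub hp) ht0 ht1 (X.D₁ p hp) hx hl
  rw [div_lt_iff₀ hω] at ht
  linarith

theorem XD.mono {φ ψ : M → ℝ} {a : P n} {x₂ : M} {h ω : ℝ} {S S' : Set (E n)}
    (X : G.XD φ ψ a x₂ h ω S) (hS : S' ⊆ S) (hc : IsCompact S') (hp : 0 < vol n (G.ex a '' S')) :
    G.XD φ ψ a x₂ h ω S' :=
  ⟨X.ha, X.h_pos, X.ω_pos, X.ω_eq, hc, hS.trans X.sub, hp, fun p hp => X.D₁ p (hS hp),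
    fun p hp => X.D₂ p (hS hp), fun p hp => X.contact p (hS hp)⟩

end LocGeo

end Crest.Agent.R226
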