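import Crest.Agent.R226.NData

/-! Row 226: Hausdorff measure in normal coordinates, Jacobian of the exponential map. -/

set_option autoImplicit false

open Set Filter Metric MeasureTheory
open scoped ContDiff Topology InnerProductSpace ENNReal

namespace Crest.Agent.R226

theorem Vol0_D2 {X : Type*} [NormedAddCommGroup X] [NormedSpace ℝ X] {Ψ : X → ℝ} {z : X}
    (h : ContDiffAt ℝ 2 Ψ z) (w w' : X) :
    HasDerivAt (fun t : ℝ => fderiv ℝ Ψ (z + t • w) w') (fderiv ℝ (fderiv ℝ Ψ) z w w') 0 := by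
  have h1 : HasFDerivAt (fderiv ℝ Ψ) (fderiv ℝ (fderiv ℝ Ψ) z) (z + (0 : ℝ) • w) := by
    rw [zero_smul, add_zero]
    exact ((h.fderiv_right (m := 1) (by norm_num)).differentiableAt one_ne_zero).hasFDerivAt
  have h2 : HasDerivAt (fun t : ℝ => z + t • w) w 0 := by
    simpa using ((hasDerivAt_id (0 : ℝ)).smul_const w).const_add z
  have h3 := (h1.comp_hasDerivAt (0 : ℝ) h2).clm_apply (hasDerivAt_const (0 : ℝ) w')
  simpa using h3

theorem Vol0_snd {X Y : Type*} [NormedAddCommGroup X] [NormedSpace ℝ X] [NormedAddCommGroup Y]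
    [NormedSpace ℝ Y] {Ψ : X × Y → ℝ} {x : X} {y : Y} (h : DifferentiableAt ℝ Ψ (x, y)) (v : Y) :
    fderiv ℝ (fun y' => Ψ (x, y')) y v = fderiv ℝ Ψ (x, y) (0, v) := by
  have := (h.hasFDerivAt.comp y (hasFDerivAt_prodMk_right x y)).fderiv
  exact congrArg (fun L : Y →L[ℝ] ℝ => L v) this

theorem Vol0_fst {X Y : Type*} [NormedAddCommGroup X] [NormedSpace ℝ X] [NormedAddCommGroup Y]
    [NormedSpace ℝ Y] {Ψ : X × Y → ℝ} {x : X} {y : Y} (h : DifferentiableAt ℝ Ψ (x, y)) (u : X) :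
    fderiv ℝ (fun x' => Ψ (x', y)) x u = fderiv ℝ Ψ (x, y) (u, 0) := by
  have := (HasFDerivAt.comp (f := fun e : X => (e, y)) x h.hasFDerivAt
    (hasFDerivAt_prodMk_left (𝕜 := ℝ) x y)).fderiv
  exact congrArg (fun L : X →L[ℝ] ℝ => L u) this

theorem Vol0_line {X : Type*} [NormedAddCommGroup X] [NormedSpace ℝ X] (z w : X) :
    HasDerivAt (fun t : ℝ => z + t • w) w 0 ∧ Tendsto (fun t : ℝ => z + t • w) (𝓝 0) (𝓝 z) := by
  have h2 : HasDerivAt (fun t : ℝ => z + t • w) w 0 := by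
    simpa using ((hasDerivAt_id (0 : ℝ)).smul_const w).const_add z
  refine ⟨h2, ?_⟩
  simpa using h2.continuousAt.tendsto

namespace LocGeo

variable {n : ℕ} {M : Type*} [MetricSpace M] [CompactSpace M] (G : LocGeo n M)

/-- Hausdorff measure and Lebesgue measure in small normal balls (`ex_lip`, `lg_lip` for
`Z = F × {0}`, `LipschitzOnWith.hausdorffMeasure_image_le`, `μH[n]` is a Haar measure on `E n`). -/
theorem vol_loc [MeasurableSpace M] [BorelSpace M] : ∃ C : ℝ, 1 ≤ C ∧ ∃ r > 0, r < G.ρ ∧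
    ∀ b ∈ G.F, ∀ S ⊆ closedBall (0 : E n) r,
      μH[n] (G.ex b '' S) ≤ ENNReal.ofReal C * volume S ∧
      volume S ≤ ENNReal.ofReal C * μH[n] (G.ex b '' S) := by
  have hH : Measure.IsAddHaarMeasure (μH[n] : Measure (E n)) := by
    have := isAddHaarMeasure_hausdorffMeasure (E := E n)
    rwa [finrank_euclideanSpace_fin] at this
  obtain ⟨c, hc⟩ : ∃ c : NNReal, (μH[n] : Measure (E n)) = c • volume :=
    ⟨_, Measure.isAddLeftInvariant_eq_smul _ _⟩
  obtain ⟨c', hc'⟩ : ∃ c : NNReal, (volume : Measure (E n)) = c • (μH[n] : Measure (E n)) :=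
    ⟨_, Measure.isAddLeftInvariant_eq_smul _ _⟩
  obtain ⟨L, hL, h1⟩ := G.ex_lip G.ρ
  obtain ⟨L', hL', r', hr', h2⟩ := G.lg_lip (Z := G.F ×ˢ {0})
    (G.F_compact.prod isCompact_singleton) (by
      rintro ⟨a, q⟩ ⟨ha, hq⟩
      obtain rfl : q = 0 := hq
      exact ⟨G.F_sub ha, G.mem_I_of_norm_lt (G.F_sub ha) (by simpa using G.ρ_pos)⟩)
  lift L to NNReal using zero_le_one.trans hL
  lift L' to NNReal using zero_le_one.trans hL'
  have hρ := G.ρ_pos
  refine ⟨((1 + L ^ n * c + c' * L' ^ n : NNReal) : ℝ), ?_, min (G.ρ / 2) r',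
    lt_min (by linarith) hr', (min_le_left _ _).trans_lt (by linarith), fun b hb S hS => ?_⟩
  · exact_mod_cast le_add_right (le_add_right le_rfl)
  have hb' := G.F_sub hb
  have hn : ∀ p ∈ S, ‖p‖ < G.ρ ∧ ‖p‖ ≤ r' := fun p hp => by
    have := mem_closedBall_zero_iff.1 (hS hp)
    exact ⟨(this.trans (min_le_left _ _)).trans_lt (by linarith), this.trans (min_le_right _ _)⟩
  have l1 : LipschitzOnWith L (G.ex b) S := LipschitzOnWith.of_dist_le_mul fun p hp q hq => by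
    rw [dist_eq_norm p q]
    exact h1 b hb' p q (hn p hp).1.le (hn q hq).1.le
  have l2 : LipschitzOnWith L' (G.lg b) (G.ex b '' S) := by
    refine LipschitzOnWith.of_dist_le_mul ?_
    rintro _ ⟨p, hp, rfl⟩ _ ⟨q, hq, rfl⟩
    rw [dist_eq_norm]
    refine (h2 (b, 0) ⟨hb, rfl⟩ _ _ ?_ ?_).2
    · rw [dist_comm]
      exact (G.dist_le b hb' p).trans (hn p hp).2
    · rw [dist_comm]
      exact (G.dist_le b hb' q).trans (hn q hq).2
  have e : G.lg b '' (G.ex b '' S) = S := by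
    rw [image_image]
    exact (image_congr fun p hp => G.lg_ex_of_lt hb' (hn p hp).1).trans (image_id' S)
  have m1 := l1.hausdorffMeasure_image_le (d := n) (Nat.cast_nonneg n)
  have m2 := l2.hausdorffMeasure_image_le (d := n) (Nat.cast_nonneg n)
  rw [e, ENNReal.rpow_natCast] at m2
  rw [ENNReal.rpow_natCast, hc, Measure.smul_apply, ENNReal.smul_def, smul_eq_mul,
    ← mul_assoc] at m1
  rw [ENNReal.ofReal_coe_nnreal]
  refine ⟨m1.trans (mul_le_mul_left ?_ _), ?_⟩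
  · exact_mod_cast le_add_right (le_add_left le_rfl)
  · calc volume S = c' * μH[n] S := by
          conv_lhs => rw [hc']
          rw [Measure.smul_apply, ENNReal.smul_def, smul_eq_mul]
      _ ≤ c' * ((L' : ℝ≥0∞) ^ n * μH[n] (G.ex b '' S)) := mul_le_mul_right m2 _
      _ = (c' * (L' : ℝ≥0∞) ^ n) * μH[n] (G.ex b '' S) := (mul_assoc _ _ _).symm
      _ ≤ _ := mul_le_mul_left (by exact_mod_cast le_add_left le_rfl) _

/-- `W = 4 Sᵀ ∘ D T` with `T = lg b ∘ ex a` at `p`, `S = D (lg b ∘ ex a) (p/2)`: differentiate the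
critical point equation `eventually_crit` in `p`, writing `ex a p' = ex b (T p')`. -/
theorem W_eq_jac {a b : P n} {p : E n} (ha : a ∈ G.U) (hp : p ∈ G.K a) (hb : b ∈ G.U)
    (h : G.pt b = G.ex a p) (u v : E n) :
    ⟪G.W (a, p) u, v⟫_ℝ = 4 * ⟪fderiv ℝ (fun p' => G.lg b (G.ex a p')) p u,
      fderiv ℝ (fun p' => G.lg b (G.ex a p')) ((1 / 2 : ℝ) • p) v⟫_ℝ := by
  set T : E n → E n := fun p' => G.lg b (G.ex a p') with hT
  set Ψ : E n × E n → ℝ := fun z => G.En a 0 z.2 z.1 with hΨ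
  have hΨs : ContDiffAt ℝ 2 Ψ (p, (1 / 2 : ℝ) • p) := by
    have h1 : ContDiffAt ℝ ∞ (fun z : E n × E n => (((a, z.1), ((0 : E n), z.2)) :
        (P n × E n) × (E n × E n))) (p, (1 / 2 : ℝ) • p) := by fun_prop
    exact ((G.contDiffAt_En ha hp).comp (p, (1 / 2 : ℝ) • p) h1).of_le (m := 2)
      (ENat.natCast_le_of_coe_top_le_withTop le_rfl 2)
  have hΨd : ∀ᶠ z in 𝓝 (p, (1 / 2 : ℝ) • p), DifferentiableAt ℝ Ψ z :=
    (hΨs.eventually (by simp)).mono fun z hz => hz.differentiableAt two_ne_zero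
  have hTd : ∀ q, (G.pt b, G.ex a q) ∈ G.Reg → DifferentiableAt ℝ T q := fun q hq => by
    have h1 : ContDiffAt ℝ ∞ (fun q' : E n => ((b, (a, q')) : P n × (P n × E n))) q := by fun_prop
    exact ((G.contDiffAt_lg hb ha hq).comp q h1).differentiableAt (by simp)
  have hr1 : (G.pt b, G.ex a p) ∈ G.Reg := G.reg_of_dist_lt (by rw [h, dist_self]; exact G.ρ_pos)
  have hr2 : (G.pt b, G.ex a ((1 / 2 : ℝ) • p)) ∈ G.Reg := by
    have := G.reg_of_K ha hp (s := 1) (t := 1 / 2) (by norm_num) (by norm_num)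
      (by rw [abs_lt]; norm_num)
    rwa [one_smul, ← h] at this
  have hT0 : T p = 0 := by
    change G.lg b (G.ex a p) = 0
    rw [← h]
    exact G.lg_ex_of_lt hb (by simpa using G.ρ_pos)
  have hTe : ∀ᶠ x in 𝓝 p, G.ex b (T x) = G.ex a x := by
    have h1 : Tendsto (fun x => dist (G.pt b) (G.ex a x)) (𝓝 p) (𝓝 0) := by
      have := (tendsto_const_nhds (x := G.pt b)).dist ((G.continuous_ex ha).tendsto p)
      rwa [h, dist_self, ← h] at this
    filter_upwards [h1.eventually (gt_mem_nhds G.ρ_pos)] with x hx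
    exact G.ex_lg hb (G.reg_of_dist_lt hx)
  -- (a) the Hessian in the midpoint
  have ea : ⟪G.W (a, p) u, v⟫_ℝ =
      fderiv ℝ (fderiv ℝ Ψ) (p, (1 / 2 : ℝ) • p) (0, u) (0, v) := by
    have hf : ContDiffAt ℝ 2 (fun m => Ψ (p, m)) ((1 / 2 : ℝ) • p) :=
      hΨs.comp ((1 / 2 : ℝ) • p) (contDiffAt_const.prodMk contDiffAt_id)
    have h1 : HasFDerivAt (gradient fun m => Ψ (p, m)) (G.W (a, p))
        ((1 / 2 : ℝ) • p + (0 : ℝ) • u) := by
      rw [zero_smul, add_zero]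
      exact hasFDerivAt_gradient hf
    have h2 := (h1.comp_hasDerivAt (0 : ℝ) (Vol0_line ((1 / 2 : ℝ) • p) u).1).inner ℝ
      (hasDerivAt_const (0 : ℝ) v)
    simp only [inner_zero_right, zero_add] at h2
    refine h2.unique ((Vol0_D2 hΨs (0, u) (0, v)).congr_of_eventuallyEq ?_)
    filter_upwards [(Vol0_line (p, (1 / 2 : ℝ) • p) ((0 : E n), u)).2.eventually hΨd] with t ht
    simp only [Prod.smul_mk, smul_zero, Prod.mk_add_mk, add_zero] at ht ⊢
    rw [Function.comp_apply, inner_gradient]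
    exact Vol0_snd ht v
  -- (b) the critical point equation
  have eb : fderiv ℝ (fderiv ℝ Ψ) (p, (1 / 2 : ℝ) • p) (u, (1 / 2 : ℝ) • u) (0, v) = 0 := by
    refine (Vol0_D2 hΨs _ _).unique ((hasDerivAt_const (0 : ℝ) (0 : ℝ)).congr_of_eventuallyEq ?_)
    have h1 : Tendsto (fun t : ℝ => (a, p + t • u)) (𝓝 0) (𝓝 (a, p)) :=
      tendsto_const_nhds.prodMk_nhds (Vol0_line p u).2
    filter_upwards [(Vol0_line (p, (1 / 2 : ℝ) • p) (u, (1 / 2 : ℝ) • u)).2.eventually hΨd,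
      h1.eventually (G.eventually_crit ha hp)] with t ht ht'
    have e : (p, (1 / 2 : ℝ) • p) + t • (u, (1 / 2 : ℝ) • u) =
        (p + t • u, (1 / 2 : ℝ) • (p + t • u)) := by
      simp only [Prod.smul_mk, Prod.mk_add_mk, smul_add, smul_comm t (1 / 2 : ℝ) u]
    rw [e] at ht ⊢
    rw [← Vol0_snd ht v, ← inner_gradient]
    have := ht'.2.1
    change ⟪gradient (fun m => G.En a 0 m (p + t • u)) _, v⟫_ℝ = 0
    rw [this, inner_zero_left]
  -- (c) the mixed derivative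
  have ec : fderiv ℝ (fderiv ℝ Ψ) (p, (1 / 2 : ℝ) • p) (0, v) (u, 0) =
      -2 * ⟪fderiv ℝ T ((1 / 2 : ℝ) • p) v, fderiv ℝ T p u⟫_ℝ := by
    have h1 : HasFDerivAt T (fderiv ℝ T ((1 / 2 : ℝ) • p)) ((1 / 2 : ℝ) • p + (0 : ℝ) • v) := by
      rw [zero_smul, add_zero]
      exact (hTd _ hr2).hasFDerivAt
    have h2 := ((h1.comp_hasDerivAt (0 : ℝ) (Vol0_line ((1 / 2 : ℝ) • p) v).1).inner ℝ
      (hasDerivAt_const (0 : ℝ) (fderiv ℝ T p u))).const_mul (-2 : ℝ)
    simp only [inner_zero_right, zero_add] at h2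
    refine (Vol0_D2 hΨs _ _).unique (h2.congr_of_eventuallyEq ?_)
    have h3 : ∀ᶠ z in 𝓝 (((b, (0 : E n)), (a, (1 / 2 : ℝ) • p)) : (P n × E n) × (P n × E n)),
        DifferentiableAt ℝ G.cc z :=
      (((G.contDiffAt_cc hb ha hr2).of_le (m := 1) (by exact_mod_cast le_top)).eventually
        (by simp)).mono fun z hz => hz.differentiableAt one_ne_zero
    have h4 : Tendsto (fun t : ℝ => (((b, (0 : E n)), (a, (1 / 2 : ℝ) • p + t • v)) :
        (P n × E n) × (P n × E n))) (𝓝 0) (𝓝 ((b, (0 : E n)), (a, (1 / 2 : ℝ) • p))) :=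
      tendsto_const_nhds.prodMk_nhds (tendsto_const_nhds.prodMk_nhds (Vol0_line _ v).2)
    filter_upwards [(Vol0_line (p, (1 / 2 : ℝ) • p) ((0 : E n), v)).2.eventually hΨd,
      h4.eventually h3] with t ht ht'
    simp only [Prod.smul_mk, smul_zero, Prod.mk_add_mk, add_zero] at ht ⊢
    set m := (1 / 2 : ℝ) • p + t • v with hm
    have hφ : DifferentiableAt ℝ (fun ξ : E n => cst (G.ex b ξ) (G.ex a m)) (T p) := by
      rw [hT0]
      have h5 : DifferentiableAt ℝ (fun ξ : E n => (((b, ξ), (a, m)) :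
          (P n × E n) × (P n × E n))) 0 := by fun_prop
      exact ht'.comp (0 : E n) h5
    have h6 := (((hφ.hasFDerivAt.comp p (hTd p hr1).hasFDerivAt).const_mul (2 : ℝ)).const_add
      (2 * cst (G.ex a 0) (G.ex a m)))
    have h7 : (fun x' => Ψ (x', m)) =ᶠ[𝓝 p] fun x => 2 * cst (G.ex a 0) (G.ex a m) +
        2 * ((fun ξ : E n => cst (G.ex b ξ) (G.ex a m)) ∘ T) x := by
      filter_upwards [hTe] with x hx
      simp only [hΨ, En, Function.comp_apply, hx, cst_comm (G.ex a m) (G.ex a x)]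
    rw [← Vol0_fst ht u, (h6.congr_of_eventuallyEq h7).fderiv]
    simp only [smul_apply, ContinuousLinearMap.comp_apply, smul_eq_mul, Function.comp_apply]
    rw [← inner_gradient, hT0]
    change _ = -2 * ⟪-gradient (fun ξ : E n => cst (G.ex b ξ) (G.ex a m)) 0, _⟫_ℝ
    rw [inner_neg_left]
    ring
  have hs := hΨs.isSymmSndFDerivAt (by simp) ((0 : E n), v) (u, (0 : E n))
  have e : ((u, (1 / 2 : ℝ) • u) : E n × E n) = (u, 0) + (1 / 2 : ℝ) • ((0 : E n), u) := by simp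
  rw [e, map_add, map_smul, add_apply, smul_apply, ← hs, ec, ← ea, smul_eq_mul] at eb
  rw [real_inner_comm]  at eb
  linarith

theorem jac_det {W S T : E n →L[ℝ] E n} (hs : ∀ u v, ⟪W u, v⟫_ℝ = ⟪u, W v⟫_ℝ)
    (h0 : ∀ u, 0 ≤ ⟪W u, u⟫_ℝ) (h : ∀ u v, ⟪W u, v⟫_ℝ = 4 * ⟪T u, S v⟫_ℝ) :
    W.det = 4 ^ n * (|S.det| * |T.det|) := by
  let b := EuclideanSpace.basisFun (Fin n) ℝ
  have h1 : 0 ≤ W.det := by
    have := ((LinearMap.posSemidef_toMatrix_iff (A := W.toLinearMap) b).2 ⟨hs, h0⟩).det_nonneg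
    rwa [LinearMap.det_toMatrix] at this
  have h2 : W.toLinearMap = (4 : ℝ) • (S.toLinearMap.adjoint ∘ₗ T.toLinearMap) := by
    refine LinearMap.ext fun u => ext_inner_right ℝ fun v => ?_
    simp [h, inner_smul_left, LinearMap.adjoint_inner_left]
  have h3 : LinearMap.det S.toLinearMap.adjoint = S.det := by
    rw [← LinearMap.det_toMatrix b.toBasis, LinearMap.toMatrix_adjoint, Matrix.det_conjTranspose,
      LinearMap.det_toMatrix, star_trivial]
  rw [← abs_of_nonneg h1, ContinuousLinearMap.det, h2, LinearMap.det_smul, LinearMap.det_comp, h3,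
    abs_mul, abs_mul, finrank_euclideanSpace_fin, abs_of_nonneg (by positivity)]

theorem jac_diff {a b : P n} {q : E n} (ha : a ∈ G.U) (hb : b ∈ G.U)
    (h : (G.pt b, G.ex a q) ∈ G.Reg) : DifferentiableAt ℝ (fun p' => G.lg b (G.ex a p')) q :=
  ((G.contDiffAt_lg hb ha h).comp q (f := fun p' => (b, (a, p'))) (by fun_prop)).differentiableAt
    (by simp)

theorem jac_chain {a b c : P n} {q : E n} (ha : a ∈ G.U) (hb : b ∈ G.U) (hc : c ∈ G.U)
    (h : (G.pt b, G.ex a q) ∈ G.Reg) (h' : (G.pt c, G.ex a q) ∈ G.Reg) :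
    (fderiv ℝ (fun p' => G.lg c (G.ex a p')) q).det =
      (fderiv ℝ (fun p' => G.lg c (G.ex b p')) (G.lg b (G.ex a q))).det *
        (fderiv ℝ (fun p' => G.lg b (G.ex a p')) q).det := by
  have e : (fun p' => G.lg c (G.ex a p')) =ᶠ[𝓝 q]
      (fun p' => G.lg c (G.ex b p')) ∘ fun p' => G.lg b (G.ex a p') := by
    filter_upwards [(continuous_const.prodMk (G.continuous_ex ha)).continuousAt.preimage_mem_nhds
      (G.isOpen_Reg.mem_nhds h)] with p' hp'
    rw [Function.comp_apply, G.ex_lg hb hp']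
  rw [e.fderiv_eq, fderiv_comp q (G.jac_diff hb hc (by rwa [G.ex_lg hb h])) (G.jac_diff ha hb h)]
  exact LinearMap.det_comp _ _

theorem jac_bd {Z : Set (P n × (P n × E n))} (hZ : IsCompact Z) (h : ∀ z ∈ Z, z.1 ∈ G.U ∧
    z.2.1 ∈ G.U ∧ z.2.2 ∈ G.I z.2.1 ∧ (G.pt z.1, G.ex z.2.1 z.2.2) ∈ G.Reg) :
    ∃ c C : ℝ, 0 < c ∧ ∀ z ∈ Z, c ≤ |(fderiv ℝ (fun p' => G.lg z.1 (G.ex z.2.1 p')) z.2.2).det| ∧
      |(fderiv ℝ (fun p' => G.lg z.1 (G.ex z.2.1 p')) z.2.2).det| ≤ C := by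
  have h1 : ContinuousOn (fun z : P n × (P n × E n) =>
      (fderiv ℝ (fun p' => G.lg z.1 (G.ex z.2.1 p')) z.2.2).det) Z := fun z hz => by
    obtain ⟨hb, ha, -, hr⟩ := h z hz
    refine (ContinuousLinearMap.continuous_det.continuousAt.comp (ContDiffAt.fderiv (m := 0)
      (f := fun (z : P n × (P n × E n)) p' => G.lg z.1 (G.ex z.2.1 p')) (g := fun z => z.2.2)
      ((G.contDiffAt_lg hb ha hr).comp (z, z.2.2) (f := fun w => (w.1.1, (w.1.2.1, w.2)))
        (by fun_prop)) (by fun_prop) (by simp)).continuousAt).continuousWithinAt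
  obtain ⟨c, hc, h2⟩ := hZ.exists_forall_le' h1.abs (a := 0) fun z hz => by
    obtain ⟨hb, ha, hI, hr⟩ := h z hz
    have e : (fun p' => G.lg z.2.1 (G.ex z.2.1 p')) =ᶠ[𝓝 z.2.2] id := by
      filter_upwards [(G.isOpen_I ha).mem_nhds hI] with p' hp' using G.lg_ex ha hp'
    have h3 := G.jac_chain ha hb ha hr (G.reg_of_mem_I ha hI)
    rw [e.fderiv_eq, fderiv_id] at h3
    exact abs_pos.2 (right_ne_zero_of_mul_eq_one (h3.symm.trans LinearMap.det_id))
  obtain ⟨C, hC⟩ := hZ.exists_bound_of_continuousOn h1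
  exact ⟨c, C, hc, fun z hz => ⟨h2 z hz, hC z hz⟩⟩

theorem jac_cpt (r : ℝ) :
    IsCompact (G.F ×ˢ G.KF ∩ (fun w => dist (G.pt w.1) (G.ex w.2.1 w.2.2)) ⁻¹' Iic r) := by
  have h := G.F_compact.prod G.isCompact_KF
  refine h.of_isClosed_subset (ContinuousOn.preimage_isClosed_of_isClosed ?_ h.isClosed
    isClosed_Iic) inter_subset_left
  exact continuous_dist.comp_continuousOn (ContinuousOn.prodMk
    (G.continuousOn_pt.comp continuousOn_fst fun w hw => G.F_sub hw.1)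
    (G.cont.comp continuousOn_snd fun w hw => ⟨G.F_sub hw.2.1, trivial⟩))

/-- the Jacobian of `ex a` at `p ∈ K a`, read in any nearby frame, is comparable to `det W`.
Proof: `W_eq_jac` for a frame `b'` at `ex a p`; `lg b ∘ ex a = (lg b ∘ ex b') ∘ (lg b' ∘ ex a)`;
the determinants of `D (lg b ∘ ex b') 0` and `D (lg b' ∘ ex a) (p/2)` are continuous and nonzero
(these maps have smooth inverses) on compact parameter sets. -/
theorem jac_cmp : ∃ C : ℝ, 1 ≤ C ∧ ∀ a ∈ G.F, ∀ p ∈ G.K a, ∀ b ∈ G.F,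
    dist (G.pt b) (G.ex a p) ≤ G.ρ / 2 →
      |(fderiv ℝ (fun p' => G.lg b (G.ex a p')) p).det| ≤ C * (G.W (a, p)).det ∧
      (G.W (a, p)).det ≤ C * |(fderiv ℝ (fun p' => G.lg b (G.ex a p')) p).det| := by
  have hρ := G.ρ_pos
  obtain ⟨c, C, hc, h⟩ := G.jac_bd (((G.jac_cpt (G.ρ / 2)).inter_right
    (isClosed_eq (f := fun w => w.2.2) (g := fun _ => 0) (by fun_prop) continuous_const)).union
    ((G.jac_cpt 0).image (f := fun w => (w.1, (w.2.1, (1 / 2 : ℝ) • w.2.2))) (by fun_prop))) (by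
      rintro _ (⟨⟨⟨h1, h2, -⟩, h3⟩, h4⟩ | ⟨w, ⟨⟨h1, h2, h3⟩, h4⟩, rfl⟩)
      · exact ⟨G.F_sub h1, G.F_sub h2, G.mem_I_of_norm_lt (G.F_sub h2) (by
          rwa [h4, norm_zero]), G.reg_of_dist_lt (lt_of_le_of_lt h3 (by linarith))⟩
      · refine ⟨G.F_sub h1, G.F_sub h2, G.smul_mem_I (G.F_sub h2) h3 (by norm_num) (by norm_num), ?_⟩
        have := G.reg_of_K (G.F_sub h2) h3 (s := 1) (t := 1 / 2) (by norm_num) (by norm_num)
          (by norm_num [abs_of_pos])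
        rwa [one_smul, ← dist_le_zero.1 h4] at this)
  refine ⟨max 1 (max (C / c) (4 ^ n * (C / c))), le_max_left _ _, fun a ha p hp b hb hd => ?_⟩
  obtain ⟨b', hb', e⟩ := G.exists_frame (G.ex a p)
  have ha' := G.F_sub ha
  have hU := G.F_sub hb'
  obtain ⟨r1, r2⟩ := h (b, (b', 0)) (Or.inl ⟨⟨⟨hb, hb', G.mem_K_of_norm_le hU (by simp [hρ.le])⟩,
    (e ▸ hd : dist (G.pt b) (G.pt b') ≤ G.ρ / 2)⟩, rfl⟩)
  obtain ⟨s1, s2⟩ := h (b', (a, (1 / 2 : ℝ) • p)) (Or.inr ⟨(b', (a, p)), ⟨⟨hb', ha, hp⟩,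
    dist_le_zero.2 e⟩, rfl⟩)
  have h1 := G.jac_chain ha' hU (G.F_sub hb) (q := p) (G.reg_of_dist_lt (by simp [e, hρ]))
    (G.reg_of_dist_lt (by linarith))
  rw [← e, show G.lg b' (G.pt b') = 0 from G.lg_ex_of_lt hU (by simp [hρ])] at h1
  rw [h1, abs_mul, jac_det (G.W_symm ha' hp) (G.W_nonneg ha' hp) (G.W_eq_jac ha' hp hU e)]
  simp only at r1 r2 s1 s2
  generalize |(fderiv ℝ (fun p' => G.lg b (G.ex b' p')) 0).det| = R at *
  generalize |(fderiv ℝ (fun p' => G.lg b' (G.ex a p')) ((1 / 2 : ℝ) • p)).det| = S at *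
  have hT := abs_nonneg (fderiv ℝ (fun p' => G.lg b' (G.ex a p')) p).det
  generalize |(fderiv ℝ (fun p' => G.lg b' (G.ex a p')) p).det| = T at *
  have hC : 0 ≤ C / c := div_nonneg (by linarith) hc.le
  have h2 : ∀ x y : ℝ, x ≤ C → c ≤ y → x * T ≤ C / c * (y * T) := fun x y hx hy => by
    rw [← mul_assoc]
    refine mul_le_mul_of_nonneg_right (hx.trans ?_) hT
    exact (div_mul_cancel₀ C hc.ne').ge.trans (mul_le_mul_of_nonneg_left hy hC)
  have h3 : 0 ≤ S * T := mul_nonneg (by linarith) hT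
  constructor
  · exact (h2 R S r2 s1).trans (mul_le_mul (le_max_of_le_right (le_max_left _ _))
      (le_mul_of_one_le_left h3 (one_le_pow₀ (by norm_num))) h3 (by positivity))
  · refine (mul_le_mul_of_nonneg_left (h2 S R s2 r1) (by positivity)).trans ?_
    rw [← mul_assoc]
    exact mul_le_mul_of_nonneg_right (le_max_of_le_right (le_max_right _ _))
      (mul_nonneg (by linarith) hT)

end LocGeo

end Crest.Agent.R226
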